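import Mathlib

/-!
Row 161: plane geometry for face sets of `ℤ²`.

* `Edge = ℤ² × Bool`: `(v, false)` is the horizontal edge `v → v + (1,0)`, `(v, true)` the vertical
  edge `v → v + (0,1)`.
* `fA e`, `fB e`: the two faces bordering `e` (faces are indexed by their lower-left corner).
* `IntE F e`: both bordering faces lie in `F`.
* `IntV F v`: the four faces around `v` lie in `F`.
* `SC F`: the complement of `F` is connected (through sides).
* discrete Poincaré lemmas on `ℤ²` and on simply connected face sets.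
-/

set_option autoImplicit false

namespace Crest.Agent.R161.Geo729

open Finset

/-- Points of `ℤ²` (vertices, or faces through their lower-left corner). -/
abbrev P2 : Type := ℤ × ℤ

/-- Primal edges. -/
abbrev Edge : Type := P2 × Bool

/-- Source of an edge. -/
def src (e : Edge) : P2 := e.1

/-- Target of an edge. -/
def tgt (e : Edge) : P2 := if e.2 then (e.1.1, e.1.2 + 1) else (e.1.1 + 1, e.1.2)

/-- Bordering face above / to the right. -/
def fA (e : Edge) : P2 := e.1

/-- Bordering face below / to the left. -/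
def fB (e : Edge) : P2 := if e.2 then (e.1.1 - 1, e.1.2) else (e.1.1, e.1.2 - 1)

@[simp] theorem src_mk (v : P2) (b : Bool) : src (v, b) = v := rfl
@[simp] theorem fA_mk (v : P2) (b : Bool) : fA (v, b) = v := rfl
@[simp] theorem tgt_h (v : P2) : tgt (v, false) = (v.1 + 1, v.2) := rfl
@[simp] theorem tgt_v (v : P2) : tgt (v, true) = (v.1, v.2 + 1) := rfl
@[simp] theorem fB_h (v : P2) : fB (v, false) = (v.1, v.2 - 1) := rfl
@[simp] theorem fB_v (v : P2) : fB (v, true) = (v.1 - 1, v.2) := rfl

/-- The edge is interior to `F`: both bordering faces lie in `F`. -/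
def IntE (F : Set P2) (e : Edge) : Prop := fA e ∈ F ∧ fB e ∈ F

/-- The vertex is interior to `F`: the four faces around it lie in `F`. -/
def IntV (F : Set P2) (v : P2) : Prop :=
  (v.1, v.2) ∈ F ∧ (v.1 - 1, v.2) ∈ F ∧ (v.1, v.2 - 1) ∈ F ∧ (v.1 - 1, v.2 - 1) ∈ F

/-- `v` is a corner of the face `f`. -/
def IsCorner (v f : P2) : Prop :=
  v = (f.1, f.2) ∨ v = (f.1 + 1, f.2) ∨ v = (f.1, f.2 + 1) ∨ v = (f.1 + 1, f.2 + 1)

theorem isCorner_iff (v f : P2) : IsCorner v f ↔
    f = (v.1, v.2) ∨ f = (v.1 - 1, v.2) ∨ f = (v.1, v.2 - 1) ∨ f = (v.1 - 1, v.2 - 1) := by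
  obtain ⟨a, b⟩ := v
  obtain ⟨c, d⟩ := f
  simp only [IsCorner, Prod.mk.injEq]
  omega

theorem intV_iff (F : Set P2) (v : P2) : IntV F v ↔ ∀ f, IsCorner v f → f ∈ F := by
  simp only [isCorner_iff]
  constructor
  · rintro ⟨h1, h2, h3, h4⟩ f (rfl | rfl | rfl | rfl) <;> assumption
  · intro h
    exact ⟨h _ (Or.inl rfl), h _ (Or.inr (Or.inl rfl)), h _ (Or.inr (Or.inr (Or.inl rfl))),
      h _ (Or.inr (Or.inr (Or.inr rfl)))⟩

/-- Side adjacency of faces (same relation as adjacency of vertices of `ℤ²`). -/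
def Adj (f g : P2) : Prop :=
  g = (f.1 + 1, f.2) ∨ g = (f.1 - 1, f.2) ∨ g = (f.1, f.2 + 1) ∨ g = (f.1, f.2 - 1)

theorem Adj.symm {f g : P2} (h : Adj f g) : Adj g f := by
  obtain ⟨a, b⟩ := f
  obtain ⟨c, d⟩ := g
  simp only [Adj, Prod.mk.injEq] at *
  omega

theorem adj_fA_fB (e : Edge) : Adj (fA e) (fB e) := by
  obtain ⟨⟨a, b⟩, c⟩ := e
  cases c <;> simp [Adj]


/-- Adjacency inside the set `S`. -/
def AdjIn (S : Set P2) (f g : P2) : Prop := f ∈ S ∧ g ∈ S ∧ Adj f g

/-- Connection inside `S` by side-adjacent steps. -/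
def Conn (S : Set P2) (f g : P2) : Prop := Relation.ReflTransGen (AdjIn S) f g

theorem AdjIn.symm {S : Set P2} {f g : P2} (h : AdjIn S f g) : AdjIn S g f :=
  ⟨h.2.1, h.1, h.2.2.symm⟩

theorem Conn.symm {S : Set P2} {f g : P2} (h : Conn S f g) : Conn S g f := by
  induction h with
  | refl => exact Relation.ReflTransGen.refl
  | tail _ h2 ih => exact Relation.ReflTransGen.head h2.symm ih

theorem Conn.trans {S : Set P2} {f g k : P2} (h : Conn S f g) (h' : Conn S g k) : Conn S f k :=
  Relation.ReflTransGen.trans h h'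

theorem Conn.mono {S T : Set P2} (hST : S ⊆ T) {f g : P2} (h : Conn S f g) : Conn T f g := by
  induction h with
  | refl => exact Relation.ReflTransGen.refl
  | tail _ h2 ih => exact Relation.ReflTransGen.tail ih ⟨hST h2.1, hST h2.2.1, h2.2.2⟩

/-- The set `S` is connected (through sides). -/
def IsConn (S : Set P2) : Prop := ∀ f ∈ S, ∀ g ∈ S, Conn S f g

/-- `F` is simply connected in the sense that its complement is connected. -/
def SC (F : Set P2) : Prop := IsConn Fᶜ

/-! ### Poincaré lemma on `ℤ²` -/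

/-- Poincaré lemma on `ℤ²` for a closed 1-form (horizontal increments `a`, vertical increments `b`)
that vanishes to the left of a vertical line. -/
theorem poincare {A : Type*} [AddCommGroup A] (a b : P2 → A) (N : ℤ)
    (ha : ∀ i j, i < N → a (i, j) = 0) (hb : ∀ i j, i ≤ N → b (i, j) = 0)
    (hcl : ∀ i j, a (i, j) + b (i + 1, j) = b (i, j) + a (i, j + 1)) :
    ∃ g : P2 → A, (∀ i j, g (i + 1, j) = g (i, j) + a (i, j)) ∧
      (∀ i j, g (i, j + 1) = g (i, j) + b (i, j)) ∧ (∀ i j, i ≤ N → g (i, j) = 0) := by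
  refine ⟨fun p => ∑ k ∈ Ico N p.1, a (k, p.2), ?_, ?_, ?_⟩
  · intro i j
    simp only
    rcases lt_or_ge i N with h | h
    · rw [Ico_eq_empty (by omega), Ico_eq_empty (by omega), ha i j h]
      simp
    · rw [← Finset.insert_Ico_right_eq_Ico_add_one h, Finset.sum_insert (by simp)]
      rw [add_comm]
  · intro i j
    simp only
    have key : ∀ n : ℕ, ∑ k ∈ Ico N (N + n), a (k, j + 1) =
        ∑ k ∈ Ico N (N + n), a (k, j) + b (N + n, j) := by
      intro n
      induction n with
      | zero => simp [hb N j le_rfl]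
      | succ n ih =>
        have h1 : N ≤ N + (n : ℤ) := by omega
        push_cast
        rw [← add_assoc, ← Finset.insert_Ico_right_eq_Ico_add_one h1,
          Finset.sum_insert (by simp), Finset.sum_insert (by simp), ih]
        have := hcl (N + n) j
        rw [add_comm (a (N + n, j)) (∑ k ∈ Ico N (N + (n : ℤ)), a (k, j)), add_assoc, this]
        abel
    rcases le_or_gt N i with h | h
    · obtain ⟨n, rfl⟩ : ∃ n : ℕ, i = N + n := ⟨(i - N).toNat, by omega⟩
      exact key n
    · rw [Ico_eq_empty (by omega), hb i j h.le]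
      simp
  · intro i j h
    simp only
    rw [Ico_eq_empty (by omega)]
    simp

end Crest.Agent.R161.Geo729
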