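import Mathlib

/-!
Planar topology on `ℤ²` by counting mod 2 (helper374).

* `PW R a b N` : `N i j` is the parity of the number of horizontal steps in column `[i, i+1]` at height
  `> j` of some nearest-neighbour walk from `a` to `b` all of whose steps satisfy `R`.
* `cross` : a left-right walk and a bottom-top walk share a vertex.
* `closed_const`: a vertex walk avoiding a closed walk does not change the parity.
-/

set_option autoImplicit false

namespace Crest.Agent.R161.Topo374

/-- vertices of the square lattice -/
abbrev V := ℤ × ℤ

/-- nearest neighbours -/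
def Nbr (u v : V) : Prop :=
  (u.2 = v.2 ∧ (v.1 = u.1 + 1 ∨ u.1 = v.1 + 1)) ∨ (u.1 = v.1 ∧ (v.2 = u.2 + 1 ∨ u.2 = v.2 + 1))

lemma Nbr.symm {u v : V} (h : Nbr u v) : Nbr v u := by
  unfold Nbr at *; omega

/-- contribution of one step to the parity function -/
def stepN (u v : V) (i j : ℤ) : ZMod 2 :=
  if u.2 = v.2 ∧ ((u.1 = i ∧ v.1 = i + 1) ∨ (v.1 = i ∧ u.1 = i + 1)) ∧ j < u.2 then 1 else 0

lemma stepN_symm (u v : V) : stepN u v = stepN v u := by
  funext i j
  unfold stepN
  congr 1
  apply propext
  constructor <;> rintro ⟨h1, h2, h3⟩ <;> refine ⟨h1.symm, ?_, ?_⟩ <;> omega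

/-- indicator in `ZMod 2` -/
noncomputable def ind (p : Prop) : ZMod 2 := by classical exact if p then 1 else 0

lemma ind_true {p : Prop} (h : p) : ind p = 1 := by unfold ind; simp [h]
lemma ind_false {p : Prop} (h : ¬ p) : ind p = 0 := by unfold ind; simp [h]

lemma zmod2_add_self (x : ZMod 2) : x + x = 0 := by
  revert x; decide

lemma zmod2_eq_of_add {x y : ZMod 2} (h : x + y = 0) : x = y := by
  revert x y; decide


/-- parity walks: all steps are nearest-neighbour steps satisfying `R` -/
inductive PW (R : V → V → Prop) : V → V → (ℤ → ℤ → ZMod 2) → Prop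
  | refl (a : V) : PW R a a (fun _ _ => 0)
  | step {a b b' : V} {N : ℤ → ℤ → ZMod 2} (h : PW R a b N) (hn : Nbr b b') (hR : R b b') :
      PW R a b' (fun i j => N i j + stepN b b' i j)

namespace PW

variable {R : V → V → Prop}

lemma mono {R' : V → V → Prop} (hRR : ∀ u v, R u v → R' u v) {a b : V} {N : ℤ → ℤ → ZMod 2}
    (h : PW R a b N) : PW R' a b N := by
  induction h with
  | refl => exact PW.refl _
  | step h hn hR ih => exact PW.step ih hn (hRR _ _ hR)

lemma trans {a b c : V} {N N' : ℤ → ℤ → ZMod 2} (h : PW R a b N) (h' : PW R b c N') :
    PW R a c (fun i j => N i j + N' i j) := by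
  induction h' with
  | refl => simpa using h
  | step h' hn hR ih =>
      have := PW.step ih hn hR
      simpa [add_assoc] using this

lemma single {a b : V} (hn : Nbr a b) (hR : R a b) : PW R a b (stepN a b) := by
  have := PW.step (PW.refl (R := R) a) hn hR
  simpa using this

lemma symm (hs : ∀ u v, R u v → R v u) {a b : V} {N : ℤ → ℤ → ZMod 2} (h : PW R a b N) :
    PW R b a N := by
  induction h with
  | refl => exact PW.refl _
  | step h hn hR ih =>
      rename_i b b' N
      have h1 : PW R b' b (stepN b' b) := single hn.symm (hs _ _ hR)
      have h2 := h1.trans ih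
      have he : (fun i j => stepN b' b i j + N i j) = fun i j => N i j + stepN b b' i j := by
        funext i j; rw [stepN_symm b' b]; ring
      rw [he] at h2
      exact h2

/-- crossing a horizontal edge not used by the walk does not change the parity -/
lemma vert {a b : V} {N : ℤ → ℤ → ZMod 2} (h : PW R a b N) (i j : ℤ)
    (hne : ¬ R (i, j) (i + 1, j)) (hne' : ¬ R (i + 1, j) (i, j)) : N i (j - 1) = N i j := by
  induction h with
  | refl => rfl
  | step h hn hR ih =>
      rename_i b b' N
      have hs : stepN b b' i (j - 1) = stepN b b' i j := by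
        unfold stepN
        congr 1
        apply propext
        constructor
        · rintro ⟨h1, h2, h3⟩
          refine ⟨h1, h2, ?_⟩
          by_contra hc
          have hj : b.2 = j := by omega
          rcases h2 with ⟨h4, h5⟩ | ⟨h4, h5⟩
          · apply hne
            have e1 : b = (i, j) := Prod.ext h4 hj
            have e2 : b' = (i + 1, j) := Prod.ext h5 (by rw [← h1]; exact hj)
            rw [← e1, ← e2]; exact hR
          · apply hne'
            have e1 : b' = (i, j) := Prod.ext h4 (by rw [← h1]; exact hj)
            have e2 : b = (i + 1, j) := Prod.ext h5 hj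
            rw [← e1, ← e2]; exact hR
        · rintro ⟨h1, h2, h3⟩
          exact ⟨h1, h2, by omega⟩
      simp only [hs, ih]

/-- crossing a vertical edge not used by the walk -/
lemma horiz {a b : V} {N : ℤ → ℤ → ZMod 2} (h : PW R a b N) (i j : ℤ)
    (hne : ¬ R (i, j) (i, j + 1)) (hne' : ¬ R (i, j + 1) (i, j)) :
    N (i - 1) j + N i j = ind (a.1 = i ∧ j < a.2) + ind (b.1 = i ∧ j < b.2) := by
  induction h with
  | refl => simp [zmod2_add_self]
  | step h hn hR ih =>
      rename_i b b' N
      have key : stepN b b' (i - 1) j + stepN b b' i j =
          ind (b.1 = i ∧ j < b.2) + ind (b'.1 = i ∧ j < b'.2) := by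
        obtain ⟨x, y⟩ := b
        obtain ⟨x', y'⟩ := b'
        unfold Nbr at hn
        simp only at hn hR ⊢
        unfold stepN
        simp only
        by_cases hy : y = y'
        · subst hy
          have hx : x' = x + 1 ∨ x = x' + 1 := by omega
          by_cases hj : j < y
          · rcases hx with hx | hx
            · subst hx
              by_cases h1 : x = i
              · subst h1
                rw [if_neg (by omega), if_pos (by omega), ind_true (by omega), ind_false (by omega)]
                all_goals decide
              · by_cases h2 : x + 1 = i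
                · subst h2
                  rw [if_pos (by omega), if_neg (by omega), ind_false (by omega), ind_true (by omega)]
                  decide
                · rw [if_neg (by omega), if_neg (by omega), ind_false (by omega), ind_false (by omega)]
            · subst hx
              by_cases h1 : x' = i
              · subst h1
                rw [if_neg (by omega), if_pos (by omega), ind_false (by omega), ind_true (by omega)]
                all_goals decide
              · by_cases h2 : x' + 1 = i
                · subst h2
                  rw [if_pos (by omega), if_neg (by omega), ind_true (by omega), ind_false (by omega)]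
                · rw [if_neg (by omega), if_neg (by omega), ind_false (by omega), ind_false (by omega)]
          · rw [if_neg (by omega), if_neg (by omega), ind_false (by omega), ind_false (by omega)]
        · have hx : x = x' := by omega
          subst hx
          rw [if_neg (by omega), if_neg (by omega)]
          by_cases hxi : x = i
          · subst hxi
            have hyy : y' = y + 1 ∨ y = y' + 1 := by omega
            rcases hyy with hyy | hyy
            · subst hyy
              have : ¬ (j = y) := by
                rintro rfl; exact hne hR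
              by_cases hj : j < y
              · rw [ind_true (by omega), ind_true (by omega)]; decide
              · rw [ind_false (by omega), ind_false (by omega)]
            · subst hyy
              have : ¬ (j = y') := by
                rintro rfl; exact hne' hR
              by_cases hj : j < y'
              · rw [ind_true (by omega), ind_true (by omega)]; decide
              · rw [ind_false (by omega), ind_false (by omega)]
          · rw [ind_false (by omega), ind_false (by omega)]
      have e : N (i - 1) j + stepN b b' (i - 1) j + (N i j + stepN b b' i j) =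
          (N (i - 1) j + N i j) + (stepN b b' (i - 1) j + stepN b b' i j) := by ring
      rw [e, ih, key]
      generalize ind (b.1 = i ∧ j < b.2) = u
      generalize ind (b'.1 = i ∧ j < b'.2) = v
      have : u + u = 0 := zmod2_add_self u
      linear_combination this

/-- below everything, the parity counts the crossings of the column -/
lemma total {a b : V} {N : ℤ → ℤ → ZMod 2} (h : PW R a b N) (i j : ℤ)
    (hj : ∀ u v, R u v → j < u.2) : N i j = ind (a.1 ≤ i) + ind (b.1 ≤ i) := by
  induction h with
  | refl => simp [zmod2_add_self]
  | step h hn hR ih =>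
      rename_i b b' N
      have key : stepN b b' i j = ind (b.1 ≤ i) + ind (b'.1 ≤ i) := by
        have hjb := hj _ _ hR
        obtain ⟨x, y⟩ := b
        obtain ⟨x', y'⟩ := b'
        unfold Nbr at hn
        simp only at hn hjb ⊢
        unfold stepN
        simp only
        by_cases hy : y = y'
        · subst hy
          have hx : x' = x + 1 ∨ x = x' + 1 := by omega
          rcases hx with hx | hx
          · subst hx
            rcases lt_trichotomy x i with h1 | h1 | h1
            · rw [if_neg (by omega), ind_true (by omega), ind_true (by omega)]; decide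
            · rw [if_pos (by omega), ind_true (by omega), ind_false (by omega)]; decide
            · rw [if_neg (by omega), ind_false (by omega), ind_false (by omega)]; decide
          · subst hx
            rcases lt_trichotomy x' i with h1 | h1 | h1
            · rw [if_neg (by omega), ind_true (by omega), ind_true (by omega)]; decide
            · rw [if_pos (by omega), ind_false (by omega), ind_true (by omega)]; decide
            · rw [if_neg (by omega), ind_false (by omega), ind_false (by omega)]; decide
        · have hx : x = x' := by omega
          subst hx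
          rw [if_neg (by omega), zmod2_add_self]
      show N i j + stepN b b' i j = _
      rw [ih, key]
      generalize ind (b.1 ≤ i) = u
      generalize ind (b'.1 ≤ i) = v
      have : u + u = 0 := zmod2_add_self u
      linear_combination this

/-- above everything, the parity vanishes -/
lemma top {a b : V} {N : ℤ → ℤ → ZMod 2} (h : PW R a b N) (i j : ℤ)
    (hj : ∀ u v, R u v → u.2 ≤ j) : N i j = 0 := by
  induction h with
  | refl => rfl
  | step h hn hR ih =>
      rename_i b b' N
      have : stepN b b' i j = 0 := by
        unfold stepN
        rw [if_neg]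
        rintro ⟨-, -, h3⟩
        have := hj _ _ hR
        omega
      show N i j + stepN b b' i j = 0
      rw [ih, this]; rfl

/-- columns not met by the walk -/
lemma col {a b : V} {N : ℤ → ℤ → ZMod 2} (h : PW R a b N) (i j : ℤ)
    (hj : ∀ u v, R u v → u.1 ≠ i ∨ v.1 ≠ i + 1) (hj' : ∀ u v, R u v → v.1 ≠ i ∨ u.1 ≠ i + 1) :
    N i j = 0 := by
  induction h with
  | refl => rfl
  | step h hn hR ih =>
      rename_i b b' N
      have : stepN b b' i j = 0 := by
        unfold stepN
        rw [if_neg]
        rintro ⟨-, h2, -⟩
        have h3 := hj _ _ hR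
        have h4 := hj' _ _ hR
        omega
      show N i j + stepN b b' i j = 0
      rw [ih, this]; rfl

end PW

/-- steps inside a vertex set -/
def InS (T : Set V) (u v : V) : Prop := u ∈ T ∧ v ∈ T

/-- walk inside a vertex set -/
def Walk (T : Set V) (a b : V) : Prop :=
  a ∈ T ∧ Relation.ReflTransGen (fun u v => Nbr u v ∧ u ∈ T ∧ v ∈ T) a b

lemma Walk.left {T : Set V} {a b : V} (h : Walk T a b) : a ∈ T := h.1

lemma Walk.right {T : Set V} {a b : V} (h : Walk T a b) : b ∈ T := by
  obtain ⟨ha, h⟩ := h
  induction h with
  | refl => exact ha
  | tail _ h _ => exact h.2.2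

lemma Walk.mono {T T' : Set V} (hT : T ⊆ T') {a b : V} (h : Walk T a b) : Walk T' a b :=
  ⟨hT h.1, Relation.ReflTransGen.mono
    (r := fun u v => Nbr u v ∧ u ∈ T ∧ v ∈ T) (fun _ _ h => ⟨h.1, hT h.2.1, hT h.2.2⟩) _ _ h.2⟩

lemma Walk.refl {T : Set V} {a : V} (h : a ∈ T) : Walk T a a := ⟨h, .refl⟩

lemma Walk.trans {T : Set V} {a b c : V} (h : Walk T a b) (h' : Walk T b c) : Walk T a c :=
  ⟨h.1, h.2.trans h'.2⟩

lemma Walk.symm {T : Set V} {a b : V} (h : Walk T a b) : Walk T b a := by
  refine ⟨h.right, ?_⟩
  have := h.2
  induction this with
  | refl => exact .refl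
  | tail h1 h2 ih =>
      rename_i b c
      have hb : Walk T a b := ⟨h.1, h1⟩
      exact Relation.ReflTransGen.head ⟨h2.1.symm, h2.2.2, h2.2.1⟩ (ih hb)

lemma Walk.step {T : Set V} {a b : V} (ha : a ∈ T) (hb : b ∈ T) (h : Nbr a b) : Walk T a b :=
  ⟨ha, .single ⟨h, ha, hb⟩⟩

lemma Walk.toPW {T : Set V} {a b : V} (h : Walk T a b) : ∃ N, PW (InS T) a b N := by
  obtain ⟨ha, h⟩ := h
  induction h with
  | refl => exact ⟨_, PW.refl _⟩
  | tail _ h ih =>
      obtain ⟨N, hN⟩ := ih
      exact ⟨_, PW.step hN h.1 ⟨h.2.1, h.2.2⟩⟩


/-- **Crossing lemma.** A walk from `a` to `b` whose heights are between those of `p` and `q`, and a walk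
from `p` to `q` whose abscissae are between those of `a` and `b`, share a vertex. -/
theorem cross {T1 T2 : Set V} {a b p q : V} (h1 : Walk T1 a b) (h2 : Walk T2 p q)
    (hy : ∀ w ∈ T1, p.2 ≤ w.2 ∧ w.2 ≤ q.2) (hx : ∀ w ∈ T2, a.1 ≤ w.1 ∧ w.1 ≤ b.1) :
    (T1 ∩ T2).Nonempty := by
  by_contra hne
  have hdis : ∀ v ∈ T2, v ∉ T1 := by
    intro v hv hv'
    exact hne ⟨v, hv', hv⟩
  have hab : a.1 ≤ b.1 := (hx p h2.left).1.trans (hx p h2.left).2
  set b' : V := (b.1 + 1, b.2) with hb'
  obtain ⟨N, hN⟩ := h1.toPW
  set T : Set V := T1 ∪ {b'} with hT
  have hN1 : PW (InS T) a b N := hN.mono (fun u v h => ⟨Or.inl h.1, Or.inl h.2⟩)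
  have hbb' : Nbr b b' := by unfold Nbr; simp [hb']
  have hN2 : PW (InS T) a b' (fun i j => N i j + stepN b b' i j) :=
    PW.step hN1 hbb' ⟨Or.inl h1.right, Or.inr rfl⟩
  set M : ℤ → ℤ → ZMod 2 := fun i j => N i j + stepN b b' i j with hM
  have hdis' : ∀ v ∈ T2, v ∉ T := by
    rintro v hv (h | h)
    · exact hdis v hv h
    · have h3 : v = b' := h
      have := (hx v hv).2
      rw [h3] at this
      simp only [hb'] at this
      omega
  have hyT : ∀ w ∈ T, p.2 ≤ w.2 ∧ w.2 ≤ q.2 := by
    rintro w (h | h)
    · exact hy w h
    · have h3 : w = b' := h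
      rw [h3]
      exact hy b h1.right
  -- value at the bottom
  have hbot : M p.1 p.2 = 1 := by
    have h3 := hN2.total p.1 (p.2 - 1) (fun u v h => by have := (hyT u h.1).1; omega)
    have h4 := hN2.vert p.1 p.2 (fun hc => hdis' p h2.left (by simpa using hc.1))
      (fun hc => hdis' p h2.left (by simpa using hc.2))
    have h5 : M p.1 p.2 = ind (a.1 ≤ p.1) + ind (b'.1 ≤ p.1) := by
      rw [← h3]; exact h4.symm
    have h6 := hx p h2.left
    rw [h5, ind_true h6.1, ind_false (by simp only [hb']; omega)]
    decide
  have htop : M q.1 q.2 = 0 :=
    hN2.top q.1 q.2 (fun u v h => (hyT u h.1).2)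
  have hconst : ∀ w, Relation.ReflTransGen (fun u v => Nbr u v ∧ u ∈ T2 ∧ v ∈ T2) p w →
      M p.1 p.2 = M w.1 w.2 := by
    intro w hw
    induction hw with
    | refl => rfl
    | @tail b1 c1 _ h3 ih =>
        rw [ih]
        obtain ⟨hn, hb, hc⟩ := h3
        have hbT := hdis' b1 hb
        have hcT := hdis' c1 hc
        have hxb := hx b1 hb
        have hxc := hx c1 hc
        obtain ⟨x, y⟩ := b1
        obtain ⟨x', y'⟩ := c1
        simp only at hxb hxc ⊢
        unfold Nbr at hn
        simp only at hn
        rcases hn with ⟨hy, hx⟩ | ⟨hx, hy⟩
        · subst hy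
          rcases hx with hx | hx
          · subst hx
            have h4 := hN2.horiz (x + 1) y (fun hc => hcT hc.1) (fun hc => hcT hc.2)
            rw [ind_false (by omega), ind_false (by simp only [hb']; omega), add_sub_cancel_right] at h4
            exact zmod2_eq_of_add (by simpa using h4)
          · subst hx
            have h4 := hN2.horiz (x' + 1) y (fun hc => hbT hc.1) (fun hc => hbT hc.2)
            rw [ind_false (by omega), ind_false (by simp only [hb']; omega), add_sub_cancel_right] at h4
            exact (zmod2_eq_of_add (by simpa using h4)).symm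
        · subst hx
          rcases hy with hy | hy
          · subst hy
            have h4 := hN2.vert x (y + 1) (fun hc => hcT hc.1) (fun hc => hcT hc.2)
            rw [add_sub_cancel_right] at h4
            exact h4
          · subst hy
            have h4 := hN2.vert x (y' + 1) (fun hc => hbT hc.1) (fun hc => hbT hc.2)
            rw [add_sub_cancel_right] at h4
            exact h4.symm
  have := hconst q h2.2
  rw [hbot, htop] at this
  exact absurd this (by decide)

end Crest.Agent.R161.Topo374
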