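import Crest.Agent.R161.Defs_372
import Crest.Agent.R161.Hull_374

/-!
# Row 161: interfaces between the blocks (captain helper372)

* `X δ f ω = δ² Σ_v K(v) f(δ v)` smeared height (AT lattice, mesh `δ`)
* `cutE, plusE, minusE` : cut edges / cut edges with even height `≡ 0` resp. `≡ 2 mod 4`
* `ball x n`, `Circ Z x n m` : the `Z`-edges separate `ball x n` from the complement of `ball x m`
* `PlaneGauss c P` : what block J (link with R150) delivers for the plane state
* `Psym P`, `nu P` : symmetrised state and its `plus`-cut percolation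
* `Blocking`, `RSWc`, `UnifCirc` : interfaces of blocks C and E
-/

set_option autoImplicit false

noncomputable section

namespace Crest.Agent.R161.Ifc372

open Filter Topology MeasureTheory
open Crest.Agent.R161.Geo729 Crest.Agent.R161.Defs372 Crest.Agent.R161.Dual374
open Crest.Agent.R161.Hull374

/-! ### smeared heights -/

/-- position of the lattice point `v` at mesh `δ` (same as `AshkinTeller.pos`) -/
def ptC (δ : ℝ) (v : P2) : ℂ := (δ : ℂ) * ((v.1 : ℂ) + (v.2 : ℂ) * Complex.I)

/-- smeared height `δ² Σ_v K(v) f(δ v)`; a finite sum when `f` has compact support and `δ > 0` -/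
def X (δ : ℝ) (f : ℂ → ℝ) (ω : Cfg) : ℝ := δ ^ 2 * ∑' v : P2, (ω.1 v : ℝ) * f (ptC δ v)

/-- test functions -/
structure Test (f : ℂ → ℝ) : Prop where
  smooth : ContDiff ℝ (⊤ : ℕ∞) f
  supp : HasCompactSupport f

/-- logarithmic energy form `∬ f(z) (-(2π)⁻¹ log‖z-w‖) g(w)` -/
def plog (f g : ℂ → ℝ) : ℝ :=
  ∫ z : ℂ, ∫ w : ℂ, f z * (-(2 * Real.pi)⁻¹ * Real.log ‖z - w‖) * g w

/-- `κ = 1 / arcsin (c/2)` -/
def kap (c : ℝ) : ℝ := 1 / Real.arcsin (c / 2)

/-- The plane state is asymptotically Gaussian (law and variance of all mass-zero smooth smeared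
heights). -/
structure PlaneGauss (c : ℝ) (P : Measure Cfg) : Prop where
  memLp : ∀ f, Test f → ∀ δ : ℝ, 0 < δ → MemLp (X δ f) 2 P
  law : ∀ f, Test f → ∫ z, f z = 0 → ∀ s : ℝ,
    Tendsto (fun δ : ℝ => ∫ ω, Real.cos (s * X δ f ω) ∂P) (𝓝[>] 0)
      (𝓝 (Real.exp (-(s ^ 2 * (kap c * plog f f) / 2))))
  var : ∀ f, Test f → ∫ z, f z = 0 →
    Tendsto (fun δ : ℝ => ∫ ω, (X δ f ω) ^ 2 ∂P) (𝓝[>] 0) (𝓝 (kap c * plog f f))

/-! ### percolation of cut edges -/

/-- cut edges -/
def cutE (ω : Cfg) (e : Edge) : Prop := ω.2.2 e = true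
/-- cut edges at height `0 mod 4` -/
def plusE (ω : Cfg) (e : Edge) : Prop := ω.2.2 e = true ∧ (4 : ℤ) ∣ ω.1 (src e)
/-- cut edges at height `2 mod 4` -/
def minusE (ω : Cfg) (e : Edge) : Prop := ω.2.2 e = true ∧ ¬ (4 : ℤ) ∣ ω.1 (src e)

/-- square of faces with lower-left corners in `x + {-n..n-1}²` -/
def ball (x : P2) (n : ℕ) : Finset P2 :=
  Finset.Icc (x.1 - n) (x.1 + n - 1) ×ˢ Finset.Icc (x.2 - n) (x.2 + n - 1)

theorem ball_zero (n : ℕ) : ball (0, 0) n = box n := by
  simp [ball, box]

/-- The edges satisfying `Z` separate `ball x n` from the complement of `ball x m`: every face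
reached from `ball x n` through non-`Z` edges is in `ball x m`. -/
def Circ (Z : Edge → Prop) (x : P2) (n m : ℕ) : Prop :=
  Reach Z (ball x n : Set P2) ⊆ (ball x m : Set P2)

/-- `g` depends only on `(k mod 4, z)` off the box `B`: on vertices not interior to `B` and edges not
interior to `B`. -/
def OffTZ (B : Finset P2) (g : Cfg → ℝ) : Prop :=
  ∀ ω ω' : Cfg, (∀ v, v ∉ intVerts B → (4 : ℤ) ∣ ω.1 v - ω'.1 v) →
    (∀ e, e ∉ intEdges B → ω.2.2 e = ω'.2.2 e) → g ω = g ω'

open Classical in
/-- indicator of a proposition depending on the configuration -/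
def indP (A : Cfg → Prop) (ω : Cfg) : ℝ := if A ω then 1 else 0

/-- **Uniform circuits** (output of block E): every annulus `ball x (2n) \ ball x n` contains a
plus-cut circuit with probability `≥ q` uniformly in the domain and in everything that happens
off `ball x (L n)` (edges outside the domain are plus-cut automatically); the same for minus-cut
circuits when `ball x (L n)` is contained in the domain. -/
def UnifCirc (c : ℝ) : Prop :=
  ∃ (q : ℝ) (n0 L : ℕ), 0 < q ∧ 2 ≤ L ∧ ∀ F : Finset P2, Dom F → ∀ (x : P2) (n : ℕ), n0 ≤ n →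
    ∀ g : Cfg → ℝ, (∀ ω, 0 ≤ g ω) → OffTZ (ball x (L * n)) g →
      q * E c F g ≤ E c F (fun ω => g ω * indP (fun ω => Circ (plusE ω) x n (2 * n)) ω) ∧
      (ball x (L * n) ⊆ F →
        q * E c F g ≤ E c F (fun ω => g ω * indP (fun ω => Circ (minusE ω) x n (2 * n)) ω))

/-- **Lemma U, weak form** (this is what consumers should use; it follows from `UnifCirc`):
for `J` concentric annuli of ratio `L`, all of inner radius `≥ n0`, the probability that none of
them contains a plus-cut circuit is `≤ ε`, uniformly in the domain and the centre (edges outside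
the domain are plus-cut automatically). Combine with association for increasing conditioning. -/
def LemU (c : ℝ) : Prop :=
  ∀ ε : ℝ, 0 < ε → ∃ J n0 L : ℕ, 2 ≤ L ∧ ∀ F : Finset P2, Dom F → ∀ (x : P2) (n : ℕ), n0 ≤ n →
    E c F (fun ω => indP (fun ω => ∀ j : ℕ, j < J →
      ¬ Circ (plusE ω) x (L ^ j * n) (2 * (L ^ j * n))) ω) ≤ ε

/-- two-point variance of the vertex heights in the plane state (at the origin) -/
def VV (P : Measure Cfg) (p : P2) : ℝ := ∫ ω, ((ω.1 p : ℝ) - ω.1 (0, 0)) ^ 2 ∂P

/-- Euclidean norm of a lattice point -/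
def nrm (p : P2) : ℝ := Real.sqrt ((p.1 : ℝ) ^ 2 + (p.2 : ℝ) ^ 2)

/-- rough variance bound of the plane state (block J) -/
def VBound (P : Measure Cfg) : Prop :=
  ∃ C : ℝ, 0 ≤ C ∧ ∀ p q : P2, p ≠ 0 → q ≠ 0 →
    |VV P p - VV P q| ≤ C * (1 + |Real.log (nrm p / nrm q)|)

/-! ### the symmetrised plane state and its plus-cut percolation -/

/-- symmetrised state: heights shifted by `0` or `2` with probability `1/2` -/
def Psym (P : Measure Cfg) : Measure Cfg :=
  (2 : ENNReal)⁻¹ • P + (2 : ENNReal)⁻¹ • P.map (addH 2)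

open Classical in
/-- plus-cut percolation configuration -/
def plusMap (ω : Cfg) : Edge → Bool := fun e => decide (plusE ω e)

/-- law of the plus-cut percolation -/
def nu (P : Measure Cfg) : Measure (Edge → Bool) := (Psym P).map plusMap

/-- circuit event for a percolation configuration (`true` = open) -/
def CircZ (x : P2) (n m : ℕ) : Set (Edge → Bool) := {z | Circ (fun e => z e = true) x n m}


/-- **RSW output** of block C. -/
def RSWc (ν : Measure (Edge → Bool)) : Prop :=
  ∃ (q : ℝ) (n0 : ℕ), 0 < q ∧ ∀ n : ℕ, n0 ≤ n → q ≤ (ν (CircZ (0, 0) n (2 * n))).toReal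

end Crest.Agent.R161.Ifc372
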