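import Crest.Agent.R161.Topo_374

/-!
Further planar lemmas (helper374): U-turn lemmas and circuits made of four crossings.
-/

set_option autoImplicit false

namespace Crest.Agent.R161.Topo374

/-- vertical walk -/
lemma vwalk (x y : ℤ) (n : ℕ) : Walk {w | w.1 = x ∧ y ≤ w.2 ∧ w.2 ≤ y + n} (x, y) (x, y + n) := by
  induction n with
  | zero => simpa using Walk.refl (T := {w | w.1 = x ∧ y ≤ w.2 ∧ w.2 ≤ y + (0 : ℕ)}) (a := (x, y)) (by simp)
  | succ n ih =>
      have h1 : Walk {w | w.1 = x ∧ y ≤ w.2 ∧ w.2 ≤ y + ((n + 1 : ℕ) : ℤ)} (x, y) (x, y + n) :=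
        ih.mono (by rintro w ⟨h1, h2, h3⟩; refine ⟨h1, h2, ?_⟩; push_cast; omega)
      refine h1.trans (Walk.step h1.right ?_ ?_)
      · exact ⟨rfl, by show y ≤ y + ((n + 1 : ℕ) : ℤ); push_cast; omega, le_refl _⟩
      · unfold Nbr
        right
        refine ⟨rfl, Or.inl ?_⟩
        show y + ((n + 1 : ℕ) : ℤ) = y + n + 1
        push_cast; ring

lemma vwalk' (x y y' : ℤ) (h : y ≤ y') : Walk {w | w.1 = x ∧ y ≤ w.2 ∧ w.2 ≤ y'} (x, y) (x, y') := by
  have := vwalk x y (y' - y).toNat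
  rwa [show y + ((y' - y).toNat : ℤ) = y' by omega] at this








end Crest.Agent.R161.Topo374
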