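import Crest.Agent.R161.Tas1_682
import Crest.Agent.R161.UTurn_374
import Crest.Agent.R161.Ifc_372
import Crest.Agent.R161.BlkDef_868

-- ▼ part R161/Tas2_682
section

/-!
# Row 161, block C, T4 (helper682): abstract percolation law, rectangle crossings
-/

set_option autoImplicit false

namespace Crest.Agent.R161.Tas682

open Crest.Agent.R161.Geo729 Crest.Agent.R161.Topo374 Crest.Agent.R161.Dual374
open Crest.Agent.R161.Sym597

/-- Law of a positively associated, `D4`- and translation-invariant percolation, as a set function. -/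
structure Perc (P : Set Cf → ℝ) : Prop where
  nonneg : ∀ A, 0 ≤ P A
  univ : P Set.univ = 1
  mono : ∀ A B, A ⊆ B → P A ≤ P B
  union : ∀ A B, P (A ∪ B) ≤ P A + P B
  fkg : ∀ A B, IncLoc A → IncLoc B → P A * P B ≤ P (A ∩ B)
  vert : ∀ n A, IncLoc A → P ((fun (z : Cf) (e : Edge) => z ((Refl.vert n).E e)) ⁻¹' A) = P A
  horiz : ∀ n A, IncLoc A → P ((fun (z : Cf) (e : Edge) => z ((Refl.horiz n).E e)) ⁻¹' A) = P A
  diag : ∀ A, IncLoc A → P ((fun (z : Cf) (e : Edge) => z ((Refl.diag 0).E e)) ⁻¹' A) = P A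

namespace Perc

variable {P : Set Cf → ℝ} (hP : Perc P)
include hP

theorem le_one (A : Set Cf) : P A ≤ 1 := by
  rw [← hP.univ]
  exact hP.mono _ _ (Set.subset_univ _)

theorem EV_vert (n : ℤ) {S : Set P2} (hS : S.Finite) (A B : Set P2) :
    P (EV {v | (n - v.1, v.2) ∈ S} {v | (n - v.1, v.2) ∈ A} {v | (n - v.1, v.2) ∈ B}) =
      P (EV S A B) := by
  rw [← hP.vert n (EV S A B) (EV_incLoc hS A B), EV_refl]
  rfl

theorem EV_horiz (n : ℤ) {S : Set P2} (hS : S.Finite) (A B : Set P2) :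
    P (EV {v | (v.1, n - v.2) ∈ S} {v | (v.1, n - v.2) ∈ A} {v | (v.1, n - v.2) ∈ B}) =
      P (EV S A B) := by
  rw [← hP.horiz n (EV S A B) (EV_incLoc hS A B), EV_refl]
  rfl

theorem EV_diag {S : Set P2} (hS : S.Finite) (A B : Set P2) :
    P (EV {v | (v.2, v.1) ∈ S} {v | (v.2, v.1) ∈ A} {v | (v.2, v.1) ∈ B}) = P (EV S A B) := by
  rw [← hP.diag (EV S A B) (EV_incLoc hS A B), EV_refl]
  have : (Refl.diag 0).V = fun v => (v.2, v.1) := by
    funext v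
    show (v.2 - 0, v.1 + 0) = (v.2, v.1)
    simp
  rw [this]
  rfl

theorem EV_shift (a b : ℤ) {S : Set P2} (hS : S.Finite) (A B : Set P2) :
    P (EV {v | (v.1 - a, v.2 - b) ∈ S} {v | (v.1 - a, v.2 - b) ∈ A} {v | (v.1 - a, v.2 - b) ∈ B}) =
      P (EV S A B) := by
  have fin : ∀ {T : Set P2} (f : P2 → P2), (∀ v w, f v = f w → v = w) → T.Finite →
      (f ⁻¹' T).Finite := fun f hf hT => hT.preimage (fun v _ w _ h => hf v w h)
  have h1 := hP.EV_vert (-a) hS A B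
  have fin1 : {v : P2 | (-a - v.1, v.2) ∈ S}.Finite :=
    fin (fun v : P2 => (-a - v.1, v.2)) (fun v w h => by
      simp only [Prod.mk.injEq] at h
      ext <;> omega) hS
  have h2 := hP.EV_vert 0 fin1 {v | (-a - v.1, v.2) ∈ A} {v | (-a - v.1, v.2) ∈ B}
  have fin2 : {v : P2 | (0 - v.1, v.2) ∈ {v : P2 | (-a - v.1, v.2) ∈ S}}.Finite :=
    fin (fun v : P2 => (0 - v.1, v.2)) (fun v w h => by
      simp only [Prod.mk.injEq] at h
      ext <;> omega) fin1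
  have h3 := hP.EV_horiz (-b) fin2 {v : P2 | (0 - v.1, v.2) ∈ {v : P2 | (-a - v.1, v.2) ∈ A}}
    {v : P2 | (0 - v.1, v.2) ∈ {v : P2 | (-a - v.1, v.2) ∈ B}}
  have fin3 : {v : P2 | (v.1, -b - v.2) ∈
      {v : P2 | (0 - v.1, v.2) ∈ {v : P2 | (-a - v.1, v.2) ∈ S}}}.Finite :=
    fin (fun v : P2 => (v.1, -b - v.2)) (fun v w h => by
      simp only [Prod.mk.injEq] at h
      ext <;> omega) fin2
  have h4 := hP.EV_horiz 0 fin3
    {v : P2 | (v.1, -b - v.2) ∈ {v : P2 | (0 - v.1, v.2) ∈ {v : P2 | (-a - v.1, v.2) ∈ A}}}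
    {v : P2 | (v.1, -b - v.2) ∈ {v : P2 | (0 - v.1, v.2) ∈ {v : P2 | (-a - v.1, v.2) ∈ B}}}
  rw [← h1, ← h2, ← h3, ← h4]
  have key : ∀ T : Set P2, {v : P2 | (v.1 - a, v.2 - b) ∈ T} =
      {v : P2 | (v.1, 0 - v.2) ∈ {v : P2 | (v.1, -b - v.2) ∈
        {v : P2 | (0 - v.1, v.2) ∈ {v : P2 | (-a - v.1, v.2) ∈ T}}}} := by
    intro T
    ext v
    simp only [Set.mem_ofPred_eq]
    have : (-a - (0 - v.1), -b - (0 - v.2)) = (v.1 - a, v.2 - b) := by
      ext <;> simp only <;> ring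
    rw [this]
  rw [key S, key A, key B]

end Perc

/-- probability of a left-right crossing -/
def lr (P : Set Cf → ℝ) (a b c d : ℤ) : ℝ := P {z | LRc z a b c d}

/-- probability of a bottom-top crossing -/
def bt (P : Set Cf → ℝ) (a b c d : ℤ) : ℝ := P {z | BTc z a b c d}

theorem lrc_incLoc (a b c d : ℤ) : IncLoc {z | LRc z a b c d} := by
  rw [setOf_LRc]
  exact EV_incLoc (rect_finite a b c d) _ _

theorem btc_incLoc (a b c d : ℤ) : IncLoc {z | BTc z a b c d} := by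
  rw [setOf_BTc]
  exact EV_incLoc (rect_finite a b c d) _ _

/-- monotonicity of crossings -/
theorem LRc.mono {z : Cf} {a b c d a' b' c' d' : ℤ} (h : LRc z a b c d) (ha : a ≤ a')
    (hab : a' ≤ b') (hb : b' ≤ b) (hc : c' ≤ c) (hd : d ≤ d') : LRc z a' b' c' d' := by
  obtain ⟨u, v, hu, hv, h⟩ := h
  obtain ⟨w, h1, h2, -⟩ := last_exit (fun p => p.1)
    (fun a b hab => by unfold Nbr at hab; omega) a' h (by omega) (by omega)
  obtain ⟨w', h3, h4⟩ := first_hit (fun p => p.1)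
    (fun a b hab => by unfold Nbr at hab; omega) b' h2 (by omega) (by omega)
  refine ⟨w, w', h1, h3, h4.monoS ?_⟩
  rintro p ⟨⟨⟨h5, h6, h7, h8⟩, h9⟩, h10⟩
  have h9' : a' ≤ p.1 := h9
  have h10' : p.1 ≤ b' := h10
  exact ⟨h9', h10', by omega, by omega⟩

theorem BTc.mono {z : Cf} {a b c d a' b' c' d' : ℤ} (h : BTc z a b c d) (hc : c ≤ c')
    (hcd : c' ≤ d') (hd : d' ≤ d) (ha : a' ≤ a) (hb : b ≤ b') : BTc z a' b' c' d' := by
  obtain ⟨u, v, hu, hv, h⟩ := h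
  obtain ⟨w, h1, h2, -⟩ := last_exit (fun p => p.2)
    (fun a b hab => by unfold Nbr at hab; omega) c' h (by omega) (by omega)
  obtain ⟨w', h3, h4⟩ := first_hit (fun p => p.2)
    (fun a b hab => by unfold Nbr at hab; omega) d' h2 (by omega) (by omega)
  refine ⟨w, w', h1, h3, h4.monoS ?_⟩
  rintro p ⟨⟨⟨h5, h6, h7, h8⟩, h9⟩, h10⟩
  have h9' : c' ≤ p.2 := h9
  have h10' : p.2 ≤ d' := h10
  exact ⟨by omega, by omega, h9', h10'⟩

/-- gluing two left-right crossings by a bottom-top crossing of the overlap -/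
theorem LRc.glue {z : Cf} {a a' b b' c d : ℤ} (h1 : LRc z a b c d) (h2 : LRc z a' b' c d)
    (h3 : BTc z a' b c d) (ha : a ≤ a') (hb : b ≤ b') : LRc z a b' c d := by
  obtain ⟨u, v, hu, hv, h1⟩ := h1
  obtain ⟨u', v', hu', hv', h2⟩ := h2
  obtain ⟨p, q, hp, hq, h3⟩ := h3
  obtain ⟨w, h4, h5⟩ := Tas682.glue h1 h3
    (by rintro w ⟨h1, h2, h3, h4⟩; constructor <;> omega)
    (by rintro w ⟨h1, h2, h3, h4⟩; constructor <;> omega)
  obtain ⟨w', h6, h7⟩ := Tas682.glue h2 h3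
    (by rintro w ⟨h1, h2, h3, h4⟩; constructor <;> omega)
    (by rintro w ⟨h1, h2, h3, h4⟩; constructor <;> omega)
  have s1 : Rect a b c d ⊆ Rect a b' c d := by
    rintro w ⟨h1, h2, h3, h4⟩; exact ⟨h1, by omega, h3, h4⟩
  have s2 : Rect a' b' c d ⊆ Rect a b' c d := by
    rintro w ⟨h1, h2, h3, h4⟩; exact ⟨by omega, h2, h3, h4⟩
  have s3 : Rect a' b c d ⊆ Rect a b' c d := by
    rintro w ⟨h1, h2, h3, h4⟩; exact ⟨by omega, by omega, h3, h4⟩
  refine ⟨u, v', hu, hv', ?_⟩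
  have e1 : OC z (Rect a b' c d) u w := h4.monoS s1
  have e2 : OC z (Rect a b' c d) w w' := ((h5.symm).trans h7).monoS s3
  have e3 : OC z (Rect a b' c d) w' v' := ((h6.symm).trans h2).monoS s2
  exact (e1.trans e2).trans e3

namespace Perc

variable {P : Set Cf → ℝ} (hP : Perc P)
include hP

theorem lr_shift (a b c d k l : ℤ) : lr P (a + k) (b + k) (c + l) (d + l) = lr P a b c d := by
  unfold lr
  rw [setOf_LRc, setOf_LRc, ← hP.EV_shift k l (rect_finite a b c d)]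
  congr 2
  · ext v; simp only [mem_rect, Set.mem_ofPred_eq]; omega
  · ext v; simp only [Set.mem_ofPred_eq]; omega
  · ext v; simp only [Set.mem_ofPred_eq]; omega

theorem bt_eq_lr (a b c d : ℤ) : bt P a b c d = lr P c d a b := by
  unfold lr bt
  rw [setOf_LRc, setOf_BTc, ← hP.EV_diag (rect_finite c d a b)]
  congr 2
  ext v; simp only [mem_rect, Set.mem_ofPred_eq]; omega

theorem lr_eq (a b c d : ℤ) : lr P a b c d = lr P 0 (b - a) 0 (d - c) := by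
  have := hP.lr_shift 0 (b - a) 0 (d - c) a c
  simpa using this

theorem bt_eq (a b c d : ℤ) : bt P a b c d = lr P 0 (d - c) 0 (b - a) := by
  rw [hP.bt_eq_lr, hP.lr_eq]

theorem lr_mono {a b c d a' b' c' d' : ℤ} (ha : a ≤ a') (hab : a' ≤ b') (hb : b' ≤ b)
    (hc : c' ≤ c) (hd : d ≤ d') : lr P a b c d ≤ lr P a' b' c' d' :=
  hP.mono _ _ fun _ h => LRc.mono h ha hab hb hc hd

/-- monotonicity in terms of the lengths -/
theorem h_mono {L H L' H' : ℤ} (hL' : 0 ≤ L') (hL : L' ≤ L) (hH : H ≤ H') :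
    lr P 0 L 0 H ≤ lr P 0 L' 0 H' :=
  hP.lr_mono le_rfl hL' hL le_rfl hH

theorem lr_nonneg (a b c d : ℤ) : 0 ≤ lr P a b c d := hP.nonneg _

/-- gluing of two crossings of lengths `L1`, `L2` with an overlap of length `W` -/
theorem h_glue {L1 L2 W H : ℤ} (hW1 : W ≤ L1) (hW2 : W ≤ L2) :
    lr P 0 L1 0 H * lr P 0 L2 0 H * lr P 0 H 0 W ≤ lr P 0 (L1 + L2 - W) 0 H := by
  have h1 : lr P 0 L2 0 H = lr P (L1 - W) (L1 + L2 - W) 0 H := by
    rw [hP.lr_eq (L1 - W) (L1 + L2 - W) 0 H]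
    congr 1 <;> ring
  have h2 : lr P 0 H 0 W = bt P (L1 - W) L1 0 H := by
    rw [hP.bt_eq]
    congr 1 <;> ring
  rw [h1, h2]
  have h3 := hP.fkg _ _ (lrc_incLoc 0 L1 0 H) (lrc_incLoc (L1 - W) (L1 + L2 - W) 0 H)
  have h4 := hP.fkg _ _ ((lrc_incLoc 0 L1 0 H).inter (lrc_incLoc (L1 - W) (L1 + L2 - W) 0 H))
    (btc_incLoc (L1 - W) L1 0 H)
  have h5 : ({z | LRc z 0 L1 0 H} ∩ {z | LRc z (L1 - W) (L1 + L2 - W) 0 H}) ∩
      {z | BTc z (L1 - W) L1 0 H} ⊆ {z | LRc z 0 (L1 + L2 - W) 0 H} := by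
    rintro z ⟨⟨h6, h7⟩, h8⟩
    exact LRc.glue h6 h7 h8 (by omega) (by omega)
  unfold lr bt at *
  calc _ ≤ P ({z | LRc z 0 L1 0 H} ∩ {z | LRc z (L1 - W) (L1 + L2 - W) 0 H}) *
        P {z | BTc z (L1 - W) L1 0 H} := mul_le_mul_of_nonneg_right h3 (hP.nonneg _)
    _ ≤ _ := h4
    _ ≤ _ := hP.mono _ _ h5

/-- long crossings from crossings slightly longer than the square -/
theorem h_long {c0 q : ℝ} {H δ : ℤ} (hδ : 0 ≤ δ) (_hH : 0 ≤ H) (hc0 : 0 ≤ c0) (hq : 0 ≤ q)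
    (hsq : c0 ≤ lr P 0 H 0 H) (h : q ≤ lr P 0 (H + δ) 0 H) (k : ℕ) :
    (q * c0) ^ (k + 1) ≤ lr P 0 (H + (k + 1) * δ) 0 H := by
  have hc1 : c0 ≤ 1 := hsq.trans (hP.le_one _)
  induction k with
  | zero =>
      have : q * c0 ≤ q := mul_le_of_le_one_right hq hc1
      simpa using this.trans h
  | succ k ih =>
      have h1 := hP.h_glue (L1 := H + (k + 1) * δ) (L2 := H + δ) (W := H) (H := H)
        (by nlinarith) (by omega)
      have h2 : (H + (k + 1) * δ) + (H + δ) - H = H + ((k + 1 : ℕ) + 1) * δ := by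
        push_cast; ring
      rw [h2] at h1
      refine le_trans ?_ h1
      rw [pow_succ]
      calc (q * c0) ^ (k + 1) * (q * c0) = (q * c0) ^ (k + 1) * q * c0 := by ring
        _ ≤ _ := by
          apply mul_le_mul _ hsq hc0 (mul_nonneg (hP.lr_nonneg _ _ _ _) (hP.lr_nonneg _ _ _ _))
          exact mul_le_mul ih h hq (hP.lr_nonneg _ _ _ _)

/-- the four crossings of an annulus -/
theorem circ4_ge (x : P2) (n m : ℤ) :
    (lr P 0 (2 * m) 0 (m - n)) ^ 4 ≤ P {z | Circ4 z x n m} := by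
  have e1 : lr P 0 (2 * m) 0 (m - n) = lr P (x.1 - m) (x.1 + m) (x.2 + n) (x.2 + m) := by
    rw [hP.lr_eq (x.1 - m)]; congr 1 <;> ring
  have e2 : lr P 0 (2 * m) 0 (m - n) = lr P (x.1 - m) (x.1 + m) (x.2 - m) (x.2 - n) := by
    rw [hP.lr_eq (x.1 - m)]; congr 1 <;> ring
  have e3 : lr P 0 (2 * m) 0 (m - n) = bt P (x.1 + n) (x.1 + m) (x.2 - m) (x.2 + m) := by
    rw [hP.bt_eq (x.1 + n)]; congr 1 <;> ring
  have e4 : lr P 0 (2 * m) 0 (m - n) = bt P (x.1 - m) (x.1 - n) (x.2 - m) (x.2 + m) := by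
    rw [hP.bt_eq (x.1 - m)]; congr 1 <;> ring
  have i1 := lrc_incLoc (x.1 - m) (x.1 + m) (x.2 + n) (x.2 + m)
  have i2 := lrc_incLoc (x.1 - m) (x.1 + m) (x.2 - m) (x.2 - n)
  have i3 := btc_incLoc (x.1 + n) (x.1 + m) (x.2 - m) (x.2 + m)
  have i4 := btc_incLoc (x.1 - m) (x.1 - n) (x.2 - m) (x.2 + m)
  have h1 := hP.fkg _ _ i3 i4
  have h2 := hP.fkg _ _ i2 (i3.inter i4)
  have h3 := hP.fkg _ _ i1 (i2.inter (i3.inter i4))
  have h0 := hP.lr_nonneg 0 (2 * m) 0 (m - n)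
  have h4 : (lr P 0 (2 * m) 0 (m - n)) ^ 4 ≤
      P {z | LRc z (x.1 - m) (x.1 + m) (x.2 + n) (x.2 + m)} *
        (P {z | LRc z (x.1 - m) (x.1 + m) (x.2 - m) (x.2 - n)} *
          (P {z | BTc z (x.1 + n) (x.1 + m) (x.2 - m) (x.2 + m)} *
            P {z | BTc z (x.1 - m) (x.1 - n) (x.2 - m) (x.2 + m)})) := by
    unfold lr bt at *
    rw [← e1, ← e2, ← e3, ← e4]
    apply le_of_eq
    ring
  refine h4.trans (le_trans ?_ (h3.trans (hP.mono _ _ ?_)))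
  · exact mul_le_mul_of_nonneg_left ((mul_le_mul_of_nonneg_left h1 (hP.nonneg _)).trans h2)
      (hP.nonneg _)
  · rintro z ⟨a1, a2, a3, a4⟩
    exact ⟨a1, a2, a3, a4⟩

/-- an edge is open with probability at least `c0 / 2` -/
theorem h_edge {c0 : ℝ} (hsq : c0 ≤ lr P 0 1 0 1) : c0 / 2 ≤ lr P 0 1 0 0 := by
  have h1 : {z : Cf | LRc z 0 1 0 1} ⊆ {z | LRc z 0 1 0 0} ∪ {z | LRc z 0 1 1 1} := by
    rintro z ⟨u, v, hu, hv, h⟩
    -- look at the first step which changes the abscissa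
    have : ∀ w, Relation.ReflTransGen (OStep z (Rect 0 1 0 1)) u w → w.1 = 0 ∨
        LRc z 0 1 0 0 ∨ LRc z 0 1 1 1 := by
      intro w hw
      induction hw with
      | refl => exact Or.inl hu
      | @tail b c _ h2 ih =>
          rcases ih with ih | ih
          · by_cases hc : c.1 = 0
            · exact Or.inl hc
            · right
              have h3 := pstep_nbr h2.1
              have h4 := h2.2.1
              have h5 := h2.2.2
              rw [mem_rect] at h4 h5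
              unfold Nbr at h3
              have hc1 : c.1 = 1 := by omega
              have hbc : b.2 = c.2 := by omega
              have hc2 : c.2 = 0 ∨ c.2 = 1 := by omega
              rcases hc2 with hc2 | hc2
              · left
                refine ⟨b, c, ih, hc1, ?_, .single ⟨h2.1, ?_, ?_⟩⟩ <;> rw [mem_rect] <;> omega
              · right
                refine ⟨b, c, ih, hc1, ?_, .single ⟨h2.1, ?_, ?_⟩⟩ <;> rw [mem_rect] <;> omega
          · exact Or.inr ih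
    rcases this v h.2 with h2 | h2 | h2
    · omega
    · exact Or.inl h2
    · exact Or.inr h2
  have h2 := (hP.mono _ _ h1).trans (hP.union _ _)
  have h3 : P {z | LRc z 0 1 1 1} = P {z | LRc z 0 1 0 0} := by
    have := hP.lr_shift 0 1 0 0 0 1
    unfold lr at this
    simpa using this
  rw [h3] at h2
  unfold lr at *
  linarith

/-- straight crossings -/
theorem h_line {e0 : ℝ} (he : 0 ≤ e0) (h : e0 ≤ lr P 0 1 0 0) (k : ℕ) :
    e0 ^ (k + 1) ≤ lr P 0 (k + 1) 0 0 := by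
  induction k with
  | zero => simpa using h
  | succ k ih =>
      have h1 := hP.h_glue (L1 := k + 1) (L2 := 1) (W := 0) (H := 0) (by omega) (by omega)
      have h0 : lr P 0 0 0 0 = 1 := by
        unfold lr
        rw [← hP.univ]
        congr 1
        ext z
        simp only [Set.mem_ofPred_eq, Set.mem_univ, iff_true]
        exact ⟨(0, 0), (0, 0), rfl, rfl, OC.refl (by rw [mem_rect]; simp)⟩
      rw [h0, mul_one] at h1
      have h2 : ((k : ℤ) + 1) + 1 - 0 = ((k + 1 : ℕ) : ℤ) + 1 := by push_cast; ring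
      rw [h2] at h1
      refine le_trans ?_ h1
      rw [pow_succ]
      exact mul_le_mul ih h he (hP.lr_nonneg _ _ _ _)

end Perc

end Crest.Agent.R161.Tas682
end

-- ▼ part R161/Tas3_682
section

/-!
# Row 161, block C, T4 (helper682): landing zones, X-events, the threshold `alpha`
-/

set_option autoImplicit false

namespace Crest.Agent.R161.Tas682

open Crest.Agent.R161.Geo729 Crest.Agent.R161.Topo374 Crest.Agent.R161.Dual374
open Crest.Agent.R161.Sym597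

/-- square box -/
def Box (x : P2) (m : ℤ) : Set P2 := Rect (x.1 - m) (x.1 + m) (x.2 - m) (x.2 + m)

theorem mem_box {x : P2} {m : ℤ} {v : P2} :
    v ∈ Box x m ↔ x.1 - m ≤ v.1 ∧ v.1 ≤ x.1 + m ∧ x.2 - m ≤ v.2 ∧ v.2 ≤ x.2 + m := Iff.rfl

theorem box_finite (x : P2) (m : ℤ) : (Box x m).Finite := rect_finite _ _ _ _

/-- from the left side of the box to the part `[a,b]` of the right side -/
def HR (x : P2) (m a b : ℤ) : Set Cf :=
  EV (Box x m) {v | v.1 = x.1 - m} {v | v.1 = x.1 + m ∧ x.2 + a ≤ v.2 ∧ v.2 ≤ x.2 + b}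

/-- from the right side of the box to the part `[a,b]` of the left side -/
def HL (x : P2) (m a b : ℤ) : Set Cf :=
  EV (Box x m) {v | v.1 = x.1 + m} {v | v.1 = x.1 - m ∧ x.2 + a ≤ v.2 ∧ v.2 ≤ x.2 + b}

theorem HR_incLoc (x : P2) (m a b : ℤ) : IncLoc (HR x m a b) := EV_incLoc (box_finite x m) _ _
theorem HL_incLoc (x : P2) (m a b : ℤ) : IncLoc (HL x m a b) := EV_incLoc (box_finite x m) _ _

theorem HR_mono (x : P2) (m : ℤ) {a b a' b' : ℤ} (ha : a' ≤ a) (hb : b ≤ b') :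
    HR x m a b ⊆ HR x m a' b' :=
  EV_mono subset_rfl subset_rfl (by rintro v ⟨h1, h2, h3⟩; exact ⟨h1, by omega, by omega⟩)

theorem HR_split (x : P2) (m a b c : ℤ) : HR x m a c ⊆ HR x m a b ∪ HR x m b c := by
  rintro z ⟨u, hu, v, ⟨h1, h2, h3⟩, h⟩
  rcases le_total v.2 (x.2 + b) with h4 | h4
  · exact Or.inl ⟨u, hu, v, ⟨h1, h2, h4⟩, h⟩
  · exact Or.inr ⟨u, hu, v, ⟨h1, h4, h3⟩, h⟩

/-- probability of landing in `[a,b]` -/
def rho (P : Set Cf → ℝ) (m a b : ℤ) : ℝ := P (HR (0, 0) m a b)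

namespace Perc

variable {P : Set Cf → ℝ} (hP : Perc P)
include hP

theorem HR_shift (x : P2) (m a b : ℤ) : P (HR x m a b) = rho P m a b := by
  unfold rho HR
  rw [← hP.EV_shift x.1 x.2 (box_finite (0, 0) m)]
  congr 2
  · ext v; simp only [mem_box, Set.mem_ofPred_eq]; omega
  · ext v; simp only [Set.mem_ofPred_eq]; omega
  · ext v; simp only [Set.mem_ofPred_eq]; omega

theorem HL_eq (x : P2) (m a b : ℤ) : P (HL x m a b) = rho P m a b := by
  rw [← hP.HR_shift x m a b]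
  unfold HL HR
  rw [← hP.EV_vert (2 * x.1) (box_finite x m)]
  congr 2
  · ext v; simp only [mem_box, Set.mem_ofPred_eq]; omega
  · ext v; simp only [Set.mem_ofPred_eq]; omega
  · ext v; simp only [Set.mem_ofPred_eq]; omega

theorem HR_flip (x : P2) (m a b : ℤ) : P (HR x m (-b) (-a)) = rho P m a b := by
  rw [← hP.HR_shift x m a b]
  unfold HR
  rw [← hP.EV_horiz (2 * x.2) (box_finite x m)]
  congr 2
  · ext v; simp only [mem_box, Set.mem_ofPred_eq]; omega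
  · ext v; simp only [Set.mem_ofPred_eq]; omega

theorem rho_flip (m a b : ℤ) : rho P m (-b) (-a) = rho P m a b := hP.HR_flip (0, 0) m a b

theorem rho_nonneg (m a b : ℤ) : 0 ≤ rho P m a b := hP.nonneg _

theorem rho_mono (m : ℤ) {a b a' b' : ℤ} (ha : a' ≤ a) (hb : b ≤ b') :
    rho P m a b ≤ rho P m a' b' := hP.mono _ _ (HR_mono _ m ha hb)

theorem rho_split (m a b c : ℤ) : rho P m a c ≤ rho P m a b + rho P m b c :=
  (hP.mono _ _ (HR_split (0, 0) m a b c)).trans (hP.union _ _)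

theorem rho_full (m : ℤ) : lr P 0 (2 * m) 0 (2 * m) ≤ rho P m (-m) m := by
  rw [← hP.lr_shift 0 (2 * m) 0 (2 * m) (-m) (-m)]
  unfold lr rho
  apply hP.mono
  rintro z ⟨u, v, hu, hv, h⟩
  have h1 := h.right
  rw [mem_rect] at h1
  refine ⟨u, ?_, v, ?_, h.monoS ?_⟩
  · show u.1 = (0 : ℤ) - m; omega
  · refine ⟨?_, ?_, ?_⟩
    · show v.1 = (0 : ℤ) + m; omega
    · show (0 : ℤ) + -m ≤ v.2; omega
    · show v.2 ≤ (0 : ℤ) + m; omega
  · intro w hw
    rw [mem_rect] at hw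
    rw [mem_box]
    show (0 : ℤ) - m ≤ w.1 ∧ w.1 ≤ 0 + m ∧ (0 : ℤ) - m ≤ w.2 ∧ w.2 ≤ 0 + m
    omega

theorem rho_half {c0 : ℝ} {m : ℤ} (h : c0 ≤ lr P 0 (2 * m) 0 (2 * m)) :
    c0 / 2 ≤ rho P m 0 m := by
  have h1 := h.trans (hP.rho_full m)
  have h2 := hP.rho_split m (-m) 0 m
  have h3 : rho P m (-m) 0 = rho P m 0 m := by
    have := hP.rho_flip m 0 m
    simpa using this
  linarith

end Perc

/-- `X`-event: a cluster of the box touches the four parts `± [a, m]` of the two vertical sides -/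
def XB (z : Cf) (x : P2) (m a : ℤ) : Prop :=
  ∃ q r1 r2 l1 l2 : P2, OC z (Box x m) q r1 ∧ OC z (Box x m) q r2 ∧ OC z (Box x m) q l1 ∧
    OC z (Box x m) q l2 ∧ r1.1 = x.1 + m ∧ r2.1 = x.1 + m ∧ l1.1 = x.1 - m ∧ l2.1 = x.1 - m ∧
    x.2 + a ≤ r1.2 ∧ r2.2 ≤ x.2 - a ∧ x.2 + a ≤ l1.2 ∧ l2.2 ≤ x.2 - a

theorem XB_of {z : Cf} {x : P2} {m a : ℤ} (h1 : z ∈ HR x m a m) (h2 : z ∈ HR x m (-m) (-a))
    (h3 : z ∈ HL x m a m) (h4 : z ∈ HL x m (-m) (-a))
    (h5 : BTc z (x.1 - m) (x.1 + m) (x.2 - m) (x.2 + m)) : XB z x m a := by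
  obtain ⟨p, q, hp, hq, h5⟩ := h5
  obtain ⟨u1, hu1, v1, ⟨hv1, ha1, hb1⟩, h1⟩ := h1
  obtain ⟨u2, hu2, v2, ⟨hv2, ha2, hb2⟩, h2⟩ := h2
  obtain ⟨u3, hu3, v3, ⟨hv3, ha3, hb3⟩, h3⟩ := h3
  obtain ⟨u4, hu4, v4, ⟨hv4, ha4, hb4⟩, h4⟩ := h4
  have hu1' : u1.1 = x.1 - m := hu1
  have hu2' : u2.1 = x.1 - m := hu2
  have hu3' : u3.1 = x.1 + m := hu3
  have hu4' : u4.1 = x.1 + m := hu4
  obtain ⟨w1, a1, b1⟩ := glue h1 h5
    (by intro w hw; rw [mem_box] at hw; constructor <;> omega)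
    (by intro w hw; rw [mem_rect] at hw; constructor <;> omega)
  obtain ⟨w2, a2, b2⟩ := glue h2 h5
    (by intro w hw; rw [mem_box] at hw; constructor <;> omega)
    (by intro w hw; rw [mem_rect] at hw; constructor <;> omega)
  obtain ⟨w3, a3, b3⟩ := glue h3.symm h5
    (by intro w hw; rw [mem_box] at hw; constructor <;> omega)
    (by intro w hw; rw [mem_rect] at hw; constructor <;> omega)
  obtain ⟨w4, a4, b4⟩ := glue h4.symm h5
    (by intro w hw; rw [mem_box] at hw; constructor <;> omega)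
    (by intro w hw; rw [mem_rect] at hw; constructor <;> omega)
  refine ⟨p, v1, v2, v3, v4, ?_, ?_, ?_, ?_, hv1, hv2, hv3, hv4, ha1, by omega, ha3, by omega⟩
  · exact OC.trans b1 (a1.symm.trans h1)
  · exact OC.trans b2 (a2.symm.trans h2)
  · exact OC.trans b3 a3.symm
  · exact OC.trans b4 a4.symm

/-- the event used to force `XB` -/
def XE (x : P2) (m a : ℤ) : Set Cf :=
  HR x m a m ∩ (HR x m (-m) (-a) ∩ (HL x m a m ∩ (HL x m (-m) (-a) ∩
    {z | BTc z (x.1 - m) (x.1 + m) (x.2 - m) (x.2 + m)})))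

theorem XE_sub {z : Cf} {x : P2} {m a : ℤ} (h : z ∈ XE x m a) : XB z x m a :=
  XB_of h.1 h.2.1 h.2.2.1 h.2.2.2.1 h.2.2.2.2

theorem XE_incLoc (x : P2) (m a : ℤ) : IncLoc (XE x m a) :=
  (HR_incLoc _ _ _ _).inter ((HR_incLoc _ _ _ _).inter ((HL_incLoc _ _ _ _).inter
    ((HL_incLoc _ _ _ _).inter (btc_incLoc _ _ _ _))))

theorem Perc.fkg_ge {P : Set Cf → ℝ} (hP : Perc P) {A B : Set Cf} (hA : IncLoc A) (hB : IncLoc B)
    {a b : ℝ} (ha : 0 ≤ a) (hb : 0 ≤ b) (h1 : a ≤ P A) (h2 : b ≤ P B) : a * b ≤ P (A ∩ B) :=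
  (mul_le_mul h1 h2 hb (ha.trans h1)).trans (hP.fkg A B hA hB)

theorem Perc.XE_ge {P : Set Cf → ℝ} (hP : Perc P) (x : P2) {m a : ℤ} {c0 r : ℝ} (hc0 : 0 ≤ c0)
    (hr : 0 ≤ r) (h : c0 ≤ lr P 0 (2 * m) 0 (2 * m)) (h1 : r ≤ rho P m a m) :
    r * (r * (r * (r * c0))) ≤ P (XE x m a) := by
  have e1 : r ≤ P (HR x m a m) := by rw [hP.HR_shift]; exact h1
  have e2 : r ≤ P (HR x m (-m) (-a)) := by rw [hP.HR_flip]; exact h1
  have e3 : r ≤ P (HL x m a m) := by rw [hP.HL_eq]; exact h1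
  have e4 : r ≤ P (HL x m (-m) (-a)) := by rw [hP.HL_eq, hP.rho_flip]; exact h1
  have e5 : c0 ≤ P {z | BTc z (x.1 - m) (x.1 + m) (x.2 - m) (x.2 + m)} := by
    have := hP.bt_eq (x.1 - m) (x.1 + m) (x.2 - m) (x.2 + m)
    unfold bt at this
    rw [this]
    have h3 : x.2 + m - (x.2 - m) = 2 * m := by ring
    have h4 : x.1 + m - (x.1 - m) = 2 * m := by ring
    rw [h3, h4]
    exact h
  unfold XE
  exact hP.fkg_ge (HR_incLoc _ _ _ _) ((HR_incLoc _ _ _ _).inter ((HL_incLoc _ _ _ _).inter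
    ((HL_incLoc _ _ _ _).inter (btc_incLoc _ _ _ _)))) hr (by positivity) e1
    (hP.fkg_ge (HR_incLoc _ _ _ _) ((HL_incLoc _ _ _ _).inter
      ((HL_incLoc _ _ _ _).inter (btc_incLoc _ _ _ _))) hr (by positivity) e2
      (hP.fkg_ge (HL_incLoc _ _ _ _) ((HL_incLoc _ _ _ _).inter (btc_incLoc _ _ _ _)) hr
        (by positivity) e3
        (hP.fkg_ge (HL_incLoc _ _ _ _) (btc_incLoc _ _ _ _) hr hc0 e4 e5)))

/-! ### the threshold -/

/-- `φ(a) = P(H(0,a)) - P(H(a,m))` -/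
def phi (P : Set Cf → ℝ) (m a : ℤ) : ℝ := rho P m 0 a - rho P m a m

theorem Perc.phi_mono {P : Set Cf → ℝ} (hP : Perc P) (m : ℤ) {a b : ℤ} (h : a ≤ b) :
    phi P m a ≤ phi P m b := by
  unfold phi
  have h1 := hP.rho_mono m (le_refl 0) h
  have h2 := hP.rho_mono m h (le_refl m)
  linarith

open Classical in
/-- the threshold -/
noncomputable def alpha (P : Set Cf → ℝ) (c0 : ℝ) (m : ℕ) : ℕ :=
  Nat.findGreatest (fun a => phi P m a ≤ c0 / 4) (m / 2)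

theorem alpha_le (P : Set Cf → ℝ) (c0 : ℝ) (m : ℕ) : alpha P c0 m ≤ m / 2 :=
  Nat.findGreatest_le _

theorem Perc.alpha_spec {P : Set Cf → ℝ} (hP : Perc P) {c0 : ℝ} (hc0 : 0 ≤ c0) (m : ℕ) :
    phi P m (alpha P c0 m) ≤ c0 / 4 := by
  classical
  have h0 : phi P m (0 : ℕ) ≤ c0 / 4 := by
    unfold phi
    have := hP.rho_mono m (le_refl (0 : ℤ)) (show (0 : ℤ) ≤ m by omega)
    simp only [Nat.cast_zero]
    linarith
  exact Nat.findGreatest_spec (P := fun a : ℕ => phi P m a ≤ c0 / 4) (Nat.zero_le _) h0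

theorem Perc.of_alpha_lt {P : Set Cf → ℝ} (hP : Perc P) {c0 : ℝ} {m : ℕ} {a : ℤ}
    (h : alpha P c0 m < m / 2) (ha : (alpha P c0 m : ℤ) < a) : c0 / 4 < phi P m a := by
  classical
  have h1 : ¬ phi P m ((alpha P c0 m + 1 : ℕ) : ℤ) ≤ c0 / 4 :=
    Nat.findGreatest_is_greatest (P := fun a : ℕ => phi P m a ≤ c0 / 4) (Nat.lt_succ_self _) h
  have h2 := hP.phi_mono m (show ((alpha P c0 m + 1 : ℕ) : ℤ) ≤ a by push_cast; omega)
  exact (not_le.1 h1).trans_le h2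

/-- (P1) -/
theorem Perc.bound1 {P : Set Cf → ℝ} (hP : Perc P) {c0 : ℝ} (hc0 : 0 ≤ c0) {m : ℕ}
    (h : c0 ≤ lr P 0 (2 * m) 0 (2 * m)) : c0 / 8 ≤ rho P m (alpha P c0 m) m := by
  have h1 := hP.alpha_spec hc0 m
  have h2 := hP.rho_half h
  have h3 := hP.rho_split m 0 (alpha P c0 m) m
  unfold phi at h1
  linarith

/-- (P2) -/
theorem Perc.bound2 {P : Set Cf → ℝ} (hP : Perc P) {c0 : ℝ} {m : ℕ} {a : ℤ}
    (h : alpha P c0 m < m / 2) (ha : (alpha P c0 m : ℤ) < a) :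
    c0 / 4 ≤ rho P m 0 a := by
  have h1 := hP.of_alpha_lt h ha
  have h2 := hP.rho_nonneg m a m
  unfold phi at h1
  linarith

/-- the constant of (P1) -/
noncomputable def c1 (c0 : ℝ) : ℝ := c0 / 8 * (c0 / 8 * (c0 / 8 * (c0 / 8 * c0)))

theorem c1_nonneg {c0 : ℝ} (h : 0 ≤ c0) : 0 ≤ c1 c0 := by unfold c1; positivity

theorem c1_pos {c0 : ℝ} (h : 0 < c0) : 0 < c1 c0 := by unfold c1; positivity

theorem Perc.XE_alpha {P : Set Cf → ℝ} (hP : Perc P) {c0 : ℝ} (hc0 : 0 ≤ c0) {m : ℕ}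
    (h : c0 ≤ lr P 0 (2 * m) 0 (2 * m)) (x : P2) : c1 c0 ≤ P (XE x m (alpha P c0 m)) :=
  hP.XE_ge x hc0 (by positivity) h (hP.bound1 hc0 h)

/-! ### Lemma A: `alpha = m / 2` -/

/-- two `X`-clusters shifted vertically meet -/
theorem XB_link {z : Cf} {x x' : P2} {m a : ℤ} (d : ℤ) (hx1 : x'.1 = x.1) (hx2 : x'.2 = x.2 + d)
    (hd : d ≤ 2 * a) (hd' : m ≤ a + d) (hd0 : 0 ≤ d)
    {q r1 r2 : P2} (h1 : OC z (Box x m) q r1) (h2 : OC z (Box x m) q r2)
    (e1 : r1.1 = x.1 + m) (e2 : r2.1 = x.1 + m) (f1 : x.2 + a ≤ r1.2) (f2 : r2.2 ≤ x.2 - a)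
    {q' r' l' : P2} (h3 : OC z (Box x' m) q' r') (h4 : OC z (Box x' m) q' l')
    (e3 : r'.1 = x.1 + m) (e4 : l'.1 = x.1 - m) (f3 : r'.2 ≤ x'.2 - a) :
    OC z (Box x m ∪ Box x' m) q q' := by
  have m1 := h1.right
  have m2 := h2.right
  have m3 := h3.right
  rw [mem_box] at m1 m2 m3
  obtain ⟨w, g1, g2⟩ := interR (x.2 - m) (x.2 + m + d) (h4.symm.trans h3) (h2.symm.trans h1)
    (by omega) (by omega) (by omega) (by omega) (by omega) (by omega)
    (by intro w hw; rw [mem_box] at hw; refine ⟨?_, ?_, ?_⟩ <;> omega)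
    (by intro w hw; rw [mem_box] at hw; constructor <;> omega)
  have k1 : OC z (Box x m) q w := h2.trans g2
  have k2 : OC z (Box x' m) q' w := h4.trans g1
  exact (k1.monoS Set.subset_union_left).trans (k2.monoS Set.subset_union_right).symm

/-- `XB` with the centre of the cluster displayed -/
def XBq (z : Cf) (x : P2) (m a : ℤ) (q : P2) : Prop :=
  ∃ r1 r2 l1 l2 : P2, OC z (Box x m) q r1 ∧ OC z (Box x m) q r2 ∧ OC z (Box x m) q l1 ∧
    OC z (Box x m) q l2 ∧ r1.1 = x.1 + m ∧ r2.1 = x.1 + m ∧ l1.1 = x.1 - m ∧ l2.1 = x.1 - m ∧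
    x.2 + a ≤ r1.2 ∧ r2.2 ≤ x.2 - a ∧ x.2 + a ≤ l1.2 ∧ l2.2 ≤ x.2 - a

theorem XB_link2 {z : Cf} {x x' : P2} {m a : ℤ} (d : ℤ) (hx1 : x'.1 = x.1) (hx2 : x'.2 = x.2 + d)
    (hd : d ≤ 2 * a) (hd' : m ≤ a + d) (hd0 : 0 ≤ d) {q q' : P2} (h : XBq z x m a q)
    (h' : XBq z x' m a q') {S : Set P2} (hS : Box x m ⊆ S) (hS' : Box x' m ⊆ S) : OC z S q q' := by
  obtain ⟨r01, r02, l01, l02, a1, a2, a3, a4, b1, b2, b3, b4, c1, c2, c3, c4⟩ := h
  obtain ⟨r11, r12, l11, l12, d1, d2, d3, d4, e1, e2, e3, e4, f1, f2, f3, f4⟩ := h'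
  exact (XB_link d hx1 hx2 hd hd' hd0 a1 a2 b1 b2 c1 c2 d2 d3 (by omega) (by omega) f2).monoS
    (Set.union_subset hS hS')

theorem XBq.bot {z : Cf} {x : P2} {m a : ℤ} {q : P2} (h : XBq z x m a q) {S : Set P2}
    (hS : Box x m ⊆ S) : ∃ r, OC z S q r ∧ r.2 ≤ x.2 - a := by
  obtain ⟨r01, r02, l01, l02, a1, a2, a3, a4, b1, b2, b3, b4, c1, c2, c3, c4⟩ := h
  exact ⟨r02, a2.monoS hS, c2⟩

theorem XBq.top {z : Cf} {x : P2} {m a : ℤ} {q : P2} (h : XBq z x m a q) {S : Set P2}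
    (hS : Box x m ⊆ S) : ∃ r, OC z S q r ∧ x.2 + a ≤ r.2 := by
  obtain ⟨r01, r02, l01, l02, a1, a2, a3, a4, b1, b2, b3, b4, c1, c2, c3, c4⟩ := h
  exact ⟨r01, a1.monoS hS, c1⟩

theorem XB_chain {z : Cf} {m a : ℤ} {x0 x1 x2 x3 : P2} (hx0 : x0 = (0, 0)) (hx1 : x1 = (0, 2 * a))
    (hx2 : x2 = (0, 4 * a)) (hx3 : x3 = (0, 6 * a)) (h0 : XB z x0 m a) (h1 : XB z x1 m a)
    (h2 : XB z x2 m a) (h3 : XB z x3 m a) (ha : 0 ≤ a)
    (hm : m ≤ 3 * a) : BTc z (-m) m (-a) (7 * a) := by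
  have y0 : x0.1 = 0 ∧ x0.2 = 0 := by rw [hx0]; simp
  have y1 : x1.1 = 0 ∧ x1.2 = 2 * a := by rw [hx1]; simp
  have y2 : x2.1 = 0 ∧ x2.2 = 4 * a := by rw [hx2]; simp
  have y3 : x3.1 = 0 ∧ x3.2 = 6 * a := by rw [hx3]; simp
  clear hx0 hx1 hx2 hx3
  obtain ⟨q0, h0⟩ : ∃ q, XBq z x0 m a q := h0
  obtain ⟨q1, h1⟩ : ∃ q, XBq z x1 m a q := h1
  obtain ⟨q2, h2⟩ : ∃ q, XBq z x2 m a q := h2
  obtain ⟨q3, h3⟩ : ∃ q, XBq z x3 m a q := h3
  set S : Set P2 := Rect (-m) m (-m) (6 * a + m) with hS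
  have s0 : Box x0 m ⊆ S := by
    intro w hw; rw [mem_box] at hw; rw [hS, mem_rect]; omega
  have s1 : Box x1 m ⊆ S := by
    intro w hw; rw [mem_box] at hw; rw [hS, mem_rect]; omega
  have s2 : Box x2 m ⊆ S := by
    intro w hw; rw [mem_box] at hw; rw [hS, mem_rect]; omega
  have s3 : Box x3 m ⊆ S := by
    intro w hw; rw [mem_box] at hw; rw [hS, mem_rect]; omega
  have L1 := XB_link2 (2 * a) (by omega) (by omega) le_rfl (by omega) (by omega) h0 h1 s0 s1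
  have L2 := XB_link2 (2 * a) (by omega) (by omega) le_rfl (by omega) (by omega) h1 h2 s1 s2
  have L3 := XB_link2 (2 * a) (by omega) (by omega) le_rfl (by omega) (by omega) h2 h3 s2 s3
  obtain ⟨r, hr, hr2⟩ := h0.bot s0
  obtain ⟨r', hr', hr2'⟩ := h3.top s3
  have t : OC z S r r' := (((hr.symm.trans L1).trans L2).trans L3).trans hr'
  obtain ⟨w, p1, p2, -⟩ := last_exit (fun p => p.2)
    (fun a b hab => by unfold Nbr at hab; omega) (-a) t (by omega) (by omega)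
  obtain ⟨w', p3, p4⟩ := first_hit (fun p => p.2)
    (fun a b hab => by unfold Nbr at hab; omega) (7 * a) p2 (by omega) (by omega)
  refine ⟨w, w', p1, p3, p4.monoS ?_⟩
  rintro p ⟨⟨h5, h9⟩, h10⟩
  rw [hS, mem_rect] at h5
  have h9' : -a ≤ p.2 := h9
  have h10' : p.2 ≤ 7 * a := h10
  exact ⟨h5.1, h5.2.1, h9', h10'⟩

theorem Perc.lemmaA {P : Set Cf → ℝ} (hP : Perc P) {c0 : ℝ} (hc0 : 0 ≤ c0) {m : ℕ} (hm : 2 ≤ m)
    (h : c0 ≤ lr P 0 (2 * m) 0 (2 * m)) (ha : alpha P c0 m = m / 2) :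
    c1 c0 * (c1 c0 * (c1 c0 * c1 c0)) ≤ lr P 0 (8 * (m / 2 : ℕ)) 0 (2 * m) := by
  set a : ℤ := ((m / 2 : ℕ) : ℤ) with haa
  have hX : ∀ x, c1 c0 ≤ P (XE x m a) := fun x => by
    have := hP.XE_alpha hc0 h x
    rw [ha] at this
    exact this
  have hc := c1_nonneg hc0
  have h1 : c1 c0 * (c1 c0 * (c1 c0 * c1 c0)) ≤ P (XE (0, 0) m a ∩ (XE (0, 2 * a) m a ∩
      (XE (0, 4 * a) m a ∩ XE (0, 6 * a) m a))) :=
    hP.fkg_ge (XE_incLoc _ _ _) ((XE_incLoc _ _ _).inter ((XE_incLoc _ _ _).inter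
      (XE_incLoc _ _ _))) hc (by positivity) (hX _)
      (hP.fkg_ge (XE_incLoc _ _ _) ((XE_incLoc _ _ _).inter (XE_incLoc _ _ _)) hc (by positivity)
        (hX _) (hP.fkg_ge (XE_incLoc _ _ _) (XE_incLoc _ _ _) hc hc (hX _) (hX _)))
  have h2 : bt P (-m) m (-a) (7 * a) = lr P 0 (8 * a) 0 (2 * m) := by
    rw [hP.bt_eq]
    congr 1 <;> ring
  rw [← h2]
  refine h1.trans (hP.mono _ _ ?_)
  rintro z ⟨z1, z2, z3, z4⟩
  exact XB_chain rfl rfl rfl rfl (XE_sub z1) (XE_sub z2) (XE_sub z3) (XE_sub z4) (by omega) (by omega)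

/-! ### Lemma B -/

theorem XB_bridge {z : Cf} {m m' h β α' : ℤ} (hβ : β ≤ 2 * α') (hh : h = β - α') (hα : 2 * α' ≤ m')
    (hm' : 3 * m' ≤ 2 * m) (hβ0 : 0 ≤ β) (hβm : 2 * β ≤ m + 1) (hm : 3 ≤ m) (_hm0 : 0 ≤ m')
    (h1 : z ∈ HR (0, -h) m 0 β) (h2 : z ∈ HL (2 * m - 2 * m', -h) m 0 β)
    (h3 : XB z (m - m', 0) m' α') : LRc z (-m) (3 * m - 2 * m') (-h - m) (-h + m) := by
  obtain ⟨u, hu, v, ⟨hv1, hv2, hv3⟩, h1⟩ := h1
  obtain ⟨u', hu', v', ⟨hv1', hv2', hv3'⟩, h2⟩ := h2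
  obtain ⟨q, r1, r2, l1, l2, a1, a2, a3, a4, b1, b2, b3, b4, c1, c2, c3, c4⟩ := h3
  have hu1 : u.1 = 0 - m := hu
  have hu1' : u'.1 = 2 * m - 2 * m' + m := hu'
  simp only at b1 b2 b3 b4 c1 c2 c3 c4 hv1 hv2 hv3 hv1' hv2' hv3'
  have m1 := a1.right
  have m2 := a2.right
  have m3 := a3.right
  have m4 := a4.right
  rw [mem_box] at m1 m2 m3 m4
  simp only at m1 m2 m3 m4
  obtain ⟨w, g1, g2⟩ := interR (-h - m) (-h + m) h1 (a2.symm.trans a1)
    (by omega) (by omega) (by omega) (by omega) (by omega) (by omega)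
    (by intro w hw; rw [mem_box] at hw; simp only at hw; refine ⟨?_, ?_, ?_⟩ <;> omega)
    (by intro w hw; rw [mem_box] at hw; simp only at hw; constructor <;> omega)
  obtain ⟨w', g3, g4⟩ := interL (-h - m) (-h + m) h2.symm (a4.symm.trans a3)
    (by omega) (by omega) (by omega) (by omega) (by omega) (by omega)
    (by intro w hw; rw [mem_box] at hw; simp only at hw; refine ⟨?_, ?_, ?_⟩ <;> omega)
    (by intro w hw; rw [mem_box] at hw; simp only at hw; constructor <;> omega)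
  set S : Set P2 := Rect (-m) (3 * m - 2 * m') (-h - m) (-h + m) with hS
  have s1 : Box (0, -h) m ⊆ S := by
    intro w hw; rw [mem_box] at hw; rw [hS, mem_rect]; simp only at hw; omega
  have s2 : Box (2 * m - 2 * m', -h) m ⊆ S := by
    intro w hw; rw [mem_box] at hw; rw [hS, mem_rect]; simp only at hw; omega
  have s3 : Box (m - m', 0) m' ⊆ S := by
    intro w hw; rw [mem_box] at hw; rw [hS, mem_rect]; simp only at hw; omega
  have k1 : OC z S u q := (g1.monoS s1).trans ((a2.trans g2).monoS s3).symm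
  have k2 : OC z S v' q := (g3.monoS s2).trans ((a4.trans g4).monoS s3).symm
  exact ⟨u, u', by omega, by omega, (k1.trans k2.symm).trans (h2.monoS s2).symm⟩

theorem Perc.lemmaB {P : Set Cf → ℝ} (hP : Perc P) {c0 : ℝ} (hc0 : 0 ≤ c0) {m m' : ℕ}
    (hm : 3 ≤ m) (hmm : 3 * m' ≤ 2 * m) (h : c0 ≤ lr P 0 (2 * m') 0 (2 * m'))
    (ha : alpha P c0 m < m / 2) (haa : alpha P c0 m + 1 ≤ 2 * alpha P c0 m') :
    c0 / 4 * (c0 / 4 * c1 c0) ≤ lr P 0 (4 * m - 2 * m') 0 (2 * m) := by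
  set β : ℤ := (alpha P c0 m : ℤ) + 1 with hβ
  set α' : ℤ := (alpha P c0 m' : ℤ) with hα'
  have h1 : c0 / 4 ≤ rho P m 0 β := hP.bound2 ha (by omega)
  have hle := alpha_le P c0 m'
  have e1 : c0 / 4 ≤ P (HR (0, -(β - α')) m 0 β) := by rw [hP.HR_shift]; exact h1
  have e2 : c0 / 4 ≤ P (HL (2 * m - 2 * m', -(β - α')) m 0 β) := by rw [hP.HL_eq]; exact h1
  have e3 : c1 c0 ≤ P (XE ((m : ℤ) - m', 0) m' α') := hP.XE_alpha hc0 h _
  have hc := c1_nonneg hc0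
  have h2 : c0 / 4 * (c0 / 4 * c1 c0) ≤ P (HR (0, -(β - α')) m 0 β ∩
      (HL (2 * m - 2 * m', -(β - α')) m 0 β ∩ XE ((m : ℤ) - m', 0) m' α')) :=
    hP.fkg_ge (HR_incLoc _ _ _ _) ((HL_incLoc _ _ _ _).inter (XE_incLoc _ _ _)) (by positivity)
      (by positivity) e1 (hP.fkg_ge (HL_incLoc _ _ _ _) (XE_incLoc _ _ _) (by positivity) hc e2 e3)
  have h3 : lr P 0 (4 * m - 2 * m') 0 (2 * m) =
      lr P (-m) (3 * m - 2 * m') (-(β - α') - m) (-(β - α') + m) := by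
    rw [hP.lr_eq (-m : ℤ)]
    congr 1 <;> ring
  rw [h3]
  refine h2.trans (hP.mono _ _ ?_)
  rintro z ⟨z1, z2, z3⟩
  exact XB_bridge (by omega) rfl (by omega) (by omega) (by omega) (by omega) (by omega) (by omega)
    z1 z2 (XE_sub z3)

/-! ### Lemma C -/

theorem circ_bridge {z : Cf} {t s : ℤ} (hs : 0 ≤ s) (hst : 2 * s ≤ t)
    (h1 : z ∈ HR (0, 0) t 0 s) (h2 : z ∈ HL (2 * t, 0) t 0 s) (h3 : Circ4 z (t, 0) s (2 * s)) :
    LRc z (-t) (3 * t) (-t) t := by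
  obtain ⟨u, hu, v, ⟨hv1, hv2, hv3⟩, h1⟩ := h1
  obtain ⟨u', hu', v', ⟨hv1', hv2', hv3'⟩, h2⟩ := h2
  have hu1 : u.1 = 0 - t := hu
  have hu1' : u'.1 = 2 * t + t := hu'
  simp only at hv1 hv2 hv3 hv1' hv2' hv3'
  obtain ⟨c, hc, hC⟩ := circ4_meet hs (by omega) h3
  have far : ∀ w : P2, (w.1 ≤ -t ∨ 3 * t ≤ w.1) → 2 * s ≤ sd (t, 0) w := by
    intro w hw
    by_contra hcon
    have := sd_le.1 (show sd (t, 0) w ≤ 2 * s - 1 by omega)
    simp only at this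
    omega
  obtain ⟨w, g1, g2⟩ := hC _ v u h1.symm (sd_le.2 (by simp only; omega)) (far u (by omega))
  obtain ⟨w', g3, g4⟩ := hC _ v' u' h2.symm (sd_le.2 (by simp only; omega)) (far u' (by omega))
  set S : Set P2 := Rect (-t) (3 * t) (-t) t with hS
  have s1 : Box (0, 0) t ⊆ S := by
    intro w hw; rw [mem_box] at hw; rw [hS, mem_rect]; simp only at hw; omega
  have s2 : Box (2 * t, 0) t ⊆ S := by
    intro w hw; rw [mem_box] at hw; rw [hS, mem_rect]; simp only at hw; omega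
  have s3 : Rect (t - 2 * s) (t + 2 * s) (0 - 2 * s) (0 + 2 * s) ⊆ S := by
    intro w hw; rw [mem_rect] at hw; rw [hS, mem_rect]; omega
  have k1 : OC z S u c := (h1.trans g1).monoS s1 |>.trans (g2.monoS s3).symm
  have k2 : OC z S u' c := (h2.trans g3).monoS s2 |>.trans (g4.monoS s3).symm
  exact ⟨u, u', by omega, by omega, k1.trans k2.symm⟩

theorem circ4_incLoc (x : P2) (n m : ℤ) : IncLoc {z | Circ4 z x n m} := by
  have : {z : Cf | Circ4 z x n m} = {z | LRc z (x.1 - m) (x.1 + m) (x.2 + n) (x.2 + m)} ∩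
      ({z | LRc z (x.1 - m) (x.1 + m) (x.2 - m) (x.2 - n)} ∩
      ({z | BTc z (x.1 + n) (x.1 + m) (x.2 - m) (x.2 + m)} ∩
      {z | BTc z (x.1 - m) (x.1 - n) (x.2 - m) (x.2 + m)})) := by
    ext z; rfl
  rw [this]
  exact (lrc_incLoc _ _ _ _).inter ((lrc_incLoc _ _ _ _).inter ((btc_incLoc _ _ _ _).inter
    (btc_incLoc _ _ _ _)))

theorem Perc.lemmaC {P : Set Cf → ℝ} (hP : Perc P) {c0 : ℝ} (hc0 : 0 ≤ c0) {s t : ℕ}
    (hst : 2 * s ≤ t) (ha : alpha P c0 t < s) :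
    c0 / 4 * (c0 / 4 * lr P 0 (4 * s) 0 s ^ 4) ≤ lr P 0 (4 * t) 0 (2 * t) := by
  have h1 : c0 / 4 ≤ rho P t 0 s := hP.bound2 (by omega) (by omega)
  have e1 : c0 / 4 ≤ P (HR (0, 0) t 0 s) := by rw [hP.HR_shift]; exact h1
  have e2 : c0 / 4 ≤ P (HL (2 * t, 0) t 0 s) := by rw [hP.HL_eq]; exact h1
  have e3 : lr P 0 (4 * s) 0 s ^ 4 ≤ P {z | Circ4 z (t, 0) s (2 * s)} := by
    have := hP.circ4_ge (t, 0) s (2 * s)
    have h4 : (2 : ℤ) * (2 * s) = 4 * s := by ring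
    have h5 : (2 : ℤ) * s - s = s := by ring
    rwa [h4, h5] at this
  have h0 := hP.lr_nonneg 0 (4 * s) 0 s
  have h2 : c0 / 4 * (c0 / 4 * lr P 0 (4 * s) 0 s ^ 4) ≤ P (HR (0, 0) t 0 s ∩
      (HL (2 * t, 0) t 0 s ∩ {z | Circ4 z (t, 0) s (2 * s)})) :=
    hP.fkg_ge (HR_incLoc _ _ _ _) ((HL_incLoc _ _ _ _).inter (circ4_incLoc _ _ _)) (by positivity)
      (by positivity) e1 (hP.fkg_ge (HL_incLoc _ _ _ _) (circ4_incLoc _ _ _) (by positivity)
        (by positivity) e2 e3)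
  have h3 : lr P 0 (4 * t) 0 (2 * t) = lr P (-t) (3 * t) (-t) t := by
    rw [hP.lr_eq (-t : ℤ)]
    congr 1 <;> ring
  rw [h3]
  refine h2.trans (hP.mono _ _ ?_)
  rintro z ⟨z1, z2, z3⟩
  exact circ_bridge (by omega) (by omega) z1 z2 z3

end Crest.Agent.R161.Tas682
end

-- ▼ part R161/Tas4_682
section

/-!
# Row 161, block C, T4 (helper682): the scale argument (Tassion)
-/

set_option autoImplicit false

namespace Crest.Agent.R161.Tas682

open Crest.Agent.R161.Geo729 Crest.Agent.R161.Topo374 Crest.Agent.R161.Dual374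
open Crest.Agent.R161.Sym597

/-- square crossings -/
def Sq (P : Set Cf → ℝ) (c0 : ℝ) : Prop := ∀ n : ℕ, 1 ≤ n → c0 ≤ lr P 0 n 0 n

theorem Sq.two {P : Set Cf → ℝ} {c0 : ℝ} (h : Sq P c0) {m : ℕ} (hm : 1 ≤ m) :
    c0 ≤ lr P 0 (2 * m) 0 (2 * m) := by
  have := h (2 * m) (by omega)
  push_cast at this
  exact this

/-- one-arm event -/
def Arm (s N : ℤ) : Set Cf :=
  {z | ∃ u v : P2, |u.1| ≤ s ∧ |u.2| ≤ s ∧ (N ≤ |v.1| ∨ N ≤ |v.2|) ∧
    Relation.ReflTransGen (PStep (fun e => z e = true)) u v}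

/-- constants -/
noncomputable def c2 (c0 : ℝ) : ℝ :=
  min ((c1 c0 * (c1 c0 * (c1 c0 * c1 c0)) * c0) ^ 9) ((c0 / 4 * (c0 / 4 * c1 c0) * c0) ^ 9)

theorem c2_pos {c0 : ℝ} (h : 0 < c0) : 0 < c2 c0 := by
  have := c1_pos h
  unfold c2
  apply lt_min <;> positivity

/-- the constant of Lemma C -/
noncomputable def fC (c0 g : ℝ) : ℝ := (c0 / 4 * (c0 / 4 * g ^ 4) * c0) ^ 3

theorem fC_pos {c0 g : ℝ} (h : 0 < c0) (hg : 0 < g) : 0 < fC c0 g := by
  unfold fC; positivity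

theorem fC_mono {c0 g g' : ℝ} (h : 0 ≤ c0) (hg : 0 ≤ g) (hgg : g ≤ g') : fC c0 g ≤ fC c0 g' := by
  unfold fC
  have : g ^ 4 ≤ g' ^ 4 := pow_le_pow_left₀ hg hgg 4
  gcongr

namespace Perc

variable {P : Set Cf → ℝ} (hP : Perc P)
include hP

theorem lemmaAB {c0 : ℝ} (hc0 : 0 < c0) (hsq : Sq P c0) {m m' : ℕ} (hm : 3 ≤ m) (hm' : 1 ≤ m')
    (hmm : 3 * m' ≤ 2 * m) (haa : alpha P c0 m + 1 ≤ 2 * alpha P c0 m') :
    c2 c0 ≤ lr P 0 (4 * (2 * m : ℕ)) 0 (2 * m : ℕ) := by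
  have hc1 := c1_pos hc0
  push_cast
  rcases lt_or_ge (alpha P c0 m) (m / 2) with ha | ha
  · have h1 := hP.lemmaB hc0.le hm hmm (hsq.two hm') ha haa
    have h2 : (4 : ℤ) * m - 2 * m' = 2 * m + (2 * m - 2 * m') := by ring
    rw [h2] at h1
    have h3 := hP.h_long (by omega) (by omega) hc0.le (by positivity) (hsq.two (by omega)) h1 8
    have h4 : c2 c0 ≤ (c0 / 4 * (c0 / 4 * c1 c0) * c0) ^ (8 + 1) := min_le_right _ _
    refine h4.trans (h3.trans (hP.h_mono (by omega) ?_ le_rfl))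
    push_cast
    omega
  · have ha' : alpha P c0 m = m / 2 := le_antisymm (alpha_le P c0 m) ha
    have h1 := hP.lemmaA hc0.le (by omega) (hsq.two (by omega)) ha'
    have h2 : (8 : ℤ) * (m / 2 : ℕ) = 2 * m + (8 * (m / 2 : ℕ) - 2 * m) := by ring
    rw [h2] at h1
    have h3 := hP.h_long (by omega) (by omega) hc0.le (by positivity) (hsq.two (by omega)) h1 8
    have h4 : c2 c0 ≤ (c1 c0 * (c1 c0 * (c1 c0 * c1 c0)) * c0) ^ (8 + 1) := min_le_left _ _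
    refine h4.trans (h3.trans (hP.h_mono (by omega) ?_ le_rfl))
    push_cast
    omega

theorem lemmaC' {c0 : ℝ} (hc0 : 0 < c0) (hsq : Sq P c0) {s t : ℕ} (ht : 1 ≤ t) (hst : 2 * s ≤ t)
    (ha : alpha P c0 t < s) : fC c0 (lr P 0 (4 * s) 0 s) ≤ lr P 0 (4 * (2 * t : ℕ)) 0 (2 * t : ℕ) := by
  push_cast
  have h0 := hP.lr_nonneg 0 (4 * s) 0 s
  have h1 := hP.lemmaC hc0.le hst ha
  have h2 : (4 : ℤ) * t = 2 * t + 2 * t := by ring
  rw [h2] at h1
  have h3 := hP.h_long (by omega) (by omega) hc0.le (by positivity) (hsq.two ht) h1 2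
  refine h3.trans (hP.h_mono (by omega) ?_ le_rfl)
  push_cast
  omega

/-- from one scale to comparable scales -/
theorem spread {c0 q : ℝ} (hc0 : 0 < c0) (hsq : Sq P c0) (hq : 0 ≤ q) {H : ℕ} (hH : 1 ≤ H)
    (h : q ≤ lr P 0 (4 * H) 0 H) (K C n : ℕ) (hn : H ≤ n) (hn' : n ≤ C * H) :
    (q * c0) ^ (K * C + 1) ≤ lr P 0 (K * n) 0 n := by
  have h2 : (4 : ℤ) * H = H + 3 * H := by ring
  rw [h2] at h
  have h3 := hP.h_long (by omega) (by omega) hc0.le hq (hsq H hH) h (K * C)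
  refine h3.trans (hP.h_mono (by positivity) ?_ (by omega))
  have h4 : (K : ℤ) * n ≤ K * (C * H) := by
    have : (n : ℤ) ≤ C * H := by exact_mod_cast hn'
    exact mul_le_mul_of_nonneg_left this (by positivity)
  have h5 : (0 : ℤ) ≤ K * C * H := by positivity
  push_cast
  nlinarith

end Perc

/-! ### growth of the threshold -/

/-- the scales `t ↦ ⌈3t/2⌉` -/
def Tn (t0 : ℕ) : ℕ → ℕ
  | 0 => t0
  | j + 1 => (3 * Tn t0 j + 1) / 2

theorem Tn_ge (t0 : ℕ) (j : ℕ) : t0 ≤ Tn t0 j := by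
  induction j with
  | zero => exact le_rfl
  | succ j ih => unfold Tn; omega

theorem Tn_three (t0 : ℕ) (j : ℕ) : 3 * Tn t0 j ≤ 2 * Tn t0 (j + 1) := by
  show 3 * Tn t0 j ≤ 2 * ((3 * Tn t0 j + 1) / 2)
  omega

theorem Tn_le {t0 : ℕ} (h : 1 ≤ t0) (j : ℕ) : Tn t0 j ≤ 2 ^ j * t0 := by
  induction j with
  | zero => simp [Tn]
  | succ j ih =>
      have h1 := Tn_ge t0 j
      have h2 : Tn t0 (j + 1) ≤ 2 * Tn t0 j := by
        show (3 * Tn t0 j + 1) / 2 ≤ 2 * Tn t0 j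
        omega
      calc Tn t0 (j + 1) ≤ 2 * Tn t0 j := h2
        _ ≤ 2 * (2 ^ j * t0) := Nat.mul_le_mul_left _ ih
        _ = 2 ^ (j + 1) * t0 := by ring

theorem Tn_bound (t0 : ℕ) (j : ℕ) : 2 ^ j * (Tn t0 j + 1) ≤ 3 ^ j * (t0 + 1) := by
  induction j with
  | zero => simp [Tn]
  | succ j ih =>
      have h2 : 2 * (Tn t0 (j + 1) + 1) ≤ 3 * (Tn t0 j + 1) := by
        show 2 * ((3 * Tn t0 j + 1) / 2 + 1) ≤ 3 * (Tn t0 j + 1)
        omega
      calc 2 ^ (j + 1) * (Tn t0 (j + 1) + 1) = 2 ^ j * (2 * (Tn t0 (j + 1) + 1)) := by ring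
        _ ≤ 2 ^ j * (3 * (Tn t0 j + 1)) := Nat.mul_le_mul_left _ h2
        _ = 3 * (2 ^ j * (Tn t0 j + 1)) := by ring
        _ ≤ 3 * (3 ^ j * (t0 + 1)) := Nat.mul_le_mul_left _ ih
        _ = 3 ^ (j + 1) * (t0 + 1) := by ring

theorem four_three (J : ℕ) : (J + 3) * 3 ^ J ≤ 3 * 4 ^ J := by
  induction J with
  | zero => simp
  | succ J ih =>
      have h3 : 0 < 3 ^ J := by positivity
      calc (J + 1 + 3) * 3 ^ (J + 1) = (3 * J + 12) * 3 ^ J := by ring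
        _ ≤ (4 * J + 12) * 3 ^ J := Nat.mul_le_mul_right _ (by omega)
        _ = 4 * ((J + 3) * 3 ^ J) := by ring
        _ ≤ 4 * (3 * 4 ^ J) := Nat.mul_le_mul_left _ ih
        _ = 3 * 4 ^ (J + 1) := by ring

theorem growth {P : Set Cf → ℝ} {c0 : ℝ} {t0 s C : ℕ} (hs : 1 ≤ s) (ht : t0 + 1 ≤ C * s)
    (ha : s ≤ alpha P c0 t0) :
    ∃ j, j < 3 * C ∧ alpha P c0 (Tn t0 (j + 1)) + 1 ≤ 2 * alpha P c0 (Tn t0 j) := by
  by_contra hcon
  push Not at hcon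
  have h1 : ∀ j, j ≤ 3 * C → 2 ^ j * s ≤ alpha P c0 (Tn t0 j) := by
    intro j
    induction j with
    | zero => intro _; simpa [Tn] using ha
    | succ j ih =>
        intro hj
        have h2 := ih (by omega)
        have h3 := hcon j (by omega)
        calc 2 ^ (j + 1) * s = 2 * (2 ^ j * s) := by ring
          _ ≤ 2 * alpha P c0 (Tn t0 j) := Nat.mul_le_mul_left _ h2
          _ ≤ _ := by omega
  set J := 3 * C with hJ
  have h2 := h1 J le_rfl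
  have h3 := alpha_le P c0 (Tn t0 J)
  have h4 := Tn_bound t0 J
  have h5 : 2 * (2 ^ J * s) ≤ Tn t0 J + 1 := by omega
  have h6 : 2 ^ J * (2 * (2 ^ J * s)) ≤ 3 ^ J * (C * s) :=
    (Nat.mul_le_mul_left _ h5).trans (h4.trans (Nat.mul_le_mul_left _ ht))
  have h7 := four_three J
  have h8 : (2 ^ J * (2 * (2 ^ J * s)) : ℕ) = 2 * 4 ^ J * s := by
    have : (4 : ℕ) ^ J = 2 ^ J * 2 ^ J := by rw [← mul_pow]; norm_num
    rw [this]; ring
  rw [h8] at h6
  have h9 : 2 * 4 ^ J * s ≤ (3 ^ J * C) * s := by rw [mul_assoc (3 ^ J)]; exact h6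
  have h10 : 2 * 4 ^ J ≤ 3 ^ J * C := Nat.le_of_mul_le_mul_right h9 hs
  have h11 : 3 * (2 * 4 ^ J) ≤ 3 ^ J * J := by
    calc 3 * (2 * 4 ^ J) ≤ 3 * (3 ^ J * C) := Nat.mul_le_mul_left _ h10
      _ = 3 ^ J * J := by rw [hJ]; ring
  have h12 : (J + 3) * 3 ^ J = 3 ^ J * J + 3 * 3 ^ J := by ring
  have h13 : 0 < 3 ^ J := by positivity
  have h14 : 0 < 4 ^ J := by positivity
  omega

/-- crossing blocking hypothesis, in terms of `P` -/
def Blk (P : Set Cf → ℝ) (c0 : ℝ) : Prop :=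
  ∀ c3 : ℝ, 0 < c3 → ∃ C1 s0 : ℕ, 4 ≤ C1 ∧ ∀ s : ℕ, s0 ≤ s →
    (∀ n : ℕ, 4 * s ≤ n → n ≤ C1 * s → c3 ≤ lr P 0 (4 * n) 0 n) → P (Arm s (C1 * s)) ≤ c0 / 8

theorem HR_arm {t s N : ℤ} (hs : 0 ≤ s) (_ht : 0 ≤ t) (hN : N ≤ 2 * t) :
    HR (-t, 0) t 0 s ⊆ Arm s N := by
  rintro z ⟨u, hu, v, ⟨hv1, hv2, hv3⟩, h⟩
  have hu1 : u.1 = -t - t := hu
  simp only at hv1 hv2 hv3
  refine ⟨v, u, ?_, ?_, Or.inl ?_, ?_⟩
  · rw [abs_le]; omega
  · rw [abs_le]; omega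
  · rw [le_abs]; omega
  · exact Relation.ReflTransGen.mono (fun _ _ h => h.1) _ _ h.symm.2

namespace Perc

variable {P : Set Cf → ℝ} (hP : Perc P)
include hP

/-- **Step**: from a good scale to a good scale at bounded ratio -/
theorem step {c0 q : ℝ} (hc0 : 0 < c0) (hq : 0 < q) (hsq : Sq P c0) (hblk : Blk P c0) :
    ∃ C2 s0 : ℕ, 1 ≤ C2 ∧ ∀ s : ℕ, s0 ≤ s → q ≤ lr P 0 (4 * s) 0 s →
      ∃ s', 2 * s ≤ s' ∧ s' ≤ C2 * s ∧ c2 c0 ≤ lr P 0 (4 * s') 0 s' := by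
  have hf := fC_pos hc0 hq
  obtain ⟨C1, s0, hC1, hb⟩ := hblk ((fC c0 q * c0) ^ (4 * 2 + 1)) (by positivity)
  refine ⟨2 * (2 ^ (3 * (C1 + 1)) * C1), max s0 3, ?_, ?_⟩
  · have : 0 < 2 ^ (3 * (C1 + 1)) * C1 := Nat.mul_pos (by positivity) (by omega)
    omega
  intro s hs hgs
  have hs3 : 3 ≤ s := (le_max_right _ _).trans hs
  have hs0 : s0 ≤ s := (le_max_left _ _).trans hs
  -- some scale has a large threshold
  obtain ⟨t, ht1, ht2, ht3⟩ : ∃ t, 2 * s ≤ t ∧ t ≤ C1 * s ∧ s ≤ alpha P c0 t := by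
    by_contra hcon
    push Not at hcon
    have h1 : ∀ n : ℕ, 4 * s ≤ n → n ≤ C1 * s →
        (fC c0 q * c0) ^ (4 * 2 + 1) ≤ lr P 0 (4 * n) 0 n := by
      intro n hn hn'
      have h2 := hP.lemmaC' hc0 hsq (s := s) (t := n / 2) (by omega) (by omega)
        (hcon (n / 2) (by omega) (by omega))
      have h3 : fC c0 q ≤ lr P 0 (4 * (2 * (n / 2) : ℕ)) 0 (2 * (n / 2) : ℕ) :=
        (fC_mono hc0.le hq.le hgs).trans h2
      exact hP.spread hc0 hsq hf.le (by omega) h3 4 2 n (by omega) (by omega)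
    have h2 := hb s hs0 h1
    have h3 : 2 * s ≤ C1 * s := Nat.mul_le_mul_right _ (by omega)
    have h4 := hcon (C1 * s) h3 le_rfl
    have h5 : c0 / 4 ≤ rho P (C1 * s : ℕ) 0 s := hP.bound2 (by omega) (by omega)
    rw [← hP.HR_shift (-((C1 * s : ℕ) : ℤ), 0)] at h5
    have h6 := hP.mono _ _ (HR_arm (t := ((C1 * s : ℕ) : ℤ)) (s := s) (N := C1 * s) (by omega)
      (by omega) (by push_cast; nlinarith))
    linarith
  have h4s : t + 1 ≤ (C1 + 1) * s := by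
    have : (C1 + 1) * s = C1 * s + s := by ring
    omega
  obtain ⟨j, hj, hjj⟩ := growth (by omega) h4s ht3
  refine ⟨2 * Tn t (j + 1), ?_, ?_, ?_⟩
  · have := Tn_ge t (j + 1)
    omega
  · have h5 := Tn_le (t0 := t) (by omega) (j + 1)
    have h6 : 2 ^ (j + 1) ≤ 2 ^ (3 * (C1 + 1)) := Nat.pow_le_pow_right (by norm_num) (by omega)
    calc 2 * Tn t (j + 1) ≤ 2 * (2 ^ (j + 1) * t) := Nat.mul_le_mul_left _ h5
      _ ≤ 2 * (2 ^ (3 * (C1 + 1)) * (C1 * s)) :=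
          Nat.mul_le_mul_left _ (Nat.mul_le_mul h6 ht2)
      _ = _ := by ring
  · have h5 := Tn_ge t j
    have h6 := Tn_ge t (j + 1)
    have h7 := hP.lemmaAB hc0 hsq (m := Tn t (j + 1)) (m' := Tn t j) (by omega) (by omega)
      (Tn_three t j) hjj
    push_cast at h7 ⊢
    exact h7

/-- crossing probability of a thin rectangle at scale `1` -/
theorem g1_pos {c0 : ℝ} (hc0 : 0 < c0) (hsq : Sq P c0) : (c0 / 2) ^ 4 ≤ lr P 0 (4 * (1 : ℕ)) 0 (1 : ℕ) := by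
  have h1 : c0 / 2 ≤ lr P 0 1 0 0 := hP.h_edge (by simpa using hsq 1 le_rfl)
  have h2 := hP.h_line (by positivity) h1 3
  refine h2.trans ?_
  push_cast
  exact hP.h_mono (by norm_num) (by norm_num) (by norm_num)

/-- **Start**: arbitrarily large good scales -/
theorem start {c0 : ℝ} (hc0 : 0 < c0) (hsq : Sq P c0) (s0 : ℕ) :
    ∃ s, s0 ≤ s ∧ 1 ≤ s ∧ min (c2 c0) (fC c0 ((c0 / 2) ^ 4)) ≤ lr P 0 (4 * s) 0 s := by
  by_cases h : ∃ t, max s0 3 ≤ t ∧ 1 ≤ alpha P c0 t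
  · obtain ⟨t, ht, hta⟩ := h
    have ht3 : 3 ≤ t := (le_max_right _ _).trans ht
    have ht0 : s0 ≤ t := (le_max_left _ _).trans ht
    obtain ⟨j, -, hjj⟩ := growth (P := P) (c0 := c0) (t0 := t) (s := 1) (C := t + 1) le_rfl
      (by omega) hta
    have h5 := Tn_ge t j
    have h6 := Tn_ge t (j + 1)
    refine ⟨2 * Tn t (j + 1), by omega, by omega, ?_⟩
    have h7 := hP.lemmaAB hc0 hsq (m := Tn t (j + 1)) (m' := Tn t j) (by omega) (by omega)
      (Tn_three t j) hjj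
    push_cast at h7 ⊢
    exact (min_le_left _ _).trans h7
  · push Not at h
    have h1 := h (max s0 3) le_rfl
    have h3 : 3 ≤ max s0 3 := le_max_right _ _
    have h4 : s0 ≤ max s0 3 := le_max_left _ _
    refine ⟨2 * max s0 3, by omega, by omega, ?_⟩
    have h2 := hP.lemmaC' hc0 hsq (s := 1) (t := max s0 3) (by omega) (by omega) (by omega)
    have h5 : fC c0 ((c0 / 2) ^ 4) ≤ fC c0 (lr P 0 (4 * (1 : ℕ)) 0 (1 : ℕ)) :=
      fC_mono hc0.le (by positivity) (hP.g1_pos hc0 hsq)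
    push_cast at h2 h5 ⊢
    exact (min_le_right _ _).trans (h5.trans h2)

/-- **RSW** (Tassion) -/
theorem rsw {c0 : ℝ} (hc0 : 0 < c0) (hsq : Sq P c0) (hblk : Blk P c0) (K : ℕ) :
    ∃ c : ℝ, 0 < c ∧ ∃ n0 : ℕ, ∀ n : ℕ, n0 ≤ n → c ≤ lr P 0 (K * n) 0 n := by
  set q : ℝ := min (c2 c0) (fC c0 ((c0 / 2) ^ 4)) with hq
  have hq0 : 0 < q := lt_min (c2_pos hc0) (fC_pos hc0 (by positivity))
  obtain ⟨C2, s0, hC2, hstep⟩ := hP.step hc0 hq0 hsq hblk
  obtain ⟨s, hs, hs1, hgs⟩ := hP.start hc0 hsq s0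
  refine ⟨(q * c0) ^ (K * C2 + 1), by positivity, s, ?_⟩
  have key : ∀ n, s ≤ n → ∃ s', s ≤ s' ∧ s' ≤ n ∧ n ≤ C2 * s' ∧ q ≤ lr P 0 (4 * s') 0 s' := by
    intro n hn
    induction n, hn using Nat.le_induction with
    | base => exact ⟨s, le_rfl, le_rfl, Nat.le_mul_of_pos_left _ hC2, hgs⟩
    | succ n hn ih =>
        obtain ⟨s', h1, h2, h3, h4⟩ := ih
        by_cases h5 : n + 1 ≤ C2 * s'
        · exact ⟨s', h1, by omega, h5, h4⟩
        · obtain ⟨s'', h6, h7, h8⟩ := hstep s' (hs.trans h1) h4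
          have h9 : C2 * s' ≤ C2 * s'' := Nat.mul_le_mul_left _ (by omega)
          have h10 : C2 * s' + C2 ≤ C2 * s'' := by
            have : C2 * (s' + 1) ≤ C2 * s'' := Nat.mul_le_mul_left _ (by omega)
            rw [mul_add, mul_one] at this
            exact this
          exact ⟨s'', by omega, by omega, by omega, (min_le_left _ _).trans h8⟩
  intro n hn
  obtain ⟨s', h1, h2, h3, h4⟩ := key n hn
  exact hP.spread hc0 hsq hq0.le (by omega) h4 K C2 n h2 h3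

end Perc

end Crest.Agent.R161.Tas682
private theorem rz_0fb1cafb4b : type_of% @_root_.Crest.Agent.R161.Tas682.Tn.eq_def := @_root_.Crest.Agent.R161.Tas682.Tn.eq_def -- L109
private theorem rz_9845f1cbcb : type_of% @_root_.Crest.Agent.R161.Tas682.Tn.eq_1 := @_root_.Crest.Agent.R161.Tas682.Tn.eq_1 -- L109
end

-- ▼ part R161/Ann_374
section

/-!
Annulus lemmas (helper374): transposed duality, half annulus, four crossings make a circuit.
-/

set_option autoImplicit false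

namespace Crest.Agent.R161.Ann374

open Crest.Agent.R161.Topo374 Crest.Agent.R161.Geo729 Crest.Agent.R161.Dual374
open Crest.Agent.R161.Hull374 Crest.Agent.R161.Ifc372

/-! ### Transposition -/

/-- transposition of the coordinates -/
def tp (v : P2) : P2 := (v.2, v.1)

/-- transposition of edges -/
def tpE (e : Edge) : Edge := (tp e.1, !e.2)

@[simp] lemma tp_tp (v : P2) : tp (tp v) = v := rfl
@[simp] lemma tpE_tpE (e : Edge) : tpE (tpE e) = e := by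
  obtain ⟨v, c⟩ := e; cases c <;> rfl







lemma mem_ball {x f : P2} {n : ℕ} : f ∈ ball x n ↔
    x.1 - n ≤ f.1 ∧ f.1 ≤ x.1 + n - 1 ∧ x.2 - n ≤ f.2 ∧ f.2 ≤ x.2 + n - 1 := by
  unfold ball
  simp only [Finset.mem_product, Finset.mem_Icc]
  tauto


lemma rtg_symm {α : Type*} {R : α → α → Prop} (hs : ∀ u v, R u v → R v u) {a b : α}
    (h : Relation.ReflTransGen R a b) : Relation.ReflTransGen R b a := by
  induction h with
  | refl => exact .refl
  | tail _ h2 ih => exact Relation.ReflTransGen.head (hs _ _ h2) ih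


/-! ### Z-walks -/

lemma pstep_nbr {Z : Edge → Prop} {u v : P2} (h : PStep Z u v) : Nbr u v := by
  obtain ⟨⟨⟨i, j⟩, k⟩, -, h⟩ := h
  obtain ⟨u1, u2⟩ := u
  obtain ⟨v1, v2⟩ := v
  unfold Nbr
  cases k <;> simp only [src_mk, tgt_h, tgt_v, Prod.mk.injEq] at h ⊢ <;> omega

lemma pstep_src_tgt {Z : Edge → Prop} {e : Edge} (h : PStep Z (src e) (tgt e)) : Z e := by
  obtain ⟨⟨⟨i, j⟩, k⟩, hz, h⟩ := h
  obtain ⟨⟨i', j'⟩, k'⟩ := e
  cases k <;> cases k' <;> simp only [src_mk, tgt_h, tgt_v, Prod.mk.injEq] at h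
  · have e1 : i' = i := by omega
    have e2 : j' = j := by omega
    subst e1 e2; exact hz
  · omega
  · omega
  · have e1 : i' = i := by omega
    have e2 : j' = j := by omega
    subst e1 e2; exact hz

lemma rtg_toPW {R : V → V → Prop} (hR : ∀ u v, R u v → Nbr u v) {a b : V}
    (h : Relation.ReflTransGen R a b) : ∃ N, PW R a b N := by
  induction h with
  | refl => exact ⟨_, PW.refl _⟩
  | tail _ h ih =>
      obtain ⟨N, hN⟩ := ih
      exact ⟨_, PW.step hN (hR _ _ h) h⟩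

lemma walk_of_rtg {R : V → V → Prop} (hR : ∀ u v, R u v → Nbr u v)
    {a b : V} (h : Relation.ReflTransGen R a b) :
    Walk {w | Relation.ReflTransGen R a w} a b := by
  refine ⟨.refl, ?_⟩
  induction h with
  | refl => exact .refl
  | @tail b c h1 h2 ih => exact ih.tail ⟨hR _ _ h2, h1, h1.tail h2⟩

/-- crossing lemma for walks with general steps -/
lemma rtg_cross {R1 R2 : V → V → Prop} (hR1 : ∀ u v, R1 u v → Nbr u v) (hR2 : ∀ u v, R2 u v → Nbr u v)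
    {a b p q : V} (h1 : Relation.ReflTransGen R1 a b) (h2 : Relation.ReflTransGen R2 p q)
    (hya : p.2 ≤ a.2 ∧ a.2 ≤ q.2) (hxp : a.1 ≤ p.1 ∧ p.1 ≤ b.1)
    (hy : ∀ u v, R1 u v → p.2 ≤ v.2 ∧ v.2 ≤ q.2) (hx : ∀ u v, R2 u v → a.1 ≤ v.1 ∧ v.1 ≤ b.1) :
    ∃ w, Relation.ReflTransGen R1 a w ∧ Relation.ReflTransGen R2 p w := by
  obtain ⟨w, hw1, hw2⟩ := cross (walk_of_rtg hR1 h1) (walk_of_rtg hR2 h2)
    (fun w hw => by
      rcases Relation.ReflTransGen.cases_tail hw with rfl | ⟨c, _, hc⟩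
      · exact hya
      · exact hy _ _ hc)
    (fun w hw => by
      rcases Relation.ReflTransGen.cases_tail hw with rfl | ⟨c, _, hc⟩
      · exact hxp
      · exact hx _ _ hc)
  exact ⟨w, hw1, hw2⟩

/-- The parity of a closed `Z`-walk does not change across a non-`Z`-edge. -/
lemma N_dstep {Z : Edge → Prop} {c : V} {N : ℤ → ℤ → ZMod 2} (h : PW (PStep Z) c c N) {f g : P2}
    (hd : DStep (fun e => ¬ Z e) f g) : N f.1 f.2 = N g.1 g.2 := by
  have key : ∀ e : Edge, ¬ Z e → N (fA e).1 (fA e).2 = N (fB e).1 (fB e).2 := by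
    rintro ⟨⟨i, j⟩, k⟩ he
    have h1 : ¬ PStep Z (src ((i, j), k)) (tgt ((i, j), k)) := fun h => he (pstep_src_tgt h)
    have h2 : ¬ PStep Z (tgt ((i, j), k)) (src ((i, j), k)) := fun h => he (pstep_src_tgt h.symm)
    cases k
    · exact (h.vert i j h1 h2).symm
    · have := h.horiz i j h1 h2
      rw [zmod2_add_self] at this
      exact (zmod2_eq_of_add this).symm
  obtain ⟨e, he, ⟨rfl, rfl⟩ | ⟨rfl, rfl⟩⟩ := hd
  · exact key e he
  · exact (key e he).symm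

/-- connection steps inside a rectangle -/
def RStep (Z : Edge → Prop) (x0 x1 y0 y1 : ℤ) (u v : P2) : Prop :=
  PStep Z u v ∧ (x0 ≤ u.1 ∧ u.1 ≤ x1 ∧ y0 ≤ u.2 ∧ u.2 ≤ y1) ∧ (x0 ≤ v.1 ∧ v.1 ≤ x1 ∧ y0 ≤ v.2 ∧ v.2 ≤ y1)

lemma RStep.symm {Z : Edge → Prop} {x0 x1 y0 y1 : ℤ} {u v : P2} (h : RStep Z x0 x1 y0 y1 u v) :
    RStep Z x0 x1 y0 y1 v u := ⟨h.1.symm, h.2.2, h.2.1⟩

/-- a non-trivial walk starts and ends in the rectangle -/
lemma rstep_mem_left {Z : Edge → Prop} {x0 x1 y0 y1 : ℤ} {u v : P2}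
    (h : Relation.ReflTransGen (RStep Z x0 x1 y0 y1) u v) (hne : u ≠ v) :
    x0 ≤ u.1 ∧ u.1 ≤ x1 ∧ y0 ≤ u.2 ∧ u.2 ≤ y1 := by
  rcases Relation.ReflTransGen.cases_head h with h1 | ⟨c, hc, _⟩
  · exact absurd h1 hne
  · exact hc.2.1

lemma rstep_mem_right {Z : Edge → Prop} {x0 x1 y0 y1 : ℤ} {u v : P2}
    (h : Relation.ReflTransGen (RStep Z x0 x1 y0 y1) u v)
    (hu : x0 ≤ u.1 ∧ u.1 ≤ x1 ∧ y0 ≤ u.2 ∧ u.2 ≤ y1) :
    x0 ≤ v.1 ∧ v.1 ≤ x1 ∧ y0 ≤ v.2 ∧ v.2 ≤ y1 := by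
  rcases Relation.ReflTransGen.cases_tail h with h1 | ⟨c, _, hc⟩
  · rw [h1]; exact hu
  · exact hc.2.2

/-- A closed `Z`-walk with parity `1` on `ball x n` and `0` off `ball x m` gives `Circ`. -/
lemma circ_of_closed {Z : Edge → Prop} {x : P2} {n m : ℕ} {c : V} {N : ℤ → ℤ → ZMod 2}
    (h : PW (PStep Z) c c N) (h1 : ∀ f ∈ ball x n, N f.1 f.2 = 1) (h0 : ∀ f, f ∉ ball x m → N f.1 f.2 = 0) :
    Circ Z x n m := by
  rintro g ⟨f, hf, hfg⟩
  have key : N g.1 g.2 = 1 := by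
    induction hfg with
    | refl => exact h1 f hf
    | tail _ h2 ih => rw [← N_dstep h h2]; exact ih
  by_contra hg
  rw [h0 g hg] at key
  exact absurd key (by decide)

set_option maxHeartbeats 2000000 in
/-- **Four crossings make a circuit.** -/
theorem circ_of_four (Z : Edge → Prop) (x : P2) (n m : ℕ) (hn : 1 ≤ n) (hnm : n ≤ m)
    {at' bt ab bb al bl ar br : P2}
    (wt : Relation.ReflTransGen (RStep Z (x.1 - m) (x.1 + m) (x.2 + n) (x.2 + m)) at' bt)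
    (wb : Relation.ReflTransGen (RStep Z (x.1 - m) (x.1 + m) (x.2 - m) (x.2 - n)) ab bb)
    (wl : Relation.ReflTransGen (RStep Z (x.1 - m) (x.1 - n) (x.2 - m) (x.2 + m)) al bl)
    (wr : Relation.ReflTransGen (RStep Z (x.1 + n) (x.1 + m) (x.2 - m) (x.2 + m)) ar br)
    (hat : at'.1 = x.1 - m) (hbt : bt.1 = x.1 + m)
    (hab : ab.1 = x.1 - m) (hbb : bb.1 = x.1 + m)
    (hal : al.2 = x.2 - m) (hbl : bl.2 = x.2 + m)
    (har : ar.2 = x.2 - m) (hbr : br.2 = x.2 + m) : Circ Z x n m := by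
  have nb : ∀ (x0 x1 y0 y1 : ℤ) (u v : P2), RStep Z x0 x1 y0 y1 u v → Nbr u v :=
    fun _ _ _ _ _ _ h => pstep_nbr h.1
  have mt := rstep_mem_left wt (by intro h; rw [h] at hat; omega)
  have mb := rstep_mem_left wb (by intro h; rw [h] at hab; omega)
  have ml := rstep_mem_left wl (by intro h; rw [h] at hal; omega)
  have mr := rstep_mem_left wr (by intro h; rw [h] at har; omega)
  obtain ⟨w1, w1t, w1l⟩ := rtg_cross (nb _ _ _ _) (nb _ _ _ _) wt wl (by omega) (by omega)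
    (fun u v h => by have := h.2.2; omega) (fun u v h => by have := h.2.2; omega)
  obtain ⟨w2, w2t, w2r⟩ := rtg_cross (nb _ _ _ _) (nb _ _ _ _) wt wr (by omega) (by omega)
    (fun u v h => by have := h.2.2; omega) (fun u v h => by have := h.2.2; omega)
  obtain ⟨w3, w3b, w3r⟩ := rtg_cross (nb _ _ _ _) (nb _ _ _ _) wb wr (by omega) (by omega)
    (fun u v h => by have := h.2.2; omega) (fun u v h => by have := h.2.2; omega)
  obtain ⟨w4, w4b, w4l⟩ := rtg_cross (nb _ _ _ _) (nb _ _ _ _) wb wl (by omega) (by omega)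
    (fun u v h => by have := h.2.2; omega) (fun u v h => by have := h.2.2; omega)
  have m1t := rstep_mem_right w1t mt
  have m1l := rstep_mem_right w1l ml
  have m2t := rstep_mem_right w2t mt
  have m2r := rstep_mem_right w2r mr
  have m3b := rstep_mem_right w3b mb
  have m3r := rstep_mem_right w3r mr
  have m4b := rstep_mem_right w4b mb
  have m4l := rstep_mem_right w4l ml
  obtain ⟨Nt, hNt⟩ := rtg_toPW (nb _ _ _ _) ((rtg_symm (fun _ _ h => h.symm) w1t).trans w2t)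
  obtain ⟨Nr, hNr⟩ := rtg_toPW (nb _ _ _ _) ((rtg_symm (fun _ _ h => h.symm) w2r).trans w3r)
  obtain ⟨Nb, hNb⟩ := rtg_toPW (nb _ _ _ _) ((rtg_symm (fun _ _ h => h.symm) w3b).trans w4b)
  obtain ⟨Nl, hNl⟩ := rtg_toPW (nb _ _ _ _) ((rtg_symm (fun _ _ h => h.symm) w4l).trans w1l)
  have hc := (((hNt.mono (R' := PStep Z) (fun _ _ h => h.1)).trans
    (hNr.mono (R' := PStep Z) (fun _ _ h => h.1))).trans
    (hNb.mono (R' := PStep Z) (fun _ _ h => h.1))).trans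
    (hNl.mono (R' := PStep Z) (fun _ _ h => h.1))
  refine circ_of_closed hc ?_ ?_
  · intro f hf
    have hf' := mem_ball.1 hf
    have k1 : Nt f.1 f.2 = 1 := by
      rw [hNt.total f.1 f.2 (fun u v h => by have := h.2.1; omega),
        ind_true (by omega), ind_false (by omega)]
      decide
    have k2 : Nr f.1 f.2 = 0 := hNr.col f.1 f.2 (fun u v h => by have := h.2.1; omega)
      (fun u v h => by have := h.2.2; omega)
    have k3 : Nb f.1 f.2 = 0 := hNb.top f.1 f.2 (fun u v h => by have := h.2.1; omega)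
    have k4 : Nl f.1 f.2 = 0 := hNl.col f.1 f.2 (fun u v h => by have := h.2.2; omega)
      (fun u v h => by have := h.2.1; omega)
    rw [k1, k2, k3, k4]; decide
  · intro f hf
    rw [mem_ball] at hf
    have hc' := (((hNt.mono (R' := RStep Z (x.1 - m) (x.1 + m) (x.2 - m) (x.2 + m))
        (fun u v h => ⟨h.1, by have := h.2.1; omega, by have := h.2.2; omega⟩)).trans
      (hNr.mono (R' := RStep Z (x.1 - m) (x.1 + m) (x.2 - m) (x.2 + m))
        (fun u v h => ⟨h.1, by have := h.2.1; omega, by have := h.2.2; omega⟩))).trans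
      (hNb.mono (R' := RStep Z (x.1 - m) (x.1 + m) (x.2 - m) (x.2 + m))
        (fun u v h => ⟨h.1, by have := h.2.1; omega, by have := h.2.2; omega⟩))).trans
      (hNl.mono (R' := RStep Z (x.1 - m) (x.1 + m) (x.2 - m) (x.2 + m))
        (fun u v h => ⟨h.1, by have := h.2.1; omega, by have := h.2.2; omega⟩))
    have hij : f.1 < x.1 - m ∨ x.1 + m ≤ f.1 ∨ f.2 < x.2 - m ∨ x.2 + m ≤ f.2 := by omega
    rcases hij with h | h | h | h
    · exact hc'.col f.1 f.2 (fun u v h1 => by have := h1.2.1; omega)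
        (fun u v h1 => by have := h1.2.2; omega)
    · exact hc'.col f.1 f.2 (fun u v h1 => by have := h1.2.2; omega)
        (fun u v h1 => by have := h1.2.1; omega)
    · rw [hc'.total f.1 f.2 (fun u v h1 => by have := h1.2.1; omega), zmod2_add_self]
    · exact hc'.top f.1 f.2 (fun u v h1 => by have := h1.2.1; omega)

end Crest.Agent.R161.Ann374
end

-- ▼ part R161/Tas5_682

/-!
# Row 161, block C, T4 (helper682): Tassion's RSW theorem for a percolation law `ν`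

`tassion` : FKG for local increasing events, invariance under the reflections of `ℤ²`, square
crossings bounded below and one-arm blocking imply circuits (`RSWc`) and long crossings (`LongX`).
-/

set_option autoImplicit false

noncomputable section

namespace Crest.Agent.R161.Tas682

open MeasureTheory
open Crest.Agent.R161.Geo729 Crest.Agent.R161.Topo374 Crest.Agent.R161.Dual374
open Crest.Agent.R161.Sym597 Crest.Agent.R161.Ring421 Crest.Agent.R161.Ifc372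
open Crest.Agent.R161.Ann374

theorem IncLoc.loc {A : Set Cf} (h : IncLoc A) : LocEv A := by
  obtain ⟨_, E0, h⟩ := h
  exact ⟨E0, fun z z' hz => ⟨h z z' hz, h z' z fun e he => (hz e he).symm⟩⟩

theorem IncLoc.inc {A : Set Cf} (h : IncLoc A) : IncEv A := by
  intro z z' hz
  refine h.1 z z' fun e => ?_
  cases hze : z e
  · exact bot_le
  · rw [hz e hze]


theorem IncLoc.measurableSet {A : Set Cf} (h : IncLoc A) : MeasurableSet A := h.loc.measurableSet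

theorem measurable_pull (R : Refl) : Measurable (fun (z : Cf) (e : Edge) => z (R.E e)) :=
  measurable_pi_lambda _ fun _ => measurable_pi_apply _

/-- invariance under the reflections of the lattice -/
def RInv (ν : Measure Cf) : Prop :=
  ∀ R : Refl, ((∃ n, R = Refl.vert n) ∨ (∃ n, R = Refl.horiz n) ∨ R = Refl.diag 0) →
    ν.map (fun (z : Cf) (e : Edge) => z (R.E e)) = ν

theorem perc_of {ν : Measure Cf} [IsProbabilityMeasure ν] (fkg : FKGLoc ν) (inv : RInv ν) :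
    Perc (fun A => (ν A).toReal) where
  nonneg A := ENNReal.toReal_nonneg
  univ := by simp
  mono A B h := ENNReal.toReal_mono (measure_ne_top _ _) (measure_mono h)
  union A B := by
    rw [← ENNReal.toReal_add (measure_ne_top _ _) (measure_ne_top _ _)]
    exact ENNReal.toReal_mono (ENNReal.add_ne_top.2 ⟨measure_ne_top _ _, measure_ne_top _ _⟩)
      (measure_union_le _ _)
  fkg A B hA hB := by
    rw [← ENNReal.toReal_mul]
    exact ENNReal.toReal_mono (measure_ne_top _ _) (fkg A B hA.loc hB.loc hA.inc hB.inc)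
  vert n A hA := by
    have h := inv (Refl.vert n) (Or.inl ⟨n, rfl⟩)
    conv_rhs => rw [← h]
    rw [Measure.map_apply (measurable_pull _) hA.measurableSet]
  horiz n A hA := by
    have h := inv (Refl.horiz n) (Or.inr (Or.inl ⟨n, rfl⟩))
    conv_rhs => rw [← h]
    rw [Measure.map_apply (measurable_pull _) hA.measurableSet]
  diag A hA := by
    have h := inv (Refl.diag 0) (Or.inr (Or.inr rfl))
    conv_rhs => rw [← h]
    rw [Measure.map_apply (measurable_pull _) hA.measurableSet]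

/-- the four crossings make a circuit -/
theorem circ4_sub (x : P2) (n m : ℕ) (hn : 1 ≤ n) (hnm : n ≤ m) :
    {z : Cf | Circ4 z x n m} ⊆ CircZ x n m := by
  rintro z ⟨⟨t1, t1', ht1, ht1', hT⟩, ⟨b1, b1', hb1, hb1', hB⟩, ⟨r1, r1', hr1, hr1', hR⟩,
    ⟨l1, l1', hl1, hl1', hL⟩⟩
  have conv : ∀ {a b c d : ℤ} {u v : P2}, OC z (Rect a b c d) u v →
      Relation.ReflTransGen (RStep (fun e => z e = true) a b c d) u v := by
    intro a b c d u v h
    refine Relation.ReflTransGen.mono (fun p q hpq => ?_) _ _ h.2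
    obtain ⟨h1, ⟨h2, h3, h4, h5⟩, ⟨h6, h7, h8, h9⟩⟩ := hpq
    exact ⟨h1, ⟨h2, h3, h4, h5⟩, ⟨h6, h7, h8, h9⟩⟩
  exact circ_of_four (fun e => z e = true) x n m hn hnm (conv hT) (conv hB) (conv hL) (conv hR)
    ht1 ht1' hb1 hb1' hl1 hl1' hr1 hr1'

/-- long crossings at all scales -/
def LongX (ν : Measure Cf) : Prop :=
  ∀ k : ℕ, ∃ c : ℝ, 0 < c ∧ ∃ n0 : ℕ, ∀ n : ℕ, n0 ≤ n →
    c ≤ (ν {z | LRc z 0 (k * n) 0 n}).toReal

/-- **Tassion's theorem.** -/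
theorem tassion (ν : Measure Cf) [IsProbabilityMeasure ν] (fkg : FKGLoc ν) (inv : RInv ν)
    (sq : ∃ c0 : ℝ, 0 < c0 ∧ ∀ n : ℕ, 1 ≤ n → c0 ≤ (ν {z | LRc z 0 n 0 n}).toReal)
    (blk : Blk868.BlockX ν) : RSWc ν ∧ LongX ν := by
  have hP := perc_of fkg inv
  obtain ⟨c0, hc0, hsq⟩ := sq
  have hblk : Blk (fun A => (ν A).toReal) c0 := by
    intro c3 hc3
    obtain ⟨C1, s0, hC1, h⟩ := blk (c3 ^ 4) (c0 / 8) (by positivity) (by positivity)
    refine ⟨C1, max s0 1, hC1, fun s hs hg => ?_⟩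
    have hs1 : 1 ≤ s := (le_max_right _ _).trans hs
    have h1 := h s ((le_max_left _ _).trans hs) (fun t ht ht' => ?_)
    · have h2 : Arm s ((C1 : ℤ) * s) = {z : Cf | ∃ u v : P2, |u.1| ≤ (s : ℤ) ∧ |u.2| ≤ (s : ℤ) ∧
          (((C1 * s : ℕ) : ℤ) ≤ |v.1| ∨ ((C1 * s : ℕ) : ℤ) ≤ |v.2|) ∧
          Relation.ReflTransGen (PStep (fun e => z e = true)) u v} := by
        push_cast
        rfl
      show (ν (Arm s ((C1 : ℤ) * s))).toReal ≤ c0 / 8
      rw [h2]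
      exact h1
    · have h3 := hP.circ4_ge (0, 0) t (2 * t)
      have h4 : (2 : ℤ) * (2 * t) = 4 * t := by ring
      have h5 : (2 : ℤ) * t - t = t := by ring
      rw [h4, h5] at h3
      have h6 : c3 ^ 4 ≤ lr (fun A => (ν A).toReal) 0 (4 * t) 0 t ^ 4 :=
        pow_le_pow_left₀ hc3.le (hg t ht ht') 4
      refine h6.trans (h3.trans ?_)
      have h7 := circ4_sub (0, 0) t (2 * t) (by omega) (by omega)
      have h8 : {z : Cf | Circ4 z (0, 0) (t : ℤ) (2 * (t : ℤ))} =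
          {z : Cf | Circ4 z (0, 0) (t : ℕ) ((2 * t : ℕ) : ℤ)} := by push_cast; rfl
      rw [h8]
      exact ENNReal.toReal_mono (measure_ne_top _ _) (measure_mono h7)
  have hR := fun K => hP.rsw hc0 hsq hblk K
  refine ⟨?_, hR⟩
  obtain ⟨c, hc, n0, h⟩ := hR 4
  refine ⟨c ^ 4, max n0 1, by positivity, fun n hn => ?_⟩
  have hn1 : 1 ≤ n := (le_max_right _ _).trans hn
  have h3 := hP.circ4_ge (0, 0) n (2 * n)
  have h4 : (2 : ℤ) * (2 * n) = 4 * n := by ring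
  have h5 : (2 : ℤ) * n - n = n := by ring
  rw [h4, h5] at h3
  have h9 := h n ((le_max_left _ _).trans hn)
  push_cast at h9
  have h6 : c ^ 4 ≤ lr (fun A => (ν A).toReal) 0 (4 * n) 0 n ^ 4 := pow_le_pow_left₀ hc.le h9 4
  refine h6.trans (h3.trans ?_)
  have h7 := circ4_sub (0, 0) n (2 * n) hn1 (by omega)
  have h8 : {z : Cf | Circ4 z (0, 0) (n : ℤ) (2 * (n : ℤ))} =
      {z : Cf | Circ4 z (0, 0) (n : ℕ) ((2 * n : ℕ) : ℤ)} := by push_cast; rfl
  rw [h8]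
  exact ENNReal.toReal_mono (measure_ne_top _ _) (measure_mono h7)

end Crest.Agent.R161.Tas682
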