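import Crest.Agent.R161.Geo_729

/-!
R161, block F (helper597): the reflections of `ℤ²` acting on vertices, faces (lower-left corners)
and edges, with signed side functions.

`Refl` packages an involution together with side functions `sv, sf, se` (positive = right side,
zero = on the line, negative = left side).

* `Refl.vert n` : reflection in the vertical line `2 x = n` (`n` even: through vertices, `n` odd:
  through faces);
* `Refl.horiz n`: reflection in the horizontal line `2 y = n`;
* `Refl.diag m` : reflection in the diagonal `y = x + m`;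
* `Refl.anti n` : reflection in the antidiagonal `x + y = n`;
* `Refl.neg`    : exchange of the two sides.
-/

set_option autoImplicit false

namespace Crest.Agent.R161.Sym597

open Crest.Agent.R161.Geo729

/-- A reflection of the square lattice acting on vertices, faces and edges, with side functions. -/
structure Refl where
  /-- action on vertices -/
  V : P2 → P2
  /-- action on faces (lower-left corners) -/
  Fc : P2 → P2
  /-- action on edges -/
  E : Edge → Edge
  /-- side of a vertex -/
  sv : P2 → ℤ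
  /-- side of a face -/
  sf : P2 → ℤ
  /-- side of an edge -/
  se : Edge → ℤ
  V_invol : ∀ v, V (V v) = v
  F_invol : ∀ f, Fc (Fc f) = f
  E_invol : ∀ e, E (E e) = e
  /-- the end points of `E e` are the images of the end points of `e` -/
  edge_v : ∀ e, (src (E e) = V (src e) ∧ tgt (E e) = V (tgt e)) ∨
    (src (E e) = V (tgt e) ∧ tgt (E e) = V (src e))
  /-- the faces bordering `E e` are the images of the faces bordering `e` -/
  edge_f : ∀ e, (fA (E e) = Fc (fA e) ∧ fB (E e) = Fc (fB e)) ∨
    (fA (E e) = Fc (fB e) ∧ fB (E e) = Fc (fA e))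
  corner : ∀ v f, IsCorner (V v) (Fc f) ↔ IsCorner v f
  sv_V : ∀ v, sv (V v) = - sv v
  sf_F : ∀ f, sf (Fc f) = - sf f
  se_E : ∀ e, se (E e) = - se e
  /-- line vertices are fixed -/
  V_fix : ∀ v, sv v = 0 → V v = v
  /-- line faces are fixed -/
  F_fix : ∀ f, sf f = 0 → Fc f = f
  /-- line edges are fixed -/
  E_fix : ∀ e, se e = 0 → E e = e
  /-- edges strictly on the right see only the closed right side -/
  pos : ∀ e, 0 < se e → 0 ≤ sv (src e) ∧ 0 ≤ sv (tgt e) ∧ 0 ≤ sf (fA e) ∧ 0 ≤ sf (fB e)
  /-- line edges: either along the line (line vertices, mirror faces) or crossing the line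
  (line faces, mirror vertices) -/
  line : ∀ e, se e = 0 →
    (sv (src e) = 0 ∧ sv (tgt e) = 0 ∧ fB e = Fc (fA e) ∧ sf (fA e) ≠ 0) ∨
    (sf (fA e) = 0 ∧ sf (fB e) = 0 ∧ tgt e = V (src e) ∧ sv (src e) ≠ 0)
  /-- a vertex and a face on strictly different sides are not incident -/
  corner_side : ∀ v f, IsCorner v f → 0 ≤ sv v * sf f

namespace Refl

variable (R : Refl)







/-- vertex action as an equivalence -/
def VEquiv : P2 ≃ P2 := ⟨R.V, R.V, R.V_invol, R.V_invol⟩
/-- face action as an equivalence -/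
def FEquiv : P2 ≃ P2 := ⟨R.Fc, R.Fc, R.F_invol, R.F_invol⟩
/-- edge action as an equivalence -/
def EEquiv : Edge ≃ Edge := ⟨R.E, R.E, R.E_invol, R.E_invol⟩

@[simp] theorem VEquiv_apply (v : P2) : R.VEquiv v = R.V v := rfl
@[simp] theorem FEquiv_apply (v : P2) : R.FEquiv v = R.Fc v := rfl
@[simp] theorem EEquiv_apply (v : Edge) : R.EEquiv v = R.E v := rfl

/-- edges strictly on the left see only the closed left side -/
theorem neg_side (e : Edge) (h : R.se e < 0) :
    R.sv (src e) ≤ 0 ∧ R.sv (tgt e) ≤ 0 ∧ R.sf (fA e) ≤ 0 ∧ R.sf (fB e) ≤ 0 := by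
  have h1 := R.pos (R.E e) (by rw [R.se_E]; omega)
  rcases R.edge_v e with ⟨h2, h3⟩ | ⟨h2, h3⟩ <;> rcases R.edge_f e with ⟨h4, h5⟩ | ⟨h4, h5⟩ <;>
    rw [h2, h3, h4, h5, R.sv_V, R.sv_V, R.sf_F, R.sf_F] at h1 <;> omega

/-- exchange of the two sides -/
def neg : Refl where
  V := R.V
  Fc := R.Fc
  E := R.E
  sv v := - R.sv v
  sf f := - R.sf f
  se e := - R.se e
  V_invol := R.V_invol
  F_invol := R.F_invol
  E_invol := R.E_invol
  edge_v := R.edge_v
  edge_f := R.edge_f
  corner := R.corner
  sv_V v := by rw [R.sv_V]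
  sf_F v := by rw [R.sf_F]
  se_E v := by rw [R.se_E]
  V_fix v h := R.V_fix v (by omega)
  F_fix v h := R.F_fix v (by omega)
  E_fix v h := R.E_fix v (by omega)
  pos e h := by
    have := R.neg_side e (by omega)
    omega
  line e h := by
    rcases R.line e (by omega) with ⟨h1, h2, h3, h4⟩ | ⟨h1, h2, h3, h4⟩
    · exact Or.inl ⟨by omega, by omega, h3, by omega⟩
    · exact Or.inr ⟨by omega, by omega, h3, by omega⟩
  corner_side v f h := by
    have := R.corner_side v f h
    nlinarith

/-- Reflection in the vertical line `2 x = n`. -/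
def vert (n : ℤ) : Refl where
  V v := (n - v.1, v.2)
  Fc f := (n - 1 - f.1, f.2)
  E e := if e.2 then ((n - e.1.1, e.1.2), true) else ((n - 1 - e.1.1, e.1.2), false)
  sv v := 2 * v.1 - n
  sf f := 2 * f.1 + 1 - n
  se e := if e.2 then 2 * e.1.1 - n else 2 * e.1.1 + 1 - n
  V_invol v := by simp
  F_invol v := by simp
  E_invol e := by
    obtain ⟨⟨a, b⟩, c⟩ := e
    cases c <;> simp
  edge_v e := by
    obtain ⟨⟨a, b⟩, c⟩ := e
    cases c
    · right
      simp [src, tgt]
      omega
    · left
      simp [src, tgt]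
  edge_f e := by
    obtain ⟨⟨a, b⟩, c⟩ := e
    cases c
    · left
      simp [fA, fB]
    · right
      simp [fA, fB]
      omega
  corner v f := by
    simp only [Geo729.IsCorner, Prod.mk.injEq, Prod.ext_iff]
    omega
  sv_V v := by simp only; omega
  sf_F v := by simp only; omega
  se_E e := by
    obtain ⟨⟨a, b⟩, c⟩ := e
    cases c <;> simp <;> omega
  V_fix v h := by
    ext <;> simp only <;> omega
  F_fix v h := by
    ext <;> simp only <;> omega
  E_fix e h := by
    obtain ⟨⟨a, b⟩, c⟩ := e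
    cases c <;> simp at h ⊢ <;> omega
  pos e h := by
    obtain ⟨⟨a, b⟩, c⟩ := e
    cases c <;> simp [src, tgt, fA, fB] at h ⊢ <;> omega
  line e h := by
    obtain ⟨⟨a, b⟩, c⟩ := e
    cases c
    · right
      simp [src, tgt, fA, fB] at h ⊢
      omega
    · left
      simp [src, tgt, fA, fB] at h ⊢
      omega
  corner_side v f h := by
    obtain ⟨a, b⟩ := v
    obtain ⟨c, d⟩ := f
    simp only [Geo729.IsCorner, Prod.mk.injEq] at h ⊢
    rcases lt_trichotomy (2 * a - n) 0 with h1 | h1 | h1
    · have : 2 * c + 1 - n ≤ 0 := by omega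
      nlinarith
    · simp [h1]
    · have : 0 ≤ 2 * c + 1 - n := by omega
      nlinarith

/-- Reflection in the horizontal line `2 y = n`. -/
def horiz (n : ℤ) : Refl where
  V v := (v.1, n - v.2)
  Fc f := (f.1, n - 1 - f.2)
  E e := if e.2 then ((e.1.1, n - 1 - e.1.2), true) else ((e.1.1, n - e.1.2), false)
  sv v := 2 * v.2 - n
  sf f := 2 * f.2 + 1 - n
  se e := if e.2 then 2 * e.1.2 + 1 - n else 2 * e.1.2 - n
  V_invol v := by simp
  F_invol v := by simp
  E_invol e := by
    obtain ⟨⟨a, b⟩, c⟩ := e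
    cases c <;> simp
  edge_v e := by
    obtain ⟨⟨a, b⟩, c⟩ := e
    cases c
    · left
      simp [src, tgt]
    · right
      simp [src, tgt]
      omega
  edge_f e := by
    obtain ⟨⟨a, b⟩, c⟩ := e
    cases c
    · right
      simp [fA, fB]
      omega
    · left
      simp [fA, fB]
  corner v f := by
    simp only [Geo729.IsCorner, Prod.mk.injEq, Prod.ext_iff]
    omega
  sv_V v := by simp only; omega
  sf_F v := by simp only; omega
  se_E e := by
    obtain ⟨⟨a, b⟩, c⟩ := e
    cases c <;> simp <;> omega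
  V_fix v h := by
    ext <;> simp only <;> omega
  F_fix v h := by
    ext <;> simp only <;> omega
  E_fix e h := by
    obtain ⟨⟨a, b⟩, c⟩ := e
    cases c <;> simp at h ⊢ <;> omega
  pos e h := by
    obtain ⟨⟨a, b⟩, c⟩ := e
    cases c <;> simp [src, tgt, fA, fB] at h ⊢ <;> omega
  line e h := by
    obtain ⟨⟨a, b⟩, c⟩ := e
    cases c
    · left
      simp [src, tgt, fA, fB] at h ⊢
      omega
    · right
      simp [src, tgt, fA, fB] at h ⊢
      omega
  corner_side v f h := by
    obtain ⟨a, b⟩ := v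
    obtain ⟨c, d⟩ := f
    simp only [Geo729.IsCorner, Prod.mk.injEq] at h ⊢
    rcases lt_trichotomy (2 * b - n) 0 with h1 | h1 | h1
    · have : 2 * d + 1 - n ≤ 0 := by omega
      nlinarith
    · simp [h1]
    · have : 0 ≤ 2 * d + 1 - n := by omega
      nlinarith

/-- Reflection in the diagonal `y = x + m`; positive side = above the diagonal. -/
def diag (m : ℤ) : Refl where
  V v := (v.2 - m, v.1 + m)
  Fc f := (f.2 - m, f.1 + m)
  E e := ((e.1.2 - m, e.1.1 + m), !e.2)
  sv v := 2 * (v.2 - v.1 - m)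
  sf f := 2 * (f.2 - f.1 - m)
  se e := if e.2 then 2 * (e.1.2 - e.1.1 - m) + 1 else 2 * (e.1.2 - e.1.1 - m) - 1
  V_invol v := by simp
  F_invol v := by simp
  E_invol e := by simp
  edge_v e := by
    obtain ⟨⟨a, b⟩, c⟩ := e
    left
    cases c <;> simp [src, tgt] <;> omega
  edge_f e := by
    obtain ⟨⟨a, b⟩, c⟩ := e
    left
    cases c <;> simp [fA, fB] <;> omega
  corner v f := by
    simp only [Geo729.IsCorner, Prod.mk.injEq, Prod.ext_iff]
    omega
  sv_V v := by simp only; omega
  sf_F v := by simp only; omega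
  se_E e := by
    obtain ⟨⟨a, b⟩, c⟩ := e
    cases c <;> simp <;> omega
  V_fix v h := by
    ext <;> simp only <;> omega
  F_fix v h := by
    ext <;> simp only <;> omega
  E_fix e h := by
    obtain ⟨⟨a, b⟩, c⟩ := e
    cases c <;> simp at h ⊢ <;> omega
  pos e h := by
    obtain ⟨⟨a, b⟩, c⟩ := e
    cases c <;> simp [src, tgt, fA, fB] at h ⊢ <;> omega
  line e h := by
    obtain ⟨⟨a, b⟩, c⟩ := e
    cases c <;> simp at h <;> omega
  corner_side v f h := by
    obtain ⟨a, b⟩ := v
    obtain ⟨c, d⟩ := f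
    simp only [Geo729.IsCorner, Prod.mk.injEq] at h ⊢
    rcases lt_trichotomy (2 * (b - a - m)) 0 with h1 | h1 | h1
    · have : 2 * (d - c - m) ≤ 0 := by omega
      nlinarith
    · simp [h1]
    · have : 0 ≤ 2 * (d - c - m) := by omega
      nlinarith

/-- Reflection in the antidiagonal `x + y = n`; positive side = above the antidiagonal. -/
def anti (n : ℤ) : Refl where
  V v := (n - v.2, n - v.1)
  Fc f := (n - 1 - f.2, n - 1 - f.1)
  E e := if e.2 then ((n - 1 - e.1.2, n - e.1.1), false) else ((n - e.1.2, n - 1 - e.1.1), true)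
  sv v := 2 * (v.1 + v.2 - n)
  sf f := 2 * (f.1 + f.2 + 1 - n)
  se e := 2 * (e.1.1 + e.1.2 - n) + 1
  V_invol v := by simp
  F_invol v := by simp
  E_invol e := by
    obtain ⟨⟨a, b⟩, c⟩ := e
    cases c <;> simp
  edge_v e := by
    obtain ⟨⟨a, b⟩, c⟩ := e
    right
    cases c <;> simp [src, tgt] <;> omega
  edge_f e := by
    obtain ⟨⟨a, b⟩, c⟩ := e
    right
    cases c <;> simp [fA, fB] <;> omega
  corner v f := by
    simp only [Geo729.IsCorner, Prod.mk.injEq, Prod.ext_iff]
    omega
  sv_V v := by simp only; omega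
  sf_F v := by simp only; omega
  se_E e := by
    obtain ⟨⟨a, b⟩, c⟩ := e
    cases c <;> simp <;> omega
  V_fix v h := by
    ext <;> simp only <;> omega
  F_fix v h := by
    ext <;> simp only <;> omega
  E_fix e h := by
    obtain ⟨⟨a, b⟩, c⟩ := e
    cases c <;> simp at h ⊢ <;> omega
  pos e h := by
    obtain ⟨⟨a, b⟩, c⟩ := e
    cases c <;> simp [src, tgt, fA, fB] at h ⊢ <;> omega
  line e h := by
    obtain ⟨⟨a, b⟩, c⟩ := e
    cases c <;> simp at h <;> omega
  corner_side v f h := by
    obtain ⟨a, b⟩ := v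
    obtain ⟨c, d⟩ := f
    simp only [Geo729.IsCorner, Prod.mk.injEq] at h ⊢
    rcases lt_trichotomy (2 * (a + b - n)) 0 with h1 | h1 | h1
    · have : 2 * (c + d + 1 - n) ≤ 0 := by omega
      nlinarith
    · simp [h1]
    · have : 0 ≤ 2 * (c + d + 1 - n) := by omega
      nlinarith

end Refl

end Crest.Agent.R161.Sym597
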