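import Crest.Agent.R161.Topo_374
import Crest.Agent.R161.Dual_374
import Crest.Agent.R161.Sym_597

/-!
# Row 161, block C, T4 (helper682): open connections inside vertex sets

* `OC z S u v` : `u` and `v` are joined by a walk of `z`-open edges inside `S`
* `glue`, `interR`, `interL`, `exit` : planar topology of open connections
* `EV S A B` : the event that `A` and `B` are joined inside `S`
* `IncLoc` : increasing events determined by finitely many edges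
-/

set_option autoImplicit false

namespace Crest.Agent.R161.Tas682

open Crest.Agent.R161.Geo729 Crest.Agent.R161.Topo374 Crest.Agent.R161.Dual374
open Crest.Agent.R161.Sym597

/-- percolation configurations (`true` = open) -/
abbrev Cf : Type := Edge → Bool

/-- one open step inside `S` -/
def OStep (z : Cf) (S : Set P2) (a b : P2) : Prop :=
  PStep (fun e => z e = true) a b ∧ a ∈ S ∧ b ∈ S

/-- open connection inside `S` -/
def OC (z : Cf) (S : Set P2) (u v : P2) : Prop :=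
  u ∈ S ∧ Relation.ReflTransGen (OStep z S) u v

theorem pstep_nbr {Z : Edge → Prop} {u v : P2} (h : PStep Z u v) : Nbr u v := by
  obtain ⟨⟨⟨x, y⟩, b⟩, _, ⟨rfl, rfl⟩ | ⟨rfl, rfl⟩⟩ := h <;> cases b <;>
    simp [src, tgt, Nbr]

theorem pstep_mono {Z Z' : Edge → Prop} (hZ : ∀ e, Z e → Z' e) {u v : P2} (h : PStep Z u v) :
    PStep Z' u v := by
  obtain ⟨e, he, h⟩ := h
  exact ⟨e, hZ e he, h⟩

theorem OStep.symm {z : Cf} {S : Set P2} {a b : P2} (h : OStep z S a b) : OStep z S b a :=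
  ⟨h.1.symm, h.2.2, h.2.1⟩

theorem OStep.mono {z z' : Cf} {S S' : Set P2} (hz : z ≤ z') (hS : S ⊆ S') {a b : P2}
    (h : OStep z S a b) : OStep z' S' a b := by
  refine ⟨pstep_mono (fun e he => ?_) h.1, hS h.2.1, hS h.2.2⟩
  have := hz e
  rw [he] at this
  exact top_le_iff.1 this

namespace OC

variable {z z' : Cf} {S S' : Set P2} {u v w : P2}

theorem left (h : OC z S u v) : u ∈ S := h.1

theorem right (h : OC z S u v) : v ∈ S := by
  obtain ⟨hu, h⟩ := h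
  induction h with
  | refl => exact hu
  | tail _ h _ => exact h.2.2

theorem refl (h : u ∈ S) : OC z S u u := ⟨h, .refl⟩

theorem trans (h : OC z S u v) (h' : OC z S v w) : OC z S u w := ⟨h.1, h.2.trans h'.2⟩

theorem mono (hz : z ≤ z') (hS : S ⊆ S') (h : OC z S u v) : OC z' S' u v :=
  ⟨hS h.1, Relation.ReflTransGen.mono (fun _ _ h => OStep.mono hz hS h) _ _ h.2⟩

theorem monoS (hS : S ⊆ S') (h : OC z S u v) : OC z S' u v := h.mono le_rfl hS

theorem symm (h : OC z S u v) : OC z S v u := by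
  refine ⟨h.right, ?_⟩
  have := h.2
  induction this with
  | refl => exact .refl
  | tail h1 h2 ih =>
      exact Relation.ReflTransGen.head h2.symm (ih ⟨h.1, h1⟩)

theorem walk (h : OC z S u v) : Walk {w | OC z S u w ∧ w ∈ S} u v := by
  refine ⟨⟨OC.refl h.1, h.1⟩, ?_⟩
  obtain ⟨hu, h⟩ := h
  induction h with
  | refl => exact .refl
  | tail h1 h2 ih =>
      exact ih.tail ⟨pstep_nbr h2.1, ⟨⟨hu, h1⟩, h2.2.1⟩, ⟨⟨hu, h1.tail h2⟩, h2.2.2⟩⟩

end OC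

/-! ### planar topology -/

/-- **gluing**: a left-right and a bottom-top connection meet. -/
theorem glue {z : Cf} {S1 S2 : Set P2} {a b p q : P2} (h1 : OC z S1 a b) (h2 : OC z S2 p q)
    (hy : ∀ w ∈ S1, p.2 ≤ w.2 ∧ w.2 ≤ q.2) (hx : ∀ w ∈ S2, a.1 ≤ w.1 ∧ w.1 ≤ b.1) :
    ∃ w, OC z S1 a w ∧ OC z S2 p w := by
  obtain ⟨w, hw1, hw2⟩ := cross h1.walk h2.walk (fun w hw => hy w hw.2) (fun w hw => hx w hw.2)
  exact ⟨w, hw1.1, hw2.1⟩


/-- vertical walks -/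
theorem vwalk {T : Set V} (x : ℤ) (y : ℤ) (n : ℕ) (h : ∀ k : ℤ, y ≤ k → k ≤ y + n → ((x, k) : V) ∈ T) :
    Walk T (x, y) (x, y + n) := by
  induction n with
  | zero => simpa using Walk.refl (h y le_rfl (by simp))
  | succ n ih =>
      have h1 := ih (fun k h1 h2 => h k h1 (by push_cast; omega))
      refine h1.trans (Walk.step h1.right (h _ (by push_cast; omega) le_rfl) ?_)
      right
      refine ⟨rfl, Or.inl ?_⟩
      push_cast
      ring

/-- vertical walks -/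
theorem vwalk' {T : Set V} (x : ℤ) {y y' : ℤ} (hyy : y ≤ y')
    (h : ∀ k : ℤ, y ≤ k → k ≤ y' → ((x, k) : V) ∈ T) : Walk T (x, y) (x, y') := by
  obtain ⟨n, rfl⟩ : ∃ n : ℕ, y' = y + n := ⟨(y' - y).toNat, by omega⟩
  exact vwalk x y n h

/-- **interlacing on the right side** -/
theorem interR {z : Cf} {S1 S2 : Set P2} {u v p q : P2} (lo hi : ℤ) (h1 : OC z S1 u v)
    (h2 : OC z S2 p q) (hp : p.1 = v.1) (hq : q.1 = v.1) (hpv : p.2 ≤ v.2) (hvq : v.2 ≤ q.2)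
    (hlo : lo ≤ p.2) (hhi : q.2 ≤ hi)
    (hS1 : ∀ w ∈ S1, w.1 ≤ v.1 ∧ lo ≤ w.2 ∧ w.2 ≤ hi) (hS2 : ∀ w ∈ S2, u.1 ≤ w.1 ∧ w.1 ≤ v.1) :
    ∃ w, OC z S1 u w ∧ OC z S2 p w := by
  set T1 : Set V := {w | OC z S1 u w ∧ w ∈ S1} with hT1
  set T2 : Set V := {w | OC z S2 p w ∧ w ∈ S2} with hT2
  set T1' : Set V := T1 ∪ {((v.1 + 1, v.2) : V)} with hT1'
  set U : Set V := {w | w.1 = v.1 + 1 ∧ ((lo ≤ w.2 ∧ w.2 ≤ p.2) ∨ (q.2 ≤ w.2 ∧ w.2 ≤ hi))} with hU
  have w1 : Walk T1' u (v.1 + 1, v.2) := by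
    refine (h1.walk.mono Set.subset_union_left).trans (Walk.step (Or.inl ⟨h1, h1.right⟩) (Or.inr rfl) ?_)
    left
    exact ⟨rfl, Or.inl rfl⟩
  have w2 : Walk (T2 ∪ U) (v.1 + 1, lo) (v.1 + 1, hi) := by
    have e1 : Walk (T2 ∪ U) (v.1 + 1, lo) (v.1 + 1, p.2) :=
      vwalk' _ hlo (fun k h3 h4 => Or.inr ⟨rfl, Or.inl ⟨h3, h4⟩⟩)
    have e2 : Walk (T2 ∪ U) (v.1 + 1, p.2) p := by
      refine Walk.step e1.right (Or.inl ⟨OC.refl h2.1, h2.1⟩) ?_
      left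
      exact ⟨rfl, Or.inr (by simp only; omega)⟩
    have e3 : Walk (T2 ∪ U) p q := h2.walk.mono Set.subset_union_left
    have e5 : Walk (T2 ∪ U) (v.1 + 1, q.2) (v.1 + 1, hi) :=
      vwalk' _ hhi (fun k h3 h4 => Or.inr ⟨rfl, Or.inr ⟨h3, h4⟩⟩)
    have e4 : Walk (T2 ∪ U) q (v.1 + 1, q.2) := by
      refine Walk.step e3.right e5.left ?_
      left
      exact ⟨rfl, Or.inl (by simp only; omega)⟩
    exact (((e1.trans e2).trans e3).trans e4).trans e5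
  have hvS := h1.right
  obtain ⟨w, hw1, hw2⟩ := cross w1 w2 (by
    rintro w (hw | hw)
    · exact ⟨(hS1 w hw.2).2.1, (hS1 w hw.2).2.2⟩
    · have : w = (v.1 + 1, v.2) := hw
      rw [this]
      exact ⟨(hS1 v hvS).2.1, (hS1 v hvS).2.2⟩) (by
    have huv : u.1 ≤ v.1 := hp ▸ (hS2 p h2.1).1
    rintro w (hw | hw)
    · have := hS2 w hw.2
      simp only
      omega
    · have := hw.1
      simp only
      omega)
  have hvin : p.2 = v.2 ∨ q.2 = v.2 → ∃ w, OC z S1 u w ∧ OC z S2 p w := by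
    rintro (h | h)
    · have : p = v := Prod.ext hp h
      exact ⟨v, h1, this ▸ OC.refl h2.1⟩
    · have : q = v := Prod.ext hq h
      exact ⟨v, h1, this ▸ h2⟩
  rcases hw1 with hw1 | hw1
  · rcases hw2 with hw2 | hw2
    · exact ⟨w, hw1.1, hw2.1⟩
    · have h3 := (hS1 w hw1.2).1
      have h4 := hw2.1
      omega
  · have hw : w = (v.1 + 1, v.2) := hw1
    rcases hw2 with hw2 | hw2
    · have h3 := (hS2 w hw2.2).2
      rw [hw] at h3
      simp only at h3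
      omega
    · have h3 := hw2.2
      rw [hw] at h3
      simp only at h3
      apply hvin
      omega

/-- **interlacing on the left side** -/
theorem interL {z : Cf} {S1 S2 : Set P2} {u v p q : P2} (lo hi : ℤ) (h1 : OC z S1 u v)
    (h2 : OC z S2 p q) (hp : p.1 = u.1) (hq : q.1 = u.1) (hpv : p.2 ≤ u.2) (hvq : u.2 ≤ q.2)
    (hlo : lo ≤ p.2) (hhi : q.2 ≤ hi)
    (hS1 : ∀ w ∈ S1, u.1 ≤ w.1 ∧ lo ≤ w.2 ∧ w.2 ≤ hi) (hS2 : ∀ w ∈ S2, u.1 ≤ w.1 ∧ w.1 ≤ v.1) :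
    ∃ w, OC z S1 u w ∧ OC z S2 p w := by
  set T1 : Set V := {w | OC z S1 u w ∧ w ∈ S1} with hT1
  set T2 : Set V := {w | OC z S2 p w ∧ w ∈ S2} with hT2
  set T1' : Set V := T1 ∪ {((u.1 - 1, u.2) : V)} with hT1'
  set U : Set V := {w | w.1 = u.1 - 1 ∧ ((lo ≤ w.2 ∧ w.2 ≤ p.2) ∨ (q.2 ≤ w.2 ∧ w.2 ≤ hi))} with hU
  have w1 : Walk T1' (u.1 - 1, u.2) v := by
    refine Walk.trans (Walk.step (Or.inr rfl) (Or.inl ⟨OC.refl h1.1, h1.1⟩) ?_)
      (h1.walk.mono Set.subset_union_left)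
    left
    exact ⟨rfl, Or.inl (by simp only; omega)⟩
  have w2 : Walk (T2 ∪ U) (u.1 - 1, lo) (u.1 - 1, hi) := by
    have e1 : Walk (T2 ∪ U) (u.1 - 1, lo) (u.1 - 1, p.2) :=
      vwalk' _ hlo (fun k h3 h4 => Or.inr ⟨rfl, Or.inl ⟨h3, h4⟩⟩)
    have e2 : Walk (T2 ∪ U) (u.1 - 1, p.2) p := by
      refine Walk.step e1.right (Or.inl ⟨OC.refl h2.1, h2.1⟩) ?_
      left
      exact ⟨rfl, Or.inl (by simp only; omega)⟩
    have e3 : Walk (T2 ∪ U) p q := h2.walk.mono Set.subset_union_left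
    have e5 : Walk (T2 ∪ U) (u.1 - 1, q.2) (u.1 - 1, hi) :=
      vwalk' _ hhi (fun k h3 h4 => Or.inr ⟨rfl, Or.inr ⟨h3, h4⟩⟩)
    have e4 : Walk (T2 ∪ U) q (u.1 - 1, q.2) := by
      refine Walk.step e3.right e5.left ?_
      left
      exact ⟨rfl, Or.inr (by simp only; omega)⟩
    exact (((e1.trans e2).trans e3).trans e4).trans e5
  have huS := h1.left
  obtain ⟨w, hw1, hw2⟩ := cross w1 w2 (by
    rintro w (hw | hw)
    · exact ⟨(hS1 w hw.2).2.1, (hS1 w hw.2).2.2⟩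
    · have : w = (u.1 - 1, u.2) := hw
      rw [this]
      exact ⟨(hS1 u huS).2.1, (hS1 u huS).2.2⟩) (by
    have huv : u.1 ≤ v.1 := hp ▸ (hS2 p h2.1).2
    rintro w (hw | hw)
    · have := hS2 w hw.2
      simp only
      omega
    · have := hw.1
      simp only
      omega)
  rcases hw1 with hw1 | hw1
  · rcases hw2 with hw2 | hw2
    · exact ⟨w, hw1.1, hw2.1⟩
    · have h3 := (hS1 w hw1.2).1
      have h4 := hw2.1
      omega
  · have hw : w = (u.1 - 1, u.2) := hw1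
    rcases hw2 with hw2 | hw2
    · have h3 := (hS2 w hw2.2).1
      rw [hw] at h3
      simp only at h3
      omega
    · have h3 := hw2.2
      rw [hw] at h3
      simp only at h3
      have h4 : p.2 = u.2 ∨ q.2 = u.2 := by omega
      rcases h4 with h | h
      · have : p = u := Prod.ext hp h
        exact ⟨u, OC.refl h1.1, this ▸ OC.refl h2.1⟩
      · have : q = u := Prod.ext hq h
        exact ⟨u, OC.refl h1.1, this ▸ h2⟩

/-- **last exit**: a connection from `{f ≤ k}` to `{k ≤ f}` contains a connection inside `{k ≤ f}`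
starting on `{f = k}`. -/
theorem last_exit {z : Cf} {S : Set P2} (f : P2 → ℤ) (hf : ∀ a b : P2, Nbr a b → f b ≤ f a + 1)
    (k : ℤ) {u v : P2} (h : OC z S u v) (hu : f u ≤ k) (hv : k ≤ f v) :
    ∃ w, f w = k ∧ OC z (S ∩ {p | k ≤ f p}) w v ∧ OC z S u w := by
  obtain ⟨huS, h⟩ := h
  induction h with
  | refl =>
      have : f u = k := le_antisymm hu hv
      exact ⟨u, this, OC.refl ⟨huS, this.ge⟩, OC.refl huS⟩
  | @tail b c h1 h2 ih =>
      by_cases hb : k ≤ f b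
      · obtain ⟨w, h3, h4, h5⟩ := ih hb
        exact ⟨w, h3, ⟨h4.1, h4.2.tail ⟨h2.1, h4.right, ⟨h2.2.2, hv⟩⟩⟩, h5⟩
      · have h3 := hf b c (pstep_nbr h2.1)
        have h4 : f c = k := by omega
        exact ⟨c, h4, OC.refl ⟨h2.2.2, h4.ge⟩, ⟨huS, h1.tail h2⟩⟩

/-- **first entrance**: a connection from `{f ≤ k}` to `{k ≤ f}` contains a connection inside
`{f ≤ k}` ending on `{f = k}`. -/
theorem first_hit {z : Cf} {S : Set P2} (f : P2 → ℤ) (hf : ∀ a b : P2, Nbr a b → f b ≤ f a + 1)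
    (k : ℤ) {u v : P2} (h : OC z S u v) (hu : f u ≤ k) (hv : k ≤ f v) :
    ∃ w, f w = k ∧ OC z (S ∩ {p | f p ≤ k}) u w := by
  obtain ⟨w, h1, h2, h3⟩ := last_exit (fun p => - f p)
    (fun a b hab => by have := hf b a hab.symm; omega) (-k) h.symm
    (by omega) (by omega)
  refine ⟨w, by omega, (h2.symm).monoS ?_⟩
  rintro p ⟨hp1, hp2⟩
  refine ⟨hp1, ?_⟩
  have : -k ≤ - f p := hp2
  show f p ≤ k
  omega

/-! ### rectangles and circuits -/

/-- rectangles (vertices) -/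
def Rect (a b c d : ℤ) : Set P2 := {v | a ≤ v.1 ∧ v.1 ≤ b ∧ c ≤ v.2 ∧ v.2 ≤ d}

theorem mem_rect {a b c d : ℤ} {v : P2} :
    v ∈ Rect a b c d ↔ a ≤ v.1 ∧ v.1 ≤ b ∧ c ≤ v.2 ∧ v.2 ≤ d := Iff.rfl

theorem rect_finite (a b c d : ℤ) : (Rect a b c d).Finite := by
  have : Rect a b c d ⊆ ((Finset.Icc a b ×ˢ Finset.Icc c d : Finset P2) : Set P2) := by
    intro v hv
    simp only [Finset.coe_product, Finset.coe_Icc, Set.mem_prod, Set.mem_Icc]
    exact ⟨⟨hv.1, hv.2.1⟩, hv.2.2⟩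
  exact (Finset.finite_toSet _).subset this

/-- left-right crossing of the rectangle `[a,b] × [c,d]` -/
def LRc (z : Cf) (a b c d : ℤ) : Prop := ∃ u v : P2, u.1 = a ∧ v.1 = b ∧ OC z (Rect a b c d) u v

/-- bottom-top crossing of the rectangle `[a,b] × [c,d]` -/
def BTc (z : Cf) (a b c d : ℤ) : Prop := ∃ u v : P2, u.2 = c ∧ v.2 = d ∧ OC z (Rect a b c d) u v

/-- the four crossings of the annulus `x + [-m,m]² \ (-n,n)²` -/
def Circ4 (z : Cf) (x : P2) (n m : ℤ) : Prop :=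
  LRc z (x.1 - m) (x.1 + m) (x.2 + n) (x.2 + m) ∧ LRc z (x.1 - m) (x.1 + m) (x.2 - m) (x.2 - n) ∧
  BTc z (x.1 + n) (x.1 + m) (x.2 - m) (x.2 + m) ∧ BTc z (x.1 - m) (x.1 - n) (x.2 - m) (x.2 + m)

/-- sup distance to `x` -/
def sd (x : P2) (p : P2) : ℤ := max |p.1 - x.1| |p.2 - x.2|

theorem sd_nbr (x : P2) (a b : P2) (h : Nbr a b) : sd x b ≤ sd x a + 1 := by
  unfold sd
  unfold Nbr at h
  have hA := le_max_left |a.1 - x.1| |a.2 - x.2|
  have hB := le_max_right |a.1 - x.1| |a.2 - x.2|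
  generalize max |a.1 - x.1| |a.2 - x.2| = M at *
  rw [abs_le] at hA hB
  refine max_le ?_ ?_ <;> rw [abs_le] <;> omega

theorem sd_le {x p : P2} {k : ℤ} : sd x p ≤ k ↔
    x.1 - k ≤ p.1 ∧ p.1 ≤ x.1 + k ∧ x.2 - k ≤ p.2 ∧ p.2 ≤ x.2 + k := by
  unfold sd
  rw [max_le_iff, abs_le, abs_le]
  omega

theorem sd_eq {x p : P2} {k : ℤ} (h : sd x p = k) :
    p.1 = x.1 - k ∨ p.1 = x.1 + k ∨ p.2 = x.2 - k ∨ p.2 = x.2 + k := by
  unfold sd at h
  rcases max_choice |p.1 - x.1| |p.2 - x.2| with h1 | h1 <;> rw [h1] at h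
  · rcases abs_cases (p.1 - x.1) with h2 | h2 <;> omega
  · rcases abs_cases (p.2 - x.2) with h2 | h2 <;> omega

/-- The four crossings of an annulus form one open cluster which meets every open connection from the
inner square to the outside. -/
theorem circ4_meet {z : Cf} {x : P2} {n m : ℤ} (hn : 0 ≤ n) (hnm : n ≤ m) (hC : Circ4 z x n m) :
    ∃ t : P2, OC z (Rect (x.1 - m) (x.1 + m) (x.2 - m) (x.2 + m)) t t ∧ ∀ (S : Set P2) (u v : P2),
      OC z S u v → sd x u ≤ n → m ≤ sd x v →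
        ∃ w, OC z S u w ∧ OC z (Rect (x.1 - m) (x.1 + m) (x.2 - m) (x.2 + m)) t w := by
  obtain ⟨⟨t1, t1', ht1, ht1', hT⟩, ⟨b1, b1', hb1, hb1', hB⟩, ⟨r1, r1', hr1, hr1', hR⟩,
    ⟨l1, l1', hl1, hl1', hL⟩⟩ := hC
  set Q := Rect (x.1 - m) (x.1 + m) (x.2 - m) (x.2 + m) with hQ
  have sT : Rect (x.1 - m) (x.1 + m) (x.2 + n) (x.2 + m) ⊆ Q := by
    rintro w ⟨h1, h2, h3, h4⟩; exact ⟨h1, h2, by omega, h4⟩
  have sB : Rect (x.1 - m) (x.1 + m) (x.2 - m) (x.2 - n) ⊆ Q := by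
    rintro w ⟨h1, h2, h3, h4⟩; exact ⟨h1, h2, by omega, by omega⟩
  have sR : Rect (x.1 + n) (x.1 + m) (x.2 - m) (x.2 + m) ⊆ Q := by
    rintro w ⟨h1, h2, h3, h4⟩; exact ⟨by omega, h2, h3, h4⟩
  have sL : Rect (x.1 - m) (x.1 - n) (x.2 - m) (x.2 + m) ⊆ Q := by
    rintro w ⟨h1, h2, h3, h4⟩; exact ⟨h1, by omega, h3, h4⟩
  -- `t1` is joined to the three others
  obtain ⟨c1, hc1, hc1'⟩ := glue hT hR
    (by rintro w ⟨h1, h2, h3, h4⟩; constructor <;> omega)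
    (by rintro w ⟨h1, h2, h3, h4⟩; constructor <;> omega)
  obtain ⟨c2, hc2, hc2'⟩ := glue hT hL
    (by rintro w ⟨h1, h2, h3, h4⟩; constructor <;> omega)
    (by rintro w ⟨h1, h2, h3, h4⟩; constructor <;> omega)
  obtain ⟨c3, hc3, hc3'⟩ := glue hB hR
    (by rintro w ⟨h1, h2, h3, h4⟩; constructor <;> omega)
    (by rintro w ⟨h1, h2, h3, h4⟩; constructor <;> omega)
  have tr : OC z Q t1 r1 := (hc1.monoS sT).trans (hc1'.monoS sR).symm
  have tl : OC z Q t1 l1 := (hc2.monoS sT).trans (hc2'.monoS sL).symm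
  have tb : OC z Q t1 b1 := (tr.trans (hc3'.monoS sR)).trans (hc3.monoS sB).symm
  refine ⟨t1, OC.refl (sT hT.1), ?_⟩
  intro S u v h hu hv
  obtain ⟨w1, hw1, h1⟩ := first_hit (sd x) (sd_nbr x) m h (hu.trans hnm) hv
  have hS1 : ∀ w ∈ S ∩ {p | sd x p ≤ m}, w ∈ Q := by
    rintro w ⟨_, hw⟩
    have := sd_le.1 (show sd x w ≤ m from hw)
    exact ⟨this.1, this.2.1, this.2.2.1, this.2.2.2⟩
  have hw1Q := hS1 w1 h1.right
  have hu' := sd_le.1 hu
  rcases sd_eq hw1 with h2 | h2 | h2 | h2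
  · -- left side
    obtain ⟨w0, h3, h4, h5⟩ := last_exit (fun p => - p.1)
      (fun a b hab => by unfold Nbr at hab; omega) (-(x.1 - n)) h1
      (by omega) (by omega)
    obtain ⟨w, h6, h7⟩ := glue h4.symm hL
      (by rintro w ⟨hw, _⟩; have := hS1 w hw; rw [hl1, hl1']; exact ⟨this.2.2.1, this.2.2.2⟩)
      (by rintro w ⟨h1, h2, h3, h4⟩; constructor <;> omega)
    refine ⟨w, ?_, tl.trans (h7.monoS sL)⟩
    have h8 : OC z S w0 w :=
      (h4.monoS (fun p hp => hp.1.1)).trans (h6.monoS (fun p hp => hp.1.1))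
    exact (h5.monoS (fun p hp => hp.1)).trans h8
  · obtain ⟨w0, h3, h4, h5⟩ := last_exit (fun p => p.1)
      (fun a b hab => by unfold Nbr at hab; omega) (x.1 + n) h1
      (by omega) (by omega)
    obtain ⟨w, h6, h7⟩ := glue h4 hR
      (by rintro w ⟨hw, _⟩; have := hS1 w hw; rw [hr1, hr1']; exact ⟨this.2.2.1, this.2.2.2⟩)
      (by rintro w ⟨h1, h2, h3, h4⟩; constructor <;> omega)
    refine ⟨w, ?_, tr.trans (h7.monoS sR)⟩
    exact (h5.monoS (fun p hp => hp.1)).trans (h6.monoS (fun p hp => hp.1.1))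
  · obtain ⟨w0, h3, h4, h5⟩ := last_exit (fun p => - p.2)
      (fun a b hab => by unfold Nbr at hab; omega) (-(x.2 - n)) h1
      (by omega) (by omega)
    obtain ⟨w, h6, h7⟩ := glue hB h4.symm
      (by rintro w ⟨h1, h2, h3, h4⟩; constructor <;> omega)
      (by rintro w ⟨hw, _⟩; have := hS1 w hw; rw [hb1, hb1']; exact ⟨this.1, this.2.1⟩)
    refine ⟨w, ?_, tb.trans (h6.monoS sB)⟩
    have h8 : OC z S w0 w :=
      (h4.monoS (fun p hp => hp.1.1)).trans (h7.monoS (fun p hp => hp.1.1))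
    exact (h5.monoS (fun p hp => hp.1)).trans h8
  · obtain ⟨w0, h3, h4, h5⟩ := last_exit (fun p => p.2)
      (fun a b hab => by unfold Nbr at hab; omega) (x.2 + n) h1
      (by omega) (by omega)
    obtain ⟨w, h6, h7⟩ := glue hT h4
      (by rintro w ⟨h1, h2, h3, h4⟩; constructor <;> omega)
      (by rintro w ⟨hw, _⟩; have := hS1 w hw; rw [ht1, ht1']; exact ⟨this.1, this.2.1⟩)
    refine ⟨w, ?_, h6.monoS sT⟩
    exact (h5.monoS (fun p hp => hp.1)).trans (h7.monoS (fun p hp => hp.1.1))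

/-! ### events -/

/-- `A` and `B` are joined inside `S` -/
def EV (S A B : Set P2) : Set Cf := {z | ∃ u ∈ A, ∃ v ∈ B, OC z S u v}

theorem mem_EV {S A B : Set P2} {z : Cf} : z ∈ EV S A B ↔ ∃ u ∈ A, ∃ v ∈ B, OC z S u v := Iff.rfl

theorem EV_symm (S A B : Set P2) : EV S A B = EV S B A := by
  ext z
  constructor <;> rintro ⟨u, hu, v, hv, h⟩ <;> exact ⟨v, hv, u, hu, h.symm⟩

theorem EV_mono {S S' A A' B B' : Set P2} (hS : S ⊆ S') (hA : A ⊆ A') (hB : B ⊆ B') :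
    EV S A B ⊆ EV S' A' B' := by
  rintro z ⟨u, hu, v, hv, h⟩
  exact ⟨u, hA hu, v, hB hv, h.monoS hS⟩

/-- increasing events determined by finitely many edges -/
def IncLoc (A : Set Cf) : Prop :=
  (∀ z z' : Cf, z ≤ z' → z ∈ A → z' ∈ A) ∧
    ∃ E0 : Finset Edge, ∀ z z' : Cf, (∀ e ∈ E0, z e = z' e) → z ∈ A → z' ∈ A

theorem EV_incLoc {S : Set P2} (hS : S.Finite) (A B : Set P2) : IncLoc (EV S A B) := by
  classical
  refine ⟨fun z z' hz => ?_, hS.toFinset ×ˢ Finset.univ, fun z z' hz => ?_⟩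
  · rintro ⟨u, hu, v, hv, h⟩
    exact ⟨u, hu, v, hv, h.mono hz subset_rfl⟩
  · rintro ⟨u, hu, v, hv, h⟩
    refine ⟨u, hu, v, hv, h.1, Relation.ReflTransGen.mono (fun a b hab => ?_) _ _ h.2⟩
    obtain ⟨⟨e, he, h1⟩, ha, hb⟩ := hab
    refine ⟨⟨e, ?_, h1⟩, ha, hb⟩
    have : src e ∈ S := by
      rcases h1 with h1 | h1
      · rw [← h1.1]; exact ha
      · rw [← h1.2]; exact hb
    have h2 := hz e (by simpa [src] using this)
    show z' e = true
    rw [← h2]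
    exact he

theorem IncLoc.inter {A B : Set Cf} (hA : IncLoc A) (hB : IncLoc B) : IncLoc (A ∩ B) := by
  classical
  obtain ⟨h1, E1, h2⟩ := hA
  obtain ⟨h3, E2, h4⟩ := hB
  refine ⟨fun z z' hz h => ⟨h1 z z' hz h.1, h3 z z' hz h.2⟩, E1 ∪ E2, fun z z' hz h => ⟨?_, ?_⟩⟩
  · exact h2 z z' (fun e he => hz e (Finset.mem_union_left _ he)) h.1
  · exact h4 z z' (fun e he => hz e (Finset.mem_union_right _ he)) h.2

theorem IncLoc.union {A B : Set Cf} (hA : IncLoc A) (hB : IncLoc B) : IncLoc (A ∪ B) := by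
  classical
  obtain ⟨h1, E1, h2⟩ := hA
  obtain ⟨h3, E2, h4⟩ := hB
  refine ⟨fun z z' hz h => h.imp (h1 z z' hz) (h3 z z' hz), E1 ∪ E2, fun z z' hz h => h.imp ?_ ?_⟩
  · exact h2 z z' (fun e he => hz e (Finset.mem_union_left _ he))
  · exact h4 z z' (fun e he => hz e (Finset.mem_union_right _ he))

theorem setOf_LRc (a b c d : ℤ) :
    {z | LRc z a b c d} = EV (Rect a b c d) {v | v.1 = a} {v | v.1 = b} := by
  ext z
  constructor
  · rintro ⟨u, v, hu, hv, h⟩; exact ⟨u, hu, v, hv, h⟩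
  · rintro ⟨u, hu, v, hv, h⟩; exact ⟨u, v, hu, hv, h⟩

theorem setOf_BTc (a b c d : ℤ) :
    {z | BTc z a b c d} = EV (Rect a b c d) {v | v.2 = c} {v | v.2 = d} := by
  ext z
  constructor
  · rintro ⟨u, v, hu, hv, h⟩; exact ⟨u, hu, v, hv, h⟩
  · rintro ⟨u, hu, v, hv, h⟩; exact ⟨u, v, hu, hv, h⟩

/-! ### reflections -/

theorem pstep_refl (R : Refl) {z : Cf} {a b : P2} (h : PStep (fun e => z (R.E e) = true) a b) :
    PStep (fun e => z e = true) (R.V a) (R.V b) := by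
  obtain ⟨e, he, h1⟩ := h
  refine ⟨R.E e, he, ?_⟩
  rcases h1 with ⟨rfl, rfl⟩ | ⟨rfl, rfl⟩ <;> rcases R.edge_v e with ⟨h2, h3⟩ | ⟨h2, h3⟩
  · exact Or.inl ⟨h2.symm, h3.symm⟩
  · exact Or.inr ⟨h3.symm, h2.symm⟩
  · exact Or.inr ⟨h3.symm, h2.symm⟩
  · exact Or.inl ⟨h2.symm, h3.symm⟩

theorem OC_refl_map (R : Refl) {z : Cf} {S : Set P2} {u v : P2}
    (h : OC (fun e => z (R.E e)) S u v) : OC z (R.V ⁻¹' S) (R.V u) (R.V v) := by
  obtain ⟨hu, h⟩ := h
  have hmem : ∀ a, a ∈ S → R.V a ∈ R.V ⁻¹' S := fun a ha => by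
    show R.V (R.V a) ∈ S
    rwa [R.V_invol]
  refine ⟨hmem u hu, ?_⟩
  induction h with
  | refl => exact .refl
  | tail h1 h2 ih => exact ih.tail ⟨pstep_refl R h2.1, hmem _ h2.2.1, hmem _ h2.2.2⟩

theorem EV_refl (R : Refl) (S A B : Set P2) :
    (fun (z : Cf) (e : Edge) => z (R.E e)) ⁻¹' (EV S A B) =
      EV (R.V ⁻¹' S) (R.V ⁻¹' A) (R.V ⁻¹' B) := by
  ext z
  constructor
  · rintro ⟨u, hu, v, hv, h⟩
    refine ⟨R.V u, ?_, R.V v, ?_, OC_refl_map R h⟩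
    · show R.V (R.V u) ∈ A; rwa [R.V_invol]
    · show R.V (R.V v) ∈ B; rwa [R.V_invol]
  · rintro ⟨u, hu, v, hv, h⟩
    refine ⟨R.V u, hu, R.V v, hv, ?_⟩
    have h1 : (fun e => (fun e => z (R.E e)) (R.E e)) = z := by
      funext e
      show z (R.E (R.E e)) = z e
      rw [R.E_invol]
    have h2 := OC_refl_map R (z := fun e => z (R.E e)) (S := R.V ⁻¹' S) (u := u) (v := v) (by
      rw [h1]; exact h)
    have h3 : R.V ⁻¹' (R.V ⁻¹' S) = S := by
      ext w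
      show R.V (R.V w) ∈ S ↔ w ∈ S
      rw [R.V_invol]
    rw [h3] at h2
    exact h2

end Crest.Agent.R161.Tas682
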