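import Crest.Agent.R161.Defs_372
import Crest.Agent.R161.Hts_375

-- ▼ part R161/Ann1_770
section

/-!
# Configurations with boundary heights (helper770, R161 block E)

`ValidB F b ω` : like `Defs372.Valid F ω`, but the non-interior vertices carry the heights `b`.
`confB F b` : the finite set of such configurations, `ZB c F b` the partition function.
`ValidB F 0 = Valid F`, `ZB c F 0 = Z c F`.
-/

set_option autoImplicit false

noncomputable section

namespace Crest.Agent.R161.Ann770

open Finset Crest.Agent.R161.Geo729 Crest.Agent.R161.Defs372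

/-- Valid configurations in `F` with heights `b` on the non-interior vertices. -/
structure ValidB (F : Finset P2) (b : P2 → ℤ) (ω : Cfg) : Prop where
  bdry : ∀ v, v ∉ intVerts F → ω.1 v = b v
  even : ∀ v, Even (ω.1 v)
  off : ∀ f, f ∉ F → ω.2.1 f = 1
  corner : ∀ f, f ∈ F → ∀ v, Geo729.IsCorner v f → |ω.1 v - ω.2.1 f| = 1
  cut : ∀ e, e ∉ intEdges F → ω.2.2 e = true

theorem validB_zero {F : Finset P2} {ω : Cfg} : ValidB F (fun _ => 0) ω ↔ Valid F ω :=
  ⟨fun h => ⟨h.bdry, h.even, h.off, h.corner, h.cut⟩, fun h => ⟨h.zero, h.even, h.off, h.corner, h.cut⟩⟩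

/-- the corners of the faces of `F` -/
def cornV (F : Finset P2) : Finset P2 :=
  F.biUnion fun f => {(f.1, f.2), (f.1 + 1, f.2), (f.1, f.2 + 1), (f.1 + 1, f.2 + 1)}

theorem mem_cornV {F : Finset P2} {v : P2} : v ∈ cornV F ↔ ∃ f ∈ F, Geo729.IsCorner v f := by
  simp only [cornV, Finset.mem_biUnion, Finset.mem_insert, Finset.mem_singleton, Geo729.IsCorner]

/-- size of the boundary heights -/
def bS (F : Finset P2) (b : P2 → ℤ) : ℤ := ∑ v ∈ cornV F, |b v|

theorem bS_nonneg (F : Finset P2) (b : P2 → ℤ) : 0 ≤ bS F b :=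
  Finset.sum_nonneg fun _ _ => abs_nonneg _

theorem abs_le_bS {F : Finset P2} {b : P2 → ℤ} {v : P2} (hv : v ∈ cornV F) : |b v| ≤ bS F b :=
  Finset.single_le_sum (f := fun v => |b v|) (fun _ _ => abs_nonneg _) hv

theorem ValidB.abs_face_le {F : Finset P2} {b : P2 → ℤ} {ω : Cfg} (h : ValidB F b ω) (n : ℕ) :
    ∀ f : P2, (∃ j : ℕ, j < n ∧ (f.1 + j + 1, f.2) ∉ F) → |ω.2.1 f| ≤ 2 * n + 1 + bS F b := by
  induction n with
  | zero => rintro f ⟨j, hj, _⟩; omega
  | succ n ih =>
    rintro f ⟨j, hj, hjF⟩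
    have hS := bS_nonneg F b
    by_cases hf : f ∈ F
    · by_cases h1 : (f.1 + 1, f.2) ∈ F
      · have hj0 : j ≠ 0 := by
          rintro rfl
          apply hjF
          simpa using h1
        have h2 := ih (f.1 + 1, f.2) ⟨j - 1, by omega, by
          have : ((f.1 + 1 : ℤ) + ((j - 1 : ℕ) : ℤ) + 1) = f.1 + j + 1 := by
            have : ((j - 1 : ℕ) : ℤ) = j - 1 := by omega
            rw [this]; ring
          simp only
          rw [this]
          exact hjF⟩
        have h3 := h.corner f hf (f.1 + 1, f.2) (by simp [Geo729.IsCorner])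
        have h4 := h.corner (f.1 + 1, f.2) h1 (f.1 + 1, f.2) (by simp [Geo729.IsCorner])
        push_cast
        rw [abs_le] at *
        rcases abs_eq (by norm_num : (0 : ℤ) ≤ 1) |>.1 h3 with h3 | h3 <;>
        rcases abs_eq (by norm_num : (0 : ℤ) ≤ 1) |>.1 h4 with h4 | h4 <;>
        constructor <;> linarith [h2.1, h2.2]
      · have h3 := h.corner f hf (f.1 + 1, f.2) (by simp [Geo729.IsCorner])
        have h4 : ω.1 (f.1 + 1, f.2) = b (f.1 + 1, f.2) := by
          apply h.bdry
          rw [mem_intVerts]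
          rintro ⟨h5, _⟩
          exact h1 h5
        have h5 : |b (f.1 + 1, f.2)| ≤ bS F b :=
          abs_le_bS (mem_cornV.2 ⟨f, hf, by simp [Geo729.IsCorner]⟩)
        rw [h4] at h3
        push_cast
        rw [abs_le] at *
        rcases abs_eq (by norm_num : (0 : ℤ) ≤ 1) |>.1 h3 with h3 | h3 <;>
        constructor <;> linarith [h5.1, h5.2]
    · rw [h.off f hf, abs_one]
      push_cast
      have : (0 : ℤ) ≤ n := Nat.cast_nonneg n
      linarith

/-- bound for the heights -/
def hbB (F : Finset P2) (b : P2 → ℤ) : ℤ := 2 * (F.card + 1) + 2 + bS F b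

theorem ValidB.abs_face {F : Finset P2} {b : P2 → ℤ} {ω : Cfg} (h : ValidB F b ω) (f : P2) :
    |ω.2.1 f| ≤ hbB F b := by
  have := h.abs_face_le (F.card + 1) f (exists_exit F f)
  unfold hbB
  push_cast at this
  linarith

theorem ValidB.abs_vert {F : Finset P2} {b : P2 → ℤ} {ω : Cfg} (h : ValidB F b ω) {v : P2}
    (hv : v ∈ cornV F) : |ω.1 v| ≤ hbB F b := by
  obtain ⟨f, hf, hvf⟩ := mem_cornV.1 hv
  have h1 := h.abs_face_le (F.card + 1) f (exists_exit F f)
  have h2 := h.corner f hf v hvf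
  unfold hbB
  push_cast at h1 ⊢
  rw [abs_le] at *
  rcases abs_eq (by norm_num : (0 : ℤ) ≤ 1) |>.1 h2 with h2 | h2 <;>
  constructor <;> linarith [h1.1, h1.2]

theorem mem_cornV_of_mem {F : Finset P2} {v : P2} (hv : v ∈ F) : v ∈ cornV F :=
  mem_cornV.2 ⟨v, hv, by simp [Geo729.IsCorner]⟩

theorem finite_validB (F : Finset P2) (b : P2 → ℤ) : {ω : Cfg | ValidB F b ω}.Finite := by
  classical
  let A : Type := (↥F → Set.Icc (-(hbB F b)) (hbB F b)) × (↥F → Set.Icc (-(hbB F b)) (hbB F b)) ×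
    (↥(intEdges F) → Bool)
  have : Finite A := by
    dsimp only [A]
    infer_instance
  let g : {ω : Cfg | ValidB F b ω} → A := fun ω =>
    (fun v => ⟨ω.1.1 v, abs_le.1 (ω.2.abs_vert (mem_cornV_of_mem v.2))⟩,
      fun v => ⟨ω.1.2.1 v, abs_le.1 (ω.2.abs_face v)⟩, fun e => ω.1.2.2 e)
  have hg : Function.Injective g := by
    rintro ⟨ω, hω⟩ ⟨ω', hω'⟩ heq
    have h1 := congrArg Prod.fst heq
    have h2 := congrArg (fun a => a.2.1) heq
    have h3 := congrArg (fun a => a.2.2) heq
    simp only [g] at h1 h2 h3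
    apply Subtype.ext
    refine Prod.ext ?_ (Prod.ext ?_ ?_)
    · funext v
      by_cases hv : v ∈ F
      · exact congrArg Subtype.val (congrFun h1 ⟨v, hv⟩)
      · have hv' : v ∉ intVerts F := fun h => hv (Finset.mem_filter.1 h).1
        show ω.1 v = ω'.1 v
        rw [ValidB.bdry hω v hv', ValidB.bdry hω' v hv']
    · funext v
      by_cases hv : v ∈ F
      · exact congrArg Subtype.val (congrFun h2 ⟨v, hv⟩)
      · show ω.2.1 v = ω'.2.1 v
        rw [ValidB.off hω v hv, ValidB.off hω' v hv]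
    · funext e
      by_cases he : e ∈ intEdges F
      · exact congrFun h3 ⟨e, he⟩
      · show ω.2.2 e = ω'.2.2 e
        rw [ValidB.cut hω e he, ValidB.cut hω' e he]
  exact Finite.of_injective g hg

/-- The finite set of configurations with boundary heights `b`. -/
def confB (F : Finset P2) (b : P2 → ℤ) : Finset Cfg := (finite_validB F b).toFinset

theorem mem_confB {F : Finset P2} {b : P2 → ℤ} {ω : Cfg} : ω ∈ confB F b ↔ ValidB F b ω := by
  simp [confB]

theorem confB_zero (F : Finset P2) : confB F (fun _ => 0) = conf F := by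
  ext ω
  rw [mem_confB, mem_conf, validB_zero]

/-- Partition function with boundary heights `b`. -/
def ZB (c : ℝ) (F : Finset P2) (b : P2 → ℤ) : ℝ := ∑ ω ∈ confB F b, wt c F ω

theorem ZB_zero (c : ℝ) (F : Finset P2) : ZB c F (fun _ => 0) = Z c F := by
  unfold ZB Z
  rw [confB_zero]

theorem ZB_nonneg {c : ℝ} (hc : 1 ≤ c) (F : Finset P2) (b : P2 → ℤ) : 0 ≤ ZB c F b :=
  Finset.sum_nonneg fun ω _ => wt_nonneg hc F ω

/-! ### the shift and the reflection -/

/-- shift of the heights at the vertices and at the faces of `F` -/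
def shB (F : Finset P2) (a : ℤ) (ω : Cfg) : Cfg :=
  (fun v => ω.1 v + a, fun f => if f ∈ F then ω.2.1 f + a else ω.2.1 f, ω.2.2)

theorem ValidB.shift {F : Finset P2} {b : P2 → ℤ} {ω : Cfg} (h : ValidB F b ω) {a : ℤ}
    (ha : Even a) : ValidB F (fun v => b v + a) (shB F a ω) where
  bdry := fun v hv => by
    show ω.1 v + a = b v + a
    rw [h.bdry v hv]
  even := fun v => (h.even v).add ha
  off := fun f hf => by
    show (if f ∈ F then ω.2.1 f + a else ω.2.1 f) = 1
    rw [if_neg hf, h.off f hf]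
  corner := fun f hf v hv => by
    show |ω.1 v + a - (if f ∈ F then ω.2.1 f + a else ω.2.1 f)| = 1
    rw [if_pos hf, add_sub_add_right_eq_sub]
    exact h.corner f hf v hv
  cut := h.cut

theorem shB_shB (F : Finset P2) (a a' : ℤ) (ω : Cfg) : shB F a (shB F a' ω) = shB F (a' + a) ω := by
  unfold shB
  refine Prod.ext ?_ (Prod.ext ?_ rfl)
  · funext v
    show ω.1 v + a' + a = ω.1 v + (a' + a)
    ring
  · funext f
    by_cases hf : f ∈ F
    · simp only [hf, if_true]
      ring
    · simp only [hf, if_false]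

theorem shB_zero (F : Finset P2) (ω : Cfg) : shB F 0 ω = ω := by
  unfold shB
  refine Prod.ext ?_ (Prod.ext ?_ rfl)
  · funext v
    show ω.1 v + 0 = ω.1 v
    ring
  · funext f
    by_cases hf : f ∈ F
    · simp only [hf, if_true, add_zero]
    · simp only [hf, if_false]

theorem wt_shB (c : ℝ) (F : Finset P2) (a : ℤ) (ω : Cfg) : wt c F (shB F a ω) = wt c F ω := by
  unfold wt
  refine Finset.prod_congr rfl fun e he => ?_
  obtain ⟨h1, h2⟩ := mem_intEdges.1 he
  unfold ew shB
  simp only [h1, h2, if_true, add_left_inj]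

theorem ZB_shift (c : ℝ) (F : Finset P2) (b : P2 → ℤ) {a : ℤ} (ha : Even a) :
    ZB c F (fun v => b v + a) = ZB c F b := by
  unfold ZB
  symm
  refine Finset.sum_bij' (fun ω _ => shB F a ω) (fun ω _ => shB F (-a) ω) ?_ ?_ ?_ ?_ ?_
  · intro ω hω
    exact mem_confB.2 ((mem_confB.1 hω).shift ha)
  · intro ω hω
    have := (mem_confB.1 hω).shift (a := -a) ha.neg
    simp only [add_neg_cancel_right] at this
    exact mem_confB.2 this
  · intro ω _
    rw [shB_shB, add_neg_cancel, shB_zero]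
  · intro ω _
    rw [shB_shB, neg_add_cancel, shB_zero]
  · intro ω _
    rw [wt_shB]

/-- reflection of the heights (keeping the canonical values outside `F`) -/
def refB (F : Finset P2) (ω : Cfg) : Cfg :=
  (fun v => -ω.1 v, fun f => if f ∈ F then -ω.2.1 f else ω.2.1 f, ω.2.2)

theorem ValidB.refl {F : Finset P2} {b : P2 → ℤ} {ω : Cfg} (h : ValidB F b ω) :
    ValidB F (fun v => -b v) (refB F ω) where
  bdry := fun v hv => by
    show -ω.1 v = -b v
    rw [h.bdry v hv]
  even := fun v => (h.even v).neg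
  off := fun f hf => by
    show (if f ∈ F then -ω.2.1 f else ω.2.1 f) = 1
    rw [if_neg hf, h.off f hf]
  corner := fun f hf v hv => by
    show |-ω.1 v - (if f ∈ F then -ω.2.1 f else ω.2.1 f)| = 1
    rw [if_pos hf, ← h.corner f hf v hv, ← abs_neg]
    congr 1
    ring
  cut := h.cut

theorem refB_refB (F : Finset P2) (ω : Cfg) : refB F (refB F ω) = ω := by
  unfold refB
  refine Prod.ext ?_ (Prod.ext ?_ rfl)
  · funext v
    show - -ω.1 v = ω.1 v
    ring
  · funext f
    by_cases hf : f ∈ F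
    · simp only [hf, if_true, neg_neg]
    · simp only [hf, if_false]

theorem wt_refB (c : ℝ) (F : Finset P2) (ω : Cfg) : wt c F (refB F ω) = wt c F ω := by
  unfold wt
  refine Finset.prod_congr rfl fun e he => ?_
  obtain ⟨h1, h2⟩ := mem_intEdges.1 he
  unfold ew refB
  simp only [h1, h2, if_true, neg_inj]

theorem ZB_neg (c : ℝ) (F : Finset P2) (b : P2 → ℤ) : ZB c F (fun v => -b v) = ZB c F b := by
  unfold ZB
  symm
  refine Finset.sum_bij' (fun ω _ => refB F ω) (fun ω _ => refB F ω) ?_ ?_ ?_ ?_ ?_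
  · intro ω hω
    exact mem_confB.2 (mem_confB.1 hω).refl
  · intro ω hω
    have := (mem_confB.1 hω).refl
    simp only [neg_neg] at this
    exact mem_confB.2 this
  · intro ω _
    exact refB_refB F ω
  · intro ω _
    exact refB_refB F ω
  · intro ω _
    rw [wt_refB]

/-- only the values of `b` at the corners of `F` matter for the partition function -/
theorem ZB_congr (c : ℝ) (F : Finset P2) {b b' : P2 → ℤ} (hb : ∀ v, Even (b v)) (hb' : ∀ v, Even (b' v))
    (h : ∀ v ∈ cornV F, v ∉ intVerts F → b v = b' v) : ZB c F b = ZB c F b' := by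
  classical
  -- replace the values outside the corners
  let g : (P2 → ℤ) → Cfg → Cfg := fun b ω => (fun v => if v ∈ intVerts F then ω.1 v else b v, ω.2)
  have hg : ∀ b b' : P2 → ℤ, (∀ v, Even (b v)) → (∀ v, Even (b' v)) →
      (∀ v ∈ cornV F, v ∉ intVerts F → b v = b' v) → ∀ ω, ValidB F b ω → ValidB F b' (g b' ω) := by
    intro b b' hb hb' h ω hω
    refine ⟨fun v hv => ?_, fun v => ?_, hω.off, fun f hf v hv => ?_, hω.cut⟩
    · show (if v ∈ intVerts F then ω.1 v else b' v) = b' v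
      rw [if_neg hv]
    · show Even (if v ∈ intVerts F then ω.1 v else b' v)
      split_ifs
      · exact hω.even v
      · exact hb' v
    · show |(if v ∈ intVerts F then ω.1 v else b' v) - ω.2.1 f| = 1
      by_cases hvi : v ∈ intVerts F
      · rw [if_pos hvi]; exact hω.corner f hf v hv
      · rw [if_neg hvi, ← h v (mem_cornV.2 ⟨f, hf, hv⟩) hvi, ← hω.bdry v hvi]
        exact hω.corner f hf v hv
  have hwt : ∀ b b' : P2 → ℤ, (∀ v ∈ cornV F, v ∉ intVerts F → b v = b' v) → ∀ ω, ValidB F b ω →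
      wt c F (g b' ω) = wt c F ω := by
    intro b b' h ω hω
    have key : ∀ v ∈ cornV F, (g b' ω).1 v = ω.1 v := by
      intro v hv
      show (if v ∈ intVerts F then ω.1 v else b' v) = ω.1 v
      by_cases hvi : v ∈ intVerts F
      · rw [if_pos hvi]
      · rw [if_neg hvi, hω.bdry v hvi, h v hv hvi]
    unfold wt
    refine Finset.prod_congr rfl fun e he => ?_
    obtain ⟨h1, h2⟩ := mem_intEdges.1 he
    have hs : src e ∈ cornV F := mem_cornV.2 ⟨fA e, h1, by
      obtain ⟨v, b⟩ := e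
      simp [Geo729.IsCorner]⟩
    have ht : tgt e ∈ cornV F := mem_cornV.2 ⟨fA e, h1, by
      obtain ⟨v, b⟩ := e
      cases b <;> simp [Geo729.IsCorner]⟩
    unfold ew
    rw [key _ hs, key _ ht]
  unfold ZB
  refine Finset.sum_bij' (fun ω _ => g b' ω) (fun ω _ => g b ω) ?_ ?_ ?_ ?_ ?_
  · intro ω hω
    exact mem_confB.2 (hg b b' hb hb' h ω (mem_confB.1 hω))
  · intro ω hω
    exact mem_confB.2 (hg b' b hb' hb (fun v hv hvi => (h v hv hvi).symm) ω (mem_confB.1 hω))
  · intro ω hω
    refine Prod.ext ?_ rfl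
    funext v
    show (if v ∈ intVerts F then (if v ∈ intVerts F then ω.1 v else b' v) else b v) = ω.1 v
    by_cases hvi : v ∈ intVerts F
    · rw [if_pos hvi, if_pos hvi]
    · rw [if_neg hvi, (mem_confB.1 hω).bdry v hvi]
  · intro ω hω
    refine Prod.ext ?_ rfl
    funext v
    show (if v ∈ intVerts F then (if v ∈ intVerts F then ω.1 v else b v) else b' v) = ω.1 v
    by_cases hvi : v ∈ intVerts F
    · rw [if_pos hvi, if_pos hvi]
    · rw [if_neg hvi, (mem_confB.1 hω).bdry v hvi]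
  · intro ω hω
    exact (hwt b b' h ω (mem_confB.1 hω)).symm

end Crest.Agent.R161.Ann770
end
end

-- ▼ part R161/Ann2_770

/-!
# Summation over the cut variables; the abstract geometry of a face set (helper770, R161 block E)

* `HB F b` : height parts `(k, h)` of the configurations of `confB F b`;
  `ZB_eq_sum_HB : ZB c F b = ∑_{(k,h)} ∏_e (c if both diagonals agree, else 1)`.
* `geo F β` : helper375's `Geo` with vertex sites `intVerts F ⊕ B`, where `β : P2 → B` sends every
  non-interior vertex to its boundary class.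
* `ZB_eq_geo : ZB c F (q ∘ β) = ∑ over h in the box [-N,N] with h = q on the classes of (geo F β).W`.
-/

set_option autoImplicit false

noncomputable section

namespace Crest.Agent.R161.Ann770

open Finset Crest.Agent.R161.Geo729 Crest.Agent.R161.Defs372 Crest.Agent.R161.Hts375

/-- weight of an edge after summation over the cut variable -/
def pw (c : ℝ) (k h : P2 → ℤ) (e : Edge) : ℝ :=
  if k (src e) = k (tgt e) ∧ h (fA e) = h (fB e) then c else 1

/-- height parts of the configurations -/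
def HB (F : Finset P2) (b : P2 → ℤ) : Finset ((P2 → ℤ) × (P2 → ℤ)) := by
  classical exact (confB F b).image fun ω => (ω.1, ω.2.1)

/-- validity of the height part -/
structure ValidH (F : Finset P2) (b : P2 → ℤ) (w : (P2 → ℤ) × (P2 → ℤ)) : Prop where
  bdry : ∀ v, v ∉ intVerts F → w.1 v = b v
  even : ∀ v, Even (w.1 v)
  off : ∀ f, f ∉ F → w.2 f = 1
  corner : ∀ f, f ∈ F → ∀ v, Geo729.IsCorner v f → |w.1 v - w.2 f| = 1

theorem mem_HB {F : Finset P2} {b : P2 → ℤ} {w : (P2 → ℤ) × (P2 → ℤ)} :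
    w ∈ HB F b ↔ ValidH F b w := by
  classical
  unfold HB
  rw [Finset.mem_image]
  constructor
  · rintro ⟨ω, hω, rfl⟩
    obtain ⟨h1, h2, h3, h4, _⟩ := mem_confB.1 hω
    exact ⟨h1, h2, h3, h4⟩
  · intro h
    exact ⟨(w.1, w.2, fun _ => true), mem_confB.2 ⟨h.bdry, h.even, h.off, h.corner, fun _ _ => rfl⟩, rfl⟩

theorem isCorner_src_fA (e : Edge) : Geo729.IsCorner (src e) (fA e) := by
  obtain ⟨v, b⟩ := e
  simp [Geo729.IsCorner]

theorem isCorner_tgt_fA (e : Edge) : Geo729.IsCorner (tgt e) (fA e) := by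
  obtain ⟨v, b⟩ := e
  cases b <;> simp [Geo729.IsCorner]

theorem isCorner_src_fB (e : Edge) : Geo729.IsCorner (src e) (fB e) := by
  obtain ⟨v, b⟩ := e
  cases b <;> simp [Geo729.IsCorner]

theorem isCorner_tgt_fB (e : Edge) : Geo729.IsCorner (tgt e) (fB e) := by
  obtain ⟨v, b⟩ := e
  cases b <;> simp [Geo729.IsCorner]

theorem ew_add (c : ℝ) {F : Finset P2} {b : P2 → ℤ} {k h : P2 → ℤ} (hv : ValidH F b (k, h))
    {e : Edge} (he : e ∈ intEdges F) (z z' : Edge → Bool) (hz : z e = true) (hz' : z' e = false) :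
    ew c (k, h, z) e + ew c (k, h, z') e = pw c k h e := by
  obtain ⟨h1, h2⟩ := mem_intEdges.1 he
  have a1 := hv.corner _ h1 _ (isCorner_src_fA e)
  have a2 := hv.corner _ h1 _ (isCorner_tgt_fA e)
  have a3 := hv.corner _ h2 _ (isCorner_src_fB e)
  have a4 := hv.corner _ h2 _ (isCorner_tgt_fB e)
  unfold ew pw
  simp only [hz, hz', if_true] at a1 a2 a3 a4 ⊢
  by_cases hk : k (src e) = k (tgt e)
  · by_cases hh : h (fA e) = h (fB e)
    · simp [hk, hh]
    · simp [hk, hh]
  · have hh : h (fA e) = h (fB e) := by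
      rw [abs_eq (by norm_num)] at a1 a2 a3 a4
      omega
    simp [hk, hh]

theorem ZB_eq_sum_HB (c : ℝ) (F : Finset P2) (b : P2 → ℤ) :
    ZB c F b = ∑ w ∈ HB F b, ∏ e ∈ intEdges F, pw c w.1 w.2 e := by
  classical
  have key : ∀ w ∈ HB F b, ∏ e ∈ intEdges F, pw c w.1 w.2 e =
      ∑ S ∈ (intEdges F).powerset, wt c F (w.1, w.2, fun e => decide (e ∉ S)) := by
    intro w hw
    have hv := mem_HB.1 hw
    have : ∏ e ∈ intEdges F, pw c w.1 w.2 e = ∏ e ∈ intEdges F,
        (ew c (w.1, w.2, fun _ => false) e + ew c (w.1, w.2, fun _ => true) e) := by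
      refine Finset.prod_congr rfl fun e he => ?_
      rw [add_comm, ew_add c (b := b) (F := F) hv he (fun _ => true) (fun _ => false) rfl rfl]
    rw [this, Finset.prod_add]
    refine Finset.sum_congr rfl fun S hS => ?_
    rw [Finset.mem_powerset] at hS
    unfold wt
    rw [← Finset.prod_sdiff hS, mul_comm]
    congr 1
    · refine Finset.prod_congr rfl fun e he => ?_
      have : e ∉ S := (Finset.mem_sdiff.1 he).2
      unfold ew
      simp [this]
    · refine Finset.prod_congr rfl fun e he => ?_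
      unfold ew
      simp [he]
  rw [Finset.sum_congr rfl key, ← Finset.sum_product']
  unfold ZB
  refine Finset.sum_bij' (fun ω _ => ((ω.1, ω.2.1), (intEdges F).filter fun e => ω.2.2 e = false))
    (fun p _ => (p.1.1, p.1.2, fun e => decide (e ∉ p.2))) ?_ ?_ ?_ ?_ ?_
  · intro ω hω
    rw [Finset.mem_product]
    obtain ⟨h1, h2, h3, h4, _⟩ := mem_confB.1 hω
    exact ⟨mem_HB.2 ⟨h1, h2, h3, h4⟩, Finset.mem_powerset.2 (Finset.filter_subset _ _)⟩
  · rintro ⟨w, S⟩ hp
    rw [Finset.mem_product] at hp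
    obtain ⟨h1, h2, h3, h4⟩ := mem_HB.1 hp.1
    refine mem_confB.2 ⟨h1, h2, h3, h4, fun e he => ?_⟩
    have : e ∉ S := fun h => he (Finset.mem_powerset.1 hp.2 h)
    simp [this]
  · intro ω hω
    have hc := (mem_confB.1 hω).cut
    refine Prod.ext rfl (Prod.ext rfl ?_)
    funext e
    by_cases he : e ∈ intEdges F
    · cases hz : ω.2.2 e
      · simp [he, hz]
      · simp [he, hz]
    · simp [he, hc e he]
  · rintro ⟨w, S⟩ hp
    rw [Finset.mem_product] at hp
    refine Prod.ext rfl ?_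
    ext e
    simp only [Finset.mem_filter, decide_eq_false_iff_not, not_not]
    exact ⟨fun h => h.2, fun h => ⟨Finset.mem_powerset.1 hp.2 h, h⟩⟩
  · intro ω hω
    have hc := (mem_confB.1 hω).cut
    congr 1
    refine Prod.ext rfl (Prod.ext rfl ?_)
    funext e
    by_cases he : e ∈ intEdges F
    · cases hz : ω.2.2 e
      · simp [he, hz]
      · simp [he, hz]
    · simp [he, hc e he]

/-! ### the abstract geometry -/

section geo

variable {B : Type} (F : Finset P2) (β : P2 → B)

/-- site of a vertex -/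
def vm (v : P2) : ↥(intVerts F) ⊕ B := if h : v ∈ intVerts F then Sum.inl ⟨v, h⟩ else Sum.inr (β v)

theorem vm_of_mem {v : P2} (h : v ∈ intVerts F) : vm F β v = Sum.inl ⟨v, h⟩ := dif_pos h
theorem vm_of_not_mem {v : P2} (h : v ∉ intVerts F) : vm F β v = Sum.inr (β v) := dif_neg h

/-- helper375's geometry attached to a face set and boundary classes -/
def geo : Geo (↥(intVerts F) ⊕ B) ↥F ↥(intEdges F) where
  inc v f := ∃ u, Geo729.IsCorner u f.1 ∧ vm F β u = v
  v₁ e := vm F β (src e)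
  v₂ e := vm F β (tgt e)
  f₁ e := ⟨fA e, (mem_intEdges.1 e.2).1⟩
  f₂ e := ⟨fB e, (mem_intEdges.1 e.2).2⟩
  inc₁₁ e := ⟨_, isCorner_src_fA e, rfl⟩
  inc₁₂ e := ⟨_, isCorner_src_fB e, rfl⟩
  inc₂₁ e := ⟨_, isCorner_tgt_fA e, rfl⟩
  inc₂₂ e := ⟨_, isCorner_tgt_fB e, rfl⟩

/-- from abstract heights to height functions -/
def toH (h : (↥(intVerts F) ⊕ B) ⊕ ↥F → ℤ) : (P2 → ℤ) × (P2 → ℤ) :=
  (fun v => h (Sum.inl (vm F β v)), fun f => if hf : f ∈ F then h (Sum.inr ⟨f, hf⟩) else 1)

/-- from height functions to abstract heights -/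
def ofH (q : B → ℤ) (w : (P2 → ℤ) × (P2 → ℤ)) : (↥(intVerts F) ⊕ B) ⊕ ↥F → ℤ :=
  Sum.elim (Sum.elim (fun v => w.1 v.1) q) (fun f => w.2 f.1)

variable [Fintype B] [DecidableEq B]

open Classical in
/-- the abstract partition function, classes pinned at `q`, box of size `N` -/
def gZ (c : ℝ) (N : ℤ) (q : B → ℤ) : ℝ :=
  ∑ h ∈ (Finset.Icc (fun _ => -N) (fun _ => N) : Finset ((↥(intVerts F) ⊕ B) ⊕ ↥F → ℤ)).filter
    (fun h => ∀ x, h (Sum.inl (Sum.inr x)) = q x), (geo F β).W (fun _ => c) h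

theorem ZB_eq_geo (c : ℝ) (q : B → ℤ) (hq : ∀ x, Even (q x)) (N : ℤ)
    (hN : hbB F (fun v => q (β v)) ≤ N) (hqN : ∀ x, |q x| ≤ N) :
    ZB c F (fun v => q (β v)) = gZ F β c N q := by
  classical
  unfold gZ
  rw [ZB_eq_sum_HB]
  have h1 : ∀ h : (↥(intVerts F) ⊕ B) ⊕ ↥F → ℤ, (geo F β).W (fun _ => c) h =
      if (geo F β).Valid h then ∏ p, (geo F β).wp (fun _ => c) h p else 0 := fun h => by
    unfold Geo.W
    congr
  simp only [h1]
  rw [← Finset.sum_filter]
  refine Finset.sum_bij' (fun w _ => ofH F q w) (fun h _ => toH F β h) ?_ ?_ ?_ ?_ ?_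
  · intro w hw
    have hv := mem_HB.1 hw
    have hω : ValidB F (fun v => q (β v)) (w.1, w.2, fun _ => true) :=
      ⟨hv.bdry, hv.even, hv.off, hv.corner, fun _ _ => rfl⟩
    have key : ∀ u, (ofH F q w) (Sum.inl (vm F β u)) = w.1 u := by
      intro u
      by_cases hu : u ∈ intVerts F
      · rw [vm_of_mem F β hu]; rfl
      · rw [vm_of_not_mem F β hu, hv.bdry u hu]; rfl
    rw [Finset.mem_filter, Finset.mem_filter, Finset.mem_Icc]
    have hb : ∀ x, |ofH F q w x| ≤ N := by
      intro x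
      rcases x with (x | x) | x
      · exact (hω.abs_vert (mem_cornV_of_mem (Finset.mem_filter.1 x.2).1)).trans hN
      · exact hqN x
      · exact (hω.abs_face x.1).trans hN
    refine ⟨⟨⟨fun x => (abs_le.1 (hb x)).1, fun x => (abs_le.1 (hb x)).2⟩, fun x => rfl⟩, ?_, ?_, ?_⟩
    · rintro (x | x)
      · exact hv.even _
      · exact hq x
    · intro f
      have h2 := hv.corner f.1 f.2 f.1 (by simp [Geo729.IsCorner])
      have h3 := hv.even f.1
      show Odd (w.2 f.1)
      rw [abs_eq (by norm_num)] at h2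
      obtain ⟨r, hr⟩ := h3
      rcases h2 with h2 | h2
      · exact ⟨r - 1, by omega⟩
      · exact ⟨r, by omega⟩
    · rintro v f ⟨u, hu, rfl⟩
      rw [key]
      exact hv.corner f.1 f.2 u hu
  · intro h hh
    rw [Finset.mem_filter, Finset.mem_filter] at hh
    obtain ⟨⟨_, h2⟩, h3, h4, h5⟩ := hh
    refine mem_HB.2 ⟨fun v hv => ?_, fun v => h3 _, fun f hf => ?_, fun f hf v hv => ?_⟩
    · show h (Sum.inl (vm F β v)) = q (β v)
      rw [vm_of_not_mem F β hv, h2]
    · show (if hf : f ∈ F then h (Sum.inr ⟨f, hf⟩) else 1) = 1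
      rw [dif_neg hf]
    · show |h (Sum.inl (vm F β v)) - (if hf : f ∈ F then h (Sum.inr ⟨f, hf⟩) else 1)| = 1
      rw [dif_pos hf]
      exact h5 _ _ ⟨v, hv, rfl⟩
  · intro w hw
    have hv := mem_HB.1 hw
    refine Prod.ext ?_ ?_
    · funext u
      show (ofH F q w) (Sum.inl (vm F β u)) = w.1 u
      by_cases hu : u ∈ intVerts F
      · rw [vm_of_mem F β hu]; rfl
      · rw [vm_of_not_mem F β hu, hv.bdry u hu]; rfl
    · funext f
      show (if hf : f ∈ F then ofH F q w (Sum.inr ⟨f, hf⟩) else 1) = w.2 f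
      by_cases hf : f ∈ F
      · rw [dif_pos hf]; rfl
      · rw [dif_neg hf, hv.off f hf]
  · intro h hh
    rw [Finset.mem_filter, Finset.mem_filter] at hh
    obtain ⟨⟨_, h2⟩, _⟩ := hh
    funext x
    rcases x with (x | x) | x
    · show h (Sum.inl (vm F β x.1)) = h (Sum.inl (Sum.inl x))
      rw [vm_of_mem F β x.2]
    · exact (h2 x).symm
    · show (if hf : x.1 ∈ F then h (Sum.inr ⟨x.1, hf⟩) else 1) = h (Sum.inr x)
      rw [dif_pos x.2]
  · intro w hw
    have hv := mem_HB.1 hw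
    have key : ∀ u, (ofH F q w) (Sum.inl (vm F β u)) = w.1 u := by
      intro u
      by_cases hu : u ∈ intVerts F
      · rw [vm_of_mem F β hu]; rfl
      · rw [vm_of_not_mem F β hu, hv.bdry u hu]; rfl
    rw [← Finset.prod_coe_sort]
    refine Finset.prod_congr rfl fun e _ => ?_
    unfold Geo.wp pw
    have : (geo F β).Flat (ofH F q w) e ↔ w.1 (src e.1) = w.1 (tgt e.1) ∧ w.2 (fA e.1) = w.2 (fB e.1) := by
      unfold Geo.Flat
      show (ofH F q w) (Sum.inl (vm F β (src e.1))) = (ofH F q w) (Sum.inl (vm F β (tgt e.1))) ∧ _ ↔ _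
      rw [key, key]
      rfl
    by_cases hfl : w.1 (src e.1) = w.1 (tgt e.1) ∧ w.2 (fA e.1) = w.2 (fB e.1)
    · rw [if_pos hfl, if_pos (this.2 hfl)]
    · rw [if_neg hfl, if_neg (fun h => hfl (this.1 h))]

end geo

end Crest.Agent.R161.Ann770
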