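import Mathlib.Analysis.InnerProductSpace.Basic
import Mathlib.Algebra.BigOperators.Ring.Finset
import Mathlib.Analysis.SpecialFunctions.Pow.Real

/-!
R161, STEP 5: reflection positivity of finite-volume pair models (helper695), abstract part.

`X` = configurations of the closed right half (including the reflection line and including any
auxiliary variables `ζ` of plaquettes strictly inside the half), `m : X → M` the restriction to the
line.  A configuration of the symmetric domain is a pair `(x, y)` with `m x = m y` (`x` = reflected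
left half, `y` = right half); its weight is `w x * w y * ∏_p k p x y`, `p` running over the
plaquettes centred on the line, each `k p` a positive kernel on every fibre of `m`:
`k p x y = ∑_a φ p a x * φ p a y` whenever `m x = m y`.
-/

set_option autoImplicit false

namespace Crest.Agent.R161.RPfin695

open scoped BigOperators ComplexConjugate

/-- kernels which are a finite sum of products on the fibres of `m` -/
def PosKer {X M : Type*} (m : X → M) (k : X → X → ℝ) : Prop :=
  ∃ (ι : Type) (_ : Fintype ι) (φ : ι → X → ℝ), ∀ x y, m x = m y → k x y = ∑ a, φ a x * φ a y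

section posker

variable {X M : Type*} {m : X → M}

lemma PosKer.one : PosKer m (fun _ _ => 1) :=
  ⟨Unit, inferInstance, fun _ _ => 1, fun _ _ _ => by simp⟩

lemma PosKer.const {r : ℝ} (hr : 0 ≤ r) : PosKer m (fun _ _ => r) :=
  ⟨Unit, inferInstance, fun _ _ => √r, fun _ _ _ => by simp [Real.mul_self_sqrt hr]⟩

lemma PosKer.rankOne (f : X → ℝ) : PosKer m (fun x y => f x * f y) :=
  ⟨Unit, inferInstance, fun _ x => f x, fun _ _ _ => by simp⟩

lemma PosKer.congr {k k' : X → X → ℝ} (h : PosKer m k) (e : ∀ x y, m x = m y → k' x y = k x y) :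
    PosKer m k' := by
  obtain ⟨ι, _, φ, hφ⟩ := h
  exact ⟨ι, inferInstance, φ, fun x y hxy => (e x y hxy).trans (hφ x y hxy)⟩

lemma PosKer.add {k k' : X → X → ℝ} (h : PosKer m k) (h' : PosKer m k') :
    PosKer m (fun x y => k x y + k' x y) := by
  obtain ⟨ι, _, φ, hφ⟩ := h
  obtain ⟨ι', _, φ', hφ'⟩ := h'
  refine ⟨ι ⊕ ι', inferInstance, Sum.elim φ φ', fun x y hxy => ?_⟩
  rw [Fintype.sum_sum_type]
  simp [hφ x y hxy, hφ' x y hxy]

lemma PosKer.mul {k k' : X → X → ℝ} (h : PosKer m k) (h' : PosKer m k') :
    PosKer m (fun x y => k x y * k' x y) := by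
  obtain ⟨ι, _, φ, hφ⟩ := h
  obtain ⟨ι', _, φ', hφ'⟩ := h'
  refine ⟨ι × ι', inferInstance, fun a x => φ a.1 x * φ' a.2 x, fun x y hxy => ?_⟩
  rw [Fintype.sum_prod_type]
  simp only
  rw [hφ x y hxy, hφ' x y hxy, Finset.sum_mul_sum]
  exact Finset.sum_congr rfl fun a _ => Finset.sum_congr rfl fun b _ => by ring

lemma PosKer.smul {k : X → X → ℝ} (h : PosKer m k) {r : ℝ} (hr : 0 ≤ r) :
    PosKer m (fun x y => r * k x y) :=
  (PosKer.const hr).mul h

lemma PosKer.prod {P : Type*} (s : Finset P) {k : P → X → X → ℝ} (h : ∀ p ∈ s, PosKer m (k p)) :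
    PosKer m (fun x y => ∏ p ∈ s, k p x y) := by
  classical
  induction s using Finset.induction_on with
  | empty => simpa using PosKer.one
  | insert p s hp ih =>
    have h1 := (h p (Finset.mem_insert_self p s)).mul
      (ih fun q hq => h q (Finset.mem_insert_of_mem hq))
    refine h1.congr fun x y _ => ?_
    rw [Finset.prod_insert hp]

/-- nonnegative functions of the fibre -/
lemma PosKer.fiber (g : M → ℝ) (hg : ∀ μ, 0 ≤ g μ) : PosKer m (fun x _ => g (m x)) :=
  (PosKer.rankOne (m := m) fun x => √(g (m x))).congr fun x y hxy => by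
    rw [← hxy, Real.mul_self_sqrt (hg _)]

/-- equality kernel of a function with finitely many values -/
lemma PosKer.eqKer {A : Type*} [DecidableEq A] (f : X → A) (s : Finset A) (hs : ∀ x, f x ∈ s) :
    PosKer m (fun x y => if f x = f y then 1 else 0) := by
  classical
  refine ⟨Fin s.card, inferInstance,
    fun a x => if f x = (s.equivFin.symm a : A) then 1 else 0, fun x y _ => ?_⟩
  by_cases hxy : f x = f y
  · rw [Finset.sum_eq_single (s.equivFin ⟨f x, hs x⟩)]
    · simp [hxy]
    · intro b _ hb
      have : f x ≠ (s.equivFin.symm b : A) := by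
        intro h
        apply hb
        have : s.equivFin.symm b = ⟨f x, hs x⟩ := Subtype.ext h.symm
        rw [← this]
        simp
      simp [this]
    · simp
  · simp only [if_neg hxy]
    symm
    refine Finset.sum_eq_zero fun a _ => ?_
    by_cases h1 : f x = (s.equivFin.symm a : A)
    · have h2 : f y ≠ (s.equivFin.symm a : A) := fun h => hxy (h1.trans h.symm)
      simp [h2]
    · simp [h1]


end posker

/-- **Finite-volume reflection positivity.** -/
theorem rp_nonneg {X M : Type*} [Fintype X] [DecidableEq M] (m : X → M) (w : X → ℝ)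
    (k : X → X → ℝ) (hk : PosKer m k) (F : X → ℂ) :
    ∃ r : ℝ, 0 ≤ r ∧ (∑ x, ∑ y, if m x = m y then
      ((w x * w y * k x y : ℝ) : ℂ) * (conj (F x) * F y) else 0) = (r : ℂ) := by
  classical
  obtain ⟨ι, _, φ, hφ⟩ := hk
  let G : M → ι → ℂ := fun μ a => ∑ x, if m x = μ then ((w x * φ a x : ℝ) : ℂ) * F x else 0
  refine ⟨∑ μ ∈ Finset.univ.image m, ∑ a, ‖G μ a‖ ^ 2,
    Finset.sum_nonneg fun _ _ => Finset.sum_nonneg fun _ _ => sq_nonneg _, ?_⟩
  have h1 : ∀ x y, (if m x = m y then
      ((w x * w y * k x y : ℝ) : ℂ) * (conj (F x) * F y) else 0)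
      = ∑ μ ∈ Finset.univ.image m, ∑ a,
        (if m x = μ then ((w x * φ a x : ℝ) : ℂ) * conj (F x) else 0) *
        (if m y = μ then ((w y * φ a y : ℝ) : ℂ) * F y else 0) := by
    intro x y
    rw [Finset.sum_eq_single (m x)]
    · by_cases hxy : m x = m y
      · simp only [hxy, if_true]
        rw [hφ x y hxy]
        push_cast
        rw [Finset.mul_sum, Finset.sum_mul]
        exact Finset.sum_congr rfl fun a _ => by ring
      · have : ¬ m y = m x := fun h => hxy h.symm
        simp [hxy, this]
    · intro μ _ hμ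
      simp [Ne.symm hμ]
    · intro h
      exact absurd (Finset.mem_image_of_mem m (Finset.mem_univ x)) h
  calc (∑ x, ∑ y, if m x = m y then
        ((w x * w y * k x y : ℝ) : ℂ) * (conj (F x) * F y) else 0)
      = ∑ μ ∈ Finset.univ.image m, ∑ a, (∑ x, (if m x = μ then
          ((w x * φ a x : ℝ) : ℂ) * conj (F x) else 0)) *
          (∑ y, (if m y = μ then ((w y * φ a y : ℝ) : ℂ) * F y else 0)) := by
        simp_rw [h1]
        simp_rw [Finset.sum_mul_sum]
        rw [Finset.sum_congr rfl fun x _ => Finset.sum_comm]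
        rw [Finset.sum_comm]
        refine Finset.sum_congr rfl fun μ _ => ?_
        rw [Finset.sum_congr rfl fun x _ => Finset.sum_comm]
        rw [Finset.sum_comm]
    _ = ((∑ μ ∈ Finset.univ.image m, ∑ a, ‖G μ a‖ ^ 2 : ℝ) : ℂ) := by
        rw [Complex.ofReal_sum]
        refine Finset.sum_congr rfl fun μ _ => ?_
        rw [Complex.ofReal_sum]
        refine Finset.sum_congr rfl fun a _ => ?_
        have e : (∑ x, (if m x = μ then ((w x * φ a x : ℝ) : ℂ) * conj (F x) else 0))
            = conj (G μ a) := by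
          simp only [G, map_sum]
          refine Finset.sum_congr rfl fun x _ => ?_
          split_ifs <;> simp
        rw [e, mul_comm]
        change G μ a * conj (G μ a) = _
        rw [Complex.mul_conj, Complex.normSq_eq_norm_sq]

end Crest.Agent.R161.RPfin695
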