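import Crest.Agent.R161.BdI_228
import Crest.Agent.R161.Dmp_341
import Crest.Agent.R161.Rect_597

/-!
# Row 161, block H-c: arcs near the boundary (helper389)

* `arc_zero` : if the cut edges separate `ball x n` from the complement of `ball x m` and `ball x n`
  contains a face outside the simply connected domain `F`, then for every exploration from the complement
  of `U ⊇ ball x m`, the unexplored component of every face of `ball x n` has height `0` on its whole
  boundary.
* `prob_no_arc` : the probability that none of `J` concentric annuli carries a plus-cut circuit is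
  `≤ (1-q)^J` (iterating `UnifCirc`).
-/

set_option autoImplicit false

noncomputable section

namespace Crest.Agent.R161.Arc389

open Finset hiding box
open Crest.Agent.R161.Geo729 Crest.Agent.R161.Defs372 Crest.Agent.R161.Dual374
open Crest.Agent.R161.Hull374 Crest.Agent.R161.Ifc372

/-! ### balls -/

theorem mem_ball {x f : P2} {n : ℕ} : f ∈ ball x n ↔
    x.1 - n ≤ f.1 ∧ f.1 < x.1 + n ∧ x.2 - n ≤ f.2 ∧ f.2 < x.2 + n := by
  simp only [ball, Finset.mem_product, Finset.mem_Icc]
  constructor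
  · rintro ⟨⟨h1, h2⟩, h3, h4⟩
    exact ⟨h1, by omega, h3, by omega⟩
  · rintro ⟨h1, h2, h3, h4⟩
    exact ⟨⟨h1, by omega⟩, h3, by omega⟩

theorem ball_mono {x : P2} {n m : ℕ} (h : n ≤ m) : ball x n ⊆ ball x m := by
  intro f hf
  rw [mem_ball] at hf ⊢
  have : (n : ℤ) ≤ m := by exact_mod_cast h
  omega

theorem self_mem_ball {x : P2} {n : ℕ} (h : 0 < n) : x ∈ ball x n := by
  rw [mem_ball]
  have : (0 : ℤ) < n := by exact_mod_cast h
  omega

/-! ### connectedness of rectangles -/

/-- horizontal segments are connected -/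
theorem conn_hor {S : Set P2} {j : ℤ} (n : ℕ) : ∀ a : ℤ, (∀ i, a ≤ i → i ≤ a + n → (i, j) ∈ S) →
    Conn S (a, j) (a + n, j) := by
  induction n with
  | zero =>
    intro a _
    have : Conn S (a, j) (a, j) := Relation.ReflTransGen.refl
    simpa using this
  | succ n ih =>
    intro a h
    refine Relation.ReflTransGen.tail (ih a fun i h1 h2 => h i h1 (by push_cast; omega)) ?_
    refine ⟨h _ (by omega) (by push_cast; omega), h _ (by push_cast; omega) le_rfl, ?_⟩
    left
    simp only [Prod.mk.injEq]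
    push_cast
    exact ⟨by ring, trivial⟩

theorem conn_hor' {S : Set P2} {j a b : ℤ} (h : ∀ i, min a b ≤ i → i ≤ max a b → (i, j) ∈ S) :
    Conn S (a, j) (b, j) := by
  rcases le_total a b with hab | hab
  · have := conn_hor (S := S) (j := j) (b - a).toNat a (fun i h1 h2 => h i (by omega) (by omega))
    rwa [show a + ((b - a).toNat : ℤ) = b by omega] at this
  · have := conn_hor (S := S) (j := j) (a - b).toNat b (fun i h1 h2 => h i (by omega) (by omega))
    rw [show b + ((a - b).toNat : ℤ) = a by omega] at this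
    exact this.symm

/-- vertical segments are connected -/
theorem conn_ver {S : Set P2} {i : ℤ} (n : ℕ) : ∀ a : ℤ, (∀ j, a ≤ j → j ≤ a + n → (i, j) ∈ S) →
    Conn S (i, a) (i, a + n) := by
  induction n with
  | zero =>
    intro a _
    have : Conn S (i, a) (i, a) := Relation.ReflTransGen.refl
    simpa using this
  | succ n ih =>
    intro a h
    refine Relation.ReflTransGen.tail (ih a fun i h1 h2 => h i h1 (by push_cast; omega)) ?_
    refine ⟨h _ (by omega) (by push_cast; omega), h _ (by push_cast; omega) le_rfl, ?_⟩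
    right; right; left
    simp only [Prod.mk.injEq]
    push_cast
    exact ⟨trivial, by ring⟩

theorem conn_ver' {S : Set P2} {i a b : ℤ} (h : ∀ j, min a b ≤ j → j ≤ max a b → (i, j) ∈ S) :
    Conn S (i, a) (i, b) := by
  rcases le_total a b with hab | hab
  · have := conn_ver (S := S) (i := i) (b - a).toNat a (fun i h1 h2 => h i (by omega) (by omega))
    rwa [show a + ((b - a).toNat : ℤ) = b by omega] at this
  · have := conn_ver (S := S) (i := i) (a - b).toNat b (fun i h1 h2 => h i (by omega) (by omega))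
    rw [show b + ((a - b).toNat : ℤ) = a by omega] at this
    exact this.symm

/-- connectedness through an L-shaped path inside a rectangle -/
theorem conn_rect {S : Set P2} {a b : P2}
    (h : ∀ i j, min a.1 b.1 ≤ i → i ≤ max a.1 b.1 → min a.2 b.2 ≤ j → j ≤ max a.2 b.2 → (i, j) ∈ S) :
    Conn S a b := by
  obtain ⟨a1, a2⟩ := a
  obtain ⟨b1, b2⟩ := b
  simp only at h
  have h1 : Conn S (a1, a2) (b1, a2) :=
    conn_hor' fun i h1 h2 => h i a2 h1 h2 (min_le_left _ _) (le_max_left _ _)
  have h2 : Conn S (b1, a2) (b1, b2) :=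
    conn_ver' fun j h1 h2 => h b1 j (min_le_right _ _) (le_max_right _ _) h1 h2
  exact h1.trans h2

theorem isConn_ball (x : P2) (n : ℕ) : IsConn (ball x n : Set P2) := by
  intro f hf g hg
  refine conn_rect fun i j h1 h2 h3 h4 => ?_
  have hf' := mem_ball.1 (Finset.mem_coe.1 hf)
  have hg' := mem_ball.1 (Finset.mem_coe.1 hg)
  refine Finset.mem_coe.2 (mem_ball.2 ?_)
  simp only
  omega

/-! ### Reach and Circ -/


theorem reach_anti {Z Z' : Edge → Prop} {A : Set P2} (h : ∀ e, Z e → Z' e) :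
    Reach Z' A ⊆ Reach Z A := by
  rintro f ⟨a, ha, hp⟩
  refine ⟨a, ha, ?_⟩
  induction hp with
  | refl => exact .refl
  | tail _ h2 ih =>
    obtain ⟨e, he, h1⟩ := h2
    exact ih.tail ⟨e, fun h2 => he (h e h2), h1⟩

theorem dpath_symm {Z : Edge → Prop} {a b : P2} (h : Relation.ReflTransGen (DStep Z) a b) :
    Relation.ReflTransGen (DStep Z) b a := by
  induction h with
  | refl => exact .refl
  | tail _ h2 ih => exact Relation.ReflTransGen.head h2.symm ih

theorem reach_symm {Z : Edge → Prop} {A B : Set P2} (h : ∀ f ∈ Reach Z A, f ∉ B) :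
    ∀ f ∈ Reach Z B, f ∉ A := by
  rintro f ⟨b, hb, hp⟩ hf
  exact h b ⟨f, hf, dpath_symm hp⟩ hb

theorem circ_anti {Z Z' : Edge → Prop} {x : P2} {n m : ℕ} (h : ∀ e, Z e → Z' e)
    (hc : Circ Z x n m) : Circ Z' x n m := (reach_anti h).trans hc

/-- a circuit shields the inner ball from every exploration started outside the outer ball -/
theorem circ_disjoint {Z : Edge → Prop} {x : P2} {n m : ℕ} (h : Circ Z x n m) {U : Set P2}
    (hU : (ball x m : Set P2) ⊆ U) : ∀ f ∈ (ball x n : Set P2), f ∉ Reach Z Uᶜ := by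
  intro f hf hf'
  exact reach_symm (Z := Z) (A := (ball x n : Set P2)) (B := Uᶜ)
    (fun g hg hg' => hg' (hU (h hg))) f hf' hf

theorem plusE_cutE {ω : Cfg} {e : Edge} (h : plusE ω e) : cutE ω e := h.1

theorem circ_plus_cut {ω : Cfg} {x : P2} {n m : ℕ} (h : Circ (plusE ω) x n m) :
    Circ (cutE ω) x n m := circ_anti (fun _ he => plusE_cutE he) h

/-! ### heights across cut edges -/

theorem intVerts_of_corner {F : Finset P2} {v f : P2} (hf : f ∉ F) (h : Geo729.IsCorner v f) :
    v ∉ intVerts F := by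
  intro hv
  rw [mem_intVerts, intV_iff] at hv
  exact hf (hv f h)

theorem zero_of_corner {F : Finset P2} {ω : Cfg} (hω : Valid F ω) {v f : P2} (hf : f ∉ F)
    (h : Geo729.IsCorner v f) : ω.1 v = 0 := hω.zero v (intVerts_of_corner hf h)

/-- across a cut edge of a configuration of positive weight the heights agree -/
theorem cut_eq {c : ℝ} {F : Finset P2} {ω : Cfg} (hω : Valid F ω) (hw : wt c F ω ≠ 0) {e : Edge}
    (he : cutE ω e) : ω.1 (src e) = ω.1 (tgt e) := by
  by_cases hint : e ∈ intEdges F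
  · by_contra hne
    apply hw
    unfold wt
    refine Finset.prod_eq_zero hint ?_
    unfold ew
    rw [if_pos (show ω.2.2 e = true from he), if_neg hne]
  · rw [mem_intEdges, not_and_or] at hint
    rcases hint with h | h
    · rw [zero_of_corner hω h (Dmp341.isCorner_src_fA e), zero_of_corner hω h (Dmp341.isCorner_tgt_fA e)]
    · rw [zero_of_corner hω h (Dmp341.isCorner_src_fB e), zero_of_corner hω h (Dmp341.isCorner_tgt_fB e)]

/-! ### a component containing a face off the domain has boundary height zero -/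

/-- A connected path inside `T` from `D` to its complement has a step crossing the boundary. -/
theorem exists_bd_step {T D : Set P2} {y w : P2} (h : Conn T y w) (hy : y ∈ D) (hw : w ∉ D) :
    ∃ e : Edge, Bd D e ∧ fA e ∈ T ∧ fB e ∈ T := by
  induction h with
  | refl => exact absurd hy hw
  | @tail b c1 h1 h2 ih =>
    by_cases hb : b ∈ D
    · obtain ⟨e, h3 | h3⟩ := adj_edge h2.2.2
      · refine ⟨e, Or.inl ⟨h3.1 ▸ hb, h3.2 ▸ hw⟩, h3.1 ▸ h2.1, h3.2 ▸ h2.2.1⟩
      · refine ⟨e, Or.inr ⟨h3.2 ▸ hw, h3.1 ▸ hb⟩, h3.2 ▸ h2.2.1, h3.1 ▸ h2.1⟩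
    · exact ih hb

theorem exists_outside (F : Finset P2) {U : Set P2} (hU : U.Finite) : ∃ w : P2, w ∉ F ∧ w ∉ U := by
  have h : ((F : Set P2) ∪ U).Finite := F.finite_toSet.union hU
  obtain ⟨w, hw⟩ := h.exists_notMem
  exact ⟨w, fun h => hw (Or.inl h), fun h => hw (Or.inr h)⟩

/-- **Arc lemma.** If the cut edges separate `ball x n` from the complement of `ball x m`, and
`ball x n` contains a face `y` outside the domain `F`, then for the exploration from `Uᶜ`,
`U ⊇ ball x m` finite with connected complement: `ball x n` is not reached, it lies in one component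
of the unexplored region, and the height vanishes on the whole boundary of this component. -/
theorem arc_zero {c : ℝ} {F : Finset P2} (hF : Dom F) {ω : Cfg} (hω : Valid F ω)
    (hw : wt c F ω ≠ 0) {x : P2} {n m : ℕ} {U : Set P2} (hU : (ball x m : Set P2) ⊆ U)
    (hUfin : U.Finite) (hUc : IsConn Uᶜ) (hc : Circ (cutE ω) x n m) {y : P2} (hy : y ∈ ball x n)
    (hyF : y ∉ F) {x' : P2} (hx' : x' ∈ ball x n) :
    x' ∉ Reach (cutE ω) Uᶜ ∧
    (ball x n : Set P2) ⊆ Comp (Reach (cutE ω) Uᶜ)ᶜ x' ∧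
    ∀ e, Bd (Comp (Reach (cutE ω) Uᶜ)ᶜ x') e → ω.1 (src e) = 0 ∧ ω.1 (tgt e) = 0 := by
  have hdis := circ_disjoint hc hU
  have hx'R := hdis x' hx'
  have hsub : (ball x n : Set P2) ⊆ Comp (Reach (cutE ω) Uᶜ)ᶜ x' := by
    intro f hf
    exact (isConn_ball x n x' hx' f hf).mono fun g hg => hdis g hg
  refine ⟨hx'R, hsub, ?_⟩
  have hUne : (Uᶜ).Nonempty := by
    obtain ⟨w, -, hw⟩ := exists_outside F hUfin
    exact ⟨w, hw⟩
  have hRfin : (Reach (cutE ω) Uᶜ)ᶜ.Finite := by
    refine hUfin.subset ?_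
    intro f hf
    by_contra hfU
    exact hf (subset_reach _ _ hfU)
  obtain ⟨hZ, hK, -, -⟩ := explore (cutE ω) Uᶜ hUc hUne x' hx'R (Or.inr hRfin) ω.1
    (fun e he => cut_eq hω hw he)
  -- a boundary edge between two faces off the domain
  obtain ⟨w, hwF, hwU⟩ := exists_outside F hUfin
  have hconn : Conn (F : Set P2)ᶜ y w := hF.sc y (by simpa using hyF) w (by simpa using hwF)
  have hwD : w ∉ Comp (Reach (cutE ω) Uᶜ)ᶜ x' := by
    intro h
    have := comp_subset (T := (Reach (cutE ω) Uᶜ)ᶜ) hx'R h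
    exact this (subset_reach _ _ hwU)
  obtain ⟨e, he, heA, -⟩ := exists_bd_step hconn (hsub hy) hwD
  have h0 : ω.1 (src e) = 0 :=
    zero_of_corner hω (f := fA e) (by simpa using heA) (Dmp341.isCorner_src_fA e)
  intro e' he'
  have h1 : ω.1 (src e') = 0 := by rw [hK e' e he' he, h0]
  exact ⟨h1, by rw [← cut_eq hω hw (hZ e' he'), h1]⟩

/-! ### locality of the circuit events -/

theorem offTZ_mono {B B' : Finset P2} (h : B ⊆ B') {g : Cfg → ℝ} (hg : OffTZ B' g) : OffTZ B g := by
  intro ω ω' h1 h2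
  refine hg ω ω' (fun v hv => h1 v fun h' => hv (Dmp341.intVerts_mono h h')) fun e he =>
    h2 e fun h' => he (Dmp341.intEdges_mono h h')

theorem offTZ_mul {B : Finset P2} {g g' : Cfg → ℝ} (hg : OffTZ B g) (hg' : OffTZ B g') :
    OffTZ B (fun ω => g ω * g' ω) := fun ω ω' h1 h2 => by
  simp only [hg ω ω' h1 h2, hg' ω ω' h1 h2]

theorem plusE_congr {B : Finset P2} {ω ω' : Cfg}
    (h1 : ∀ v, v ∉ intVerts B → (4 : ℤ) ∣ ω.1 v - ω'.1 v)
    (h2 : ∀ e, e ∉ intEdges B → ω.2.2 e = ω'.2.2 e) {e : Edge} (he : e ∉ intEdges B) :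
    plusE ω e ↔ plusE ω' e := by
  have hv : src e ∉ intVerts B := by
    rw [mem_intEdges, not_and_or] at he
    rcases he with h | h
    · exact intVerts_of_corner h (Dmp341.isCorner_src_fA e)
    · exact intVerts_of_corner h (Dmp341.isCorner_src_fB e)
  have h3 := h1 _ hv
  unfold plusE
  rw [h2 e he]
  have : (4 : ℤ) ∣ ω.1 (src e) ↔ (4 : ℤ) ∣ ω'.1 (src e) := by omega
  rw [this]

/-- the reach from `B` only depends on the edges not interior to `B` -/
theorem reach_subset_of_agree {Z Z' : Edge → Prop} {B : Finset P2}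
    (h : ∀ e, e ∉ intEdges B → (Z e → Z' e)) : Reach Z' (B : Set P2) ⊆ Reach Z (B : Set P2) := by
  rintro f ⟨a, ha, hp⟩
  induction hp with
  | refl => exact subset_reach _ _ ha
  | @tail b c1 _ h2 ih =>
    obtain ⟨e, he, h3⟩ := h2
    by_cases hint : e ∈ intEdges B
    · rw [mem_intEdges] at hint
      apply subset_reach
      rcases h3 with ⟨-, h4⟩ | ⟨-, h4⟩
      · rw [h4]; exact hint.2
      · rw [h4]; exact hint.1
    · obtain ⟨a', ha', hp'⟩ := ih
      exact ⟨a', ha', hp'.tail ⟨e, fun hz => he (h e hint hz), h3⟩⟩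

theorem circ_congr {ω ω' : Cfg} {x : P2} {n m : ℕ}
    (h1 : ∀ v, v ∉ intVerts (ball x n) → (4 : ℤ) ∣ ω.1 v - ω'.1 v)
    (h2 : ∀ e, e ∉ intEdges (ball x n) → ω.2.2 e = ω'.2.2 e) :
    Circ (plusE ω) x n m ↔ Circ (plusE ω') x n m := by
  constructor
  · exact fun h => (reach_subset_of_agree fun e he => (plusE_congr h1 h2 he).1).trans h
  · exact fun h => (reach_subset_of_agree fun e he => (plusE_congr h1 h2 he).2).trans h

theorem offTZ_circ (x : P2) (n m : ℕ) :
    OffTZ (ball x n) (indP fun ω => ¬ Circ (plusE ω) x n m) := by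
  intro ω ω' h1 h2
  have := circ_congr h1 h2 (m := m)
  unfold indP
  by_cases h : Circ (plusE ω) x n m
  · have h' := this.1 h
    simp [h, h']
  · have h' : ¬ Circ (plusE ω') x n m := fun hh => h (this.2 hh)
    simp [h, h']

theorem indP_nonneg (A : Cfg → Prop) (ω : Cfg) : 0 ≤ indP A ω := by
  unfold indP; split_ifs <;> norm_num

theorem indP_le_one (A : Cfg → Prop) (ω : Cfg) : indP A ω ≤ 1 := by
  unfold indP; split_ifs <;> norm_num

theorem indP_not (A : Cfg → Prop) (ω : Cfg) : indP (fun ω => ¬ A ω) ω = 1 - indP A ω := by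
  unfold indP
  by_cases h : A ω <;> simp [h]

theorem indP_and (A B : Cfg → Prop) (ω : Cfg) :
    indP (fun ω => A ω ∧ B ω) ω = indP A ω * indP B ω := by
  unfold indP
  by_cases h : A ω <;> by_cases h' : B ω <;> simp [h, h']

/-! ### iteration of the uniform circuit estimate -/

/-- the data of `UnifCirc`, plus part -/
structure UC (c q : ℝ) (n0 L : ℕ) : Prop where
  q_pos : 0 < q
  two_le : 2 ≤ L
  plus : ∀ F : Finset P2, Dom F → ∀ (x : P2) (n : ℕ), n0 ≤ n →
    ∀ g : Cfg → ℝ, (∀ ω, 0 ≤ g ω) → OffTZ (ball x (L * n)) g →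
      q * E c F g ≤ E c F (fun ω => g ω * indP (fun ω => Circ (plusE ω) x n (2 * n)) ω)

theorem UnifCirc.uc {c : ℝ} (h : UnifCirc c) : ∃ (q : ℝ) (n0 L : ℕ), UC c q n0 L := by
  obtain ⟨q, n0, L, h1, h2, h3⟩ := h
  exact ⟨q, n0, L, h1, h2, fun F hF x n hn g hg hg' => (h3 F hF x n hn g hg hg').1⟩

theorem UC.q_le_one {c q : ℝ} {n0 L : ℕ} (hc : 1 ≤ c) (h : UC c q n0 L) : q ≤ 1 := by
  have h1 := h.plus (Defs372.box 1) (Rect597.dom_box 1) (0, 0) n0 le_rfl (fun _ => 1)
    (fun _ => zero_le_one) (fun _ _ _ _ => rfl)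
  rw [E_const hc, mul_one] at h1
  refine h1.trans ((E_mono hc (g := fun _ => 1) fun ω _ => ?_).trans_eq (E_const hc _ _))
  rw [one_mul]
  exact indP_le_one _ _

/-- **Iteration.** Probability that none of `J` nested annuli carries a plus-cut circuit. -/
theorem UC.iterate {c q : ℝ} {n0 L : ℕ} (hc : 1 ≤ c) (h : UC c q n0 L) (hq1 : q ≤ 1)
    {F : Finset P2} (hF : Dom F) (x : P2) {n : ℕ} (hn : n0 ≤ n) (J : ℕ) :
    ∀ g : Cfg → ℝ, (∀ ω, 0 ≤ g ω) → OffTZ (ball x (n * L ^ J)) g →
      E c F (fun ω => g ω * indP (fun ω => ∀ j < J, ¬ Circ (plusE ω) x (n * L ^ j)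
        (2 * (n * L ^ j))) ω) ≤ (1 - q) ^ J * E c F g := by
  induction J with
  | zero =>
    intro g hg _
    rw [pow_zero, one_mul]
    refine E_mono hc fun ω _ => ?_
    exact mul_le_of_le_one_right (hg ω) (indP_le_one _ _)
  | succ J ih =>
    intro g hg hgo
    have hL1 : 1 ≤ L := le_trans (by norm_num) h.two_le
    set g' : Cfg → ℝ := fun ω => g ω *
      indP (fun ω => ¬ Circ (plusE ω) x (n * L ^ J) (2 * (n * L ^ J))) ω with hg'
    have hg'0 : ∀ ω, 0 ≤ g' ω := fun ω => mul_nonneg (hg ω) (indP_nonneg _ _)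
    have hsub : ball x (n * L ^ J) ⊆ ball x (n * L ^ (J + 1)) := by
      apply ball_mono
      rw [pow_succ, ← mul_assoc]
      exact Nat.le_mul_of_pos_right _ hL1
    have hg'o : OffTZ (ball x (n * L ^ J)) g' :=
      offTZ_mul (offTZ_mono hsub hgo) (offTZ_circ _ _ _)
    have h1 := ih g' hg'0 hg'o
    have hnJ : n0 ≤ n * L ^ J := hn.trans (Nat.le_mul_of_pos_right _ (pow_pos hL1 J))
    have hgo' : OffTZ (ball x (L * (n * L ^ J))) g := by
      rwa [show L * (n * L ^ J) = n * L ^ (J + 1) by rw [pow_succ]; ring]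
    have h2 := h.plus F hF x (n * L ^ J) hnJ g hg hgo'
    have h3 : E c F g' = E c F g -
        E c F (fun ω => g ω * indP (fun ω => Circ (plusE ω) x (n * L ^ J) (2 * (n * L ^ J))) ω) := by
      rw [← E_sub]
      congr 1
      funext ω
      simp only [hg', indP_not]
      ring
    have h4 : E c F g' ≤ (1 - q) * E c F g := by rw [h3]; linarith
    calc _ ≤ E c F (fun ω => g' ω * indP (fun ω => ∀ j < J, ¬ Circ (plusE ω) x (n * L ^ j)
        (2 * (n * L ^ j))) ω) := by
          refine E_mono hc fun ω _ => ?_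
          simp only [hg']
          rw [mul_assoc]
          refine mul_le_mul_of_nonneg_left ?_ (hg ω)
          rw [← indP_and]
          unfold indP
          by_cases hall : ∀ j < J + 1, ¬ Circ (plusE ω) x (n * L ^ j) (2 * (n * L ^ j))
          · rw [if_pos hall, if_pos ⟨hall J (Nat.lt_succ_self J), fun j hj =>
              hall j (Nat.lt_succ_of_lt hj)⟩]
          · rw [if_neg hall]
            split_ifs <;> norm_num
      _ ≤ (1 - q) ^ J * E c F g' := h1
      _ ≤ (1 - q) ^ J * ((1 - q) * E c F g) :=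
          mul_le_mul_of_nonneg_left h4 (pow_nonneg (by linarith) _)
      _ = (1 - q) ^ (J + 1) * E c F g := by rw [pow_succ]; ring

/-- **UnifCirc → LemU.** -/
theorem lemU_of_unifCirc {c : ℝ} (hc : 1 ≤ c) (h : UnifCirc c) : LemU c := by
  obtain ⟨q, n0, L, hq⟩ := UnifCirc.uc h
  have hq1 := hq.q_le_one hc
  intro ε hε
  obtain ⟨J, hJ⟩ := exists_pow_lt_of_lt_one hε (show 1 - q < 1 by linarith [hq.q_pos])
  refine ⟨J, n0, L, hq.two_le, fun F hF x n hn => ?_⟩
  have h1 := hq.iterate hc hq1 hF x hn J (fun _ => 1) (fun _ => zero_le_one) (fun _ _ _ _ => rfl)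
  rw [E_const hc, mul_one] at h1
  simp only [one_mul] at h1
  refine le_trans (le_of_eq ?_) (h1.trans hJ.le)
  congr 1
  funext ω
  simp only [mul_comm n]

/-! ### H-c -/

theorem isConn_ball_compl (x : P2) (n : ℕ) : IsConn (ball x n : Set P2)ᶜ :=
  Rect597.sc_rect _ _ _ _


/-- **H-c** (deterministic form): a plus-cut circuit in one of the concentric annuli gives `Good`. -/
theorem good_of_circ {c : ℝ} {F : Finset P2} (hF : Dom F) {ω : Cfg} (hω : Valid F ω)
    (hw : wt c F ω ≠ 0) {x : P2} {s n m T : ℕ} (hs : 0 < s) (hsn : s ≤ n) (hmT : m ≤ T)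
    (hcirc : Circ (cutE ω) x n m) {y : P2} (hy : y ∈ ball x s) (hyF : y ∉ F) :
    Flip228.Good (ball x T : Set P2) (ball x s : Set P2) x ω := by
  have hUj : (ball x m : Set P2) ⊆ (ball x T : Set P2) := by exact_mod_cast ball_mono hmT
  have hfin : (ball x T : Set P2).Finite := Finset.finite_toSet _
  have hxs : x ∈ ball x s := self_mem_ball hs
  obtain ⟨h1, h2, h3⟩ := arc_zero hF hω hw hUj hfin (isConn_ball_compl x T) hcirc
    (ball_mono hsn hy) hyF (ball_mono hsn hxs)
  refine ⟨?_, ?_⟩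
  · intro z hz
    exact (arc_zero hF hω hw hUj hfin (isConn_ball_compl x T) hcirc
      (ball_mono hsn hy) hyF (ball_mono hsn hz)).1
  · intro v hv
    obtain ⟨e', he', hv'⟩ := Flip228.mixed_edge hv
    have := h3 e' he'
    rcases hv' with hv' | hv'
    · rw [← hv']; exact this.1
    · rw [← hv']; exact this.2

/-- **H-c.** -/
theorem hc_of_lemU {c : ℝ} (hc : 1 ≤ c) (h : LemU c) : BdI228.HC c := by
  intro ε hε
  obtain ⟨J, n0, L, hL, h1⟩ := h ε hε
  refine ⟨L ^ J, max n0 1, fun s hs F hF x hy => ?_⟩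
  obtain ⟨y, hy, hyF⟩ := hy
  have hs0 : n0 ≤ s := (le_max_left _ _).trans hs
  have hs1 : 0 < s := (le_max_right n0 1).trans hs
  refine le_trans ?_ (h1 F hF x s hs0)
  unfold Pr
  rw [E_eq_div, E_eq_div]
  refine div_le_div_of_nonneg_right ?_ (Z_pos hc F).le
  refine Finset.sum_le_sum fun ω hω => ?_
  by_cases hw : wt c F ω = 0
  · rw [hw, zero_mul, zero_mul]
  refine mul_le_mul_of_nonneg_left ?_ (wt_nonneg hc F ω)
  by_cases hall : ∀ j : ℕ, j < J → ¬ Circ (plusE ω) x (L ^ j * s) (2 * (L ^ j * s))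
  · unfold indP
    rw [if_pos hall]
    split_ifs <;> norm_num
  · refine le_trans (le_of_eq (if_neg ?_)) (indP_nonneg _ _)
    rw [Set.mem_ofPred_eq, not_not]
    push Not at hall
    obtain ⟨j, hj, hcirc⟩ := hall
    have hL1 : 1 ≤ L := le_trans (by norm_num) hL
    refine good_of_circ hF (mem_conf.1 hω) hw hs1 (n := L ^ j * s) (m := 2 * (L ^ j * s)) ?_ ?_
      (circ_plus_cut hcirc) hy hyF
    · exact Nat.le_mul_of_pos_left _ (pow_pos hL1 j)
    · have h2 : L * (L ^ j * s) ≤ L ^ J * s := by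
        rw [← mul_assoc, ← pow_succ']
        exact Nat.mul_le_mul_right _ (Nat.pow_le_pow_right hL1 hj)
      have h3 : 2 * (L ^ j * s) ≤ L * (L ^ j * s) := Nat.mul_le_mul_right _ hL
      exact h3.trans h2

end Crest.Agent.R161.Arc389
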