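import Crest.Agent.R161.Geo_729

/-!
# Row 161: common definitions (captain helper372)

* `Cfg` : configurations `(k, h, z)`: even heights `k` at vertices, odd heights `h` at faces, cut
  variables `z` at edges (`z e = true`: cut, the two bordering faces are decoupled and the endpoints
  have equal height; `z e = false`: the dual edge is open, the two bordering faces have equal height).
* `intEdges F` : interior edges of the finite face set `F`.
* `Valid F ω` : zero boundary condition on all non-interior vertices, frozen outside `F`.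
* `wt c F ω` : weight; summing over `z` gives the six-vertex / Ashkin–Teller weight.
* `conf F : Finset Cfg`, `Z F c`, `pr F c ω`, `E F c f`, `mu F c : Measure Cfg`.
-/

set_option autoImplicit false

noncomputable section

namespace Crest.Agent.R161.Defs372

open Finset Crest.Agent.R161.Geo729 MeasureTheory

/-- Configurations `(k, h, z)`. -/
abbrev Cfg : Type := (P2 → ℤ) × (P2 → ℤ) × (Edge → Bool)

/-- vertex heights (even) -/
abbrev K (ω : Cfg) : P2 → ℤ := ω.1
/-- face heights (odd) -/
abbrev H (ω : Cfg) : P2 → ℤ := ω.2.1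
/-- cut variables -/
abbrev zc (ω : Cfg) : Edge → Bool := ω.2.2

/-- Interior edges of `F`: both bordering faces in `F`. -/
def intEdges (F : Finset P2) : Finset Edge :=
  (F ×ˢ (Finset.univ : Finset Bool)).filter fun e => fB e ∈ F

theorem mem_intEdges {F : Finset P2} {e : Edge} :
    e ∈ intEdges F ↔ fA e ∈ F ∧ fB e ∈ F := by
  obtain ⟨v, b⟩ := e
  simp [intEdges]

/-- Interior vertices of `F`. -/
def intVerts (F : Finset P2) : Finset P2 :=
  F.filter fun v => (v.1 - 1, v.2) ∈ F ∧ (v.1, v.2 - 1) ∈ F ∧ (v.1 - 1, v.2 - 1) ∈ F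

theorem mem_intVerts {F : Finset P2} {v : P2} :
    v ∈ intVerts F ↔ IntV (F : Set P2) v := by
  obtain ⟨a, b⟩ := v
  simp [intVerts, IntV]

/-- Valid configurations in `F`: parity, corner condition, zero heights on non-interior vertices,
canonical values outside `F`. -/
structure Valid (F : Finset P2) (ω : Cfg) : Prop where
  zero : ∀ v, v ∉ intVerts F → ω.1 v = 0
  even : ∀ v, Even (ω.1 v)
  off : ∀ f, f ∉ F → ω.2.1 f = 1
  corner : ∀ f, f ∈ F → ∀ v, Geo729.IsCorner v f → |ω.1 v - ω.2.1 f| = 1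
  cut : ∀ e, e ∉ intEdges F → ω.2.2 e = true

/-- Weight of one edge. -/
def ew (c : ℝ) (ω : Cfg) (e : Edge) : ℝ :=
  if ω.2.2 e then (if ω.1 (src e) = ω.1 (tgt e) then 1 else 0)
  else (if ω.2.1 (fA e) = ω.2.1 (fB e) then (if ω.1 (src e) = ω.1 (tgt e) then c - 1 else 1) else 0)

/-- Weight of a configuration (not including validity). -/
def wt (c : ℝ) (F : Finset P2) (ω : Cfg) : ℝ := ∏ e ∈ intEdges F, ew c ω e

theorem ew_nonneg {c : ℝ} (hc : 1 ≤ c) (ω : Cfg) (e : Edge) : 0 ≤ ew c ω e := by
  unfold ew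
  split_ifs <;> first | exact zero_le_one | exact le_rfl | linarith

theorem wt_nonneg {c : ℝ} (hc : 1 ≤ c) (F : Finset P2) (ω : Cfg) : 0 ≤ wt c F ω :=
  Finset.prod_nonneg fun e _ => ew_nonneg hc ω e

/-! ### finiteness -/

theorem Valid.abs_face_le {F : Finset P2} {ω : Cfg} (h : Valid F ω) (n : ℕ) :
    ∀ f : P2, (∃ j : ℕ, j < n ∧ (f.1 + j + 1, f.2) ∉ F) → |ω.2.1 f| ≤ 2 * n + 1 := by
  induction n with
  | zero => rintro f ⟨j, hj, _⟩; omega
  | succ n ih =>
    rintro f ⟨j, hj, hjF⟩
    by_cases hf : f ∈ F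
    · by_cases h1 : (f.1 + 1, f.2) ∈ F
      · have hj0 : j ≠ 0 := by
          rintro rfl
          apply hjF
          simpa using h1
        have h2 := ih (f.1 + 1, f.2) ⟨j - 1, by omega, by
          have : ((f.1 + 1 : ℤ) + ((j - 1 : ℕ) : ℤ) + 1) = f.1 + j + 1 := by
            have : ((j - 1 : ℕ) : ℤ) = j - 1 := by omega
            rw [this]; ring
          simp only
          rw [this]
          exact hjF⟩
        have h3 := h.corner f hf (f.1 + 1, f.2) (by simp [Geo729.IsCorner])
        have h4 := h.corner (f.1 + 1, f.2) h1 (f.1 + 1, f.2) (by simp [Geo729.IsCorner])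
        push_cast
        rw [abs_le] at *
        rcases abs_eq (by norm_num : (0 : ℤ) ≤ 1) |>.1 h3 with h3 | h3 <;>
        rcases abs_eq (by norm_num : (0 : ℤ) ≤ 1) |>.1 h4 with h4 | h4 <;>
        constructor <;> linarith [h2.1, h2.2]
      · have h3 := h.corner f hf (f.1 + 1, f.2) (by simp [Geo729.IsCorner])
        have h4 : ω.1 (f.1 + 1, f.2) = 0 := by
          apply h.zero
          rw [mem_intVerts]
          rintro ⟨h5, _⟩
          exact h1 h5
        rw [h4] at h3
        have : |ω.2.1 f| = 1 := by simpa using h3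
        rw [this]
        push_cast
        omega
    · rw [h.off f hf]
      simp
      positivity

/-- bound for heights -/
def hb (F : Finset P2) : ℤ := 2 * (F.card + 1) + 2

theorem exists_exit (F : Finset P2) (f : P2) : ∃ j : ℕ, j < F.card + 1 ∧ (f.1 + j + 1, f.2) ∉ F := by
  by_contra hcon
  push Not at hcon
  have : (Finset.range (F.card + 1)).card ≤ F.card := by
    refine Finset.card_le_card_of_injOn (fun j : ℕ => ((f.1 + j + 1 : ℤ), f.2)) ?_ ?_
    · intro j hj
      exact hcon j (by simpa using hj)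
    · intro i _ j _ hij
      simp only [Prod.mk.injEq] at hij
      have := hij.1
      omega
  simp at this

theorem Valid.abs_face {F : Finset P2} {ω : Cfg} (h : Valid F ω) (f : P2) :
    |ω.2.1 f| ≤ hb F := by
  have := h.abs_face_le (F.card + 1) f (exists_exit F f)
  unfold hb
  push_cast at this
  linarith

theorem Valid.abs_vert {F : Finset P2} {ω : Cfg} (h : Valid F ω) (v : P2) :
    |ω.1 v| ≤ hb F := by
  by_cases hv : v ∈ intVerts F
  · have hvF : v ∈ F := (Finset.mem_filter.1 hv).1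
    have h1 := h.abs_face_le (F.card + 1) v (exists_exit F v)
    have h2 := h.corner v hvF v (by simp [Geo729.IsCorner])
    unfold hb
    push_cast at h1 ⊢
    rw [abs_le] at *
    rcases abs_eq (by norm_num : (0 : ℤ) ≤ 1) |>.1 h2 with h2 | h2 <;>
    constructor <;> linarith [h1.1, h1.2]
  · rw [h.zero v hv]
    simp [hb]
    positivity

theorem finite_valid (F : Finset P2) : {ω : Cfg | Valid F ω}.Finite := by
  classical
  -- injection into a finite product
  let A : Type := (↥F → Set.Icc (-(hb F)) (hb F)) × (↥F → Set.Icc (-(hb F)) (hb F)) ×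
    (↥(intEdges F) → Bool)
  have : Finite A := by
    dsimp only [A]
    infer_instance
  let g : {ω : Cfg | Valid F ω} → A := fun ω =>
    (fun v => ⟨ω.1.1 v, abs_le.1 (ω.2.abs_vert v)⟩, fun v => ⟨ω.1.2.1 v, abs_le.1 (ω.2.abs_face v)⟩,
      fun e => ω.1.2.2 e)
  have hg : Function.Injective g := by
    rintro ⟨ω, hω⟩ ⟨ω', hω'⟩ heq
    have h1 := congrArg Prod.fst heq
    have h2 := congrArg (fun a => a.2.1) heq
    have h3 := congrArg (fun a => a.2.2) heq
    simp only [g] at h1 h2 h3
    apply Subtype.ext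
    refine Prod.ext ?_ (Prod.ext ?_ ?_)
    · funext v
      by_cases hv : v ∈ F
      · exact congrArg Subtype.val (congrFun h1 ⟨v, hv⟩)
      · have hv' : v ∉ intVerts F := fun h => hv (Finset.mem_filter.1 h).1
        show ω.1 v = ω'.1 v
        rw [Valid.zero hω v hv', Valid.zero hω' v hv']
    · funext v
      by_cases hv : v ∈ F
      · exact congrArg Subtype.val (congrFun h2 ⟨v, hv⟩)
      · show ω.2.1 v = ω'.2.1 v
        rw [Valid.off hω v hv, Valid.off hω' v hv]
    · funext e
      by_cases he : e ∈ intEdges F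
      · exact congrFun h3 ⟨e, he⟩
      · show ω.2.2 e = ω'.2.2 e
        rw [Valid.cut hω e he, Valid.cut hω' e he]
  exact Finite.of_injective g hg

/-- The finite set of valid configurations. -/
def conf (F : Finset P2) : Finset Cfg := (finite_valid F).toFinset

theorem mem_conf {F : Finset P2} {ω : Cfg} : ω ∈ conf F ↔ Valid F ω := by
  simp [conf]

/-- the flat configuration -/
def flat : Cfg := (fun _ => 0, fun _ => 1, fun _ => true)

theorem valid_flat (F : Finset P2) : Valid F flat where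
  zero := fun _ _ => rfl
  even := fun _ => by simp [flat]
  off := fun _ _ => rfl
  corner := fun _ _ _ _ => by simp [flat]
  cut := fun _ _ => rfl

theorem wt_flat (c : ℝ) (F : Finset P2) : wt c F flat = 1 := by
  unfold wt ew flat
  simp

/-- Partition function. -/
def Z (c : ℝ) (F : Finset P2) : ℝ := ∑ ω ∈ conf F, wt c F ω

theorem Z_pos {c : ℝ} (hc : 1 ≤ c) (F : Finset P2) : 0 < Z c F := by
  refine Finset.sum_pos' (fun ω _ => wt_nonneg hc F ω) ⟨flat, mem_conf.2 (valid_flat F), ?_⟩
  rw [wt_flat]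
  exact one_pos


open Classical in
/-- Probability of a configuration. -/
def pr (c : ℝ) (F : Finset P2) (ω : Cfg) : ℝ := if Valid F ω then wt c F ω / Z c F else 0

theorem pr_of_valid (c : ℝ) {F : Finset P2} {ω : Cfg} (h : Valid F ω) :
    pr c F ω = wt c F ω / Z c F := if_pos h

theorem pr_of_not_valid (c : ℝ) {F : Finset P2} {ω : Cfg} (h : ¬ Valid F ω) : pr c F ω = 0 :=
  if_neg h

theorem pr_nonneg {c : ℝ} (hc : 1 ≤ c) (F : Finset P2) (ω : Cfg) : 0 ≤ pr c F ω := by
  unfold pr
  split_ifs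
  · exact div_nonneg (wt_nonneg hc F ω) (Z_pos hc F).le
  · exact le_rfl

theorem sum_pr {c : ℝ} (hc : 1 ≤ c) (F : Finset P2) : ∑ ω ∈ conf F, pr c F ω = 1 := by
  have : ∀ ω ∈ conf F, pr c F ω = wt c F ω / Z c F := fun ω h => pr_of_valid c (mem_conf.1 h)
  rw [Finset.sum_congr rfl this, ← Finset.sum_div]
  exact div_self (Z_pos hc F).ne'

/-- Expectation (real observables). -/
def E (c : ℝ) (F : Finset P2) (f : Cfg → ℝ) : ℝ := ∑ ω ∈ conf F, pr c F ω * f ω

/-- Expectation (complex observables). -/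
def EC (c : ℝ) (F : Finset P2) (f : Cfg → ℂ) : ℂ := ∑ ω ∈ conf F, (pr c F ω : ℂ) * f ω

theorem E_add (c : ℝ) (F : Finset P2) (f g : Cfg → ℝ) :
    E c F (fun ω => f ω + g ω) = E c F f + E c F g := by
  simp only [E, mul_add, Finset.sum_add_distrib]

theorem E_sub (c : ℝ) (F : Finset P2) (f g : Cfg → ℝ) :
    E c F (fun ω => f ω - g ω) = E c F f - E c F g := by
  simp only [E, mul_sub, Finset.sum_sub_distrib]

theorem E_smul (c : ℝ) (F : Finset P2) (a : ℝ) (f : Cfg → ℝ) :
    E c F (fun ω => a * f ω) = a * E c F f := by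
  simp only [E, Finset.mul_sum]
  exact Finset.sum_congr rfl fun ω _ => by ring

theorem E_const {c : ℝ} (hc : 1 ≤ c) (F : Finset P2) (a : ℝ) : E c F (fun _ => a) = a := by
  simp only [E, ← Finset.sum_mul, sum_pr hc, one_mul]

theorem E_congr {c : ℝ} {F : Finset P2} {f g : Cfg → ℝ} (h : ∀ ω, Valid F ω → f ω = g ω) :
    E c F f = E c F g :=
  Finset.sum_congr rfl fun ω hω => by rw [h ω (mem_conf.1 hω)]

theorem E_mono {c : ℝ} (hc : 1 ≤ c) {F : Finset P2} {f g : Cfg → ℝ}
    (h : ∀ ω, Valid F ω → f ω ≤ g ω) : E c F f ≤ E c F g :=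
  Finset.sum_le_sum fun ω hω => mul_le_mul_of_nonneg_left (h ω (mem_conf.1 hω)) (pr_nonneg hc F ω)

theorem E_nonneg {c : ℝ} (hc : 1 ≤ c) {F : Finset P2} {f : Cfg → ℝ}
    (h : ∀ ω, Valid F ω → 0 ≤ f ω) : 0 ≤ E c F f :=
  Finset.sum_nonneg fun ω hω => mul_nonneg (pr_nonneg hc F ω) (h ω (mem_conf.1 hω))

theorem E_sum {ι : Type*} (c : ℝ) (F : Finset P2) (s : Finset ι) (f : ι → Cfg → ℝ) :
    E c F (fun ω => ∑ i ∈ s, f i ω) = ∑ i ∈ s, E c F (f i) := by
  simp only [E, Finset.mul_sum]
  exact Finset.sum_comm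

theorem E_eq_div {c : ℝ} (F : Finset P2) (f : Cfg → ℝ) :
    E c F f = (∑ ω ∈ conf F, wt c F ω * f ω) / Z c F := by
  unfold E
  rw [Finset.sum_div]
  refine Finset.sum_congr rfl fun ω hω => ?_
  rw [pr_of_valid c (mem_conf.1 hω)]
  ring

open Classical in
/-- Probability of an event. -/
def Pr (c : ℝ) (F : Finset P2) (A : Set Cfg) : ℝ := E c F (fun ω => if ω ∈ A then 1 else 0)

/-- The law as a measure on `Cfg`. -/
def mu (c : ℝ) (F : Finset P2) : Measure Cfg :=
  ∑ ω ∈ conf F, ENNReal.ofReal (pr c F ω) • Measure.dirac ω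




/-! ### local observables, gradient state -/

/-- agreement on the sites of `S` -/
def AgreeOn (S : Set P2) (ω ω' : Cfg) : Prop :=
  ∀ v ∈ S, ω.1 v = ω'.1 v ∧ ω.2.1 v = ω'.2.1 v ∧ ∀ b, ω.2.2 (v, b) = ω'.2.2 (v, b)

/-- `f` depends only on the sites of `S`. -/
def Loc {α : Type*} (S : Set P2) (f : Cfg → α) : Prop := ∀ ω ω', AgreeOn S ω ω' → f ω = f ω'

/-- add the constant `a` to all heights -/
def addH (a : ℤ) (ω : Cfg) : Cfg := (fun v => ω.1 v + a, fun f => ω.2.1 f + a, ω.2.2)

/-- gradient observable -/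
def GradInv {α : Type*} (f : Cfg → α) : Prop := ∀ ω a, f (addH a ω) = f ω

/-- heights normalised to `k (0,0) = 0` -/
def norm0 (ω : Cfg) : Cfg := addH (-ω.1 (0, 0)) ω

/-- translation of configurations: `(trans a ω) v = ω (v + a)` -/
def trans (a : P2) (ω : Cfg) : Cfg :=
  (fun v => ω.1 (v + a), fun f => ω.2.1 (f + a), fun e => ω.2.2 (e.1 + a, e.2))

/-- the square box `{-n..n-1}²` of faces -/
def box (n : ℕ) : Finset P2 := Finset.Icc (-(n : ℤ)) (n - 1) ×ˢ Finset.Icc (-(n : ℤ)) (n - 1)

/-- Simply connected, connected finite face sets. -/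
structure Dom (F : Finset P2) : Prop where
  conn : IsConn (F : Set P2)
  sc : SC (F : Set P2)

/-- edge constraints: cut edges have equal endpoint heights, open dual edges equal face heights -/
def EdgeOk (ω : Cfg) (e : Edge) : Prop :=
  (ω.2.2 e = true → ω.1 (src e) = ω.1 (tgt e)) ∧ (ω.2.2 e = false → ω.2.1 (fA e) = ω.2.1 (fB e))

theorem ew_eq_zero {c : ℝ} {ω : Cfg} {e : Edge} (h : ¬ EdgeOk ω e) : ew c ω e = 0 := by
  unfold EdgeOk at h
  unfold ew
  cases hz : ω.2.2 e <;> simp_all

/-- gradient configurations of the whole plane, normalised at the origin -/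
structure GValid (ω : Cfg) : Prop where
  zero : ω.1 (0, 0) = 0
  even : ∀ v, Even (ω.1 v)
  corner : ∀ f v, Geo729.IsCorner v f → |ω.1 v - ω.2.1 f| = 1
  edge : ∀ e, EdgeOk ω e

/-- `P` is the infinite-volume gradient state: the limit of all zero boundary condition laws along
simply connected domains exhausting the plane, for all local observables of the heights
normalised at the origin. -/
structure IsState (c : ℝ) (P : Measure Cfg) : Prop where
  prob : IsProbabilityMeasure P
  valid : ∀ᵐ ω ∂P, GValid ω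
  lim : ∀ (S : Finset P2) (f : Cfg → ℝ), Loc (S : Set P2) f → ∀ ε : ℝ, 0 < ε → ∃ n : ℕ,
    ∀ F : Finset P2, Dom F → box n ⊆ F →
      |E c F (fun ω => f (norm0 ω)) - ∫ ω, f ω ∂P| < ε

end Crest.Agent.R161.Defs372
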