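import Crest.Agent.R161.Dual_729
import Crest.Agent.R161.Defs_372
import Crest.Agent.R161.AtFkC_729
import Crest.Agent.R161.Ifc_372

-- ▼ part R161/DualB_729
section

/-!
Row 161: Kramers–Wannier duality on a simply connected face set, with arbitrary real edge weights.

Configurations of signs are encoded by finite sets: face signs by `S ⊆ F`, vertex signs (`+` on all
non-interior vertices) by `T ⊆ IV F`, edge sets by `H ⊆ IE F`.
-/

set_option autoImplicit false

namespace Crest.Agent.R161.DualB729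

open Finset Crest.Agent.R161.Geo729 Crest.Agent.R161.Dual729

/-- Interior edges of a finite face set. -/
def IE (F : Finset P2) : Finset Edge :=
  (F ×ˢ (Finset.univ : Finset Bool)).filter (fun e => fB e ∈ F)

/-- Interior vertices of a finite face set. -/
def IV (F : Finset P2) : Finset P2 :=
  F.filter (fun v => (v.1 - 1, v.2) ∈ F ∧ (v.1, v.2 - 1) ∈ F ∧ (v.1 - 1, v.2 - 1) ∈ F)

theorem mem_IE {F : Finset P2} {e : Edge} : e ∈ IE F ↔ fA e ∈ F ∧ fB e ∈ F := by
  simp [IE, fA]

theorem mem_IE' {F : Finset P2} {e : Edge} : e ∈ IE F ↔ IntE (F : Set P2) e := by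
  simp [mem_IE, IntE]

theorem mem_IV {F : Finset P2} {v : P2} : v ∈ IV F ↔ IntV (F : Set P2) v := by
  simp [IV, IntV]

/-- Sign of membership: `-1` if the proposition holds, `1` otherwise. -/
noncomputable def sg (p : Prop) [Decidable p] : ℝ := if p then -1 else 1


theorem sg_cases (p : Prop) [Decidable p] : sg p = 1 ∨ sg p = -1 := by
  unfold sg; split_ifs <;> simp

/-- Coboundary of a set of faces (restricted to interior edges). -/
def dF (F S : Finset P2) : Finset Edge := (IE F).filter (fun e => ¬ (fA e ∈ S ↔ fB e ∈ S))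

theorem mem_dF {F S : Finset P2} {e : Edge} :
    e ∈ dF F S ↔ e ∈ IE F ∧ ¬ (fA e ∈ S ↔ fB e ∈ S) := by simp [dF]

/-- Degree sign of the edge set `H` at `v`. -/
noncomputable def dsg (H : Finset Edge) (v : P2) : ℝ :=
  ∏ e ∈ H, ((if src e = v then -1 else 1) * (if tgt e = v then -1 else 1) : ℝ)

theorem prod_src (H : Finset Edge) (v : P2) :
    ∏ e ∈ H, (if src e = v then -1 else 1 : ℝ) =
      sg ((v, false) ∈ H) * sg ((v, true) ∈ H) := by
  classical
  induction H using Finset.induction_on with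
  | empty => simp [sg]
  | insert e H he ih =>
    rw [Finset.prod_insert he, ih]
    obtain ⟨u, b⟩ := e
    simp only [src_mk, sg, Finset.mem_insert, Prod.mk.injEq]
    by_cases hu : u = v
    · subst hu
      cases b
      · simp [he]
      · simp [he]
        split_ifs <;> norm_num
    · have hu' : ¬ v = u := fun h => hu h.symm
      simp [hu, hu']

theorem prod_tgt (H : Finset Edge) (v : P2) :
    ∏ e ∈ H, (if tgt e = v then -1 else 1 : ℝ) =
      sg (((v.1 - 1, v.2), false) ∈ H) * sg (((v.1, v.2 - 1), true) ∈ H) := by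
  classical
  induction H using Finset.induction_on with
  | empty => simp [sg]
  | insert e H he ih =>
    rw [Finset.prod_insert he, ih]
    obtain ⟨⟨x, y⟩, b⟩ := e
    obtain ⟨p, q⟩ := v
    cases b
    · simp only [tgt_h, sg, Finset.mem_insert, Prod.mk.injEq]
      by_cases hu : x + 1 = p ∧ y = q
      · obtain ⟨rfl, rfl⟩ := hu
        have : x + 1 - 1 = x := by omega
        simp [this, he]
      · have hu' : ¬ (p - 1 = x ∧ q = y) := by omega
        simp [hu, hu']
    · simp only [tgt_v, sg, Finset.mem_insert, Prod.mk.injEq]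
      by_cases hu : x = p ∧ y + 1 = q
      · obtain ⟨rfl, rfl⟩ := hu
        have : y + 1 - 1 = y := by omega
        simp [this, he]
        split_ifs <;> norm_num
      · have hu' : ¬ (p = x ∧ q - 1 = y) := by omega
        simp [hu, hu']

theorem dsg_eq (H : Finset Edge) (v : P2) :
    dsg H v = sg ((v, false) ∈ H) * sg ((v, true) ∈ H) *
      (sg (((v.1 - 1, v.2), false) ∈ H) * sg (((v.1, v.2 - 1), true) ∈ H)) := by
  unfold dsg
  rw [Finset.prod_mul_distrib, prod_src, prod_tgt]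

theorem dsg_cases (H : Finset Edge) (v : P2) : dsg H v = 1 ∨ dsg H v = -1 := by
  rw [dsg_eq]
  rcases sg_cases ((v, false) ∈ H) with h1 | h1 <;>
  rcases sg_cases ((v, true) ∈ H) with h2 | h2 <;>
  rcases sg_cases (((v.1 - 1, v.2), false) ∈ H) with h3 | h3 <;>
  rcases sg_cases (((v.1, v.2 - 1), true) ∈ H) with h4 | h4 <;>
  simp [h1, h2, h3, h4]

/-- Even at all interior vertices. -/
def Ev (F : Finset P2) (H : Finset Edge) : Prop := ∀ v ∈ IV F, dsg H v = 1

/-- Characters of the coboundary. -/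
theorem prod_dsg (H : Finset Edge) (T : Finset P2) :
    ∏ v ∈ T, dsg H v = ∏ e ∈ H, (sg (src e ∈ T) * sg (tgt e ∈ T)) := by
  unfold dsg
  rw [Finset.prod_comm]
  apply Finset.prod_congr rfl
  intro e _
  rw [Finset.prod_mul_distrib]
  simp [Finset.prod_ite_eq, sg]

theorem sum_chars (F : Finset P2) (H : Finset Edge) [Decidable (Ev F H)] :
    ∑ T ∈ (IV F).powerset, ∏ e ∈ H, (sg (src e ∈ T) * sg (tgt e ∈ T)) =
      if Ev F H then (2 : ℝ) ^ (IV F).card else 0 := by
  have h1 : ∑ T ∈ (IV F).powerset, ∏ e ∈ H, (sg (src e ∈ T) * sg (tgt e ∈ T)) =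
      ∏ v ∈ IV F, (1 + dsg H v) := by
    rw [Finset.prod_one_add]
    exact Finset.sum_congr rfl fun T _ => (prod_dsg H T).symm
  rw [h1]
  split_ifs with h
  · rw [Finset.prod_congr rfl (fun v hv => by rw [h v hv])]
    simp only [Finset.prod_const]
    norm_num
  · unfold Ev at h
    push Not at h
    obtain ⟨v, hv, hne⟩ := h
    apply Finset.prod_eq_zero hv
    rcases dsg_cases H v with h' | h'
    · exact absurd h' hne
    · rw [h']; norm_num

/-- Number of face sets with zero coboundary. -/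
noncomputable def N0 (F : Finset P2) : ℕ := (F.powerset.filter (fun S => dF F S = ∅)).card

theorem N0_pos (F : Finset P2) : 0 < N0 F := by
  unfold N0
  apply Finset.card_pos.mpr
  refine ⟨∅, ?_⟩
  rw [Finset.mem_filter]
  refine ⟨Finset.empty_mem_powerset F, ?_⟩
  ext e
  simp [mem_dF]

theorem dF_symmDiff (F S T : Finset P2) : dF F (symmDiff S T) = symmDiff (dF F S) (dF F T) := by
  ext e
  simp only [mem_dF, Finset.mem_symmDiff]
  by_cases h : e ∈ IE F <;> by_cases h1 : fA e ∈ S <;> by_cases h2 : fB e ∈ S <;>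
    by_cases h3 : fA e ∈ T <;> by_cases h4 : fB e ∈ T <;> simp [h, h1, h2, h3, h4]

/-- The coboundary of a face set is even at interior vertices. -/
theorem ev_dF (F S : Finset P2) : Ev F (dF F S) := by
  intro v hv
  rw [mem_IV] at hv
  obtain ⟨h1, h2, h3, h4⟩ := hv
  have h1' : v ∈ F := h1
  have h2' : (v.1 - 1, v.2) ∈ F := h2
  have h3' : (v.1, v.2 - 1) ∈ F := h3
  have h4' : (v.1 - 1, v.2 - 1) ∈ F := h4
  rw [dsg_eq]
  simp only [sg, mem_dF, mem_IE, fA_mk, fB_h, fB_v]
  simp only [h1', h2', h3', h4', true_and]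
  by_cases a1 : v ∈ S <;> by_cases a2 : (v.1 - 1, v.2) ∈ S <;>
    by_cases a3 : (v.1, v.2 - 1) ∈ S <;> by_cases a4 : (v.1 - 1, v.2 - 1) ∈ S <;>
    simp [a1, a2, a3, a4]

/-- On a simply connected face set every even edge set is a coboundary. -/
theorem exists_dF_eq {F : Finset P2} (hF : SC (F : Set P2)) {H : Finset Edge} (hH : H ⊆ IE F)
    (hE : Ev F H) : ∃ S ∈ F.powerset, dF F S = H := by
  classical
  obtain ⟨s, hs⟩ := exists_potential hF (fun e => if e ∈ H then 1 else 0) (by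
    intro v hv
    have h := hE v (mem_IV.mpr hv)
    rw [dsg_eq] at h
    simp only [sg] at h
    by_cases b1 : (v, false) ∈ H <;> by_cases b2 : (v, true) ∈ H <;>
      by_cases b3 : ((v.1 - 1, v.2), false) ∈ H <;> by_cases b4 : ((v.1, v.2 - 1), true) ∈ H <;>
      simp only [b1, b2, b3, b4, if_true, if_false] at h ⊢ <;> first
        | (exfalso; norm_num at h; done)
        | decide)
  refine ⟨F.filter (fun f => s f = 1), by simp, ?_⟩
  ext e
  rw [mem_dF]
  have key : e ∈ IE F → (¬ (fA e ∈ F.filter (fun f => s f = 1) ↔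
      fB e ∈ F.filter (fun f => s f = 1)) ↔ e ∈ H) := by
    intro he
    have h1 := hs e (mem_IE'.mp he)
    obtain ⟨h2, h3⟩ := mem_IE.mp he
    simp only [Finset.mem_filter, h2, h3, true_and]
    by_cases hh : e ∈ H
    · simp only [hh, if_true, iff_true] at h1 ⊢
      generalize s (fA e) = x at *
      generalize s (fB e) = y at *
      revert x y
      decide
    · simp only [hh, if_false, iff_false, not_not] at h1 ⊢
      generalize s (fA e) = x at *
      generalize s (fB e) = y at *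
      revert x y
      decide
  constructor
  · rintro ⟨he, h⟩
    exact (key he).mp h
  · intro h
    exact ⟨hH h, (key (hH h)).mpr h⟩

/-- Number of face sets with given coboundary. -/
theorem card_dF_eq {F : Finset P2} (hF : SC (F : Set P2)) {H : Finset Edge} (hH : H ⊆ IE F)
    [Decidable (Ev F H)] :
    ((F.powerset.filter (fun S => dF F S = H)).card : ℝ) = if Ev F H then (N0 F : ℝ) else 0 := by
  classical
  split_ifs with hE
  · obtain ⟨S0, hS0, hd⟩ := exists_dF_eq hF hH hE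
    unfold N0
    norm_cast
    apply Finset.card_bij' (fun S _ => symmDiff S S0) (fun S _ => symmDiff S S0)
    · intro S hS
      rw [Finset.mem_filter, Finset.mem_powerset] at hS ⊢
      refine ⟨?_, ?_⟩
      · intro x hx
        rw [Finset.mem_symmDiff] at hx
        rcases hx with h | h
        · exact hS.1 h.1
        · exact Finset.mem_powerset.mp hS0 h.1
      · rw [dF_symmDiff, hS.2, hd, symmDiff_self]; rfl
    · intro S hS
      rw [Finset.mem_filter, Finset.mem_powerset] at hS ⊢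
      refine ⟨?_, ?_⟩
      · intro x hx
        rw [Finset.mem_symmDiff] at hx
        rcases hx with h | h
        · exact hS.1 h.1
        · exact Finset.mem_powerset.mp hS0 h.1
      · rw [dF_symmDiff, hS.2, hd]
        exact bot_symmDiff H
    · intro S _
      exact symmDiff_symmDiff_cancel_right S0 S
    · intro S _
      exact symmDiff_symmDiff_cancel_right S0 S
  · rw [Nat.cast_eq_zero, Finset.card_eq_zero, Finset.filter_eq_empty_iff]
    intro S _ h
    exact hE (h ▸ ev_dF F S)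

/-- **Kramers–Wannier duality** on a simply connected face set (free faces / wired vertices), for
arbitrary real edge weights. -/
theorem kramers_wannier {F : Finset P2} (hF : SC (F : Set P2)) (a b : Edge → ℝ) :
    ∑ S ∈ F.powerset, ∏ e ∈ IE F, (if (fA e ∈ S ↔ fB e ∈ S) then a e else b e) =
      (N0 F : ℝ) / 2 ^ (IV F).card *
        ∑ T ∈ (IV F).powerset, ∏ e ∈ IE F,
          (if (src e ∈ T ↔ tgt e ∈ T) then a e + b e else a e - b e) := by
  classical
  -- Step A: group by the coboundary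
  have hA : ∑ S ∈ F.powerset, ∏ e ∈ IE F, (if (fA e ∈ S ↔ fB e ∈ S) then a e else b e) =
      ∑ H ∈ (IE F).powerset, ((F.powerset.filter (fun S => dF F S = H)).card : ℝ) *
        ((∏ e ∈ H, b e) * ∏ e ∈ IE F \ H, a e) := by
    rw [← Finset.sum_fiberwise_of_maps_to (s := F.powerset) (t := (IE F).powerset)
      (g := fun S => dF F S) (by
        intro S _
        rw [Finset.mem_powerset]
        exact Finset.filter_subset _ _)]
    apply Finset.sum_congr rfl
    intro H hH
    rw [← nsmul_eq_mul, ← Finset.sum_const]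
    apply Finset.sum_congr rfl
    intro S hS
    rw [Finset.mem_filter] at hS
    rw [← hS.2]
    have hsub : dF F S ⊆ IE F := Finset.filter_subset _ _
    rw [← Finset.prod_sdiff hsub, mul_comm]
    congr 1
    · apply Finset.prod_congr rfl
      intro e he
      rw [if_neg (mem_dF.mp he).2]
    · apply Finset.prod_congr rfl
      intro e he
      rw [Finset.mem_sdiff, mem_dF] at he
      rw [if_pos]
      by_contra h
      exact he.2 ⟨he.1, h⟩
  rw [hA]
  -- Step B/C: counting and characters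
  have hB : ∀ H ∈ (IE F).powerset,
      ((F.powerset.filter (fun S => dF F S = H)).card : ℝ) *
        ((∏ e ∈ H, b e) * ∏ e ∈ IE F \ H, a e) =
      (N0 F : ℝ) / 2 ^ (IV F).card * ∑ T ∈ (IV F).powerset,
        ((∏ e ∈ H, (b e * (sg (src e ∈ T) * sg (tgt e ∈ T)))) * ∏ e ∈ IE F \ H, a e) := by
    intro H hH
    rw [card_dF_eq hF (Finset.mem_powerset.mp hH), ← Finset.sum_mul]
    have h1 : ∑ T ∈ (IV F).powerset, ∏ e ∈ H, (b e * (sg (src e ∈ T) * sg (tgt e ∈ T))) =
        (∏ e ∈ H, b e) * (if Ev F H then (2 : ℝ) ^ (IV F).card else 0) := by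
      rw [← sum_chars, Finset.mul_sum]
      apply Finset.sum_congr rfl
      intro T _
      rw [Finset.prod_mul_distrib]
    rw [h1]
    have h2 : ((2 : ℝ) ^ (IV F).card) ≠ 0 := by positivity
    split_ifs with h
    · field_simp
    · simp
  rw [Finset.sum_congr rfl hB, ← Finset.mul_sum, Finset.sum_comm]
  congr 1
  apply Finset.sum_congr rfl
  intro T _
  rw [← Finset.prod_add]
  apply Finset.prod_congr rfl
  intro e _
  by_cases h1 : src e ∈ T <;> by_cases h2 : tgt e ∈ T <;> simp [sg, h1, h2] <;> ring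

end Crest.Agent.R161.DualB729
end

-- ▼ part R161/DualC_729
section

/-!
Row 161: consequences of planar duality and the integer 1-form lemma.
-/

set_option autoImplicit false

namespace Crest.Agent.R161.DualC729

open Finset Crest.Agent.R161.Geo729 Crest.Agent.R161.Dual729 Crest.Agent.R161.DualB729

/-! ### The 1-form lemma -/

/-- A function that does not change along non-interior edges is constant on faces of the complement
joined in the complement. -/
theorem const_of_conn {A : Type*} {F : Set P2} (k : P2 → A)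
    (hk : ∀ e, ¬ IntE F e → k (tgt e) = k (src e)) {f g : P2} (h : Conn Fᶜ f g) : k g = k f := by
  induction h with
  | refl => rfl
  | @tail f' g' _ h2 ih =>
    rw [← ih]
    obtain ⟨hf, hg, hadj⟩ := h2
    obtain ⟨x, y⟩ := f'
    rcases hadj with rfl | rfl | rfl | rfl
    · exact hk ((x, y), false) (fun h => hf h.1)
    · have h3 := hk ((x - 1, y), false) (fun h => hg h.1)
      simp only [tgt_h, sub_add_cancel, src_mk] at h3
      exact h3.symm
    · exact hk ((x, y), true) (fun h => hf h.1)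
    · have h3 := hk ((x, y - 1), true) (fun h => hg h.1)
      simp only [tgt_v, sub_add_cancel, src_mk] at h3
      exact h3.symm

/-- Same, from a face of the complement to its corners. -/
theorem const_corner {A : Type*} {F : Set P2} (k : P2 → A)
    (hk : ∀ e, ¬ IntE F e → k (tgt e) = k (src e)) {v g : P2} (hg : g ∉ F) (hv : IsCorner v g) :
    k v = k g := by
  have hb : k (g.1 + 1, g.2) = k g := hk (g, false) (fun h => hg h.1)
  have hl : k (g.1, g.2 + 1) = k g := hk (g, true) (fun h => hg h.1)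
  have ht : k (g.1 + 1, g.2 + 1) = k (g.1, g.2 + 1) :=
    hk ((g.1, g.2 + 1), false) (fun h => hg (by
      have := h.2
      simpa using this))
  rcases hv with rfl | rfl | rfl | rfl
  · rfl
  · exact hb
  · exact hl
  · exact ht.trans hl

/-- **Integer (any group) 1-form lemma (D2)**: on a simply connected finite face set, a 1-form on
edges vanishing on non-interior edges and closed around every face of `F` is the differential of a
function vanishing at all non-interior vertices. -/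
theorem exists_height {A : Type*} [AddCommGroup A] {F : Finset P2} (hF : SC (F : Set P2))
    (θ : Edge → A) (h0 : ∀ e, ¬ IntE (F : Set P2) e → θ e = 0)
    (hcl : ∀ f ∈ F, θ (f, false) + θ ((f.1 + 1, f.2), true) =
      θ (f, true) + θ ((f.1, f.2 + 1), false)) :
    ∃ k : P2 → A, (∀ e, k (tgt e) = k (src e) + θ e) ∧
      ∀ v, ¬ IntV (F : Set P2) v → k v = 0 := by
  classical
  obtain ⟨N, hN⟩ : ∃ N : ℤ, ∀ f ∈ F, N < f.1 := by
    rcases (F.image Prod.fst).eq_empty_or_nonempty with h | h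
    · refine ⟨0, fun f hf => ?_⟩
      rw [Finset.image_eq_empty] at h
      simp [h] at hf
    · exact ⟨Finset.min' _ h - 1, fun f hf => by
        have := Finset.min'_le _ f.1 (Finset.mem_image_of_mem _ hf)
        omega⟩
  have hz : ∀ e : Edge, e.1.1 ≤ N → θ e = 0 := by
    intro e he
    apply h0
    rintro ⟨h1, _⟩
    have := hN _ h1
    simp only [fA] at this
    omega
  obtain ⟨k, hk1, hk2, hk3⟩ := poincare (fun p : P2 => θ (p, false)) (fun p : P2 => θ (p, true)) N
    (fun i j h => hz _ (by simp only; omega)) (fun i j h => hz _ (by simp only; omega))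
    (fun i j => by
      by_cases hf : (i, j) ∈ F
      · exact hcl (i, j) hf
      · rw [h0 ((i, j), false) (fun h => hf h.1), h0 ((i, j), true) (fun h => hf h.1),
          h0 ((i + 1, j), true) (fun h => hf (by
            have := h.2
            simpa using this)),
          h0 ((i, j + 1), false) (fun h => hf (by
            have := h.2
            simpa using this))])
  have hstep : ∀ e, k (tgt e) = k (src e) + θ e := by
    rintro ⟨⟨x, y⟩, b⟩
    cases b
    · exact hk1 x y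
    · exact hk2 x y
  refine ⟨k, hstep, ?_⟩
  intro v hv
  rw [intV_iff] at hv
  push Not at hv
  obtain ⟨g, hg, hgF⟩ := hv
  have hk : ∀ e, ¬ IntE (F : Set P2) e → k (tgt e) = k (src e) := by
    intro e he
    rw [hstep, h0 e he, add_zero]
  have hfar : ((N, 0) : P2) ∉ (F : Set P2) := by
    intro h
    have := hN _ h
    simp only at this
    omega
  rw [const_corner k hk hgF hg, ← const_of_conn k hk (hF g hgF (N, 0) hfar)]
  exact hk3 N 0 le_rfl

/-! ### Connected face sets have `N0 = 2` -/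




/-! ### Counting face signs constant on dual clusters -/

/-- Face signs constant across the closed edges (edges of `IE F` not in `z`) versus vertex signs
constant across the edges of `z`. -/
theorem card_face_signs {F : Finset P2} (hF : SC (F : Set P2)) (z : Finset Edge) :
    ((F.powerset.filter (fun S => ∀ e ∈ IE F, e ∉ z → (fA e ∈ S ↔ fB e ∈ S))).card : ℝ) =
      (N0 F : ℝ) / 2 ^ (IV F).card * (2 ^ (IE F ∩ z).card *
        (((IV F).powerset.filter (fun T => ∀ e ∈ IE F, e ∈ z → (src e ∈ T ↔ tgt e ∈ T))).card : ℝ)) := by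
  classical
  have h := kramers_wannier hF (fun _ => 1) (fun e => if e ∈ z then 1 else 0)
  have hL : ∑ S ∈ F.powerset, ∏ e ∈ IE F, (if (fA e ∈ S ↔ fB e ∈ S) then (1 : ℝ) else
      if e ∈ z then 1 else 0) =
      ((F.powerset.filter (fun S => ∀ e ∈ IE F, e ∉ z → (fA e ∈ S ↔ fB e ∈ S))).card : ℝ) := by
    rw [Finset.card_filter]
    push_cast
    apply Finset.sum_congr rfl
    intro S _
    split_ifs with hS
    · apply Finset.prod_eq_one
      intro e he
      by_cases h1 : (fA e ∈ S ↔ fB e ∈ S)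
      · rw [if_pos h1]
      · rw [if_neg h1, if_pos]
        by_contra h2
        exact h1 (hS e he h2)
    · push Not at hS
      obtain ⟨e, he, hz, hne⟩ := hS
      apply Finset.prod_eq_zero he
      rw [if_neg, if_neg hz]
      intro hiff
      rcases hne with ⟨h1, h2⟩ | ⟨h1, h2⟩
      · exact h2 (hiff.mp h1)
      · exact h1 (hiff.mpr h2)
  have hR : ∑ T ∈ (IV F).powerset, ∏ e ∈ IE F,
      (if (src e ∈ T ↔ tgt e ∈ T) then (1 : ℝ) + (if e ∈ z then 1 else 0)
        else 1 - (if e ∈ z then 1 else 0)) =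
      2 ^ (IE F ∩ z).card *
        (((IV F).powerset.filter (fun T => ∀ e ∈ IE F, e ∈ z → (src e ∈ T ↔ tgt e ∈ T))).card : ℝ) := by
    rw [Finset.card_filter]
    push_cast
    rw [Finset.mul_sum]
    apply Finset.sum_congr rfl
    intro T _
    split_ifs with hT
    · rw [mul_one, ← Finset.prod_inter_mul_prod_sdiff (IE F) z]
      rw [Finset.prod_congr (g := fun _ => (2 : ℝ)) rfl, Finset.prod_const,
        Finset.prod_eq_one, mul_one]
      · intro e he
        rw [Finset.mem_sdiff] at he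
        simp [he.2]
      · intro e he
        rw [Finset.mem_inter] at he
        rw [if_pos (hT e he.1 he.2), if_pos he.2]
        norm_num
    · rw [mul_zero]
      push Not at hT
      obtain ⟨e, he, hz, hne⟩ := hT
      apply Finset.prod_eq_zero he
      rw [if_neg, if_pos hz]
      · norm_num
      · intro hiff
        rcases hne with ⟨h1, h2⟩ | ⟨h1, h2⟩
        · exact h2 (hiff.mp h1)
        · exact h1 (hiff.mpr h2)
  rw [hL, hR] at h
  convert h

end Crest.Agent.R161.DualC729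
end

-- ▼ part R161/Marg_729
section

/-!
Row 161: the sign representation of the height model on a simply connected face set: bijection
between admissible configurations `(k, h, z)` and triples `(T, S, Z)` (`T` = interior vertices with
`τ = -`, `S` = faces with `τ' = -`, `Z` = cut edges), and the `(τ, ζ)`-marginal.
-/

set_option autoImplicit false

namespace Crest.Agent.R161.Marg729

open Finset Crest.Agent.R161.Geo729 Crest.Agent.R161.Dual729 Crest.Agent.R161.DualB729
  Crest.Agent.R161.DualC729 Crest.Agent.R161.Defs372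

theorem intEdges_eq (F : Finset P2) : intEdges F = IE F := rfl

/-- Vertices with `τ = -`. -/
def tm (F : Finset P2) (ω : Cfg) : Finset P2 := (IV F).filter (fun v => ω.1 v % 4 = 2)
/-- Faces with `τ' = -`. -/
def sm (F : Finset P2) (ω : Cfg) : Finset P2 := F.filter (fun f => ω.2.1 f % 4 = 3)
/-- Cut interior edges. -/
def zm (F : Finset P2) (ω : Cfg) : Finset Edge := (IE F).filter (fun e => ω.2.2 e = true)

theorem mem_zm {F : Finset P2} {ω : Cfg} {e : Edge} :
    e ∈ zm F ω ↔ e ∈ IE F ∧ ω.2.2 e = true := by simp [zm]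

theorem zero_of_not_IV {F : Finset P2} {ω : Cfg} (h : Valid F ω) {v : P2} (hv : v ∉ IV F) :
    ω.1 v = 0 := h.zero v hv

theorem mem_tm {F : Finset P2} {ω : Cfg} (h : Valid F ω) {v : P2} :
    v ∈ tm F ω ↔ ω.1 v % 4 = 2 := by
  simp only [tm, Finset.mem_filter, and_iff_right_iff_imp]
  intro h1
  by_contra h2
  rw [zero_of_not_IV h h2] at h1
  norm_num at h1

theorem mem_sm {F : Finset P2} {ω : Cfg} (h : Valid F ω) {f : P2} :
    f ∈ sm F ω ↔ ω.2.1 f % 4 = 3 := by
  simp only [sm, Finset.mem_filter, and_iff_right_iff_imp]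
  intro h1
  by_contra h2
  rw [h.off f h2] at h1
  norm_num at h1

theorem corner_src_fA (e : Edge) : IsCorner (src e) (fA e) := Or.inl rfl
theorem corner_tgt_fA (e : Edge) : IsCorner (tgt e) (fA e) := by
  obtain ⟨⟨x, y⟩, b⟩ := e
  cases b
  · exact Or.inr (Or.inl rfl)
  · exact Or.inr (Or.inr (Or.inl rfl))
theorem corner_src_fB (e : Edge) : IsCorner (src e) (fB e) := by
  obtain ⟨⟨x, y⟩, b⟩ := e
  cases b
  · right; right; left; simp
  · right; left; simp
theorem corner_tgt_fB (e : Edge) : IsCorner (tgt e) (fB e) := by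
  obtain ⟨⟨x, y⟩, b⟩ := e
  cases b
  · right; right; right; simp
  · right; right; right; simp

theorem face_odd {F : Finset P2} {ω : Cfg} (h : Valid F ω) {f : P2} (hf : f ∈ F) :
    ω.2.1 f % 2 = 1 := by
  have h1 := h.corner f hf f (Or.inl rfl)
  have h2 := h.even f
  rw [Int.even_iff] at h2
  rcases abs_eq (by norm_num : (0 : ℤ) ≤ 1) |>.1 h1 with h3 | h3 <;> omega

theorem agree_vert {F : Finset P2} {ω : Cfg} (h : Valid F ω) {e : Edge}
    (he : fA e ∈ F) :
    ω.1 (src e) = ω.1 (tgt e) ↔ (src e ∈ tm F ω ↔ tgt e ∈ tm F ω) := by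
  rw [mem_tm h, mem_tm h]
  have h1 := h.corner _ he _ (corner_src_fA e)
  have h2 := h.corner _ he _ (corner_tgt_fA e)
  have h3 := Int.even_iff.mp (h.even (src e))
  have h4 := Int.even_iff.mp (h.even (tgt e))
  rcases abs_eq (by norm_num : (0 : ℤ) ≤ 1) |>.1 h1 with h1 | h1 <;>
  rcases abs_eq (by norm_num : (0 : ℤ) ≤ 1) |>.1 h2 with h2 | h2 <;> omega

theorem agree_face {F : Finset P2} {ω : Cfg} (h : Valid F ω) {e : Edge} (he : e ∈ IE F) :
    ω.2.1 (fA e) = ω.2.1 (fB e) ↔ (fA e ∈ sm F ω ↔ fB e ∈ sm F ω) := by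
  rw [mem_sm h, mem_sm h]
  obtain ⟨hA, hB⟩ := mem_IE.mp he
  have h1 := h.corner _ hA _ (corner_src_fA e)
  have h2 := h.corner _ hB _ (corner_src_fB e)
  have h3 := face_odd h hA
  have h4 := face_odd h hB
  rcases abs_eq (by norm_num : (0 : ℤ) ≤ 1) |>.1 h1 with h1 | h1 <;>
  rcases abs_eq (by norm_num : (0 : ℤ) ≤ 1) |>.1 h2 with h2 | h2 <;> omega

/-- Compatibility of `(T, S, Z)` on the interior edges. -/
def Comp (F : Finset P2) (T S : Finset P2) (Z : Finset Edge) : Prop :=
  ∀ e ∈ IE F, (e ∈ Z → (src e ∈ T ↔ tgt e ∈ T)) ∧ (e ∉ Z → (fA e ∈ S ↔ fB e ∈ S))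

/-- The configuration satisfies all edge constraints in `F`. -/
def Ok (F : Finset P2) (ω : Cfg) : Prop := ∀ e ∈ IE F, EdgeOk ω e

theorem ok_iff_comp {F : Finset P2} {ω : Cfg} (h : Valid F ω) :
    Ok F ω ↔ Comp F (tm F ω) (sm F ω) (zm F ω) := by
  unfold Ok Comp EdgeOk
  apply forall₂_congr
  intro e he
  rw [agree_vert h (mem_IE.mp he).1, agree_face h he]
  have h1 : e ∈ zm F ω ↔ ω.2.2 e = true := by rw [mem_zm]; exact and_iff_right he
  rw [h1, Bool.not_eq_true]

theorem ew_of_ok {F : Finset P2} {ω : Cfg} (h : Valid F ω) (c : ℝ) {e : Edge} (he : e ∈ IE F)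
    (hok : EdgeOk ω e) :
    ew c ω e = if e ∈ zm F ω then 1 else
      if (src e ∈ tm F ω ↔ tgt e ∈ tm F ω) then c - 1 else 1 := by
  unfold ew
  have h1 : e ∈ zm F ω ↔ ω.2.2 e = true := by rw [mem_zm]; exact and_iff_right he
  have h2 := agree_vert h (mem_IE.mp he).1
  by_cases hz : ω.2.2 e = true
  · rw [if_pos hz, if_pos (h1.mpr hz), if_pos (hok.1 hz)]
  · rw [if_neg hz, if_neg (fun h => hz (h1.mp h)), if_pos (hok.2 (by simpa using hz))]
    by_cases h3 : ω.1 (src e) = ω.1 (tgt e)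
    · rw [if_pos h3, if_pos (h2.mp h3)]
    · rw [if_neg h3, if_neg (fun h => h3 (h2.mpr h))]

/-- Edge weight in sign language. -/
noncomputable def sw (c : ℝ) (F T : Finset P2) (Z : Finset Edge) : ℝ :=
  ∏ e ∈ IE F, (if e ∈ Z then 1 else if (src e ∈ T ↔ tgt e ∈ T) then c - 1 else 1)

theorem wt_of_ok {F : Finset P2} {ω : Cfg} (h : Valid F ω) (c : ℝ) (hok : Ok F ω) :
    wt c F ω = sw c F (tm F ω) (zm F ω) := by
  unfold wt sw
  rw [intEdges_eq]
  exact Finset.prod_congr rfl fun e he => ew_of_ok h c he (hok e he)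

theorem wt_of_not_ok {F : Finset P2} {ω : Cfg} (c : ℝ) (hok : ¬ Ok F ω) : wt c F ω = 0 := by
  unfold Ok at hok
  push Not at hok
  obtain ⟨e, he, h⟩ := hok
  exact Finset.prod_eq_zero (intEdges_eq F ▸ he) (ew_eq_zero h)

/-! ### Injectivity -/

/-- Heights at faces are determined by the residues. -/
theorem face_inj {F : Finset P2} {ω ω' : Cfg} (h : Valid F ω) (h' : Valid F ω')
    (ht : tm F ω = tm F ω') (hs : sm F ω = sm F ω') (n : ℕ) :
    ∀ f : P2, f ∈ F → (∃ j : ℕ, j < n ∧ (f.1 + j + 1, f.2) ∉ F) →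
      ω.2.1 f = ω'.2.1 f ∧ ω.1 (f.1 + 1, f.2) = ω'.1 (f.1 + 1, f.2) := by
  -- local step: equality at a corner iff equality at the face
  have step : ∀ f ∈ F, ∀ v, IsCorner v f → ω.1 v - ω.2.1 f = ω'.1 v - ω'.2.1 f := by
    intro f hf v hv
    have h1 := h.corner f hf v hv
    have h2 := h'.corner f hf v hv
    have h3 := Int.even_iff.mp (h.even v)
    have h4 := Int.even_iff.mp (h'.even v)
    have h5 := face_odd h hf
    have h6 := face_odd h' hf
    have h7 : ω.1 v % 4 = 2 ↔ ω'.1 v % 4 = 2 := by rw [← mem_tm h, ← mem_tm h', ht]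
    have h8 : ω.2.1 f % 4 = 3 ↔ ω'.2.1 f % 4 = 3 := by rw [← mem_sm h, ← mem_sm h', hs]
    rcases abs_eq (by norm_num : (0 : ℤ) ≤ 1) |>.1 h1 with h1 | h1 <;>
    rcases abs_eq (by norm_num : (0 : ℤ) ≤ 1) |>.1 h2 with h2 | h2 <;> omega
  induction n with
  | zero => rintro f _ ⟨j, hj, _⟩; omega
  | succ n ih =>
    rintro f hf ⟨j, hj, hjF⟩
    have hc1 : IsCorner (f.1 + 1, f.2) f := Or.inr (Or.inl rfl)
    have hst := step f hf _ hc1
    by_cases h1 : (f.1 + 1, f.2) ∈ F
    · have hj0 : j ≠ 0 := by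
        rintro rfl
        apply hjF
        simpa using h1
      obtain ⟨h2, _⟩ := ih (f.1 + 1, f.2) h1 ⟨j - 1, by omega, by
        have : ((f.1 + 1 : ℤ) + ((j - 1 : ℕ) : ℤ) + 1) = f.1 + j + 1 := by
          have : ((j - 1 : ℕ) : ℤ) = j - 1 := by omega
          rw [this]; ring
        simp only
        rw [this]
        exact hjF⟩
      have hst2 := step (f.1 + 1, f.2) h1 (f.1 + 1, f.2) (Or.inl rfl)
      have h3 : ω.1 (f.1 + 1, f.2) = ω'.1 (f.1 + 1, f.2) := by omega
      exact ⟨by omega, h3⟩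
    · have h4 : (f.1 + 1, f.2) ∉ IV F := fun h5 => h1 (mem_IV.mp h5).1
      have h5 := zero_of_not_IV h h4
      have h6 := zero_of_not_IV h' h4
      exact ⟨by omega, by omega⟩

theorem conf_inj {F : Finset P2} {ω ω' : Cfg} (h : Valid F ω) (h' : Valid F ω')
    (ht : tm F ω = tm F ω') (hs : sm F ω = sm F ω') (hz : zm F ω = zm F ω') : ω = ω' := by
  have key := face_inj h h' ht hs (F.card + 1)
  have step : ∀ f ∈ F, ω.1 f - ω.2.1 f = ω'.1 f - ω'.2.1 f := by
    intro f hf
    have h1 := h.corner f hf f (Or.inl rfl)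
    have h2 := h'.corner f hf f (Or.inl rfl)
    have h3 := Int.even_iff.mp (h.even f)
    have h4 := Int.even_iff.mp (h'.even f)
    have h5 := face_odd h hf
    have h6 := face_odd h' hf
    have h7 : ω.1 f % 4 = 2 ↔ ω'.1 f % 4 = 2 := by rw [← mem_tm h, ← mem_tm h', ht]
    have h8 : ω.2.1 f % 4 = 3 ↔ ω'.2.1 f % 4 = 3 := by rw [← mem_sm h, ← mem_sm h', hs]
    rcases abs_eq (by norm_num : (0 : ℤ) ≤ 1) |>.1 h1 with h1 | h1 <;>
    rcases abs_eq (by norm_num : (0 : ℤ) ≤ 1) |>.1 h2 with h2 | h2 <;> omega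
  refine Prod.ext ?_ (Prod.ext ?_ ?_)
  · funext v
    by_cases hv : v ∈ IV F
    · have hvF : v ∈ F := (mem_IV.mp hv).1
      have h1 := (key v hvF (exists_exit F v)).1
      have h2 := step v hvF
      show ω.1 v = ω'.1 v
      omega
    · rw [zero_of_not_IV h hv, zero_of_not_IV h' hv]
  · funext f
    by_cases hf : f ∈ F
    · exact (key f hf (exists_exit F f)).1
    · show ω.2.1 f = ω'.2.1 f
      rw [h.off f hf, h'.off f hf]
  · funext e
    by_cases he : e ∈ IE F
    · have h1 : e ∈ zm F ω ↔ e ∈ zm F ω' := by rw [hz]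
      rw [mem_zm, mem_zm] at h1
      simp only [he, true_and] at h1
      show ω.2.2 e = ω'.2.2 e
      cases h2 : ω.2.2 e <;> cases h3 : ω'.2.2 e <;> simp_all
    · show ω.2.2 e = ω'.2.2 e
      rw [h.cut e he, h'.cut e he]

/-! ### Surjectivity -/

open Classical in
/-- vertex sign -/
noncomputable def vs (T : Finset P2) (v : P2) : ℤ := if v ∈ T then -1 else 1

theorem vs_cases (T : Finset P2) (v : P2) : vs T v = 1 ∨ vs T v = -1 := by
  unfold vs; split_ifs <;> simp

theorem vs_eq_iff (T : Finset P2) (v w : P2) : vs T v = vs T w ↔ (v ∈ T ↔ w ∈ T) := by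
  unfold vs; by_cases h1 : v ∈ T <;> by_cases h2 : w ∈ T <;> simp [h1, h2]

theorem vs_neg_iff (T : Finset P2) (v : P2) : vs T v = -1 ↔ v ∈ T := by
  unfold vs; by_cases h1 : v ∈ T <;> simp [h1]

/-- Every compatible triple comes from a configuration. -/
theorem conf_surj {F : Finset P2} (hF : SC (F : Set P2)) {T S : Finset P2} {Z : Finset Edge}
    (hT : T ⊆ IV F) (hS : S ⊆ F) (hZ : Z ⊆ IE F) (hc : Comp F T S Z) :
    ∃ ω : Cfg, Valid F ω ∧ tm F ω = T ∧ sm F ω = S ∧ zm F ω = Z := by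
  classical
  have hTout : ∀ v, ¬ IntV (F : Set P2) v → vs T v = 1 := by
    intro v hv
    rcases vs_cases T v with h | h
    · exact h
    · rw [vs_neg_iff] at h
      exact absurd (mem_IV.mp (hT h)) hv
  -- the 1-form
  let θ : Edge → ℤ := fun e => if e ∈ IE F then vs S (fA e) * (vs T (src e) - vs T (tgt e)) else 0
  have hθ0 : ∀ e, ¬ IntE (F : Set P2) e → θ e = 0 := by
    intro e he
    simp only [θ]
    rw [if_neg]
    rwa [mem_IE']
  -- formula for both bordering faces
  have hθ : ∀ e, ∀ f ∈ F, (f = fA e ∨ f = fB e) →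
      θ e = vs S f * (vs T (src e) - vs T (tgt e)) := by
    intro e f hf hfe
    by_cases he : e ∈ IE F
    · simp only [θ]
      rw [if_pos he]
      rcases hfe with rfl | rfl
      · rfl
      · obtain ⟨h1, h2⟩ := hc e he
        by_cases hz : e ∈ Z
        · rw [(vs_eq_iff T _ _).mpr (h1 hz)]; ring
        · rw [(vs_eq_iff S _ _).mpr (h2 hz)]
    · rw [hθ0 e (by rwa [mem_IE'] at he)]
      -- both endpoints are non-interior
      have h1 : ∀ v, (IsCorner v (fA e) ∧ IsCorner v (fB e)) → vs T v = 1 := by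
        intro v hv
        apply hTout
        intro hI
        rw [intV_iff] at hI
        exact he (mem_IE'.mpr ⟨hI _ hv.1, hI _ hv.2⟩)
      rw [h1 _ ⟨corner_src_fA e, corner_src_fB e⟩, h1 _ ⟨corner_tgt_fA e, corner_tgt_fB e⟩]
      ring
  obtain ⟨k, hk1, hk2⟩ := exists_height hF θ hθ0 (by
    intro f hf
    rw [hθ (f, false) f hf (Or.inl rfl), hθ (f, true) f hf (Or.inl rfl),
      hθ ((f.1 + 1, f.2), true) f hf (Or.inr (by simp)),
      hθ ((f.1, f.2 + 1), false) f hf (Or.inr (by simp))]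
    simp only [src_mk, tgt_h, tgt_v]
    ring)
  -- residues
  have hstep4 : ∀ e, (k (tgt e) + vs T (tgt e)) % 4 = (k (src e) + vs T (src e)) % 4 := by
    intro e
    rw [hk1 e]
    by_cases he : e ∈ IE F
    · rw [hθ e (fA e) (mem_IE.mp he).1 (Or.inl rfl)]
      rcases vs_cases S (fA e) with h1 | h1 <;> rcases vs_cases T (src e) with h2 | h2 <;>
        rcases vs_cases T (tgt e) with h3 | h3 <;> rw [h1, h2, h3] <;> omega
    · have he' : ¬ IntE (F : Set P2) e := by rwa [mem_IE'] at he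
      rw [hθ0 e he']
      have h1 : ∀ v, (IsCorner v (fA e) ∧ IsCorner v (fB e)) → vs T v = 1 := by
        intro v hv
        apply hTout
        intro hI
        rw [intV_iff] at hI
        exact he' ⟨hI _ hv.1, hI _ hv.2⟩
      rw [h1 _ ⟨corner_src_fA e, corner_src_fB e⟩, h1 _ ⟨corner_tgt_fA e, corner_tgt_fB e⟩]
      omega
  have hright : ∀ (n : ℕ) (v : P2), (∃ j : ℕ, j < n ∧ (v.1 + j + 1, v.2) ∉ F) →
      (k v + vs T v) % 4 = 1 := by
    intro n
    induction n with
    | zero => rintro v ⟨j, hj, _⟩; omega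
    | succ n ih =>
      rintro v ⟨j, hj, hjF⟩
      by_cases h1 : (v.1 + 1, v.2) ∈ F
      · have hj0 : j ≠ 0 := by
          rintro rfl
          apply hjF
          simpa using h1
        have h2 := ih (v.1 + 1, v.2) ⟨j - 1, by omega, by
          have : ((v.1 + 1 : ℤ) + ((j - 1 : ℕ) : ℤ) + 1) = v.1 + j + 1 := by
            have : ((j - 1 : ℕ) : ℤ) = j - 1 := by omega
            rw [this]; ring
          simp only
          rw [this]
          exact hjF⟩
        have h3 := hstep4 (v, false)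
        simp only [tgt_h, src_mk] at h3
        omega
      · have h2 : ¬ IntV (F : Set P2) (v.1 + 1, v.2) := fun h => h1 h.1
        have h3 := hstep4 (v, false)
        simp only [tgt_h, src_mk] at h3
        rw [hk2 _ h2, hTout _ h2] at h3
        omega
  have hres : ∀ v, (k v + vs T v) % 4 = 1 := fun v => hright (F.card + 1) v (exists_exit F v)
  -- the configuration
  let hh : P2 → ℤ := fun f => if f ∈ F then k f + vs T f * vs S f else 1
  have hcorner : ∀ f ∈ F, ∀ v, IsCorner v f → hh f = k v + vs T v * vs S f := by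
    intro f hf v hv
    simp only [hh]
    rw [if_pos hf]
    -- along an edge bordering `f`
    have hedge : ∀ e : Edge, (f = fA e ∨ f = fB e) →
        k (src e) + vs T (src e) * vs S f = k (tgt e) + vs T (tgt e) * vs S f := by
      intro e he
      rw [hk1 e, hθ e f hf he]
      ring
    have e1 := hedge (f, false) (Or.inl rfl)
    have e2 := hedge (f, true) (Or.inl rfl)
    have e3 := hedge ((f.1, f.2 + 1), false) (Or.inr (by simp))
    simp only [src_mk, tgt_h, tgt_v] at e1 e2 e3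
    rcases hv with rfl | rfl | rfl | rfl
    · rfl
    · exact e1
    · exact e2
    · rw [e2, e3]
  let ω : Cfg := (k, hh, fun e => decide (e ∈ Z ∨ e ∉ IE F))
  have hval : Valid F ω := by
    refine ⟨?_, ?_, ?_, ?_, ?_⟩
    · intro v hv
      exact hk2 v (fun h => hv (mem_IV.mpr h))
    · intro v
      show Even (k v)
      rw [Int.even_iff]
      have := hres v
      rcases vs_cases T v with h | h <;> rw [h] at this <;> omega
    · intro f hf
      show hh f = 1
      simp only [hh]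
      rw [if_neg hf]
    · intro f hf v hv
      show |k v - hh f| = 1
      rw [hcorner f hf v hv]
      rcases vs_cases T v with h1 | h1 <;> rcases vs_cases S f with h2 | h2 <;> rw [h1, h2] <;>
        norm_num
    · intro e he
      show decide (e ∈ Z ∨ e ∉ IE F) = true
      simp only [decide_eq_true_eq]
      exact Or.inr he
  refine ⟨ω, hval, ?_, ?_, ?_⟩
  · ext v
    rw [mem_tm hval]
    show k v % 4 = 2 ↔ v ∈ T
    rw [← vs_neg_iff]
    have := hres v
    rcases vs_cases T v with h | h <;> rw [h] at this ⊢ <;> omega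
  · ext f
    rw [mem_sm hval]
    show hh f % 4 = 3 ↔ f ∈ S
    by_cases hf : f ∈ F
    · rw [← vs_neg_iff, hcorner f hf f (Or.inl rfl)]
      have := hres f
      rcases vs_cases T f with h | h <;> rcases vs_cases S f with h' | h' <;>
        rw [h] at this ⊢ <;> rw [h'] <;> omega
    · constructor
      · intro h
        simp only [hh] at h
        rw [if_neg hf] at h
        norm_num at h
      · intro h
        exact absurd (hS h) hf
  · ext e
    rw [mem_zm]
    show (e ∈ IE F ∧ decide (e ∈ Z ∨ e ∉ IE F) = true) ↔ e ∈ Z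
    simp only [decide_eq_true_eq]
    constructor
    · rintro ⟨h1, h2 | h2⟩
      · exact h2
      · exact absurd h1 h2
    · intro h
      exact ⟨hZ h, Or.inl h⟩

/-! ### The sum over configurations -/

open Classical in
/-- **Sign representation**: sums over configurations are sums over compatible triples. -/
theorem sum_conf {F : Finset P2} (hF : SC (F : Set P2)) (c : ℝ)
    (g : Finset P2 → Finset P2 → Finset Edge → ℝ) :
    ∑ ω ∈ conf F, wt c F ω * g (tm F ω) (sm F ω) (zm F ω) =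
      ∑ T ∈ (IV F).powerset, ∑ Z ∈ (IE F).powerset, ∑ S ∈ F.powerset,
        if Comp F T S Z then sw c F T Z * g T S Z else 0 := by
  have h1 : ∑ ω ∈ conf F, wt c F ω * g (tm F ω) (sm F ω) (zm F ω) =
      ∑ ω ∈ (conf F).filter (fun ω => Ok F ω),
        sw c F (tm F ω) (zm F ω) * g (tm F ω) (sm F ω) (zm F ω) := by
    rw [Finset.sum_filter]
    apply Finset.sum_congr rfl
    intro ω hω
    split_ifs with h
    · rw [wt_of_ok (mem_conf.mp hω) c h]
    · rw [wt_of_not_ok c h, zero_mul]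
  have h2 : ∑ T ∈ (IV F).powerset, ∑ Z ∈ (IE F).powerset, ∑ S ∈ F.powerset,
        (if Comp F T S Z then sw c F T Z * g T S Z else 0) =
      ∑ p ∈ ((IV F).powerset ×ˢ ((IE F).powerset ×ˢ F.powerset)).filter
        (fun p => Comp F p.1 p.2.2 p.2.1), sw c F p.1 p.2.1 * g p.1 p.2.2 p.2.1 := by
    rw [Finset.sum_filter, Finset.sum_product]
    apply Finset.sum_congr rfl
    intro T _
    rw [Finset.sum_product]
  rw [h1, h2]
  apply Finset.sum_bij (fun ω _ => (tm F ω, zm F ω, sm F ω))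
  · intro ω hω
    rw [Finset.mem_filter] at hω ⊢
    have hv := mem_conf.mp hω.1
    refine ⟨?_, (ok_iff_comp hv).mp hω.2⟩
    simp only [Finset.mem_product, Finset.mem_powerset]
    exact ⟨Finset.filter_subset _ _, Finset.filter_subset _ _, Finset.filter_subset _ _⟩
  · intro ω hω ω' hω' heq
    rw [Finset.mem_filter] at hω hω'
    simp only [Prod.mk.injEq] at heq
    exact conf_inj (mem_conf.mp hω.1) (mem_conf.mp hω'.1) heq.1 heq.2.2 heq.2.1
  · rintro ⟨T, Z, S⟩ hp
    rw [Finset.mem_filter] at hp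
    simp only [Finset.mem_product, Finset.mem_powerset] at hp
    obtain ⟨⟨hT, hZ, hS⟩, hc⟩ := hp
    obtain ⟨ω, hv, e1, e2, e3⟩ := conf_surj hF hT hS hZ hc
    refine ⟨ω, ?_, by simp only [e1, e2, e3]⟩
    rw [Finset.mem_filter]
    refine ⟨mem_conf.mpr hv, ?_⟩
    rw [ok_iff_comp hv, e1, e2, e3]
    exact hc
  · intro ω _
    rfl

/-- FK-type weight of `(τ, ζ)`: agreeing edges carry `2` (cut) or `c - 1` (open), disagreeing
edges must be open and carry `1`. -/
noncomputable def fkw (c : ℝ) (F T : Finset P2) (Z : Finset Edge) : ℝ :=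
  ∏ e ∈ IE F, (if (src e ∈ T ↔ tgt e ∈ T) then (if e ∈ Z then 2 else c - 1)
    else (if e ∈ Z then 0 else 1))

open Classical in
/-- Number of sign functions of the interior vertices (`+` elsewhere) constant along the cut edges:
`2 ^ (number of ζ-clusters not containing the boundary)`. -/
noncomputable def ncl (F : Finset P2) (Z : Finset Edge) : ℕ :=
  ((IV F).powerset.filter (fun T => ∀ e ∈ IE F, e ∈ Z → (src e ∈ T ↔ tgt e ∈ T))).card

open Classical in
/-- **The `(τ, ζ)`-marginal** (planar duality): FK weight with cluster factor. -/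
theorem sum_conf_tz {F : Finset P2} (hF : SC (F : Set P2)) (c : ℝ)
    (g : Finset P2 → Finset Edge → ℝ) :
    ∑ ω ∈ conf F, wt c F ω * g (tm F ω) (zm F ω) =
      (N0 F : ℝ) / 2 ^ (IV F).card *
        ∑ T ∈ (IV F).powerset, ∑ Z ∈ (IE F).powerset, fkw c F T Z * (ncl F Z : ℝ) * g T Z := by
  rw [sum_conf hF c (fun T _ Z => g T Z), Finset.mul_sum]
  apply Finset.sum_congr rfl
  intro T _
  rw [Finset.mul_sum]
  apply Finset.sum_congr rfl
  intro Z hZ
  rw [Finset.mem_powerset] at hZ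
  by_cases hTZ : ∀ e ∈ IE F, e ∈ Z → (src e ∈ T ↔ tgt e ∈ T)
  · have h1 : ∀ S, Comp F T S Z ↔ ∀ e ∈ IE F, e ∉ Z → (fA e ∈ S ↔ fB e ∈ S) := by
      intro S
      constructor
      · intro h e he hz; exact (h e he).2 hz
      · intro h e he; exact ⟨hTZ e he, h e he⟩
    simp only [h1]
    rw [← Finset.sum_filter, Finset.sum_const, nsmul_eq_mul]
    have h2 := card_face_signs hF Z
    have h4 : fkw c F T Z = 2 ^ (IE F ∩ Z).card * sw c F T Z := by
      unfold fkw sw
      rw [← Finset.prod_inter_mul_prod_sdiff (IE F) Z, ← Finset.prod_inter_mul_prod_sdiff (IE F) Z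
        (fun e => if e ∈ Z then (1 : ℝ) else if (src e ∈ T ↔ tgt e ∈ T) then c - 1 else 1)]
      have h5 : ∏ e ∈ IE F ∩ Z, (if (src e ∈ T ↔ tgt e ∈ T) then (if e ∈ Z then (2 : ℝ) else c - 1)
          else (if e ∈ Z then 0 else 1)) = 2 ^ (IE F ∩ Z).card := by
        rw [Finset.prod_congr (g := fun _ => (2 : ℝ)) rfl, Finset.prod_const]
        intro e he
        rw [Finset.mem_inter] at he
        rw [if_pos (hTZ e he.1 he.2), if_pos he.2]
      have h6 : ∏ e ∈ IE F ∩ Z, (if e ∈ Z then (1 : ℝ) else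
          if (src e ∈ T ↔ tgt e ∈ T) then c - 1 else 1) = 1 := by
        apply Finset.prod_eq_one
        intro e he
        rw [Finset.mem_inter] at he
        rw [if_pos he.2]
      rw [h5, h6, one_mul]
      congr 1
      apply Finset.prod_congr rfl
      intro e he
      rw [Finset.mem_sdiff] at he
      rw [if_neg he.2, if_neg he.2, if_neg he.2]
    have h7 : (N0 F : ℝ) / 2 ^ (IV F).card * (fkw c F T Z * (ncl F Z : ℝ) * g T Z) =
        (N0 F : ℝ) / 2 ^ (IV F).card * (2 ^ (IE F ∩ Z).card * (ncl F Z : ℝ)) *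
          (sw c F T Z * g T Z) := by
      rw [h4]; ring
    rw [h7]
    congr 1
    unfold ncl
    convert h2
  · have h1 : ∀ S, ¬ Comp F T S Z := by
      intro S h
      exact hTZ (fun e he hz => (h e he).1 hz)
    rw [Finset.sum_eq_zero (fun S _ => if_neg (h1 S))]
    have h4 : fkw c F T Z = 0 := by
      push Not at hTZ
      obtain ⟨e, he, hz, hne⟩ := hTZ
      unfold fkw
      apply Finset.prod_eq_zero he
      rw [if_neg, if_pos hz]
      intro hiff
      rcases hne with ⟨a1, a2⟩ | ⟨a1, a2⟩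
      · exact a2 (hiff.mp a1)
      · exact a1 (hiff.mpr a2)
    rw [h4]
    ring

end Crest.Agent.R161.Marg729
end

-- ▼ part R161/AtFkD_729
section

/-!
Row 161: transport of the abstract association / boundary monotonicity theorems to the height model
of `Defs_372` (simply connected domains).
-/

set_option autoImplicit false

namespace Crest.Agent.R161.AtFkD729

open Finset Crest.Agent.R161.Geo729 Crest.Agent.R161.Dual729 Crest.Agent.R161.DualB729
  Crest.Agent.R161.DualC729 Crest.Agent.R161.Defs372 Crest.Agent.R161.Marg729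
  Crest.Agent.R161.AtFkA729 Crest.Agent.R161.AtFkB729 Crest.Agent.R161.AtFkC729
  Crest.Agent.R161.Ifc372

/-! ### counting form of `psi` -/

theorem psi_card {α ε : Type*} [DecidableEq α] [DecidableEq ε] (sr tg : ε → α) (VA : Finset α)
    (c : ℝ) (D : Finset ε) :
    psi sr tg VA c D ∅ =
      ((VA.powerset.filter fun A => ∀ e ∈ D, (sr e ∈ A ↔ tg e ∈ A)).card : ℝ) := by
  classical
  have h1 : psi sr tg VA c D ∅ =
      (((univ : Finset (↥VA → ℤˣ)).filter fun σ => ∀ e ∈ D, sp VA σ (sr e) = sp VA σ (tg e)).card : ℝ) := by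
    unfold psi
    rw [Finset.card_filter]
    push_cast
    refine Finset.sum_congr rfl fun σ _ => ?_
    rw [Finset.prod_empty, mul_one]
    unfold hd
    split_ifs with h
    · exact Finset.prod_eq_one fun e he => if_pos (h e he)
    · push Not at h
      obtain ⟨e, he, hne⟩ := h
      exact Finset.prod_eq_zero he (if_neg hne)
  rw [h1]
  norm_cast
  have hm1 : (1 : ℤˣ) ≠ -1 := by decide
  refine Finset.card_bij' (fun σ _ => VA.filter fun v => sp VA σ v = -1)
    (fun A _ => fun v : ↥VA => if (v : α) ∈ A then (-1 : ℤˣ) else 1) ?_ ?_ ?_ ?_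
  · intro σ hσ
    rw [Finset.mem_filter] at hσ ⊢
    refine ⟨Finset.mem_powerset.mpr (Finset.filter_subset _ _), fun e he => ?_⟩
    have h2 := hσ.2 e he
    have key : ∀ v, v ∈ VA.filter (fun v => sp VA σ v = -1) ↔ sp VA σ v = -1 := by
      intro v
      rw [Finset.mem_filter]
      constructor
      · exact fun h => h.2
      · intro h
        refine ⟨?_, h⟩
        by_contra hv
        unfold sp at h
        rw [dif_neg hv] at h
        exact hm1 h
    rw [key, key, h2]
  · intro A hA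
    rw [Finset.mem_filter, Finset.mem_powerset] at hA
    rw [Finset.mem_filter]
    refine ⟨Finset.mem_univ _, fun e he => ?_⟩
    have key : ∀ v, sp VA (fun v : ↥VA => if (v : α) ∈ A then (-1 : ℤˣ) else 1) v =
        if v ∈ A then -1 else 1 := by
      intro v
      unfold sp
      by_cases hv : v ∈ VA
      · rw [dif_pos hv]
      · rw [dif_neg hv, if_neg (fun h => hv (hA.1 h))]
    rw [key, key]
    have := hA.2 e he
    by_cases h3 : sr e ∈ A
    · rw [if_pos h3, if_pos (this.mp h3)]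
    · rw [if_neg h3, if_neg (fun h => h3 (this.mpr h))]
  · intro σ _
    funext v
    have hv : sp VA σ v = σ v := by unfold sp; rw [dif_pos v.2]
    simp only [Finset.mem_filter, v.2, true_and]
    rw [hv]
    rcases Int.units_eq_one_or (σ v) with h | h
    · rw [h, if_neg hm1]
    · rw [h, if_pos rfl]
  · intro A hA
    rw [Finset.mem_filter, Finset.mem_powerset] at hA
    ext v
    rw [Finset.mem_filter]
    have key : ∀ v, sp VA (fun v : ↥VA => if (v : α) ∈ A then (-1 : ℤˣ) else 1) v =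
        if v ∈ A then -1 else 1 := by
      intro v
      unfold sp
      by_cases hv : v ∈ VA
      · rw [dif_pos hv]
      · rw [dif_neg hv, if_neg (fun h => hv (hA.1 h))]
    rw [key]
    constructor
    · rintro ⟨_, h⟩
      by_contra hv
      rw [if_neg hv] at h
      exact hm1 h
    · intro h
      exact ⟨hA.1 h, if_pos h⟩

/-! ### pairs -/

/-- An edge as a pair of vertices. -/
def pe (e : Edge) : P2 × P2 := (src e, tgt e)

theorem pe_inj : Function.Injective pe := by
  rintro ⟨⟨x, y⟩, b⟩ ⟨⟨x', y'⟩, b'⟩ h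
  simp only [pe, src_mk, Prod.mk.injEq] at h
  obtain ⟨⟨rfl, rfl⟩, h2⟩ := h
  cases b <;> cases b' <;> simp [tgt] at h2 ⊢

theorem pe_swap (e e' : Edge) : pe e ≠ (pe e').swap := by
  obtain ⟨⟨x, y⟩, b⟩ := e
  obtain ⟨⟨x', y'⟩, b'⟩ := e'
  cases b <;> cases b' <;> simp only [pe, src_mk, tgt_h, tgt_v, Prod.swap_prod_mk, ne_eq,
    Prod.mk.injEq, not_and] <;> omega

/-- Number of sign functions of `VA` (`+` elsewhere) respecting the pairs of `D`. -/
noncomputable def nw (VA : Finset P2) (D : Finset (P2 × P2)) : ℝ :=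
  psi Prod.fst Prod.snd VA 1 D ∅

theorem psi_nw (VA : Finset P2) (c : ℝ) (D : Finset (P2 × P2)) :
    psi Prod.fst Prod.snd VA c D ∅ = nw VA D := by
  unfold nw psi
  simp only [Finset.prod_empty]

theorem nw_card (VA : Finset P2) (D : Finset (P2 × P2)) :
    nw VA D = ((VA.powerset.filter fun A => ∀ p ∈ D, (p.1 ∈ A ↔ p.2 ∈ A)).card : ℝ) :=
  psi_card _ _ _ _ _

theorem ncl_eq (F : Finset P2) {Z : Finset Edge} (hZ : Z ⊆ IE F) :
    (ncl F Z : ℝ) = nw (IV F) (Z.image pe) := by
  classical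
  rw [nw_card]
  unfold ncl
  congr 2
  ext A
  simp only [Finset.mem_filter, Finset.mem_image, forall_exists_index, and_imp]
  refine and_congr_right fun _ => ?_
  constructor
  · rintro h p e he rfl
    exact h e (hZ he) he
  · intro h e _ he
    exact h (pe e) e he rfl

/-! ### the environment system on `ℤ²` -/

/-- Lift of a function of edge sets to a function of pair sets. -/
noncomputable def lft (B : Finset P2) (f : Finset P2 → Finset Edge → Finset Edge → ℝ) :
    Finset P2 → Finset (P2 × P2) → Finset (P2 × P2) → ℝ :=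
  fun T P M => f T ((IE B).filter fun e => pe e ∈ P) ((IE B).filter fun e => pe e ∈ M)

theorem lft_inc (B : Finset P2) {f : Finset P2 → Finset Edge → Finset Edge → ℝ} (hf : Inc f) :
    Inc (lft B f) := by
  intro T T' P P' M M' hT hP hM
  refine hf _ _ _ _ _ _ hT ?_ ?_
  · intro e he
    rw [Finset.mem_filter] at he ⊢
    exact ⟨he.1, hP he.2⟩
  · intro e he
    rw [Finset.mem_filter] at he ⊢
    exact ⟨he.1, hM he.2⟩

/-- Unnormalised environment expectation inside `B` (cluster signs on `VA`). -/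
noncomputable def EB (c : ℝ) (VA B : Finset P2) (η : BC P2 (P2 × P2))
    (f : Finset P2 → Finset Edge → Finset Edge → ℝ) : ℝ :=
  En Prod.fst Prod.snd VA (IV B) ((IE B).image pe) c η (lft B f)

theorem E2_image (B X : Finset P2) :
    E2 Prod.fst Prod.snd ((IE B).image pe) X = (E2 src tgt (IE B) X).image pe := by
  ext p
  simp only [E2, Finset.mem_filter, Finset.mem_image]
  constructor
  · rintro ⟨⟨e, he, rfl⟩, h⟩
    exact ⟨e, ⟨he, h⟩, rfl⟩
  · rintro ⟨e, ⟨he, h⟩, rfl⟩
    exact ⟨⟨e, he, rfl⟩, h⟩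

theorem E1_image (B X : Finset P2) :
    E1 Prod.fst Prod.snd ((IE B).image pe) X = (E1 src tgt (IE B) X).image pe := by
  ext p
  simp only [E1, Finset.mem_filter, Finset.mem_image]
  constructor
  · rintro ⟨⟨e, he, rfl⟩, h⟩
    exact ⟨e, ⟨he, h⟩, rfl⟩
  · rintro ⟨e, ⟨he, h⟩, rfl⟩
    exact ⟨⟨e, he, rfl⟩, h⟩

theorem fw_image (c : ℝ) (B X : Finset P2) (Z : Finset Edge) :
    fw Prod.fst Prod.snd c ((IE B).image pe) X (Z.image pe) = fw src tgt c (IE B) X Z := by
  unfold fw
  rw [Finset.prod_image (fun a _ b _ h => pe_inj h)]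
  refine Finset.prod_congr rfl fun e _ => ?_
  have : pe e ∈ Z.image pe ↔ e ∈ Z := by
    rw [Finset.mem_image]
    constructor
    · rintro ⟨e', he', h⟩
      rwa [← pe_inj h]
    · intro h
      exact ⟨e, h, rfl⟩
  simp only [this]
  rfl

theorem mem_image_pe {Z : Finset Edge} {e : Edge} : pe e ∈ Z.image pe ↔ e ∈ Z := by
  rw [Finset.mem_image]
  constructor
  · rintro ⟨e', he', h⟩
    rwa [← pe_inj h]
  · intro h
    exact ⟨e, h, rfl⟩

/-- `Z`-form of the environment expectation. -/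
theorem EB_eq (c : ℝ) (VA B : Finset P2) {η : BC P2 (P2 × P2)}
    (hs : Sep Prod.fst Prod.snd (IV B) η) (f : Finset P2 → Finset Edge → Finset Edge → ℝ) :
    EB c VA B η f = nw VA ∅ * ∑ T ∈ (IV B).powerset, ∑ Z ∈ (IE B).powerset,
      fw src tgt c (IE B) (T ∪ η.T0) Z * nw VA (η.Dp ∪ η.Dm ∪ Z.image pe) *
        f T (Z ∩ E2 src tgt (IE B) (T ∪ η.T0)) (Z ∩ E1 src tgt (IE B) (T ∪ η.T0)) := by
  classical
  unfold EB
  rw [En_Z c hs, psi_nw]
  congr 1
  refine Finset.sum_congr rfl fun T _ => ?_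
  symm
  refine Finset.sum_bij' (fun Z _ => Z.image pe) (fun Z' _ => (IE B).filter fun e => pe e ∈ Z')
    ?_ ?_ ?_ ?_ ?_
  · intro Z hZ
    rw [Finset.mem_powerset] at hZ ⊢
    exact Finset.image_subset_image hZ
  · intro Z' _
    rw [Finset.mem_powerset]
    exact Finset.filter_subset _ _
  · intro Z hZ
    rw [Finset.mem_powerset] at hZ
    ext e
    rw [Finset.mem_filter, mem_image_pe]
    exact ⟨fun h => h.2, fun h => ⟨hZ h, h⟩⟩
  · intro Z' hZ'
    rw [Finset.mem_powerset] at hZ'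
    ext p
    rw [Finset.mem_image]
    constructor
    · rintro ⟨e, he, rfl⟩
      exact (Finset.mem_filter.mp he).2
    · intro hp
      obtain ⟨e, he, rfl⟩ := Finset.mem_image.mp (hZ' hp)
      exact ⟨e, Finset.mem_filter.mpr ⟨he, hp⟩, rfl⟩
  · intro Z hZ
    rw [Finset.mem_powerset] at hZ
    rw [fw_image, psi_nw]
    congr 1
    unfold lft
    congr 1
    · rw [E2_image]
      ext e
      rw [Finset.mem_filter, ← Finset.image_inter _ _ pe_inj, mem_image_pe, Finset.mem_inter]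
      exact ⟨fun h => ⟨hZ h.1, h⟩, fun h => h.2⟩
    · rw [E1_image]
      ext e
      rw [Finset.mem_filter, ← Finset.image_inter _ _ pe_inj, mem_image_pe, Finset.mem_inter]
      exact ⟨fun h => ⟨hZ h.1, h⟩, fun h => h.2⟩

end Crest.Agent.R161.AtFkD729
end

-- ▼ part R161/AtFkE_729
section

/-!
Row 161: association (A1) and domain monotonicity (A2) for the height model, and the environment
decomposition used for (D+), (D-).
-/

set_option autoImplicit false

namespace Crest.Agent.R161.AtFkE729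

open Finset Crest.Agent.R161.Geo729 Crest.Agent.R161.Dual729 Crest.Agent.R161.DualB729
  Crest.Agent.R161.DualC729 Crest.Agent.R161.Defs372 Crest.Agent.R161.Marg729
  Crest.Agent.R161.AtFkA729 Crest.Agent.R161.AtFkB729 Crest.Agent.R161.AtFkC729
  Crest.Agent.R161.AtFkD729 Crest.Agent.R161.Ifc372

/-- `ω'` is more plus than `ω`. -/
structure LeP (ω ω' : Cfg) : Prop where
  v : ∀ x, (4 : ℤ) ∣ ω.1 x → (4 : ℤ) ∣ ω'.1 x
  p : ∀ e, plusE ω e → plusE ω' e
  m : ∀ e, minusE ω' e → minusE ω e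

/-- increasing observables -/
def IncP (f : Cfg → ℝ) : Prop := ∀ ω ω', LeP ω ω' → f ω ≤ f ω'

/-- observables of `(k mod 4, z)` -/
def TZ (f : Cfg → ℝ) : Prop :=
  ∀ ω ω' : Cfg, (∀ v, (4 : ℤ) ∣ ω.1 v - ω'.1 v) → (∀ e, ω.2.2 e = ω'.2.2 e) → f ω = f ω'

/-- `f` depends only on `(k mod 4, z)` inside `B`. -/
def InTZ (B : Finset P2) (f : Cfg → ℝ) : Prop :=
  ∀ ω ω' : Cfg, (∀ v ∈ intVerts B, (4 : ℤ) ∣ ω.1 v - ω'.1 v) →
    (∀ e ∈ intEdges B, ω.2.2 e = ω'.2.2 e) → f ω = f ω'

theorem leP_of_agree {ω ω' : Cfg} (h1 : ∀ v, (4 : ℤ) ∣ ω.1 v ↔ (4 : ℤ) ∣ ω'.1 v)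
    (h2 : ∀ e, ω.2.2 e = ω'.2.2 e) : LeP ω ω' := by
  refine ⟨fun x => (h1 x).1, fun e he => ?_, fun e he => ?_⟩
  · exact ⟨(h2 e) ▸ he.1, (h1 _).1 he.2⟩
  · exact ⟨(h2 e).symm ▸ he.1, fun h => he.2 ((h1 _).1 h)⟩

theorem IncP.eq_of_agree {f : Cfg → ℝ} (hf : IncP f) {ω ω' : Cfg}
    (h1 : ∀ v, (4 : ℤ) ∣ ω.1 v ↔ (4 : ℤ) ∣ ω'.1 v) (h2 : ∀ e, ω.2.2 e = ω'.2.2 e) :
    f ω = f ω' :=
  le_antisymm (hf _ _ (leP_of_agree h1 h2))
    (hf _ _ (leP_of_agree (fun v => (h1 v).symm) (fun e => (h2 e).symm)))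

theorem dvd_iff_of_sub {a b : ℤ} (h : (4 : ℤ) ∣ a - b) : (4 : ℤ) ∣ a ↔ (4 : ℤ) ∣ b := by omega

theorem IncP.tz {f : Cfg → ℝ} (hf : IncP f) : TZ f := fun _ _ h1 h2 =>
  hf.eq_of_agree (fun v => dvd_iff_of_sub (h1 v)) h2

theorem InTZ.tz {B : Finset P2} {f : Cfg → ℝ} (hf : InTZ B f) : TZ f := fun _ _ h1 h2 =>
  hf _ _ (fun v _ => h1 v) (fun e _ => h2 e)

theorem OffTZ_tz {B : Finset P2} {f : Cfg → ℝ} (hf : OffTZ B f) : TZ f := fun _ _ h1 h2 =>
  hf _ _ (fun v _ => h1 v) (fun e _ => h2 e)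

theorem TZ.mul {f g : Cfg → ℝ} (hf : TZ f) (hg : TZ g) : TZ fun ω => f ω * g ω :=
  fun ω ω' h1 h2 => by
    show f ω * g ω = f ω' * g ω'
    rw [hf ω ω' h1 h2, hg ω ω' h1 h2]

theorem TZ.addH {f : Cfg → ℝ} (hf : TZ f) (a : ℤ) : TZ fun ω => f (addH a ω) :=
  fun ω ω' h1 h2 => hf _ _ (fun v => by
    have := h1 v
    simpa [Defs372.addH] using this) h2

/-- Under `InTZ`, an increasing function does not see the cut variables at edges whose source is
not an interior vertex. -/
theorem InTZ.eq_of_agree {B : Finset P2} {f : Cfg → ℝ} (hin : InTZ B f) (hf : IncP f) {ω ω' : Cfg}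
    (h1 : ∀ v ∈ IV B, (4 : ℤ) ∣ ω.1 v ↔ (4 : ℤ) ∣ ω'.1 v)
    (h2 : ∀ e ∈ IE B, src e ∈ IV B → ω.2.2 e = ω'.2.2 e) : f ω = f ω' := by
  classical
  have key : ∀ ω ω' : Cfg, (∀ v ∈ IV B, (4 : ℤ) ∣ ω.1 v ↔ (4 : ℤ) ∣ ω'.1 v) →
      (∀ e ∈ IE B, src e ∈ IV B → ω.2.2 e = ω'.2.2 e) → f ω ≤ f ω' := by
    intro ω ω' h1 h2
    let a : Cfg := (fun v => if v ∈ IV B then ω.1 v else 2, ω.2.1,
      fun e => if e ∈ IE B then ω.2.2 e else false)
    let b : Cfg := (fun v => if v ∈ IV B then ω'.1 v else 0, ω'.2.1,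
      fun e => if e ∈ IE B then ω'.2.2 e else false)
    have ha : f ω = f a := by
      refine hin _ _ (fun v hv => ?_) (fun e he => ?_)
      · have hv' : v ∈ IV B := hv
        simp [a, hv']
      · have he' : e ∈ IE B := he
        simp [a, he']
    have hb : f ω' = f b := by
      refine hin _ _ (fun v hv => ?_) (fun e he => ?_)
      · have hv' : v ∈ IV B := hv
        simp [b, hv']
      · have he' : e ∈ IE B := he
        simp [b, he']
    rw [ha, hb]
    apply hf
    refine ⟨fun x hx => ?_, fun e he => ?_, fun e he => ?_⟩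
    · by_cases hv : x ∈ IV B
      · simp only [a, b, hv, if_true] at hx ⊢
        exact (h1 x hv).1 hx
      · simp [b, hv]
    · obtain ⟨he1, he2⟩ := he
      by_cases hv : src e ∈ IV B
      · by_cases hE : e ∈ IE B
        · refine ⟨?_, ?_⟩
          · simp only [a, b, hE, if_true] at he1 ⊢
            rw [← h2 e hE hv]
            exact he1
          · simp only [a, b, hv, if_true] at he2 ⊢
            exact (h1 _ hv).1 he2
        · simp only [a, hE, if_false] at he1
          exact absurd he1 (by simp)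
      · simp only [a, hv, if_false] at he2
        exact absurd he2 (by norm_num)
    · obtain ⟨he1, he2⟩ := he
      by_cases hv : src e ∈ IV B
      · by_cases hE : e ∈ IE B
        · refine ⟨?_, ?_⟩
          · simp only [a, b, hE, if_true] at he1 ⊢
            rw [h2 e hE hv]
            exact he1
          · simp only [a, b, hv, if_true] at he2 ⊢
            exact fun h => he2 ((h1 _ hv).1 h)
        · simp only [b, hE, if_false] at he1
          exact absurd he1 (by simp)
      · simp only [b, hv, if_false] at he2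
        exact absurd (dvd_zero _) he2
  exact le_antisymm (key ω ω' h1 h2)
    (key ω' ω (fun v hv => (h1 v hv).symm) (fun e he hv => (h2 e he hv).symm))

/-! ### representatives -/

open Classical in
/-- configuration with given minus vertices, plus-cut and minus-cut edges -/
noncomputable def mk (G T : Finset P2) (P M : Finset Edge) : Cfg :=
  (fun v => if v ∈ T then 2 else 0, fun _ => 1,
    fun e => decide (e ∉ IE G ∨ (e ∈ P ∧ src e ∉ T) ∨ (e ∈ M ∧ src e ∈ T)))

open Classical in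
/-- configuration with given minus vertices and cut edges -/
noncomputable def mkZ (G T : Finset P2) (Z : Finset Edge) : Cfg :=
  (fun v => if v ∈ T then 2 else 0, fun _ => 1, fun e => decide (e ∉ IE G ∨ e ∈ Z))

theorem mk_dvd (G T : Finset P2) (P M : Finset Edge) (v : P2) :
    (4 : ℤ) ∣ (mk G T P M).1 v ↔ v ∉ T := by
  unfold mk
  by_cases h : v ∈ T
  · simp only [h, if_true, not_true_eq_false, iff_false]; norm_num
  · simp [h]

theorem mkZ_dvd (G T : Finset P2) (Z : Finset Edge) (v : P2) :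
    (4 : ℤ) ∣ (mkZ G T Z).1 v ↔ v ∉ T := by
  unfold mkZ
  by_cases h : v ∈ T
  · simp only [h, if_true, not_true_eq_false, iff_false]; norm_num
  · simp [h]

theorem mk_z (G T : Finset P2) (P M : Finset Edge) (e : Edge) :
    (mk G T P M).2.2 e = true ↔ (e ∉ IE G ∨ (e ∈ P ∧ src e ∉ T) ∨ (e ∈ M ∧ src e ∈ T)) := by
  unfold mk
  simp only [decide_eq_true_eq]

theorem mkZ_z (G T : Finset P2) (Z : Finset Edge) (e : Edge) :
    (mkZ G T Z).2.2 e = true ↔ (e ∉ IE G ∨ e ∈ Z) := by
  unfold mkZ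
  simp only [decide_eq_true_eq]

theorem bool_eq_of_iff {a b : Bool} (h : a = true ↔ b = true) : a = b := by
  cases a <;> cases b <;> simp_all

theorem mk_leP (G : Finset P2) {T T' : Finset P2} {P P' M M' : Finset Edge} (hT : T' ⊆ T)
    (hP : P ⊆ P') (hM : M' ⊆ M) : LeP (mk G T P M) (mk G T' P' M') := by
  refine ⟨fun x hx => ?_, fun e he => ?_, fun e he => ?_⟩
  · rw [mk_dvd] at hx ⊢
    exact fun h => hx (hT h)
  · obtain ⟨h1, h2⟩ := he
    rw [mk_dvd] at h2
    rw [mk_z] at h1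
    refine ⟨?_, ?_⟩
    · rw [mk_z]
      rcases h1 with h1 | h1 | h1
      · exact Or.inl h1
      · exact Or.inr (Or.inl ⟨hP h1.1, fun h => h1.2 (hT h)⟩)
      · exact absurd h1.2 h2
    · rw [mk_dvd]
      exact fun h => h2 (hT h)
  · obtain ⟨h1, h2⟩ := he
    rw [mk_dvd, not_not] at h2
    rw [mk_z] at h1
    refine ⟨?_, ?_⟩
    · rw [mk_z]
      rcases h1 with h1 | h1 | h1
      · exact Or.inl h1
      · exact absurd h2 h1.2
      · exact Or.inr (Or.inr ⟨hM h1.1, hT h1.2⟩)
    · rw [mk_dvd, not_not]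
      exact hT h2

theorem tz_conf {F : Finset P2} {f : Cfg → ℝ} (hf : TZ f) {ω : Cfg} (h : Valid F ω) :
    f ω = f (mkZ F (tm F ω) (zm F ω)) := by
  refine hf _ _ (fun v => ?_) (fun e => ?_)
  · have h1 := Int.even_iff.mp (h.even v)
    have h2 := mem_tm h (v := v)
    unfold mkZ
    by_cases hv : v ∈ tm F ω
    · have := h2.1 hv
      simp only [hv, if_true]
      omega
    · have : ¬ ω.1 v % 4 = 2 := fun h => hv (h2.2 h)
      simp only [hv, if_false]
      omega
  · apply bool_eq_of_iff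
    rw [mkZ_z, mem_zm]
    constructor
    · intro hz
      by_cases he : e ∈ IE F
      · exact Or.inr ⟨he, hz⟩
      · exact Or.inl he
    · rintro (he | he)
      · exact h.cut e he
      · exact he.2

/-- unnormalised expectation -/
noncomputable def S (c : ℝ) (F : Finset P2) (f : Cfg → ℝ) : ℝ := ∑ ω ∈ conf F, wt c F ω * f ω

theorem E_eq_S (c : ℝ) (F : Finset P2) (f : Cfg → ℝ) : E c F f = S c F f / Z c F := E_eq_div F f

theorem S_one (c : ℝ) (F : Finset P2) : S c F (fun _ => 1) = Z c F := by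
  unfold S Defs372.Z
  exact Finset.sum_congr rfl fun ω _ => mul_one _

theorem S_tz {F : Finset P2} (hF : SC (F : Set P2)) (c : ℝ) {f : Cfg → ℝ} (hf : TZ f) :
    S c F f = (N0 F : ℝ) / 2 ^ (IV F).card *
      ∑ T ∈ (IV F).powerset, ∑ Z ∈ (IE F).powerset, fkw c F T Z * (ncl F Z : ℝ) *
        f (mkZ F T Z) := by
  rw [← sum_conf_tz hF c (fun T Z => f (mkZ F T Z))]
  unfold S
  exact Finset.sum_congr rfl fun ω hω => by rw [← tz_conf hf (mem_conf.mp hω)]

/-! ### geometry of interior vertices and edges -/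

theorem IV_mono {F G : Finset P2} (h : F ⊆ G) : IV F ⊆ IV G := by
  intro v hv
  rw [mem_IV] at hv ⊢
  exact ⟨h hv.1, h hv.2.1, h hv.2.2.1, h hv.2.2.2⟩

theorem IE_mono {F G : Finset P2} (h : F ⊆ G) : IE F ⊆ IE G := by
  intro e he
  rw [mem_IE] at he ⊢
  exact ⟨h he.1, h he.2⟩

theorem mem_IE_of_src {B : Finset P2} {e : Edge} (h : src e ∈ IV B) : e ∈ IE B := by
  rw [mem_IV, intV_iff] at h
  exact mem_IE.mpr ⟨h _ (corner_src_fA e), h _ (corner_src_fB e)⟩

theorem mem_IE_of_tgt {B : Finset P2} {e : Edge} (h : tgt e ∈ IV B) : e ∈ IE B := by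
  rw [mem_IV, intV_iff] at h
  exact mem_IE.mpr ⟨h _ (corner_tgt_fA e), h _ (corner_tgt_fB e)⟩

theorem sum_powerset_split {α : Type*} [DecidableEq α] {A B : Finset α} (h : B ⊆ A)
    (F : Finset α → ℝ) :
    ∑ T ∈ A.powerset, F T = ∑ T1 ∈ (A \ B).powerset, ∑ T2 ∈ B.powerset, F (T2 ∪ T1) := by
  rw [← Finset.sum_product']
  refine Finset.sum_bij' (fun T _ => (T \ B, T ∩ B)) (fun p _ => p.2 ∪ p.1) ?_ ?_ ?_ ?_ ?_
  · intro T hT
    rw [Finset.mem_powerset] at hT
    rw [Finset.mem_product, Finset.mem_powerset, Finset.mem_powerset]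
    exact ⟨Finset.sdiff_subset_sdiff hT (Finset.Subset.refl _), Finset.inter_subset_right⟩
  · intro p hp
    rw [Finset.mem_product, Finset.mem_powerset, Finset.mem_powerset] at hp
    rw [Finset.mem_powerset]
    exact Finset.union_subset (hp.2.trans h) (hp.1.trans Finset.sdiff_subset)
  · intro T _
    ext x
    simp only [Finset.mem_union, Finset.mem_inter, Finset.mem_sdiff]
    tauto
  · rintro ⟨p, q⟩ hp
    rw [Finset.mem_product, Finset.mem_powerset, Finset.mem_powerset] at hp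
    have h1 : ∀ x, x ∈ p → x ∉ B := fun x hx => (Finset.mem_sdiff.mp (hp.1 hx)).2
    have h2 : ∀ x, x ∈ q → x ∈ B := fun x hx => hp.2 hx
    simp only [Prod.mk.injEq]
    constructor
    · ext x
      have := h1 x
      have := h2 x
      simp only [Finset.mem_union, Finset.mem_sdiff]
      tauto
    · ext x
      have := h1 x
      have := h2 x
      simp only [Finset.mem_union, Finset.mem_inter]
      tauto
  · intro T _
    congr 1
    ext x
    simp only [Finset.mem_union, Finset.mem_inter, Finset.mem_sdiff]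
    tauto

theorem fkw_eq_fw (c : ℝ) (G T : Finset P2) (Z : Finset Edge) :
    fkw c G T Z = fw src tgt c (IE G) T Z := rfl

theorem fkw_split (c : ℝ) {B G : Finset P2} (hBG : B ⊆ G) {T1 T2 : Finset P2} {Z1 Z2 : Finset Edge}
    (hT2 : T2 ⊆ IV B) (hZ2 : Z2 ⊆ IE B) (hZ1 : Z1 ⊆ IE G \ IE B) :
    fkw c G (T2 ∪ T1) (Z2 ∪ Z1) =
      fw src tgt c (IE G \ IE B) T1 Z1 * fw src tgt c (IE B) (T2 ∪ T1) Z2 := by
  rw [fkw_eq_fw]
  unfold fw
  rw [← Finset.prod_sdiff (IE_mono hBG)]
  congr 1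
  · refine Finset.prod_congr rfl fun e he => ?_
    rw [Finset.mem_sdiff] at he
    have h1 : src e ∉ T2 := fun h => he.2 (mem_IE_of_src (hT2 h))
    have h2 : tgt e ∉ T2 := fun h => he.2 (mem_IE_of_tgt (hT2 h))
    have h3 : e ∉ Z2 := fun h => he.2 (hZ2 h)
    simp only [Finset.mem_union, h1, h2, h3, false_or]
  · refine Finset.prod_congr rfl fun e he => ?_
    have h3 : e ∉ Z1 := fun h => (Finset.mem_sdiff.mp (hZ1 h)).2 he
    simp only [Finset.mem_union (s := Z2), h3, or_false]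

theorem fw_zero_of_not (c : ℝ) (E : Finset Edge) (X : Finset P2) {Z : Finset Edge} (hZ : Z ⊆ E)
    (h : ¬ ∀ e ∈ Z, (src e ∈ X ↔ tgt e ∈ X)) : fw src tgt c E X Z = 0 := by
  push Not at h
  obtain ⟨e, he, hne⟩ := h
  unfold fw
  apply Finset.prod_eq_zero (hZ he)
  have h1 : ¬ (src e ∈ X ↔ tgt e ∈ X) := by tauto
  rw [if_neg h1, if_pos he]

/-- environment seen by `B` -/
noncomputable def eta (T1 : Finset P2) (Z1 : Finset Edge) : BC P2 (P2 × P2) :=
  ⟨T1, (Z1.filter fun e => src e ∉ T1).image pe, (Z1.filter fun e => src e ∈ T1).image pe⟩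

theorem eta_union (T1 : Finset P2) (Z1 : Finset Edge) :
    (eta T1 Z1).Dp ∪ (eta T1 Z1).Dm = Z1.image pe := by
  unfold eta
  simp only
  rw [← Finset.image_union]
  congr 1
  ext e
  simp only [Finset.mem_union, Finset.mem_filter]
  tauto

theorem eta_ok {B G T1 : Finset P2} {Z1 : Finset Edge} (hT1 : T1 ⊆ IV G \ IV B)
    (hZ1 : Z1 ⊆ IE G \ IE B) : (eta T1 Z1).Ok (IV B) ((IE B).image pe) := by
  have hd : ∀ W ⊆ Z1, Disjoint (W.image pe) ((IE B).image pe) := by
    intro W hW
    rw [Finset.disjoint_left]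
    intro p h1 h2
    rw [Finset.mem_image] at h1 h2
    obtain ⟨e, he, rfl⟩ := h1
    obtain ⟨e', he', h⟩ := h2
    rw [pe_inj h] at he'
    exact (Finset.mem_sdiff.mp (hZ1 (hW he))).2 he'
  refine ⟨?_, hd _ (Finset.filter_subset _ _), hd _ (Finset.filter_subset _ _)⟩
  rw [Finset.disjoint_left]
  intro v hv
  exact (Finset.mem_sdiff.mp (hT1 hv)).2

theorem eta_sep {B G T1 : Finset P2} {Z1 : Finset Edge} (hZ1 : Z1 ⊆ IE G \ IE B)
    (h : ∀ e ∈ Z1, (src e ∈ T1 ↔ tgt e ∈ T1)) :
    Sep Prod.fst Prod.snd (IV B) (eta T1 Z1) := by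
  constructor
  · intro p hp
    simp only [eta, Finset.mem_image, Finset.mem_filter] at hp
    obtain ⟨e, ⟨he1, he2⟩, rfl⟩ := hp
    have h3 := (Finset.mem_sdiff.mp (hZ1 he1)).2
    exact ⟨⟨fun h => h3 (mem_IE_of_src h), fun h => h3 (mem_IE_of_tgt h)⟩, he2,
      fun h' => he2 ((h e he1).2 h')⟩
  · intro p hp
    simp only [eta, Finset.mem_image, Finset.mem_filter] at hp
    obtain ⟨e, ⟨he1, he2⟩, rfl⟩ := hp
    exact ⟨he2, (h e he1).1 he2⟩

/-- **Environment decomposition.** -/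
theorem decomp (c : ℝ) {B G : Finset P2} (hBG : B ⊆ G) (g1 : Finset P2 → Finset Edge → ℝ)
    (φ : Finset P2 → Finset Edge → Finset Edge → ℝ) :
    nw (IV G) ∅ * ∑ T ∈ (IV G).powerset, ∑ Z ∈ (IE G).powerset, fkw c G T Z * (ncl G Z : ℝ) *
      (g1 (T \ IV B) (Z \ IE B) *
        φ (T ∩ IV B) (Z ∩ E2 src tgt (IE B) T) (Z ∩ E1 src tgt (IE B) T)) =
    ∑ T1 ∈ (IV G \ IV B).powerset, ∑ Z1 ∈ (IE G \ IE B).powerset,
      fw src tgt c (IE G \ IE B) T1 Z1 * g1 T1 Z1 * EB c (IV G) B (eta T1 Z1) φ := by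
  rw [sum_powerset_split (IV_mono hBG), Finset.mul_sum]
  refine Finset.sum_congr rfl fun T1 hT1 => ?_
  rw [Finset.mem_powerset] at hT1
  have h0 : ∀ T2 ∈ (IV B).powerset,
      ∑ Z ∈ (IE G).powerset, fkw c G (T2 ∪ T1) Z * (ncl G Z : ℝ) *
        (g1 ((T2 ∪ T1) \ IV B) (Z \ IE B) *
          φ ((T2 ∪ T1) ∩ IV B) (Z ∩ E2 src tgt (IE B) (T2 ∪ T1))
            (Z ∩ E1 src tgt (IE B) (T2 ∪ T1))) =
      ∑ Z1 ∈ (IE G \ IE B).powerset, ∑ Z2 ∈ (IE B).powerset,
        fw src tgt c (IE G \ IE B) T1 Z1 * fw src tgt c (IE B) (T2 ∪ T1) Z2 *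
          (ncl G (Z2 ∪ Z1) : ℝ) * (g1 T1 Z1 * φ T2 (Z2 ∩ E2 src tgt (IE B) (T2 ∪ T1))
            (Z2 ∩ E1 src tgt (IE B) (T2 ∪ T1))) := by
    intro T2 hT2
    rw [Finset.mem_powerset] at hT2
    rw [sum_powerset_split (IE_mono hBG)]
    refine Finset.sum_congr rfl fun Z1 hZ1 => Finset.sum_congr rfl fun Z2 hZ2 => ?_
    rw [Finset.mem_powerset] at hZ1 hZ2
    rw [fkw_split c hBG hT2 hZ2 hZ1]
    have a1 : (T2 ∪ T1) \ IV B = T1 := by
      ext x
      have := fun h : x ∈ T1 => (Finset.mem_sdiff.mp (hT1 h)).2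
      have := fun h : x ∈ T2 => hT2 h
      simp only [Finset.mem_union, Finset.mem_sdiff]
      tauto
    have a2 : (T2 ∪ T1) ∩ IV B = T2 := by
      ext x
      have := fun h : x ∈ T1 => (Finset.mem_sdiff.mp (hT1 h)).2
      have := fun h : x ∈ T2 => hT2 h
      simp only [Finset.mem_union, Finset.mem_inter]
      tauto
    have a3 : (Z2 ∪ Z1) \ IE B = Z1 := by
      ext x
      have := fun h : x ∈ Z1 => (Finset.mem_sdiff.mp (hZ1 h)).2
      have := fun h : x ∈ Z2 => hZ2 h
      simp only [Finset.mem_union, Finset.mem_sdiff]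
      tauto
    have a4 : ∀ W ⊆ IE B, (Z2 ∪ Z1) ∩ W = Z2 ∩ W := by
      intro W hW
      ext x
      have := fun h : x ∈ Z1 => (Finset.mem_sdiff.mp (hZ1 h)).2
      have := fun h : x ∈ W => hW h
      simp only [Finset.mem_union, Finset.mem_inter]
      tauto
    rw [a1, a2, a3, a4 _ (E2_sub _ _ _ _), a4 _ (E1_sub _ _ _ _)]
  rw [Finset.sum_congr rfl h0, Finset.sum_comm, Finset.mul_sum]
  refine Finset.sum_congr rfl fun Z1 hZ1 => ?_
  rw [Finset.mem_powerset] at hZ1
  by_cases hs : ∀ e ∈ Z1, (src e ∈ T1 ↔ tgt e ∈ T1)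
  · rw [EB_eq c (IV G) B (eta_sep hZ1 hs) φ, eta_union]
    have hT0 : (eta T1 Z1).T0 = T1 := rfl
    rw [hT0]
    rw [Finset.mul_sum, Finset.mul_sum, Finset.mul_sum]
    refine Finset.sum_congr rfl fun T2 hT2 => ?_
    rw [Finset.mul_sum, Finset.mul_sum, Finset.mul_sum]
    refine Finset.sum_congr rfl fun Z2 hZ2 => ?_
    rw [Finset.mem_powerset] at hZ2
    have hZ : Z2 ∪ Z1 ⊆ IE G :=
      Finset.union_subset (hZ2.trans (IE_mono hBG)) (hZ1.trans Finset.sdiff_subset)
    rw [ncl_eq G hZ, Finset.image_union, Finset.union_comm (Z2.image pe)]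
    ring
  · rw [fw_zero_of_not c _ _ hZ1 hs]
    simp only [zero_mul]
    rw [Finset.sum_eq_zero (fun _ _ => Finset.sum_const_zero), mul_zero]

/-! ### restriction of the domain -/

theorem ncl_restrict {F G : Finset P2} (hF : SC (F : Set P2)) (hFG : F ⊆ G) {Z : Finset Edge}
    (hZ : IE G \ IE F ⊆ Z) : ncl G Z = ncl F (Z ∩ IE F) := by
  classical
  unfold ncl
  congr 1
  ext A
  simp only [Finset.mem_filter, Finset.mem_powerset]
  constructor
  · rintro ⟨hA, h⟩
    have hconst : ∀ e, ¬ IntE (F : Set P2) e → (decide (tgt e ∈ A) : Bool) = decide (src e ∈ A) := by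
      intro e he
      rw [← mem_IE'] at he
      apply bool_eq_of_iff
      simp only [decide_eq_true_eq]
      by_cases heG : e ∈ IE G
      · exact (h e heG (hZ (Finset.mem_sdiff.mpr ⟨heG, he⟩))).symm
      · constructor
        · intro h1; exact absurd (mem_IE_of_tgt (hA h1)) heG
        · intro h1; exact absurd (mem_IE_of_src (hA h1)) heG
    -- a face far away
    obtain ⟨v0, hv0F, hv0A⟩ : ∃ v0 : P2, v0 ∉ F ∧ v0 ∉ A := by
      obtain ⟨v0, hv0⟩ := Infinite.exists_notMem_finset (F ∪ A)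
      rw [Finset.mem_union, not_or] at hv0
      exact ⟨v0, hv0.1, hv0.2⟩
    have hAF : A ⊆ IV F := by
      intro v hv
      by_contra hvF
      rw [mem_IV, intV_iff] at hvF
      push Not at hvF
      obtain ⟨g, hg, hgF⟩ := hvF
      have h1 := const_corner (F := (F : Set P2)) (fun v => (decide (v ∈ A) : Bool)) hconst hgF hg
      have h2 := const_of_conn (F := (F : Set P2)) (fun v => (decide (v ∈ A) : Bool)) hconst
        (hF g hgF v0 hv0F)
      simp only [decide_eq_decide] at h1 h2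
      exact hv0A (h2.2 (h1.1 hv))
    refine ⟨hAF, fun e he hz => h e (IE_mono hFG he) (Finset.mem_inter.mp hz).1⟩
  · rintro ⟨hA, h⟩
    refine ⟨hA.trans (IV_mono hFG), fun e he hz => ?_⟩
    by_cases heF : e ∈ IE F
    · exact h e heF (Finset.mem_inter.mpr ⟨hz, heF⟩)
    · constructor
      · intro h1; exact absurd (mem_IE_of_src (hA h1)) heF
      · intro h1; exact absurd (mem_IE_of_tgt (hA h1)) heF

theorem fkw_restrict (c : ℝ) {F G : Finset P2} (hFG : F ⊆ G) {T : Finset P2} (hT : T ⊆ IV F)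
    {Z : Finset Edge} (hZ : IE G \ IE F ⊆ Z) :
    fkw c G T Z = 2 ^ (IE G \ IE F).card * fkw c F T (Z ∩ IE F) := by
  unfold fkw
  rw [← Finset.prod_sdiff (IE_mono hFG)]
  congr 1
  · rw [Finset.prod_congr (g := fun _ => (2 : ℝ)) rfl, Finset.prod_const]
    intro e he
    have heF := (Finset.mem_sdiff.mp he).2
    have h1 : src e ∉ T := fun h => heF (mem_IE_of_src (hT h))
    have h2 : tgt e ∉ T := fun h => heF (mem_IE_of_tgt (hT h))
    rw [if_pos (iff_of_false h1 h2), if_pos (hZ he)]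
  · refine Finset.prod_congr rfl fun e he => ?_
    simp only [Finset.mem_inter, he, and_true]

open Classical in
theorem restrict (c : ℝ) {F G : Finset P2} (hF : SC (F : Set P2)) (hFG : F ⊆ G)
    (h : Finset P2 → Finset Edge → ℝ) :
    ∑ T ∈ (IV G).powerset, ∑ Z ∈ (IE G).powerset, fkw c G T Z * (ncl G Z : ℝ) *
      (if T ⊆ IV F ∧ IE G \ IE F ⊆ Z then h T (Z ∩ IE F) else 0) =
    2 ^ (IE G \ IE F).card * ∑ T ∈ (IV F).powerset, ∑ Z ∈ (IE F).powerset,
      fkw c F T Z * (ncl F Z : ℝ) * h T Z := by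
  have h1 : ∑ T ∈ (IV F).powerset, ∑ Z ∈ (IE G).powerset, fkw c G T Z * (ncl G Z : ℝ) *
      (if T ⊆ IV F ∧ IE G \ IE F ⊆ Z then h T (Z ∩ IE F) else 0) =
      ∑ T ∈ (IV G).powerset, ∑ Z ∈ (IE G).powerset, fkw c G T Z * (ncl G Z : ℝ) *
      (if T ⊆ IV F ∧ IE G \ IE F ⊆ Z then h T (Z ∩ IE F) else 0) := by
    refine Finset.sum_subset (Finset.powerset_mono.mpr (IV_mono hFG)) fun T _ hT => ?_
    refine Finset.sum_eq_zero fun Z _ => ?_
    rw [if_neg, mul_zero]
    exact fun h => hT (Finset.mem_powerset.mpr h.1)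
  rw [← h1, Finset.mul_sum]
  refine Finset.sum_congr rfl fun T hT => ?_
  rw [Finset.mem_powerset] at hT
  rw [Finset.mul_sum, sum_powerset_split (IE_mono hFG)]
  -- only `Z1 = IE G \ IE F` contributes
  rw [Finset.sum_eq_single (IE G \ IE F)]
  · refine Finset.sum_congr rfl fun Z hZ => ?_
    rw [Finset.mem_powerset] at hZ
    have h2 : IE G \ IE F ⊆ Z ∪ (IE G \ IE F) := Finset.subset_union_right
    have h3 : (Z ∪ (IE G \ IE F)) ∩ IE F = Z := by
      ext e
      have := fun h : e ∈ Z => hZ h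
      simp only [Finset.mem_inter, Finset.mem_union, Finset.mem_sdiff]
      tauto
    rw [if_pos ⟨hT, h2⟩, fkw_restrict c hFG hT h2, ncl_restrict hF hFG h2, h3]
    ring
  · intro Z1 hZ1 hne
    rw [Finset.mem_powerset] at hZ1
    refine Finset.sum_eq_zero fun Z2 hZ2 => ?_
    rw [Finset.mem_powerset] at hZ2
    rw [if_neg, mul_zero]
    rintro ⟨_, h2⟩
    apply hne
    apply Finset.Subset.antisymm hZ1
    intro e he
    rcases Finset.mem_union.mp (h2 he) with h3 | h3
    · exact absurd (hZ2 h3) (Finset.mem_sdiff.mp he).2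
    · exact h3
  · intro h
    exact absurd (Finset.mem_powerset.mpr (Finset.Subset.refl _)) h

theorem mkZ_restrict {F G : Finset P2} (hFG : F ⊆ G) (T : Finset P2) {Z : Finset Edge}
    (hZ : IE G \ IE F ⊆ Z) : mkZ G T Z = mkZ F T (Z ∩ IE F) := by
  refine Prod.ext rfl (Prod.ext rfl ?_)
  funext e
  apply bool_eq_of_iff
  rw [mkZ_z, mkZ_z, Finset.mem_inter]
  by_cases he : e ∈ IE F
  · have := IE_mono hFG he
    tauto
  · by_cases heG : e ∈ IE G
    · have := hZ (Finset.mem_sdiff.mpr ⟨heG, he⟩)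
      tauto
    · tauto

/-- normalising constant -/
noncomputable def Kc (F G : Finset P2) : ℝ :=
  (N0 F : ℝ) / 2 ^ (IV F).card / 2 ^ (IE G \ IE F).card / nw (IV G) ∅

theorem nw_pos (VA : Finset P2) (D : Finset (P2 × P2)) : 0 < nw VA D :=
  psi_pos _ _ _ le_rfl _ _

theorem Kc_pos (F G : Finset P2) : 0 < Kc F G := by
  unfold Kc
  have h1 := nw_pos (IV G) ∅
  have h2 : (0 : ℝ) < N0 F := by exact_mod_cast N0_pos F
  positivity

open Classical in
/-- **Master representation.** -/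
theorem master (c : ℝ) {F G B : Finset P2} (hF : SC (F : Set P2)) (hFG : F ⊆ G) (hBG : B ⊆ G)
    {h : Cfg → ℝ} (hh : TZ h) (g1 : Finset P2 → Finset Edge → ℝ)
    (φ : Finset P2 → Finset Edge → Finset Edge → ℝ)
    (hc : ∀ T ⊆ IV G, ∀ Z ⊆ IE G, (∀ e ∈ Z, (src e ∈ T ↔ tgt e ∈ T)) →
      (if T ⊆ IV F ∧ IE G \ IE F ⊆ Z then h (mkZ G T Z) else 0) =
        g1 (T \ IV B) (Z \ IE B) *
          φ (T ∩ IV B) (Z ∩ E2 src tgt (IE B) T) (Z ∩ E1 src tgt (IE B) T)) :
    S c F h = Kc F G * ∑ T1 ∈ (IV G \ IV B).powerset, ∑ Z1 ∈ (IE G \ IE B).powerset,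
      fw src tgt c (IE G \ IE B) T1 Z1 * g1 T1 Z1 * EB c (IV G) B (eta T1 Z1) φ := by
  rw [S_tz hF c hh, ← decomp c hBG g1 φ]
  have h1 := restrict c hF hFG (fun T Z => h (mkZ F T Z))
  have h2 : ∑ T ∈ (IV G).powerset, ∑ Z ∈ (IE G).powerset, fkw c G T Z * (ncl G Z : ℝ) *
      (if T ⊆ IV F ∧ IE G \ IE F ⊆ Z then h (mkZ F T (Z ∩ IE F)) else 0) =
      ∑ T ∈ (IV G).powerset, ∑ Z ∈ (IE G).powerset, fkw c G T Z * (ncl G Z : ℝ) *
      (g1 (T \ IV B) (Z \ IE B) *
        φ (T ∩ IV B) (Z ∩ E2 src tgt (IE B) T) (Z ∩ E1 src tgt (IE B) T)) := by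
    refine Finset.sum_congr rfl fun T hT => Finset.sum_congr rfl fun Z hZ => ?_
    rw [Finset.mem_powerset] at hT hZ
    by_cases hs : ∀ e ∈ Z, (src e ∈ T ↔ tgt e ∈ T)
    · rw [← hc T hT Z hZ hs]
      congr 1
      split_ifs with h3
      · rw [mkZ_restrict hFG T h3.2]
      · rfl
    · rw [fkw_eq_fw, fw_zero_of_not c _ _ hZ hs]
      ring
  rw [← h2, h1]
  unfold Kc
  have h3 := (nw_pos (IV G) ∅).ne'
  field_simp

/-! ### (A1) and (A2) -/

open Classical in
/-- indicator of the restriction event -/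
noncomputable def Ain (F G : Finset P2) (E0 : Finset Edge) (T : Finset P2) (P _M : Finset Edge) : ℝ :=
  if T ⊆ IV F ∧ E0 \ IE F ⊆ P then 1 else 0

theorem Ain_inc (F G : Finset P2) (E0 : Finset Edge) : Inc (Ain F G E0) := by
  intro T T' P P' M M' hT hP _
  unfold Ain
  by_cases h : T ⊆ IV F ∧ E0 \ IE F ⊆ P
  · rw [if_pos h, if_pos ⟨hT.trans h.1, h.2.trans hP⟩]
  · rw [if_neg h]
    split_ifs <;> norm_num

theorem Ain_nonneg (F G : Finset P2) (E0 : Finset Edge) (T : Finset P2) (P M : Finset Edge) :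
    0 ≤ Ain F G E0 T P M := by
  unfold Ain
  split_ifs <;> norm_num

/-- Representation of `E_F` inside `G ⊇ F`. -/
theorem rep (c : ℝ) {F G : Finset P2} (hF : SC (F : Set P2)) (hFG : F ⊆ G) {f : Cfg → ℝ}
    (hf : IncP f) :
    S c F f = Kc F G * EB c (IV G) G (eta ∅ ∅)
      (fun T P M => Ain F G (IE G) T P M * f (mk G T P M)) := by
  rw [master c hF hFG (Finset.Subset.refl G) hf.tz (fun _ _ => 1)
    (fun T P M => Ain F G (IE G) T P M * f (mk G T P M))]
  · simp only [Finset.sdiff_self, Finset.powerset_empty, Finset.sum_singleton]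
    unfold fw
    simp
  · intro T hT Z hZ hs
    have e1 : T ∩ IV G = T := Finset.inter_eq_left.mpr hT
    rw [e1, one_mul]
    unfold Ain
    have hiff : (T ⊆ IV F ∧ IE G \ IE F ⊆ Z) ↔
        (T ⊆ IV F ∧ IE G \ IE F ⊆ Z ∩ E2 src tgt (IE G) T) := by
      refine and_congr_right fun hTF => ?_
      constructor
      · intro h e he
        have heF := (Finset.mem_sdiff.mp he).2
        simp only [Finset.mem_inter, E2, Finset.mem_filter]
        exact ⟨h he, (Finset.mem_sdiff.mp he).1, fun h => heF (mem_IE_of_src (hTF h)),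
          fun h => heF (mem_IE_of_tgt (hTF h))⟩
      · intro h
        exact h.trans Finset.inter_subset_left
    by_cases hA : T ⊆ IV F ∧ IE G \ IE F ⊆ Z
    · rw [if_pos hA, if_pos (hiff.1 hA), one_mul]
      apply hf.eq_of_agree
      · intro v
        rw [mkZ_dvd, mk_dvd]
      · intro e
        apply bool_eq_of_iff
        rw [mkZ_z, mk_z]
        simp only [Finset.mem_inter, E1, E2, Finset.mem_filter]
        have := fun h : e ∈ Z => hs e h
        have := fun h : e ∈ Z => hZ h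
        tauto
    · rw [if_neg hA, if_neg (fun h => hA (hiff.2 h)), zero_mul]

theorem mkG_inc (G : Finset P2) {f : Cfg → ℝ} (hf : IncP f) :
    Inc (fun T P M => f (mk G T P M)) := by
  intro T T' P P' M M' hT hP hM
  exact hf _ _ (mk_leP G hT hP hM)

theorem EB_fkg {c : ℝ} (hc : 1 ≤ c) {VA B : Finset P2} {η : BC P2 (P2 × P2)}
    (hη : η.Ok (IV B) ((IE B).image pe)) {f g : Finset P2 → Finset Edge → Finset Edge → ℝ}
    (hf : Inc f) (hg : Inc g) :
    EB c VA B η f * EB c VA B η g ≤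
      EB c VA B η (fun _ _ _ => 1) * EB c VA B η (fun T P M => f T P M * g T P M) :=
  En_fkg (src := Prod.fst) (tgt := Prod.snd) (VA := VA) hc hη (lft_inc B hf) (lft_inc B hg)

theorem EB_mono {c : ℝ} (hc : 1 ≤ c) {VA B : Finset P2} {η η' : BC P2 (P2 × P2)}
    (hη : η.Ok (IV B) ((IE B).image pe)) (hη' : η'.Ok (IV B) ((IE B).image pe)) (hle : η.Le η')
    {f : Finset P2 → Finset Edge → Finset Edge → ℝ} (hf : Inc f) :
    EB c VA B η f * EB c VA B η' (fun _ _ _ => 1) ≤
      EB c VA B η (fun _ _ _ => 1) * EB c VA B η' f :=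
  En_mono (src := Prod.fst) (tgt := Prod.snd) (VA := VA) hc hη hη' hle (lft_inc B hf)

theorem EB_one_pos {c : ℝ} (hc : 1 ≤ c) {VA B : Finset P2} {η : BC P2 (P2 × P2)}
    (hη : η.Ok (IV B) ((IE B).image pe)) : 0 < EB c VA B η (fun _ _ _ => 1) :=
  En_one_pos (src := Prod.fst) (tgt := Prod.snd) (VA := VA) hc hη

theorem eta0_ok (B : Finset P2) : (eta ∅ ∅).Ok (IV B) ((IE B).image pe) := by
  refine ⟨?_, ?_, ?_⟩ <;> simp [eta]

theorem EB_congr {c : ℝ} {VA B : Finset P2} {η : BC P2 (P2 × P2)}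
    {f g : Finset P2 → Finset Edge → Finset Edge → ℝ}
    (h : ∀ T ⊆ IV B, ∀ P ⊆ IE B, ∀ M ⊆ IE B, f T P M = g T P M) :
    EB c VA B η f = EB c VA B η g := by
  unfold EB En lft
  refine Finset.sum_congr rfl fun T hT => Finset.sum_congr rfl fun M _ =>
    Finset.sum_congr rfl fun P _ => ?_
  rw [h T (Finset.mem_powerset.mp hT) _ (Finset.filter_subset _ _) _ (Finset.filter_subset _ _)]

theorem rep_self (c : ℝ) {F : Finset P2} (hF : SC (F : Set P2)) {f : Cfg → ℝ} (hf : IncP f) :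
    S c F f = Kc F F * EB c (IV F) F (eta ∅ ∅) (fun T P M => f (mk F T P M)) := by
  rw [rep c hF (Finset.Subset.refl F) hf]
  congr 1
  apply EB_congr
  intro T hT P _ M _
  unfold Ain
  rw [if_pos ⟨hT, by rw [Finset.sdiff_self]; exact Finset.empty_subset _⟩, one_mul]

theorem incP_one : IncP (fun _ => 1) := fun _ _ _ => le_rfl

theorem Z_eq (c : ℝ) {F : Finset P2} (hF : SC (F : Set P2)) :
    Z c F = Kc F F * EB c (IV F) F (eta ∅ ∅) (fun _ _ _ => 1) := by
  rw [← S_one]
  exact rep_self c hF incP_one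

/-- **(A1) Association.** -/
theorem assoc {c : ℝ} (hc : 1 ≤ c) {F : Finset P2} (hF : SC (F : Set P2)) {f g : Cfg → ℝ}
    (hf : IncP f) (hg : IncP g) :
    E c F f * E c F g ≤ E c F (fun ω => f ω * g ω) := by
  classical
  -- the product is a `TZ` function; represent it through the master formula
  have hfg : S c F (fun ω => f ω * g ω) = Kc F F * EB c (IV F) F (eta ∅ ∅)
      (fun T P M => f (mk F T P M) * g (mk F T P M)) := by
    rw [master c hF (Finset.Subset.refl F) (Finset.Subset.refl F) (hf.tz.mul hg.tz)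
      (fun _ _ => 1) (fun T P M => f (mk F T P M) * g (mk F T P M))]
    · simp only [Finset.sdiff_self, Finset.powerset_empty, Finset.sum_singleton]
      unfold fw
      simp
    · intro T hT Z hZ hs
      have e1 : T ∩ IV F = T := Finset.inter_eq_left.mpr hT
      have e2 : IE F \ IE F ⊆ Z := by rw [Finset.sdiff_self]; exact Finset.empty_subset _
      rw [e1, one_mul, if_pos ⟨hT, e2⟩]
      have key : ∀ h : Cfg → ℝ, IncP h → h (mkZ F T Z) =
          h (mk F T (Z ∩ E2 src tgt (IE F) T) (Z ∩ E1 src tgt (IE F) T)) := by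
        intro h hh
        apply hh.eq_of_agree
        · intro v
          rw [mkZ_dvd, mk_dvd]
        · intro e
          apply bool_eq_of_iff
          rw [mkZ_z, mk_z]
          simp only [Finset.mem_inter, E1, E2, Finset.mem_filter]
          have := fun h : e ∈ Z => hs e h
          have := fun h : e ∈ Z => hZ h
          tauto
      rw [key f hf, key g hg]
  have h1 := EB_fkg hc (VA := IV F) (eta0_ok F) (mkG_inc F hf) (mkG_inc F hg)
  have hZ := Z_pos hc F
  rw [E_eq_S, E_eq_S, E_eq_S, div_mul_div_comm, div_le_div_iff₀ (mul_pos hZ hZ) hZ, hfg,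
    rep_self c hF hf, rep_self c hF hg]
  have hK := Kc_pos F F
  have hZ' := Z_eq c hF
  set a := EB c (IV F) F (eta ∅ ∅) (fun T P M => f (mk F T P M))
  set b := EB c (IV F) F (eta ∅ ∅) (fun T P M => g (mk F T P M))
  set d := EB c (IV F) F (eta ∅ ∅) (fun T P M => f (mk F T P M) * g (mk F T P M))
  set o := EB c (IV F) F (eta ∅ ∅) (fun _ _ _ => 1)
  have h2 : Kc F F * a * (Kc F F * b) ≤ Z c F * (Kc F F * d) := by
    rw [hZ']
    have := mul_le_mul_of_nonneg_left h1 (mul_pos hK hK).le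
    linarith
  calc Kc F F * a * (Kc F F * b) * Z c F ≤ Z c F * (Kc F F * d) * Z c F :=
        mul_le_mul_of_nonneg_right h2 hZ.le
    _ = Kc F F * d * (Z c F * Z c F) := by ring

/-- **(A2) Domain monotonicity.** -/
theorem dom_mono {c : ℝ} (hc : 1 ≤ c) {F F' : Finset P2} (hF : SC (F : Set P2))
    (hF' : SC (F' : Set P2)) (hFF : F ⊆ F') {f : Cfg → ℝ} (hf : IncP f) :
    E c F' f ≤ E c F f := by
  have h1 := EB_fkg hc (VA := IV F') (eta0_ok F') (Ain_inc F F' (IE F')) (mkG_inc F' hf)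
  have hZ := Z_pos hc F
  have hZ' := Z_pos hc F'
  have z1 : Z c F = Kc F F' * EB c (IV F') F' (eta ∅ ∅) (Ain F F' (IE F')) := by
    rw [← S_one, rep c hF hFF incP_one]
    simp only [mul_one]
  rw [E_eq_S, E_eq_S, div_le_div_iff₀ hZ' hZ, rep c hF hFF hf, rep_self c hF' hf, z1, Z_eq c hF']
  have hK := Kc_pos F F'
  have hK' := Kc_pos F' F'
  have := mul_le_mul_of_nonneg_left h1 (mul_pos hK' hK).le
  nlinarith [this]

end Crest.Agent.R161.AtFkE729
end

-- ▼ part R161/AtFkF_729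

/-!
Row 161: comparison inequalities (D+), (D-): conditionally on everything off a domain `B`, the
`(k mod 4, z)` law inside `B` is between the zero and the `2`-shifted zero boundary condition laws
of `B`.
-/

set_option autoImplicit false

namespace Crest.Agent.R161.AtFkF729

open Finset Crest.Agent.R161.Geo729 Crest.Agent.R161.Dual729 Crest.Agent.R161.DualB729
  Crest.Agent.R161.DualC729 Crest.Agent.R161.Defs372 Crest.Agent.R161.Marg729
  Crest.Agent.R161.AtFkA729 Crest.Agent.R161.AtFkB729 Crest.Agent.R161.AtFkC729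
  Crest.Agent.R161.AtFkD729 Crest.Agent.R161.Ifc372 Crest.Agent.R161.AtFkE729

/-- complete wiring of `R` avoiding the edges of `B` -/
noncomputable def CR (R B : Finset P2) : Finset (P2 × P2) := (R ×ˢ R) \ (IE B).image pe

theorem mem_CR {R B : Finset P2} {p : P2 × P2} :
    p ∈ CR R B ↔ (p.1 ∈ R ∧ p.2 ∈ R) ∧ p ∉ (IE B).image pe := by
  unfold CR
  rw [Finset.mem_sdiff, Finset.mem_product]

theorem const_on_R {R B A : Finset P2} (h : ∀ p ∈ CR R B, (p.1 ∈ A ↔ p.2 ∈ A)) {a b : P2}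
    (ha : a ∈ R) (hb : b ∈ R) : a ∈ A ↔ b ∈ A := by
  by_cases h1 : (a, b) ∈ (IE B).image pe
  · have h2 : (b, a) ∉ (IE B).image pe := by
      intro h2
      rw [Finset.mem_image] at h1 h2
      obtain ⟨e, _, he⟩ := h1
      obtain ⟨e', _, he'⟩ := h2
      exact pe_swap e e' (by rw [he, he']; rfl)
    exact (h (b, a) (mem_CR.2 ⟨⟨hb, ha⟩, h2⟩)).symm
  · exact h (a, b) (mem_CR.2 ⟨⟨ha, hb⟩, h1⟩)

theorem nw_max {VA R B : Finset P2} (hIV : IV B ⊆ VA) (hR : Disjoint R (IV B))
    (hVR : VA \ IV B ⊆ R) {v0 : P2} (hv0 : v0 ∈ R) (hv0' : v0 ∉ VA) {Z : Finset Edge}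
    (hZ : Z ⊆ IE B) : nw VA (CR R B ∪ Z.image pe) = (ncl B Z : ℝ) := by
  classical
  rw [nw_card]
  unfold ncl
  congr 2
  ext A
  simp only [Finset.mem_filter, Finset.mem_powerset]
  constructor
  · rintro ⟨hA, h⟩
    have h1 : ∀ a ∈ R, a ∉ A := by
      intro a ha haA
      exact hv0' (hA ((const_on_R (fun p hp => h p (Finset.mem_union_left _ hp)) ha hv0).1 haA))
    refine ⟨fun v hv => ?_, fun e _ hz => ?_⟩
    · by_contra hvB
      exact h1 v (hVR (Finset.mem_sdiff.mpr ⟨hA hv, hvB⟩)) hv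
    · exact h (pe e) (Finset.mem_union_right _ (Finset.mem_image_of_mem _ hz))
  · rintro ⟨hA, h⟩
    refine ⟨hA.trans hIV, fun p hp => ?_⟩
    rcases Finset.mem_union.mp hp with hp | hp
    · rw [mem_CR] at hp
      have h1 : ∀ a ∈ R, a ∉ A := fun a ha haA => (Finset.disjoint_left.mp hR) ha (hA haA)
      exact iff_of_false (h1 _ hp.1.1) (h1 _ hp.1.2)
    · obtain ⟨e, he, rfl⟩ := Finset.mem_image.mp hp
      exact h e (hZ he) he

/-- maximal environment -/
noncomputable def etaMax (R B : Finset P2) : BC P2 (P2 × P2) := ⟨∅, CR R B, ∅⟩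
/-- minimal environment -/
noncomputable def etaMin (R B : Finset P2) : BC P2 (P2 × P2) := ⟨R, ∅, CR R B⟩

theorem CR_disj (R B : Finset P2) : Disjoint (CR R B) ((IE B).image pe) :=
  Finset.sdiff_disjoint

theorem etaMax_ok (R B : Finset P2) : (etaMax R B).Ok (IV B) ((IE B).image pe) :=
  ⟨Finset.disjoint_empty_left _, CR_disj R B, Finset.disjoint_empty_left _⟩

theorem etaMin_ok {R B : Finset P2} (hR : Disjoint R (IV B)) :
    (etaMin R B).Ok (IV B) ((IE B).image pe) :=
  ⟨hR, Finset.disjoint_empty_left _, CR_disj R B⟩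

theorem etaMax_sep {R B : Finset P2} (hR : Disjoint R (IV B)) :
    Sep Prod.fst Prod.snd (IV B) (etaMax R B) := by
  constructor
  · intro p hp
    have := mem_CR.1 hp
    exact ⟨⟨fun h => (Finset.disjoint_left.mp hR) this.1.1 h,
      fun h => (Finset.disjoint_left.mp hR) this.1.2 h⟩, by simp [etaMax], by simp [etaMax]⟩
  · intro p hp
    exact absurd hp (by simp [etaMax])

theorem etaMin_sep (R B : Finset P2) : Sep Prod.fst Prod.snd (IV B) (etaMin R B) := by
  constructor
  · intro p hp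
    exact absurd hp (by simp [etaMin])
  · intro p hp
    exact (mem_CR.1 hp).1

theorem EB_max (c : ℝ) {VA R B : Finset P2} (hIV : IV B ⊆ VA) (hR : Disjoint R (IV B))
    (hVR : VA \ IV B ⊆ R) {v0 : P2} (hv0 : v0 ∈ R) (hv0' : v0 ∉ VA)
    (φ : Finset P2 → Finset Edge → Finset Edge → ℝ) :
    EB c VA B (etaMax R B) φ * nw (IV B) ∅ = nw VA ∅ * EB c (IV B) B (eta ∅ ∅) φ := by
  have hs0 : Sep Prod.fst Prod.snd (IV B) (eta ∅ ∅) := by
    constructor <;> intro p hp <;> exact absurd hp (by simp [eta])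
  rw [EB_eq c VA B (etaMax_sep hR), EB_eq c (IV B) B hs0]
  have h1 : ∀ T ∈ (IV B).powerset, ∀ Z ∈ (IE B).powerset,
      fw src tgt c (IE B) (T ∪ (etaMax R B).T0) Z *
        nw VA ((etaMax R B).Dp ∪ (etaMax R B).Dm ∪ Z.image pe) *
        φ T (Z ∩ E2 src tgt (IE B) (T ∪ (etaMax R B).T0))
          (Z ∩ E1 src tgt (IE B) (T ∪ (etaMax R B).T0)) =
      fw src tgt c (IE B) (T ∪ (eta ∅ ∅).T0) Z *
        nw (IV B) ((eta ∅ ∅).Dp ∪ (eta ∅ ∅).Dm ∪ Z.image pe) *
        φ T (Z ∩ E2 src tgt (IE B) (T ∪ (eta ∅ ∅).T0))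
          (Z ∩ E1 src tgt (IE B) (T ∪ (eta ∅ ∅).T0)) := by
    intro T _ Z hZ
    rw [Finset.mem_powerset] at hZ
    have e1 : (etaMax R B).Dp ∪ (etaMax R B).Dm ∪ Z.image pe = CR R B ∪ Z.image pe := by
      simp [etaMax]
    have e2 : (eta ∅ ∅).Dp ∪ (eta ∅ ∅).Dm ∪ Z.image pe = Z.image pe := by
      simp [eta]
    rw [e1, e2, nw_max hIV hR hVR hv0 hv0' hZ, ncl_eq B hZ]
    rfl
  rw [Finset.sum_congr rfl (fun T hT => Finset.sum_congr rfl (h1 T hT))]
  ring

theorem ncl_min {G R B : Finset P2} (hRdef : R = IV G \ IV B) (hIV : IV B ⊆ IV G) {r0 : P2}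
    (hr0 : r0 ∈ R) (hG : ∀ e ∈ IE B, src e ∈ IV G ∧ tgt e ∈ IV G) {Z : Finset Edge}
    (hZ : Z ⊆ IE B) : nw (IV G) (CR R B ∪ Z.image pe) = 2 * (ncl B Z : ℝ) := by
  classical
  have hRG : R ⊆ IV G := hRdef ▸ Finset.sdiff_subset
  have hRB : ∀ a ∈ R, a ∉ IV B := fun a ha => by
    rw [hRdef] at ha; exact (Finset.mem_sdiff.mp ha).2
  obtain ⟨Full, hFull⟩ : ∃ Full : Finset (Finset P2), Full = (IV G).powerset.filter
    (fun A => ∀ p ∈ CR R B ∪ Z.image pe, (p.1 ∈ A ↔ p.2 ∈ A)) := ⟨_, rfl⟩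
  obtain ⟨N, hN⟩ : ∃ N : Finset (Finset P2), N = (IV B).powerset.filter
    (fun T => ∀ e ∈ IE B, e ∈ Z → (src e ∈ T ↔ tgt e ∈ T)) := ⟨_, rfl⟩
  have ea : nw (IV G) (CR R B ∪ Z.image pe) = (Full.card : ℝ) := by
    rw [nw_card, hFull]
    congr!
  have eb : (ncl B Z : ℝ) = (N.card : ℝ) := by
    unfold ncl
    rw [hN]
  rw [ea, eb]
  have h1 : Full.filter (fun A => r0 ∉ A) = N := by
    ext A
    simp only [hFull, hN, Finset.mem_filter, Finset.mem_powerset]
    constructor
    · rintro ⟨⟨hA, h⟩, hr⟩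
      have h1 : ∀ a ∈ R, a ∉ A := by
        intro a ha haA
        exact hr ((const_on_R (fun p hp => h p (Finset.mem_union_left _ hp)) ha hr0).1 haA)
      refine ⟨fun v hv => ?_, fun e _ hz => ?_⟩
      · by_contra hvB
        exact h1 v (hRdef ▸ Finset.mem_sdiff.mpr ⟨hA hv, hvB⟩) hv
      · exact h (pe e) (Finset.mem_union_right _ (Finset.mem_image_of_mem _ hz))
    · rintro ⟨hA, h⟩
      have h1 : ∀ a ∈ R, a ∉ A := fun a ha haA => hRB a ha (hA haA)
      refine ⟨⟨hA.trans hIV, fun p hp => ?_⟩, h1 r0 hr0⟩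
      rcases Finset.mem_union.mp hp with hp | hp
      · rw [mem_CR] at hp
        exact iff_of_false (h1 _ hp.1.1) (h1 _ hp.1.2)
      · obtain ⟨e, he, rfl⟩ := Finset.mem_image.mp hp
        exact h e (hZ he) he
  have hcompl : ∀ A ∈ Full, IV G \ A ∈ Full := by
    intro A hA
    simp only [hFull, Finset.mem_filter, Finset.mem_powerset] at hA ⊢
    refine ⟨Finset.sdiff_subset, fun p hp => ?_⟩
    have h2 := hA.2 p hp
    have h3 : p.1 ∈ IV G ∧ p.2 ∈ IV G := by
      rcases Finset.mem_union.mp hp with hp | hp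
      · rw [mem_CR] at hp
        exact ⟨hRG hp.1.1, hRG hp.1.2⟩
      · obtain ⟨e, he, rfl⟩ := Finset.mem_image.mp hp
        exact hG e (hZ he)
    simp only [Finset.mem_sdiff, h3.1, h3.2, true_and]
    exact not_congr h2
  have hdd : ∀ A ∈ Full, IV G \ (IV G \ A) = A := by
    intro A hA
    have hA' : A ⊆ IV G := by
      simp only [hFull, Finset.mem_filter, Finset.mem_powerset] at hA
      exact hA.1
    ext x
    have := fun h : x ∈ A => hA' h
    simp only [Finset.mem_sdiff]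
    tauto
  have hr0G : r0 ∈ IV G := hRG hr0
  have h2 : (Full.filter (fun A => r0 ∈ A)).card = (Full.filter (fun A => r0 ∉ A)).card := by
    refine Finset.card_bij' (fun A _ => IV G \ A) (fun A _ => IV G \ A) ?_ ?_ ?_ ?_
    · intro A hA
      rw [Finset.mem_filter] at hA ⊢
      exact ⟨hcompl A hA.1, fun h => (Finset.mem_sdiff.mp h).2 hA.2⟩
    · intro A hA
      rw [Finset.mem_filter] at hA ⊢
      exact ⟨hcompl A hA.1, Finset.mem_sdiff.mpr ⟨hr0G, hA.2⟩⟩
    · intro A hA
      exact hdd A (Finset.mem_filter.mp hA).1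
    · intro A hA
      exact hdd A (Finset.mem_filter.mp hA).1
  have h3 : (Full.filter (fun A => r0 ∈ A)).card + (Full.filter (fun A => ¬ r0 ∈ A)).card =
      Full.card := Finset.card_filter_add_card_filter_not _
  rw [h2, h1] at h3
  have h4 : (Full.card : ℝ) = (N.card : ℝ) + (N.card : ℝ) := by exact_mod_cast h3.symm
  rw [h4]
  ring

theorem sum_powerset_compl {α : Type*} [DecidableEq α] (A : Finset α) (F : Finset α → ℝ) :
    ∑ T ∈ A.powerset, F T = ∑ T ∈ A.powerset, F (A \ T) := by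
  have hdd : ∀ T ∈ A.powerset, A \ (A \ T) = T := by
    intro T hT
    rw [Finset.mem_powerset] at hT
    ext x
    have := fun h : x ∈ T => hT h
    simp only [Finset.mem_sdiff]
    tauto
  refine Finset.sum_bij' (fun T _ => A \ T) (fun T _ => A \ T)
    (fun T _ => Finset.mem_powerset.mpr Finset.sdiff_subset)
    (fun T _ => Finset.mem_powerset.mpr Finset.sdiff_subset) hdd hdd ?_
  intro T hT
  rw [hdd T hT]

theorem EB_min (c : ℝ) {G R B : Finset P2} (hRdef : R = IV G \ IV B) (hB : SC (B : Set P2))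
    (hIV : IV B ⊆ IV G) {r0 : P2} (hr0 : r0 ∈ R)
    (hG : ∀ e ∈ IE B, src e ∈ IV G ∧ tgt e ∈ IV G) {f : Cfg → ℝ} (hf : IncP f)
    (hin : InTZ B f) :
    EB c (IV G) B (etaMin R B) (fun T P M => f (mk B T P M)) *
      ((N0 B : ℝ) / 2 ^ (IV B).card) =
    2 * nw (IV G) ∅ * S c B (fun ω => f (addH 2 ω)) := by
  rw [S_tz hB c (hf.tz.addH 2), EB_eq c (IV G) B (etaMin_sep R B)]
  rw [sum_powerset_compl (IV B)]
  have h1 : ∀ T ∈ (IV B).powerset, ∀ Z ∈ (IE B).powerset,
      fw src tgt c (IE B) ((IV B \ T) ∪ (etaMin R B).T0) Z *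
        nw (IV G) ((etaMin R B).Dp ∪ (etaMin R B).Dm ∪ Z.image pe) *
        f (mk B (IV B \ T) (Z ∩ E2 src tgt (IE B) ((IV B \ T) ∪ (etaMin R B).T0))
          (Z ∩ E1 src tgt (IE B) ((IV B \ T) ∪ (etaMin R B).T0))) =
      2 * (fkw c B T Z * (ncl B Z : ℝ) * f (addH 2 (mkZ B T Z))) := by
    intro T hT Z hZ
    rw [Finset.mem_powerset] at hT hZ
    have e0 : (etaMin R B).T0 = R := rfl
    have e1 : (etaMin R B).Dp ∪ (etaMin R B).Dm ∪ Z.image pe = CR R B ∪ Z.image pe := by
      simp [etaMin]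
    rw [e0, e1, ncl_min hRdef hIV hr0 hG hZ]
    have hmem : ∀ v ∈ IV G, (v ∈ (IV B \ T) ∪ R ↔ v ∉ T) := by
      intro v hv
      have := fun h : v ∈ T => hT h
      rw [hRdef]
      simp only [Finset.mem_union, Finset.mem_sdiff]
      tauto
    have hfw : fw src tgt c (IE B) ((IV B \ T) ∪ R) Z = fkw c B T Z := by
      rw [fkw_eq_fw]
      unfold fw
      refine Finset.prod_congr rfl fun e he => ?_
      have h2 : (src e ∈ (IV B \ T) ∪ R ↔ tgt e ∈ (IV B \ T) ∪ R) ↔ (src e ∈ T ↔ tgt e ∈ T) := by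
        rw [hmem _ (hG e he).1, hmem _ (hG e he).2]
        tauto
      simp only [h2]
    rw [hfw]
    by_cases hs : ∀ e ∈ Z, (src e ∈ T ↔ tgt e ∈ T)
    · have h3 : f (mk B (IV B \ T) (Z ∩ E2 src tgt (IE B) ((IV B \ T) ∪ R))
          (Z ∩ E1 src tgt (IE B) ((IV B \ T) ∪ R))) = f (addH 2 (mkZ B T Z)) := by
        apply hin.eq_of_agree hf
        · intro v hv
          rw [mk_dvd]
          have h4 : (4 : ℤ) ∣ (addH 2 (mkZ B T Z)).1 v ↔ v ∈ T := by
            unfold Defs372.addH mkZ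
            by_cases h : v ∈ T
            · simp [h]
            · simp only [h, if_false, iff_false]; norm_num
          rw [h4, Finset.mem_sdiff]
          tauto
        · intro e he hsrc
          apply bool_eq_of_iff
          have h4 : (addH 2 (mkZ B T Z)).2.2 e = (mkZ B T Z).2.2 e := rfl
          rw [h4, mk_z, mkZ_z]
          have a1 := hmem _ (hG e he).1
          have a2 := hmem _ (hG e he).2
          have a3 := fun h : e ∈ Z => hs e h
          simp only [Finset.mem_inter, E1, E2, Finset.mem_filter, a1, a2, Finset.mem_sdiff]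
          tauto
      rw [h3]
      ring
    · rw [fkw_eq_fw, fw_zero_of_not c _ _ hZ hs]
      ring
  rw [Finset.sum_congr rfl (fun T hT => Finset.sum_congr rfl (h1 T hT))]
  simp only [← Finset.mul_sum]
  ring

open Classical in
/-- outer factor -/
noncomputable def gout (F G B : Finset P2) (g : Cfg → ℝ) (T1 : Finset P2) (Z1 : Finset Edge) : ℝ :=
  if T1 ⊆ IV F ∧ (IE G \ IE B) \ IE F ⊆ Z1 then g (mkZ G T1 Z1) else 0

/-- **Environment representation.** -/
theorem env (c : ℝ) {F G B : Finset P2} (hF : SC (F : Set P2)) (hFG : F ⊆ G) (hBG : B ⊆ G)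
    {f g : Cfg → ℝ} (hf : IncP f) (hin : InTZ B f) (hg : OffTZ B g) :
    S c F (fun ω => g ω * f ω) =
      Kc F G * ∑ T1 ∈ (IV G \ IV B).powerset, ∑ Z1 ∈ (IE G \ IE B).powerset,
        fw src tgt c (IE G \ IE B) T1 Z1 * gout F G B g T1 Z1 *
          EB c (IV G) B (eta T1 Z1)
            (fun T P M => Ain F G (IE B) T P M * f (mk B T P M)) := by
  classical
  refine master c hF hFG hBG ((OffTZ_tz hg).mul hf.tz) (gout F G B g)
    (fun T P M => Ain F G (IE B) T P M * f (mk B T P M)) ?_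
  intro T hT Z hZ hs
  have hgv : g (mkZ G T Z) = g (mkZ G (T \ IV B) (Z \ IE B)) := by
    refine hg _ _ (fun v hv => ?_) (fun e he => ?_)
    · have hv' : v ∉ IV B := hv
      unfold mkZ
      simp only [Finset.mem_sdiff, hv', not_false_eq_true, and_true, sub_self, dvd_zero]
    · have he' : e ∉ IE B := he
      apply bool_eq_of_iff
      rw [mkZ_z, mkZ_z, Finset.mem_sdiff]
      tauto
  have hfv : f (mkZ G T Z) = f (mk B (T ∩ IV B) (Z ∩ E2 src tgt (IE B) T)
      (Z ∩ E1 src tgt (IE B) T)) := by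
    apply hin.eq_of_agree hf
    · intro v hv
      rw [mkZ_dvd, mk_dvd, Finset.mem_inter]
      tauto
    · intro e he hsrc
      apply bool_eq_of_iff
      rw [mkZ_z, mk_z]
      have h1 := IE_mono hBG he
      have h2 := fun h : e ∈ Z => hs e h
      simp only [Finset.mem_inter, E1, E2, Finset.mem_filter]
      tauto
  have hiff : (T ⊆ IV F ∧ IE G \ IE F ⊆ Z) ↔
      ((T \ IV B ⊆ IV F ∧ (IE G \ IE B) \ IE F ⊆ Z \ IE B) ∧
        (T ∩ IV B ⊆ IV F ∧ IE B \ IE F ⊆ Z ∩ E2 src tgt (IE B) T)) := by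
    constructor
    · rintro ⟨h1, h2⟩
      refine ⟨⟨Finset.sdiff_subset.trans h1, fun e he => ?_⟩,
        ⟨Finset.inter_subset_left.trans h1, fun e he => ?_⟩⟩
      · rw [Finset.mem_sdiff, Finset.mem_sdiff] at he
        exact Finset.mem_sdiff.mpr ⟨h2 (Finset.mem_sdiff.mpr ⟨he.1.1, he.2⟩), he.1.2⟩
      · rw [Finset.mem_sdiff] at he
        simp only [Finset.mem_inter, E2, Finset.mem_filter]
        exact ⟨h2 (Finset.mem_sdiff.mpr ⟨IE_mono hBG he.1, he.2⟩), he.1,
          fun h => he.2 (mem_IE_of_src (h1 h)), fun h => he.2 (mem_IE_of_tgt (h1 h))⟩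
    · rintro ⟨⟨h1, h2⟩, h3, h4⟩
      constructor
      · intro v hv
        by_cases hvB : v ∈ IV B
        · exact h3 (Finset.mem_inter.mpr ⟨hv, hvB⟩)
        · exact h1 (Finset.mem_sdiff.mpr ⟨hv, hvB⟩)
      · intro e he
        rw [Finset.mem_sdiff] at he
        by_cases heB : e ∈ IE B
        · exact (Finset.mem_inter.mp (h4 (Finset.mem_sdiff.mpr ⟨heB, he.2⟩))).1
        · exact (Finset.mem_sdiff.mp (h2 (Finset.mem_sdiff.mpr
            ⟨Finset.mem_sdiff.mpr ⟨he.1, heB⟩, he.2⟩))).1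
  unfold gout Ain
  by_cases hA : T ⊆ IV F ∧ IE G \ IE F ⊆ Z
  · have hA' := hiff.1 hA
    rw [if_pos hA, if_pos hA'.1, if_pos hA'.2, one_mul, hgv, hfv]
  · rw [if_neg hA]
    by_cases h1 : T \ IV B ⊆ IV F ∧ (IE G \ IE B) \ IE F ⊆ Z \ IE B
    · rw [if_neg (fun h2 => hA (hiff.2 ⟨h1, h2⟩))]
      ring
    · rw [if_neg h1]
      ring

theorem inTZ_one (B : Finset P2) : InTZ B (fun _ => 1) := fun _ _ _ _ => rfl

theorem env_one (c : ℝ) {F G B : Finset P2} (hF : SC (F : Set P2)) (hFG : F ⊆ G) (hBG : B ⊆ G)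
    {g : Cfg → ℝ} (hg : OffTZ B g) :
    S c F g =
      Kc F G * ∑ T1 ∈ (IV G \ IV B).powerset, ∑ Z1 ∈ (IE G \ IE B).powerset,
        fw src tgt c (IE G \ IE B) T1 Z1 * gout F G B g T1 Z1 *
          EB c (IV G) B (eta T1 Z1) (Ain F G (IE B)) := by
  have h := env c hF hFG hBG incP_one (inTZ_one B) hg
  simp only [mul_one] at h
  exact h

theorem gout_nonneg {F G B : Finset P2} {g : Cfg → ℝ} (hg : ∀ ω, 0 ≤ g ω) (T1 : Finset P2)
    (Z1 : Finset Edge) : 0 ≤ gout F G B g T1 Z1 := by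
  unfold gout
  split_ifs
  · exact hg _
  · exact le_rfl

theorem fw_nonneg {c : ℝ} (hc : 1 ≤ c) (E : Finset Edge) (X : Finset P2) (Z : Finset Edge) :
    0 ≤ fw src tgt c E X Z := by
  unfold fw
  refine Finset.prod_nonneg fun e _ => ?_
  split_ifs <;> first | exact zero_le_two | exact zero_le_one | exact le_rfl | linarith

/-- Comparison of sums over environments. -/
theorem sum_env_le {c : ℝ} (hc : 1 ≤ c) {F G B : Finset P2} {g : Cfg → ℝ} (hg : ∀ ω, 0 ≤ g ω)
    {a b : BC P2 (P2 × P2) → ℝ}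
    (h : ∀ T1 ⊆ IV G \ IV B, ∀ Z1 ⊆ IE G \ IE B, (∀ e ∈ Z1, (src e ∈ T1 ↔ tgt e ∈ T1)) →
      a (eta T1 Z1) ≤ b (eta T1 Z1)) :
    Kc F G * ∑ T1 ∈ (IV G \ IV B).powerset, ∑ Z1 ∈ (IE G \ IE B).powerset,
        fw src tgt c (IE G \ IE B) T1 Z1 * gout F G B g T1 Z1 * a (eta T1 Z1) ≤
      Kc F G * ∑ T1 ∈ (IV G \ IV B).powerset, ∑ Z1 ∈ (IE G \ IE B).powerset,
        fw src tgt c (IE G \ IE B) T1 Z1 * gout F G B g T1 Z1 * b (eta T1 Z1) := by
  refine mul_le_mul_of_nonneg_left (Finset.sum_le_sum fun T1 hT1 => Finset.sum_le_sum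
    fun Z1 hZ1 => ?_) (Kc_pos F G).le
  rw [Finset.mem_powerset] at hT1 hZ1
  by_cases hs : ∀ e ∈ Z1, (src e ∈ T1 ↔ tgt e ∈ T1)
  · exact mul_le_mul_of_nonneg_left (h T1 hT1 Z1 hZ1 hs)
      (mul_nonneg (fw_nonneg hc _ _ _) (gout_nonneg hg _ _))
  · rw [fw_zero_of_not c _ _ hZ1 hs]
    simp

/-- **(D+)** Upper comparison. -/
theorem up {c : ℝ} (hc : 1 ≤ c) {F B : Finset P2} (hF : SC (F : Set P2)) (hB : SC (B : Set P2))
    (hBF : B ⊆ F) {f g : Cfg → ℝ} (hf : IncP f) (hin : InTZ B f) (hg0 : ∀ ω, 0 ≤ g ω)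
    (hg : OffTZ B g) :
    E c F (fun ω => g ω * f ω) ≤ E c F g * E c B f := by
  classical
  obtain ⟨v0, hv0⟩ := Infinite.exists_notMem_finset (IV F)
  set R : Finset P2 := ((IE F).image src ∪ (IE F).image tgt ∪ IV F ∪ {v0}) \ IV B with hR
  have hRd : Disjoint R (IV B) := Finset.sdiff_disjoint
  have hVR : IV F \ IV B ⊆ R := by
    intro v hv
    rw [Finset.mem_sdiff] at hv
    rw [hR, Finset.mem_sdiff]
    refine ⟨?_, hv.2⟩
    simp only [Finset.mem_union]
    exact Or.inl (Or.inr hv.1)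
  have hv0R : v0 ∈ R := by
    rw [hR, Finset.mem_sdiff]
    refine ⟨by simp, fun h => hv0 (IV_mono hBF h)⟩
  -- one environment
  set fB : Finset P2 → Finset Edge → Finset Edge → ℝ := fun T P M => f (mk B T P M) with hfB
  have hincB : Inc fB := mkG_inc B hf
  have hloc : ∀ T1 ⊆ IV F \ IV B, ∀ Z1 ⊆ IE F \ IE B, (∀ e ∈ Z1, (src e ∈ T1 ↔ tgt e ∈ T1)) →
      EB c (IV F) B (eta T1 Z1) fB * EB c (IV B) B (eta ∅ ∅) (fun _ _ _ => 1) ≤
        EB c (IV F) B (eta T1 Z1) (fun _ _ _ => 1) * EB c (IV B) B (eta ∅ ∅) fB := by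
    intro T1 hT1 Z1 hZ1 hs
    have hle : (eta T1 Z1).Le (etaMax R B) := by
      refine ⟨Finset.empty_subset _, ?_, Finset.empty_subset _⟩
      intro p hp
      simp only [eta, Finset.mem_image, Finset.mem_filter] at hp
      obtain ⟨e, ⟨he1, _⟩, rfl⟩ := hp
      have heF := Finset.mem_sdiff.mp (hZ1 he1)
      show pe e ∈ CR R B
      rw [mem_CR]
      refine ⟨⟨?_, ?_⟩, ?_⟩
      · show src e ∈ R
        rw [hR, Finset.mem_sdiff]
        refine ⟨?_, fun h => heF.2 (mem_IE_of_src h)⟩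
        simp only [Finset.mem_union]
        exact Or.inl (Or.inl (Or.inl (Finset.mem_image_of_mem _ heF.1)))
      · show tgt e ∈ R
        rw [hR, Finset.mem_sdiff]
        refine ⟨?_, fun h => heF.2 (mem_IE_of_tgt h)⟩
        simp only [Finset.mem_union]
        exact Or.inl (Or.inl (Or.inr (Finset.mem_image_of_mem _ heF.1)))
      · intro h
        rw [Finset.mem_image] at h
        obtain ⟨e', he', h⟩ := h
        rw [pe_inj h] at he'
        exact heF.2 he'
    have h1 := EB_mono hc (VA := IV F) (eta_ok hT1 hZ1) (etaMax_ok R B) hle hincB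
    have h2 := EB_max c (IV_mono hBF) hRd hVR hv0R hv0 fB
    have h3 := EB_max c (IV_mono hBF) hRd hVR hv0R hv0 (fun _ _ _ => 1)
    have p1 := nw_pos (IV B) ∅
    have p2 := nw_pos (IV F) ∅
    have h4 := mul_le_mul_of_nonneg_right h1 p1.le
    have h5 : EB c (IV F) B (eta T1 Z1) fB * (nw (IV F) ∅ *
        EB c (IV B) B (eta ∅ ∅) (fun _ _ _ => 1)) ≤
        EB c (IV F) B (eta T1 Z1) (fun _ _ _ => 1) * (nw (IV F) ∅ *
          EB c (IV B) B (eta ∅ ∅) fB) := by
      rw [← h2, ← h3]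
      linarith
    have h6 : nw (IV F) ∅ * (EB c (IV F) B (eta T1 Z1) fB *
        EB c (IV B) B (eta ∅ ∅) (fun _ _ _ => 1)) ≤ nw (IV F) ∅ *
        (EB c (IV F) B (eta T1 Z1) (fun _ _ _ => 1) * EB c (IV B) B (eta ∅ ∅) fB) := by
      linarith
    exact le_of_mul_le_mul_left h6 p2
  -- drop the (trivial) restriction factor
  have hdrop : ∀ (η : BC P2 (P2 × P2)) (h : Cfg → ℝ),
      EB c (IV F) B η (fun T P M => Ain F F (IE B) T P M * h (mk B T P M)) =
        EB c (IV F) B η (fun T P M => h (mk B T P M)) := by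
    intro η h
    apply EB_congr
    intro T hT P _ M _
    unfold Ain
    rw [if_pos ⟨hT.trans (IV_mono hBF), by
      rw [Finset.sdiff_eq_empty_iff_subset.mpr (IE_mono hBF)]; exact Finset.empty_subset _⟩,
      one_mul]
  have hdrop1 : ∀ (η : BC P2 (P2 × P2)), EB c (IV F) B η (Ain F F (IE B)) =
        EB c (IV F) B η (fun _ _ _ => 1) := by
    intro η
    have := hdrop η (fun _ => 1)
    simpa using this
  have s1 := env c hF (Finset.Subset.refl F) hBF hf hin hg
  have s2 := env_one c hF (Finset.Subset.refl F) hBF hg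
  simp only [hdrop] at s1
  simp only [hdrop1] at s2
  have hmain : S c F (fun ω => g ω * f ω) * EB c (IV B) B (eta ∅ ∅) (fun _ _ _ => 1) ≤
      S c F g * EB c (IV B) B (eta ∅ ∅) fB := by
    have h7 := sum_env_le hc (F := F) (G := F) (B := B) hg0
      (a := fun η => EB c (IV F) B η fB * EB c (IV B) B (eta ∅ ∅) (fun _ _ _ => 1))
      (b := fun η => EB c (IV F) B η (fun _ _ _ => 1) * EB c (IV B) B (eta ∅ ∅) fB) hloc
    rw [s1, s2, mul_assoc, mul_assoc, Finset.sum_mul, Finset.sum_mul]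
    simp only [Finset.sum_mul, mul_assoc] at h7 ⊢
    exact h7
  have hZF := Z_pos hc F
  have hZB := Z_pos hc B
  have hKB := Kc_pos B B
  have o1 : 0 < EB c (IV B) B (eta ∅ ∅) (fun _ _ _ => 1) := EB_one_pos hc (eta0_ok B)
  have hEB : E c B f = EB c (IV B) B (eta ∅ ∅) fB / EB c (IV B) B (eta ∅ ∅) (fun _ _ _ => 1) := by
    rw [E_eq_S, rep_self c hB hf, Z_eq c hB]
    exact mul_div_mul_left _ _ hKB.ne'
  rw [hEB, E_eq_S, E_eq_S, div_mul_div_comm, div_le_div_iff₀ hZF (mul_pos hZF o1)]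
  nlinarith [mul_le_mul_of_nonneg_left hmain hZF.le]

theorem exists_big (F B : Finset P2) : ∃ G : Finset P2, F ⊆ G ∧ B ⊆ G ∧
    (∀ e ∈ IE B, src e ∈ IV G ∧ tgt e ∈ IV G) ∧ ∃ r0, r0 ∈ IV G \ IV B := by
  classical
  let nb : P2 → Finset P2 := fun v =>
    {(v.1, v.2), (v.1 - 1, v.2), (v.1, v.2 - 1), (v.1 - 1, v.2 - 1)}
  obtain ⟨r0, hr0⟩ := Infinite.exists_notMem_finset (IV B)
  let V : Finset P2 := (IE B).image src ∪ (IE B).image tgt ∪ {r0}
  let G : Finset P2 := F ∪ B ∪ V.biUnion nb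
  have hV : ∀ v ∈ V, v ∈ IV G := by
    intro v hv
    rw [mem_IV]
    have h1 : ∀ w ∈ nb v, w ∈ G := fun w hw =>
      Finset.mem_union_right _ (Finset.mem_biUnion.mpr ⟨v, hv, hw⟩)
    exact ⟨h1 _ (by simp [nb]), h1 _ (by simp [nb]), h1 _ (by simp [nb]), h1 _ (by simp [nb])⟩
  refine ⟨G, ?_, ?_, ?_, r0, ?_⟩
  · exact Finset.subset_union_left.trans Finset.subset_union_left
  · exact Finset.subset_union_right.trans Finset.subset_union_left
  · intro e he
    refine ⟨hV _ ?_, hV _ ?_⟩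
    · simp only [V, Finset.mem_union]
      exact Or.inl (Or.inl (Finset.mem_image_of_mem _ he))
    · simp only [V, Finset.mem_union]
      exact Or.inl (Or.inr (Finset.mem_image_of_mem _ he))
  · rw [Finset.mem_sdiff]
    exact ⟨hV _ (by simp [V]), hr0⟩

/-- **(D-)** Lower comparison (`B` in arbitrary position). -/
theorem low {c : ℝ} (hc : 1 ≤ c) {F B : Finset P2} (hF : SC (F : Set P2)) (hB : SC (B : Set P2))
    {f g : Cfg → ℝ} (hf : IncP f) (hin : InTZ B f) (hg0 : ∀ ω, 0 ≤ g ω)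
    (hg : OffTZ B g) :
    E c F g * E c B (fun ω => f (addH 2 ω)) ≤ E c F (fun ω => g ω * f ω) := by
  classical
  obtain ⟨G, hFG, hBG, hG, r0, hr0⟩ := exists_big F B
  set R : Finset P2 := IV G \ IV B with hR
  have hRd : Disjoint R (IV B) := Finset.sdiff_disjoint
  have hIV : IV B ⊆ IV G := IV_mono hBG
  set fB : Finset P2 → Finset Edge → Finset Edge → ℝ := fun T P M => f (mk B T P M) with hfB
  have hincB : Inc fB := mkG_inc B hf
  set mf := EB c (IV G) B (etaMin R B) fB with hmf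
  set m1 := EB c (IV G) B (etaMin R B) (fun _ _ _ => 1) with hm1
  have hm1pos : 0 < m1 := EB_one_pos hc (etaMin_ok hRd)
  have hloc : ∀ T1 ⊆ IV G \ IV B, ∀ Z1 ⊆ IE G \ IE B, (∀ e ∈ Z1, (src e ∈ T1 ↔ tgt e ∈ T1)) →
      EB c (IV G) B (eta T1 Z1) (Ain F G (IE B)) * mf ≤
        EB c (IV G) B (eta T1 Z1) (fun T P M => Ain F G (IE B) T P M * fB T P M) * m1 := by
    intro T1 hT1 Z1 hZ1 hs
    have hle : (etaMin R B).Le (eta T1 Z1) := by
      refine ⟨hT1, Finset.empty_subset _, ?_⟩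
      intro p hp
      simp only [eta, Finset.mem_image, Finset.mem_filter] at hp
      obtain ⟨e, ⟨he1, he2⟩, rfl⟩ := hp
      have heG := Finset.mem_sdiff.mp (hZ1 he1)
      show pe e ∈ CR R B
      rw [mem_CR]
      refine ⟨⟨hT1 he2, hT1 ((hs e he1).1 he2)⟩, ?_⟩
      intro h
      rw [Finset.mem_image] at h
      obtain ⟨e', he', h⟩ := h
      rw [pe_inj h] at he'
      exact heG.2 he'
    have hok := eta_ok (B := B) (G := G) hT1 hZ1
    have h1 := EB_mono hc (VA := IV G) (etaMin_ok hRd) hok hle hincB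
    have h2 := EB_fkg hc (VA := IV G) hok (Ain_inc F G (IE B)) hincB
    have o1 : 0 < EB c (IV G) B (eta T1 Z1) (fun _ _ _ => 1) := EB_one_pos hc hok
    have hA : 0 ≤ EB c (IV G) B (eta T1 Z1) (Ain F G (IE B)) := by
      unfold EB En
      refine Finset.sum_nonneg fun T _ => Finset.sum_nonneg fun M _ => Finset.sum_nonneg
        fun P _ => ?_
      exact mul_nonneg (mul_nonneg (aw_nonneg _ _ _ hc _ _ _) (aw_nonneg _ _ _ hc _ _ _))
        (Ain_nonneg F G (IE B) _ _ _)
    set o := EB c (IV G) B (eta T1 Z1) (fun _ _ _ => 1)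
    set a := EB c (IV G) B (eta T1 Z1) (Ain F G (IE B))
    set b := EB c (IV G) B (eta T1 Z1) fB
    set d := EB c (IV G) B (eta T1 Z1) (fun T P M => Ain F G (IE B) T P M * fB T P M)
    -- h1 : mf * o ≤ m1 * b ; h2 : a * b ≤ o * d
    have h3 : a * (mf * o) ≤ a * (m1 * b) := mul_le_mul_of_nonneg_left h1 hA
    have h4 : m1 * (a * b) ≤ m1 * (o * d) := mul_le_mul_of_nonneg_left h2 hm1pos.le
    have h5 : o * (a * mf) ≤ o * (d * m1) := by linarith
    exact le_of_mul_le_mul_left h5 o1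
  have s1 := env c hF hFG hBG hf hin hg
  have s2 := env_one c hF hFG hBG hg
  have hmain : S c F g * mf ≤ S c F (fun ω => g ω * f ω) * m1 := by
    have h7 := sum_env_le hc (F := F) (G := G) (B := B) hg0
      (a := fun η => EB c (IV G) B η (Ain F G (IE B)) * mf)
      (b := fun η => EB c (IV G) B η (fun T P M => Ain F G (IE B) T P M * fB T P M) * m1) hloc
    rw [s1, s2, mul_assoc, mul_assoc, Finset.sum_mul, Finset.sum_mul]
    simp only [Finset.sum_mul, mul_assoc] at h7 ⊢
    exact h7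
  have e1 := EB_min c hR hB hIV hr0 hG hf hin
  have e2 := EB_min c hR hB hIV hr0 hG incP_one (inTZ_one B)
  rw [S_one] at e2
  have hZF := Z_pos hc F
  have hZB := Z_pos hc B
  have hn : (0 : ℝ) < N0 B := by exact_mod_cast N0_pos B
  have hk : (0 : ℝ) < (N0 B : ℝ) / 2 ^ (IV B).card := by positivity
  have hnw := nw_pos (IV G) ∅
  have hratio : E c B (fun ω => f (addH 2 ω)) = mf / m1 := by
    rw [E_eq_S, div_eq_div_iff hZB.ne' hm1pos.ne']
    have h8 : (2 * nw (IV G) ∅) * ((N0 B : ℝ) / 2 ^ (IV B).card) *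
        (S c B (fun ω => f (addH 2 ω)) * m1) =
        (2 * nw (IV G) ∅) * ((N0 B : ℝ) / 2 ^ (IV B).card) * (mf * Z c B) := by
      calc _ = (2 * nw (IV G) ∅ * S c B (fun ω => f (addH 2 ω))) *
            (m1 * ((N0 B : ℝ) / 2 ^ (IV B).card)) := by ring
        _ = (mf * ((N0 B : ℝ) / 2 ^ (IV B).card)) * (2 * nw (IV G) ∅ * Z c B) := by
            rw [← e1, e2]
        _ = _ := by ring
    exact mul_left_cancel₀ (by positivity) h8
  rw [hratio, E_eq_S, E_eq_S, div_mul_div_comm, div_le_div_iff₀ (mul_pos hZF hm1pos) hZF]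
  nlinarith [mul_le_mul_of_nonneg_left hmain hZF.le]

end Crest.Agent.R161.AtFkF729
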