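import Crest.Agent.R161.Defs_372
import Crest.Agent.R161.Sym_597
import Crest.Agent.R161.Geo_132

/-!
R161, block F (helper373): lattice automorphisms acting on configurations, invariance of the
finite-volume laws and of the infinite state, rectangles are domains.

* `Aut` : automorphism of `ℤ²` (vertices, faces, edges); `Aut.cfg σ ω` the pulled back configuration
* `E_aut : E c F f = E c (σ F) (f ∘ σ.cfg)`
* `Aut.tr a` translation (`(tr a).cfg = trans a`), `Aut.ofRefl R`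
* `Par`, `Neut` (neutral functionals), `Chg α` (functionals of charge `α`)
* `IsState.integral_aut` : invariance of `P` for local neutral functionals
* `dom_rect`
-/

set_option autoImplicit false

noncomputable section

namespace Crest.Agent.R161.Aut373

open Finset MeasureTheory
open Crest.Agent.R161.Geo729 Crest.Agent.R161.Defs372 Crest.Agent.R161.Sym597

/-- Automorphism of the square lattice. -/
structure Aut where
  /-- vertices -/
  V : P2 ≃ P2
  /-- faces -/
  Fc : P2 ≃ P2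
  /-- edges -/
  E : Edge ≃ Edge
  edge_v : ∀ e, (src (E e) = V (src e) ∧ tgt (E e) = V (tgt e)) ∨
    (src (E e) = V (tgt e) ∧ tgt (E e) = V (src e))
  edge_f : ∀ e, (fA (E e) = Fc (fA e) ∧ fB (E e) = Fc (fB e)) ∨
    (fA (E e) = Fc (fB e) ∧ fB (E e) = Fc (fA e))
  corner : ∀ v f, IsCorner (V v) (Fc f) ↔ IsCorner v f

namespace Aut

variable (σ : Aut)

/-- inverse automorphism -/
def symm : Aut where
  V := σ.V.symm
  Fc := σ.Fc.symm
  E := σ.E.symm
  edge_v e := by
    have h := σ.edge_v (σ.E.symm e)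
    rw [Equiv.apply_symm_apply] at h
    rcases h with ⟨h1, h2⟩ | ⟨h1, h2⟩
    · left
      rw [h1, h2, Equiv.symm_apply_apply, Equiv.symm_apply_apply]
      exact ⟨rfl, rfl⟩
    · right
      rw [h1, h2, Equiv.symm_apply_apply, Equiv.symm_apply_apply]
      exact ⟨rfl, rfl⟩
  edge_f e := by
    have h := σ.edge_f (σ.E.symm e)
    rw [Equiv.apply_symm_apply] at h
    rcases h with ⟨h1, h2⟩ | ⟨h1, h2⟩
    · left
      rw [h1, h2, Equiv.symm_apply_apply, Equiv.symm_apply_apply]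
      exact ⟨rfl, rfl⟩
    · right
      rw [h1, h2, Equiv.symm_apply_apply, Equiv.symm_apply_apply]
      exact ⟨rfl, rfl⟩
  corner v f := by
    have h := σ.corner (σ.V.symm v) (σ.Fc.symm f)
    rw [Equiv.apply_symm_apply, Equiv.apply_symm_apply] at h
    exact h.symm

/-- pulled back configuration -/
def cfg (ω : Cfg) : Cfg := (fun v => ω.1 (σ.V v), fun f => ω.2.1 (σ.Fc f), fun e => ω.2.2 (σ.E e))

@[simp] theorem cfg_k (ω : Cfg) (v : P2) : (σ.cfg ω).1 v = ω.1 (σ.V v) := rfl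
@[simp] theorem cfg_h (ω : Cfg) (v : P2) : (σ.cfg ω).2.1 v = ω.2.1 (σ.Fc v) := rfl
@[simp] theorem cfg_z (ω : Cfg) (v : Edge) : (σ.cfg ω).2.2 v = ω.2.2 (σ.E v) := rfl

theorem symm_cfg_cfg (ω : Cfg) : σ.symm.cfg (σ.cfg ω) = ω := by
  refine Prod.ext ?_ (Prod.ext ?_ ?_) <;> funext x <;> simp [cfg, symm]

theorem cfg_symm_cfg (ω : Cfg) : σ.cfg (σ.symm.cfg ω) = ω := by
  refine Prod.ext ?_ (Prod.ext ?_ ?_) <;> funext x <;> simp [cfg, symm]

/-- the image of a face set -/
def img (F : Finset P2) : Finset P2 := F.map σ.Fc.toEmbedding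

theorem mem_img {F : Finset P2} {f : P2} : σ.Fc f ∈ σ.img F ↔ f ∈ F := by
  simp [img]

theorem mem_img' {F : Finset P2} {f : P2} : f ∈ σ.img F ↔ σ.Fc.symm f ∈ F := by
  have := σ.mem_img (F := F) (f := σ.Fc.symm f)
  rwa [Equiv.apply_symm_apply] at this


theorem intEdges_img {F : Finset P2} {e : Edge} : σ.E e ∈ intEdges (σ.img F) ↔ e ∈ intEdges F := by
  rw [mem_intEdges, mem_intEdges]
  rcases σ.edge_f e with ⟨h1, h2⟩ | ⟨h1, h2⟩
  · rw [h1, h2, mem_img, mem_img]
  · rw [h1, h2, mem_img, mem_img, and_comm]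

theorem intVerts_img {F : Finset P2} {v : P2} : σ.V v ∈ intVerts (σ.img F) ↔ v ∈ intVerts F := by
  rw [mem_intVerts, mem_intVerts, intV_iff, intV_iff]
  constructor
  · intro h f hf
    have := h (σ.Fc f) ((σ.corner v f).2 hf)
    rw [Finset.mem_coe, mem_img] at this
    exact this
  · intro h f hf
    have := h (σ.Fc.symm f) ((σ.corner v _).1 (by rwa [Equiv.apply_symm_apply]))
    rw [Finset.mem_coe] at this ⊢
    rwa [mem_img']

theorem valid_cfg {F : Finset P2} {ω : Cfg} : Valid F (σ.cfg ω) ↔ Valid (σ.img F) ω := by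
  constructor
  · intro h
    refine ⟨fun v hv => ?_, fun v => ?_, fun f hf => ?_, fun f hf v hv => ?_, fun e he => ?_⟩
    · have := h.zero (σ.V.symm v) (fun h' => hv (by
        have := σ.intVerts_img.2 h'
        rwa [Equiv.apply_symm_apply] at this))
      simpa using this
    · have := h.even (σ.V.symm v)
      simpa using this
    · have := h.off (σ.Fc.symm f) (fun h' => hf (σ.mem_img'.2 h'))
      simpa using this
    · have := h.corner (σ.Fc.symm f) (σ.mem_img'.1 hf) (σ.V.symm v)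
        ((σ.corner _ _).1 (by simpa using hv))
      simpa using this
    · have := h.cut (σ.E.symm e) (fun h' => he (by
        have := σ.intEdges_img.2 h'
        rwa [Equiv.apply_symm_apply] at this))
      simpa using this
  · intro h
    refine ⟨fun v hv => ?_, fun v => ?_, fun f hf => ?_, fun f hf v hv => ?_, fun e he => ?_⟩
    · exact h.zero _ (fun h' => hv (σ.intVerts_img.1 h'))
    · exact h.even _
    · exact h.off _ (fun h' => hf (σ.mem_img.1 h'))
    · exact h.corner _ (σ.mem_img.2 hf) _ ((σ.corner _ _).2 hv)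
    · exact h.cut _ (fun h' => he (σ.intEdges_img.1 h'))

theorem ew_cfg (c : ℝ) (ω : Cfg) (e : Edge) : ew c (σ.cfg ω) e = ew c ω (σ.E e) := by
  unfold ew
  simp only [cfg_k, cfg_h, cfg_z]
  have hp : ω.1 (src (σ.E e)) = ω.1 (tgt (σ.E e)) ↔ ω.1 (σ.V (src e)) = ω.1 (σ.V (tgt e)) := by
    rcases σ.edge_v e with ⟨h1, h2⟩ | ⟨h1, h2⟩ <;> rw [h1, h2]
    exact eq_comm
  have hq : ω.2.1 (fA (σ.E e)) = ω.2.1 (fB (σ.E e)) ↔
      ω.2.1 (σ.Fc (fA e)) = ω.2.1 (σ.Fc (fB e)) := by
    rcases σ.edge_f e with ⟨h1, h2⟩ | ⟨h1, h2⟩ <;> rw [h1, h2]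
    exact eq_comm
  simp only [hp, hq]
  rfl

theorem intEdges_img_eq (F : Finset P2) : intEdges (σ.img F) = (intEdges F).map σ.E.toEmbedding := by
  ext e
  rw [Finset.mem_map]
  constructor
  · intro h
    refine ⟨σ.E.symm e, ?_, by simp⟩
    rw [← σ.intEdges_img, Equiv.apply_symm_apply]
    exact h
  · rintro ⟨e', he', rfl⟩
    exact σ.intEdges_img.2 he'

theorem wt_cfg (c : ℝ) (F : Finset P2) (ω : Cfg) : wt c F (σ.cfg ω) = wt c (σ.img F) ω := by
  unfold wt
  rw [intEdges_img_eq, Finset.prod_map]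
  exact Finset.prod_congr rfl fun e _ => σ.ew_cfg c ω e

/-- change of variables -/
theorem sum_conf {M : Type*} [AddCommMonoid M] (F : Finset P2) (f : Cfg → M) :
    ∑ ω ∈ conf F, f ω = ∑ ω ∈ conf (σ.img F), f (σ.cfg ω) := by
  symm
  refine Finset.sum_bij' (fun ω _ => σ.cfg ω) (fun ω _ => σ.symm.cfg ω) ?_ ?_ ?_ ?_ ?_
  · intro ω hω
    rw [mem_conf] at hω ⊢
    exact σ.valid_cfg.2 hω
  · intro ω hω
    rw [mem_conf] at hω ⊢
    rw [← σ.valid_cfg, σ.cfg_symm_cfg]
    exact hω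
  · intro ω _
    exact σ.symm_cfg_cfg ω
  · intro ω _
    exact σ.cfg_symm_cfg ω
  · intro ω _
    rfl

theorem Z_img (c : ℝ) (F : Finset P2) : Z c (σ.img F) = Z c F := by
  unfold Z
  rw [σ.sum_conf F]
  exact Finset.sum_congr rfl fun ω _ => (σ.wt_cfg c F ω).symm

theorem pr_cfg (c : ℝ) (F : Finset P2) (ω : Cfg) : pr c F (σ.cfg ω) = pr c (σ.img F) ω := by
  unfold pr
  rw [σ.valid_cfg, σ.wt_cfg, σ.Z_img]

theorem E_aut (c : ℝ) (F : Finset P2) (f : Cfg → ℝ) :
    Defs372.E c F f = Defs372.E c (σ.img F) (fun ω => f (σ.cfg ω)) := by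
  unfold Defs372.E
  rw [σ.sum_conf F]
  exact Finset.sum_congr rfl fun ω _ => by rw [σ.pr_cfg]


/-! ### domains -/

theorem adj_iff_edge {f g : P2} : Adj f g ↔ ∃ e : Edge, (fA e = f ∧ fB e = g) ∨
    (fA e = g ∧ fB e = f) := by
  constructor
  · obtain ⟨a, b⟩ := f
    obtain ⟨c, d⟩ := g
    intro h
    simp only [Adj, Prod.mk.injEq] at h
    rcases h with ⟨rfl, rfl⟩ | ⟨rfl, rfl⟩ | ⟨rfl, rfl⟩ | ⟨rfl, rfl⟩
    · exact ⟨((a + 1, d), true), Or.inr ⟨rfl, by simp⟩⟩
    · exact ⟨((a, d), true), Or.inl ⟨rfl, by simp⟩⟩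
    · exact ⟨((c, b + 1), false), Or.inr ⟨rfl, by simp⟩⟩
    · exact ⟨((c, b), false), Or.inl ⟨rfl, by simp⟩⟩
  · rintro ⟨e, ⟨rfl, rfl⟩ | ⟨rfl, rfl⟩⟩
    · exact adj_fA_fB e
    · exact (adj_fA_fB e).symm

theorem adj_img {f g : P2} (h : Adj f g) : Adj (σ.Fc f) (σ.Fc g) := by
  rw [adj_iff_edge] at h ⊢
  obtain ⟨e, he⟩ := h
  refine ⟨σ.E e, ?_⟩
  rcases σ.edge_f e with ⟨h1, h2⟩ | ⟨h1, h2⟩ <;> rw [h1, h2] <;>
    rcases he with ⟨rfl, rfl⟩ | ⟨rfl, rfl⟩ <;> simp

theorem conn_img {S : Set P2} {f g : P2} (h : Conn S f g) :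
    Conn (σ.Fc '' S) (σ.Fc f) (σ.Fc g) := by
  induction h with
  | refl => exact Relation.ReflTransGen.refl
  | tail _ h2 ih =>
    exact Relation.ReflTransGen.tail ih
      ⟨Set.mem_image_of_mem _ h2.1, Set.mem_image_of_mem _ h2.2.1, σ.adj_img h2.2.2⟩

theorem isConn_img {S : Set P2} (h : IsConn S) : IsConn (σ.Fc '' S) := by
  rintro _ ⟨f, hf, rfl⟩ _ ⟨g, hg, rfl⟩
  exact σ.conn_img (h f hf g hg)

theorem coe_img (F : Finset P2) : ((σ.img F : Finset P2) : Set P2) = σ.Fc '' (F : Set P2) := by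
  simp [img]

theorem dom_img {F : Finset P2} (h : Dom F) : Dom (σ.img F) where
  conn := by
    rw [coe_img]
    exact σ.isConn_img h.conn
  sc := by
    unfold SC
    rw [coe_img, ← Set.image_compl_eq σ.Fc.bijective]
    exact σ.isConn_img h.sc

/-! ### translations and reflections -/

/-- translation by `a` -/
def tr (a : P2) : Aut where
  V := Equiv.addRight a
  Fc := Equiv.addRight a
  E := (Equiv.addRight a).prodCongr (Equiv.refl Bool)
  edge_v e := by
    obtain ⟨⟨x, y⟩, b⟩ := e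
    obtain ⟨a1, a2⟩ := a
    left
    cases b <;> simp [src, tgt] <;> ring
  edge_f e := by
    obtain ⟨⟨x, y⟩, b⟩ := e
    obtain ⟨a1, a2⟩ := a
    left
    cases b <;> simp [fA, fB] <;> ring
  corner v f := by
    obtain ⟨x, y⟩ := v
    obtain ⟨z, w⟩ := f
    obtain ⟨a1, a2⟩ := a
    simp only [Geo729.IsCorner, Equiv.coe_addRight, Prod.mk_add_mk, Prod.mk.injEq]
    omega

theorem tr_cfg (a : P2) (ω : Cfg) : (tr a).cfg ω = trans a ω := rfl

/-- reflection -/
def ofRefl (R : Refl) : Aut where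
  V := R.VEquiv
  Fc := R.FEquiv
  E := R.EEquiv
  edge_v := R.edge_v
  edge_f := R.edge_f
  corner := R.corner

end Aut




theorem trans_zero (ω : Cfg) : trans 0 ω = ω := by
  refine Prod.ext ?_ (Prod.ext ?_ ?_) <;> funext x <;> simp [Defs372.trans]

theorem trans_trans (a b : P2) (ω : Cfg) : trans a (trans b ω) = trans (a + b) ω := by
  refine Prod.ext ?_ (Prod.ext ?_ ?_) <;> funext x <;> simp [Defs372.trans, add_assoc]

/-! ### parity, neutral functionals, charges -/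

/-- all vertex heights are even -/
def Par (ω : Cfg) : Prop := ∀ v, Even (ω.1 v)

/-- functional invariant under even shifts of the heights -/
def Neut {β : Type*} (f : Cfg → β) : Prop := ∀ ω, Par ω → ∀ a : ℤ, Even a → f (addH a ω) = f ω

/-- functional of charge `α` -/
def Chg (α : ℝ) (f : Cfg → ℂ) : Prop := ∀ ω, Par ω → ∀ a : ℤ, Even a →
  f (addH a ω) = Complex.exp (Complex.I * (α * a : ℝ)) * f ω

theorem Neut.norm0 {β : Type*} {f : Cfg → β} (h : Neut f) {ω : Cfg} (hω : Par ω) :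
    f (norm0 ω) = f ω := h ω hω _ (hω _).neg

theorem valid_par {F : Finset P2} {ω : Cfg} (h : Valid F ω) : Par ω := h.even


theorem par_cfg (σ : Aut) {ω : Cfg} (h : Par ω) : Par (σ.cfg ω) := fun _ => h _

theorem addH_cfg (σ : Aut) (a : ℤ) (ω : Cfg) : σ.cfg (addH a ω) = addH a (σ.cfg ω) := rfl

theorem Neut.cfg {β : Type*} {f : Cfg → β} (h : Neut f) (σ : Aut) :
    Neut (fun ω => f (σ.cfg ω)) := by
  intro ω hω a ha
  simp only
  rw [addH_cfg]
  exact h _ (par_cfg σ hω) a ha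

theorem Chg.cfg {α : ℝ} {f : Cfg → ℂ} (h : Chg α f) (σ : Aut) :
    Chg α (fun ω => f (σ.cfg ω)) := by
  intro ω hω a ha
  simp only
  rw [addH_cfg]
  exact h _ (par_cfg σ hω) a ha

theorem Chg.mul {α β : ℝ} {f g : Cfg → ℂ} (hf : Chg α f) (hg : Chg β g) :
    Chg (α + β) (fun ω => f ω * g ω) := by
  intro ω hω a ha
  simp only
  rw [hf ω hω a ha, hg ω hω a ha]
  have : (Complex.I * (((α + β) * a : ℝ) : ℂ)) = Complex.I * ((α * a : ℝ) : ℂ) +
      Complex.I * ((β * a : ℝ) : ℂ) := by push_cast; ring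
  rw [this, Complex.exp_add]
  ring

theorem Chg.conj {α : ℝ} {f : Cfg → ℂ} (hf : Chg α f) :
    Chg (-α) (fun ω => (starRingEnd ℂ) (f ω)) := by
  intro ω hω a ha
  simp only
  rw [hf ω hω a ha, map_mul, ← Complex.exp_conj, map_mul, Complex.conj_I, Complex.conj_ofReal]
  congr 2
  push_cast
  ring

theorem Chg.neut {f : Cfg → ℂ} (hf : Chg 0 f) : Neut f := by
  intro ω hω a ha
  rw [hf ω hω a ha]
  simp

theorem Neut.chg {f : Cfg → ℂ} (hf : Neut f) : Chg 0 f := by
  intro ω hω a ha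
  rw [hf ω hω a ha]
  simp

theorem Chg.add {α : ℝ} {f g : Cfg → ℂ} (hf : Chg α f) (hg : Chg α g) :
    Chg α (fun ω => f ω + g ω) := by
  intro ω hω a ha
  simp only
  rw [hf ω hω a ha, hg ω hω a ha, mul_add]

theorem Chg.smul {α : ℝ} {f : Cfg → ℂ} (hf : Chg α f) (r : ℂ) :
    Chg α (fun ω => r * f ω) := by
  intro ω hω a ha
  simp only
  rw [hf ω hω a ha]
  ring

theorem Chg.neut_norm {α : ℝ} {f : Cfg → ℂ} (hf : Chg α f) : Neut (fun ω => ‖f ω‖) := by
  intro ω hω a ha
  simp only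
  rw [hf ω hω a ha, norm_mul, mul_comm Complex.I, Complex.norm_exp_ofReal_mul_I, one_mul]

theorem Neut.comp {β γ : Type*} {f : Cfg → β} (h : Neut f) (g : β → γ) :
    Neut (fun ω => g (f ω)) := fun ω hω a ha => by simp only; rw [h ω hω a ha]

/-! ### local functionals -/

theorem loc_comp {β γ : Type*} {S : Set P2} {f : Cfg → β} (h : Loc S f) (g : β → γ) :
    Loc S (fun ω => g (f ω)) := fun ω ω' hω => by simp only; rw [h ω ω' hω]

theorem loc_mono {β : Type*} {S T : Set P2} (hST : S ⊆ T) {f : Cfg → β} (h : Loc S f) :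
    Loc T f := fun ω ω' hω => h ω ω' fun v hv => hω v (hST hv)

theorem loc_map₂ {β γ δ : Type*} {S T : Set P2} {f : Cfg → β} {g : Cfg → γ} (hf : Loc S f)
    (hg : Loc T g) (m : β → γ → δ) : Loc (S ∪ T) (fun ω => m (f ω) (g ω)) := fun ω ω' hω => by
  simp only
  rw [hf ω ω' fun v hv => hω v (Or.inl hv), hg ω ω' fun v hv => hω v (Or.inr hv)]

/-- sites needed for the pull back -/
def Aut.sites (σ : Aut) (S : Finset P2) : Finset P2 :=
  S.image σ.V ∪ S.image σ.Fc ∪ S.image (fun v => (σ.E (v, true)).1) ∪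
    S.image (fun v => (σ.E (v, false)).1)

theorem loc_cfg {β : Type*} {S : Finset P2} {f : Cfg → β} (h : Loc (S : Set P2) f) (σ : Aut) :
    Loc (σ.sites S : Set P2) (fun ω => f (σ.cfg ω)) := by
  intro ω ω' hω
  refine h _ _ fun v hv => ?_
  have h1 : σ.V v ∈ σ.sites S := by
    simp only [Aut.sites, Finset.mem_union, Finset.mem_image]
    exact Or.inl (Or.inl (Or.inl ⟨v, hv, rfl⟩))
  have h2 : σ.Fc v ∈ σ.sites S := by
    simp only [Aut.sites, Finset.mem_union, Finset.mem_image]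
    exact Or.inl (Or.inl (Or.inr ⟨v, hv, rfl⟩))
  have h3 : (σ.E (v, true)).1 ∈ σ.sites S := by
    simp only [Aut.sites, Finset.mem_union, Finset.mem_image]
    exact Or.inl (Or.inr ⟨v, hv, rfl⟩)
  have h4 : (σ.E (v, false)).1 ∈ σ.sites S := by
    simp only [Aut.sites, Finset.mem_union, Finset.mem_image]
    exact Or.inr ⟨v, hv, rfl⟩
  refine ⟨(hω _ h1).1, (hω _ h2).2.1, fun b => ?_⟩
  cases b
  · exact (hω _ h4).2.2 _
  · exact (hω _ h3).2.2 _

/-- restriction to a finite set of sites -/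
def restr (S : Finset P2) (ω : Cfg) : S → ℤ × ℤ × Bool × Bool :=
  fun v => (ω.1 v, ω.2.1 v, ω.2.2 (v, true), ω.2.2 (v, false))

theorem measurable_restr (S : Finset P2) : Measurable (restr S) := by
  refine measurable_pi_lambda _ fun v => ?_
  refine Measurable.prodMk ?_ (Measurable.prodMk ?_ (Measurable.prodMk ?_ ?_))
  · exact (measurable_pi_apply (v : P2)).comp measurable_fst
  · exact (measurable_pi_apply (v : P2)).comp (measurable_fst.comp measurable_snd)
  · exact (measurable_pi_apply ((v : P2), true)).comp (measurable_snd.comp measurable_snd)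
  · exact (measurable_pi_apply ((v : P2), false)).comp (measurable_snd.comp measurable_snd)

theorem agreeOn_of_restr {S : Finset P2} {ω ω' : Cfg} (h : restr S ω = restr S ω') :
    AgreeOn (S : Set P2) ω ω' := by
  intro v hv
  have h1 := congrFun h ⟨v, hv⟩
  simp only [restr, Prod.mk.injEq] at h1
  refine ⟨h1.1, h1.2.1, fun b => ?_⟩
  cases b
  · exact h1.2.2.2
  · exact h1.2.2.1

theorem loc_exists_factor {β : Type*} [Nonempty β] {S : Finset P2} {f : Cfg → β}
    (h : Loc (S : Set P2) f) :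
    ∃ g : (S → ℤ × ℤ × Bool × Bool) → β, f = g ∘ restr S := by
  classical
  refine ⟨fun x => if hx : ∃ ω, restr S ω = x then f hx.choose else Classical.arbitrary β, ?_⟩
  funext ω
  have hx : ∃ ω', restr S ω' = restr S ω := ⟨ω, rfl⟩
  simp only [Function.comp_apply, dif_pos hx]
  exact h _ _ (agreeOn_of_restr hx.choose_spec.symm)

theorem loc_measurable {β : Type*} [MeasurableSpace β] [Nonempty β] {S : Finset P2} {f : Cfg → β}
    (h : Loc (S : Set P2) f) : Measurable f := by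
  obtain ⟨g, rfl⟩ := loc_exists_factor h
  exact (measurable_of_countable g).comp (measurable_restr S)

/-! ### heights of gradient configurations are locally bounded -/

theorem gv_step_h {ω : Cfg} (h : GValid ω) (x y : ℤ) : |ω.1 (x + 1, y) - ω.1 (x, y)| ≤ 2 := by
  have h1 := h.corner (x, y) (x, y) (by simp [Geo729.IsCorner])
  have h2 := h.corner (x, y) (x + 1, y) (by simp [Geo729.IsCorner])
  calc |ω.1 (x + 1, y) - ω.1 (x, y)|
      = |(ω.1 (x + 1, y) - ω.2.1 (x, y)) - (ω.1 (x, y) - ω.2.1 (x, y))| := by congr 1; ring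
    _ ≤ 1 + 1 := (abs_sub _ _).trans (by rw [h1, h2])
    _ = 2 := by norm_num

theorem gv_step_v {ω : Cfg} (h : GValid ω) (x y : ℤ) : |ω.1 (x, y + 1) - ω.1 (x, y)| ≤ 2 := by
  have h1 := h.corner (x, y) (x, y) (by simp [Geo729.IsCorner])
  have h2 := h.corner (x, y) (x, y + 1) (by simp [Geo729.IsCorner])
  calc |ω.1 (x, y + 1) - ω.1 (x, y)|
      = |(ω.1 (x, y + 1) - ω.2.1 (x, y)) - (ω.1 (x, y) - ω.2.1 (x, y))| := by congr 1; ring
    _ ≤ 1 + 1 := (abs_sub _ _).trans (by rw [h1, h2])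
    _ = 2 := by norm_num

theorem abs_le_of_step (g : ℤ → ℤ) (h : ∀ x, |g (x + 1) - g x| ≤ 2) (x : ℤ) :
    |g x - g 0| ≤ 2 * |x| := by
  induction x using Int.induction_on with
  | zero => simp
  | succ n ih =>
    have h1 := h n
    have h2 : |((n : ℤ) + 1)| = |(n : ℤ)| + 1 := by
      rw [abs_of_nonneg (by positivity), abs_of_nonneg (by positivity)]
    rw [h2]
    calc |g (n + 1) - g 0| = |(g (n + 1) - g n) + (g n - g 0)| := by congr 1; ring
      _ ≤ 2 + 2 * |(n : ℤ)| := (abs_add_le _ _).trans (add_le_add h1 ih)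
      _ = 2 * (|(n : ℤ)| + 1) := by ring
  | pred n ih =>
    have h1 := h (-n - 1)
    rw [sub_add_cancel] at h1
    have h2 : |(-(n : ℤ) - 1)| = |(-(n : ℤ))| + 1 := by
      have h0 : (0 : ℤ) ≤ n := Int.natCast_nonneg n
      rw [abs_neg, abs_of_nonneg h0, abs_of_nonpos (by linarith)]
      ring
    rw [h2]
    calc |g (-n - 1) - g 0| = |-(g (-n) - g (-n - 1)) + (g (-n) - g 0)| := by congr 1; ring
      _ ≤ 2 + 2 * |(-(n : ℤ))| := by
        refine (abs_add_le _ _).trans (add_le_add ?_ ih)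
        rw [abs_neg]
        exact h1
      _ = 2 * (|(-(n : ℤ))| + 1) := by ring

theorem gv_abs_k {ω : Cfg} (h : GValid ω) (v : P2) : |ω.1 v| ≤ 2 * (|v.1| + |v.2|) := by
  obtain ⟨x, y⟩ := v
  have h1 := abs_le_of_step (fun x => ω.1 (x, y)) (fun x => gv_step_h h x y) x
  have h2 := abs_le_of_step (fun y => ω.1 (0, y)) (fun y => gv_step_v h 0 y) y
  rw [h.zero] at h2
  calc |ω.1 (x, y)| = |(ω.1 (x, y) - ω.1 (0, y)) + (ω.1 (0, y) - 0)| := by congr 1; ring
    _ ≤ 2 * |x| + 2 * |y| := (abs_add_le _ _).trans (add_le_add h1 h2)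
    _ = 2 * (|x| + |y|) := by ring

theorem gv_abs_h {ω : Cfg} (h : GValid ω) (v : P2) : |ω.2.1 v| ≤ 2 * (|v.1| + |v.2|) + 1 := by
  have h1 := gv_abs_k h v
  have h2 := h.corner v v (by simp [Geo729.IsCorner])
  calc |ω.2.1 v| = |ω.1 v - (ω.1 v - ω.2.1 v)| := by congr 1; ring
    _ ≤ |ω.1 v| + |ω.1 v - ω.2.1 v| := abs_sub _ _
    _ ≤ 2 * (|v.1| + |v.2|) + 1 := by rw [h2]; linarith

theorem finite_restr (S : Finset P2) : (restr S '' {ω | GValid ω}).Finite := by
  refine Set.Finite.subset (s := Set.pi Set.univ fun v : S =>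
    (Set.Icc (-(2 * (|(v : P2).1| + |(v : P2).2|) + 1)) (2 * (|(v : P2).1| + |(v : P2).2|) + 1)) ×ˢ
    ((Set.Icc (-(2 * (|(v : P2).1| + |(v : P2).2|) + 1)) (2 * (|(v : P2).1| + |(v : P2).2|) + 1)) ×ˢ
      (Set.univ : Set (Bool × Bool)))) ?_ ?_
  · refine Set.Finite.pi fun v => ?_
    exact (Set.finite_Icc _ _).prod ((Set.finite_Icc _ _).prod Set.finite_univ)
  · rintro _ ⟨ω, hω, rfl⟩ v _
    have h1 := gv_abs_k hω v
    have h2 := gv_abs_h hω v
    rw [abs_le] at h1 h2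
    refine ⟨⟨?_, ?_⟩, ⟨?_, ?_⟩, trivial⟩
    · simp only [restr]; linarith [h1.1]
    · simp only [restr]; linarith [h1.2]
    · simp only [restr]; linarith [h2.1]
    · simp only [restr]; linarith [h2.2]

theorem loc_bdd {β : Type*} [SeminormedAddCommGroup β] {S : Finset P2} {f : Cfg → β}
    (h : Loc (S : Set P2) f) : ∃ C : ℝ, ∀ ω, GValid ω → ‖f ω‖ ≤ C := by
  obtain ⟨g, rfl⟩ := loc_exists_factor h
  have h1 : ((fun x => ‖g x‖) '' (restr S '' {ω | GValid ω})).Finite := (finite_restr S).image _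
  obtain ⟨C, hC⟩ := h1.bddAbove
  exact ⟨C, fun ω hω => hC ⟨_, ⟨ω, hω, rfl⟩, rfl⟩⟩

theorem loc_integrable {β : Type*} [NormedAddCommGroup β] [MeasurableSpace β] [BorelSpace β]
    [SecondCountableTopology β] {c : ℝ} {P : Measure Cfg} (hP : IsState c P) {S : Finset P2}
    {f : Cfg → β} (h : Loc (S : Set P2) f) : Integrable f P := by
  have := hP.prob
  obtain ⟨C, hC⟩ := loc_bdd h
  refine Integrable.of_bound (loc_measurable h).aestronglyMeasurable C ?_
  filter_upwards [hP.valid] with ω hω using hC ω hω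


/-! ### rectangles -/

/-- rectangle of faces `{a..b} × {c..d}` -/
def rect (a b c d : ℤ) : Finset P2 := Finset.Icc a b ×ˢ Finset.Icc c d

theorem mem_rect {a b c d : ℤ} {f : P2} :
    f ∈ rect a b c d ↔ (a ≤ f.1 ∧ f.1 ≤ b) ∧ (c ≤ f.2 ∧ f.2 ≤ d) := by
  simp [rect, Finset.mem_product]

theorem dom_rect (a b c d : ℤ) : Dom (rect a b c d) where
  conn := by
    rintro ⟨x, y⟩ hf ⟨x', y'⟩ hg
    simp only [Finset.mem_coe, mem_rect] at hf hg
    refine Conn.trans (g := (x', y)) (Geo132.conn_row' fun m h1 h2 => ?_)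
      (Geo132.conn_col' fun m h1 h2 => ?_)
    · simp only [Finset.mem_coe, mem_rect]
      omega
    · simp only [Finset.mem_coe, mem_rect]
      omega
  sc := by
    have key : ∀ f : P2, f ∉ rect a b c d →
        Conn ((rect a b c d : Finset P2) : Set P2)ᶜ f (a - 1, c - 1) := by
      rintro ⟨x, y⟩ hf
      simp only [mem_rect] at hf
      by_cases hx : x < a ∨ b < x
      · refine Conn.trans (g := (x, c - 1)) (Geo132.conn_col' fun m h1 h2 => ?_)
          (Geo132.conn_row' fun m h1 h2 => ?_)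
        · simp only [Set.mem_compl_iff, Finset.mem_coe, mem_rect]
          omega
        · simp only [Set.mem_compl_iff, Finset.mem_coe, mem_rect]
          omega
      · refine Conn.trans (g := (a - 1, y)) (Geo132.conn_row' fun m h1 h2 => ?_)
          (Geo132.conn_col' fun m h1 h2 => ?_)
        · simp only [Set.mem_compl_iff, Finset.mem_coe, mem_rect]
          omega
        · simp only [Set.mem_compl_iff, Finset.mem_coe, mem_rect]
          omega
    intro f hf g hg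
    exact (key f hf).trans (key g hg).symm



theorem dom_box (n : ℕ) : Dom (Defs372.box n) := dom_rect _ _ _ _

theorem exists_box (S : Finset P2) : ∃ n : ℕ, ∀ m : ℕ, n ≤ m → S ⊆ Defs372.box m := by
  refine ⟨∑ v ∈ S, (v.1.natAbs + v.2.natAbs + 1), fun m hm v hv => ?_⟩
  have h1 : v.1.natAbs + v.2.natAbs + 1 ≤ ∑ v ∈ S, (v.1.natAbs + v.2.natAbs + 1) :=
    Finset.single_le_sum (f := fun v : P2 => v.1.natAbs + v.2.natAbs + 1)
      (fun _ _ => Nat.zero_le _) hv
  simp only [Defs372.box, Finset.mem_product, Finset.mem_Icc]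
  omega

/-! ### passage to the limit -/

variable {c : ℝ} {P : Measure Cfg}

/-- convergence along domains for neutral local functionals -/
theorem lim_neut (hP : IsState c P) {S : Finset P2} {f : Cfg → ℝ} (hf : Loc (S : Set P2) f)
    (hn : Neut f) {ε : ℝ} (hε : 0 < ε) : ∃ n : ℕ, ∀ F : Finset P2, Dom F → Defs372.box n ⊆ F →
      |Defs372.E c F f - ∫ ω, f ω ∂P| < ε := by
  obtain ⟨n, hn'⟩ := hP.lim S f hf ε hε
  refine ⟨n, fun F hF hnF => ?_⟩
  have := hn' F hF hnF
  rwa [E_congr (g := f) fun ω hω => hn.norm0 (valid_par hω)] at this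

/-- invariance of the state under lattice automorphisms -/
theorem integral_aut (hP : IsState c P) (σ : Aut) {S : Finset P2} {f : Cfg → ℝ}
    (hf : Loc (S : Set P2) f) (hn : Neut f) : ∫ ω, f (σ.cfg ω) ∂P = ∫ ω, f ω ∂P := by
  refine eq_of_abs_sub_le_all fun ε hε => ?_
  obtain ⟨n1, h1⟩ := lim_neut hP hf hn (half_pos hε)
  obtain ⟨n2, h2⟩ := lim_neut hP (loc_cfg hf σ) (hn.cfg σ) (half_pos hε)
  obtain ⟨m, hm⟩ := exists_box (σ.symm.img (Defs372.box n2) ∪ Defs372.box n1)
  have hmm := hm m le_rfl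
  have h3 := h1 (Defs372.box m) (dom_box m) (Finset.union_subset_right hmm)
  have h4 : Defs372.box n2 ⊆ σ.img (Defs372.box m) := by
    intro f hf
    rw [σ.mem_img']
    apply hmm
    rw [Finset.mem_union]
    left
    rw [Aut.mem_img']
    simpa [Aut.symm] using hf
  have h5 := h2 (σ.img (Defs372.box m)) (σ.dom_img (dom_box m)) h4
  rw [← σ.E_aut] at h5
  have := abs_sub_le (∫ ω, f (σ.cfg ω) ∂P) (Defs372.E c (Defs372.box m) f) (∫ ω, f ω ∂P)
  rw [abs_sub_comm (∫ ω, f (σ.cfg ω) ∂P) (Defs372.E c (Defs372.box m) f)] at this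
  linarith

theorem integral_re_im {f : Cfg → ℂ} (hf : Integrable f P) :
    ∫ ω, f ω ∂P = ((∫ ω, (f ω).re ∂P : ℝ) : ℂ) + ((∫ ω, (f ω).im ∂P : ℝ) : ℂ) * Complex.I := by
  have h := integral_re_add_im hf (𝕜 := ℂ)
  simp only [RCLike.re_eq_complex_re, RCLike.im_eq_complex_im, RCLike.I_to_complex] at h
  exact h.symm

/-- invariance, complex functionals -/
theorem integral_aut_complex (hP : IsState c P) (σ : Aut) {S : Finset P2} {f : Cfg → ℂ}
    (hf : Loc (S : Set P2) f) (hn : Neut f) : ∫ ω, f (σ.cfg ω) ∂P = ∫ ω, f ω ∂P := by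
  rw [integral_re_im (loc_integrable hP hf), integral_re_im (loc_integrable hP (loc_cfg hf σ))]
  have h1 := integral_aut hP σ (loc_comp hf Complex.re) (hn.comp Complex.re)
  have h2 := integral_aut hP σ (loc_comp hf Complex.im) (hn.comp Complex.im)
  rw [h1, h2]

end Crest.Agent.R161.Aut373
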