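import Crest.Agent.R161.BKm_123

/-!
Row 161, Step 2 (helper123): if the dual percolation `ω*` has an infinite cluster with positive
probability, then any two boxes of a fixed radius are joined by `ω*` with probability bounded
below, hence the heights (constant along open dual edges) satisfy `P(|h x - h y| ≤ R) ≥ δ`
uniformly in `x, y`.

* `Kc k z S X Y` : `k` distinct clusters of `z` in `S` join `X` to `Y`.
* `joined` : the percolation statement.
* `heights` : the statement for heights.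
-/

set_option autoImplicit false

namespace Crest.Agent.R161.BK123

open Crest.Agent.R161.Geo729 MeasureTheory Filter Topology
open scoped ENNReal

/-- `k` distinct clusters of `z` in `S` join `X` to `Y`. -/
def Kc (k : ℕ) (z : ZC) (S X Y : Set P2) : Prop :=
  ∃ f : Fin k → P2, (∀ i, f i ∈ X ∧ ∃ g ∈ Y, Cn z S (f i) g) ∧
    ∀ i j, i ≠ j → ¬ Cn z S (f i) (f j)


theorem Kc_one {z : ZC} {S X Y : Set P2} :
    Kc 1 z S X Y ↔ ∃ f ∈ X, ∃ g ∈ Y, Cn z S f g := by
  constructor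
  · rintro ⟨f, h1, _⟩
    exact ⟨f 0, (h1 0).1, (h1 0).2⟩
  · rintro ⟨f, h1, h2⟩
    exact ⟨fun _ => f, fun _ => ⟨h1, h2⟩, fun i j hij => absurd (Subsingleton.elim i j) hij⟩

theorem Kc.mono_X {k : ℕ} {z : ZC} {S X X' Y : Set P2} (hX : X ⊆ X') (h : Kc k z S X Y) :
    Kc k z S X' Y := by
  obtain ⟨f, h1, h2⟩ := h
  exact ⟨f, fun i => ⟨hX (h1 i).1, (h1 i).2⟩, h2⟩

/-- From a big box around `x` to a box around `y` inside it. -/
theorem Kc.inner {k : ℕ} {z : ZC} {x y : P2} {n m : ℕ} {X : Set P2} (hX : X ⊆ Bx y m)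
    (hsub : Bx y m ⊆ Bx x n) (hbd : ∀ g ∈ Bd x n, g ∉ Bx y m)
    (h : Kc k z (Bx x n) X (Bd x n)) : Kc k z (Bx y m) X (Bd y m) := by
  obtain ⟨f, h1, h2⟩ := h
  refine ⟨f, fun i => ⟨(h1 i).1, ?_⟩, fun i j hij hc => h2 i j hij (hc.mono hsub)⟩
  obtain ⟨hf, g, hg, hc⟩ := h1 i
  obtain ⟨s, hs, hc'⟩ := exit_bd hc (hX hf) (Or.inl (hbd g hg))
  exact ⟨s, hs, hc'.mono Set.inter_subset_right⟩

theorem Bx_sub_of {x y : P2} {n m : ℕ} (h1 : |y.1 - x.1| + (m : ℤ) ≤ n)
    (h2 : |y.2 - x.2| + (m : ℤ) ≤ n) : Bx y m ⊆ Bx x n := by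
  intro w hw
  simp only [mem_Bx, abs_le] at hw ⊢
  have e1 := abs_le.1 (show |y.1 - x.1| ≤ (n : ℤ) - m by omega)
  have e2 := abs_le.1 (show |y.2 - x.2| ≤ (n : ℤ) - m by omega)
  omega

theorem Bd_not_of {x y : P2} {n m : ℕ} (h1 : |y.1 - x.1| + (m : ℤ) < n)
    (h2 : |y.2 - x.2| + (m : ℤ) < n) {g : P2} (hg : g ∈ Bd x n) : g ∉ Bx y m := by
  intro hw
  simp only [mem_Bx] at hw
  rcases hg.2 with h3 | h3
  · have := abs_sub_le g.1 y.1 x.1
    omega
  · have := abs_sub_le g.2 y.2 x.2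
    omega

theorem Kc_dep (k : ℕ) {x : P2} {n : ℕ} (X Y : Set P2) :
    DepOn (edB x n) {z | Kc k z (Bx x n) X Y} := by
  intro z z' h
  simp only [Set.mem_ofPred_eq, Kc]
  simp only [fun a b => cn_dep (subset_refl (Bx x n)) h (a := a) (b := b)]

theorem Kc_shift {k : ℕ} {a : P2} {z : ZC} {x : P2} {r n : ℕ} :
    Kc k (shiftZ a z) (Bx x n) (Bx x r) (Bd x n) ↔
      Kc k z (Bx (x + a) n) (Bx (x + a) r) (Bd (x + a) n) := by
  unfold Kc
  rw [Bx_shift a x n]
  simp only [cn_shift]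
  rw [Bx_shift a x r, Bd_shift a x n]
  constructor
  · rintro ⟨f, h1, h2⟩
    refine ⟨fun i => f i + a, fun i => ?_, h2⟩
    obtain ⟨h3, g, hg, h4⟩ := h1 i
    exact ⟨h3, g + a, hg, h4⟩
  · rintro ⟨f, h1, h2⟩
    refine ⟨fun i => f i - a, fun i => ?_, fun i j hij => by simpa using h2 i j hij⟩
    obtain ⟨h3, g, hg, h4⟩ := h1 i
    exact ⟨by simpa using h3, g - a, by simpa using hg, by simpa using h4⟩

/-- The probability that `k` distinct clusters join `Bx 0 r` to `Bd 0 n`. -/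
noncomputable def th (ν : Measure ZC) (k r n : ℕ) : ℝ :=
  ν.real {z | Kc k z (Bx 0 n) (Bx 0 r) (Bd 0 n)}

variable {ν : Measure ZC} [IsProbabilityMeasure ν]

omit [IsProbabilityMeasure ν] in
theorem th_nonneg (k r n : ℕ) : 0 ≤ th ν k r n := measureReal_nonneg

theorem th_le_one (k r n : ℕ) : th ν k r n ≤ 1 := measureReal_le_one

omit [IsProbabilityMeasure ν] in
theorem th_shift (hT : TInv ν) (k r n : ℕ) (x : P2) :
    ν.real {z | Kc k z (Bx x n) (Bx x r) (Bd x n)} = th ν k r n := by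
  unfold th Measure.real
  rw [← hT.preimage x (Kc_dep k (x := 0) (n := n) (Bx 0 r) (Bd 0 n)).measurableSet]
  congr 2
  ext z
  simp only [Set.mem_preimage, Set.mem_ofPred_eq, Kc_shift, zero_add]

theorem th_anti (k : ℕ) {r n n' : ℕ} (hr : r ≤ n) (hn : n ≤ n') :
    th ν k r n' ≤ th ν k r n := by
  rcases hn.eq_or_lt with rfl | hn
  · exact le_rfl
  · refine measureReal_mono fun z hz => ?_
    have hn' : (n : ℤ) < n' := by exact_mod_cast hn
    exact Kc.inner (Bx_mono hr) (Bx_mono hn.le)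
      (fun g hg => Bd_not_of (by simpa using hn') (by simpa using hn') hg) hz

theorem th_mono (k : ℕ) {r r' n : ℕ} (hr : r ≤ r') : th ν k r n ≤ th ν k r' n :=
  measureReal_mono fun _ hz => Kc.mono_X (Bx_mono hr) hz

/-- Lower bound for boxes around an arbitrary point, seen from the origin. -/
theorem th_le_box (hT : TInv ν) (k r n n' : ℕ) (x : P2) (hr : Bx x r ⊆ Bx 0 n)
    (h1 : |x.1| + (n : ℤ) < n') (h2 : |x.2| + (n : ℤ) < n') :
    th ν k r n' ≤ ν.real {z | Kc k z (Bx 0 n) (Bx x r) (Bd 0 n)} := by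
  rw [← th_shift hT k r n' x]
  refine measureReal_mono fun z hz => ?_
  have e1 : |(0 : P2).1 - x.1| + (n : ℤ) < n' := by simpa using h1
  have e2 : |(0 : P2).2 - x.2| + (n : ℤ) < n' := by simpa using h2
  exact Kc.inner hr (Bx_sub_of e1.le e2.le) (fun g hg => Bd_not_of e1 e2 hg) hz

/-- The limit in `n`. -/
noncomputable def Lk (ν : Measure ZC) (k r : ℕ) : ℝ := ⨅ n, th ν k r (r + n)

/-- The supremum over `r` of the limits. -/
noncomputable def pk (ν : Measure ZC) (k : ℕ) : ℝ := ⨆ r, Lk ν k r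

theorem Lk_le (k : ℕ) {r n : ℕ} (h : r ≤ n) : Lk ν k r ≤ th ν k r n := by
  obtain ⟨m, rfl⟩ := Nat.exists_eq_add_of_le h
  exact ciInf_le ⟨0, by rintro _ ⟨m, rfl⟩; exact th_nonneg _ _ _⟩ m


theorem Lk_le_one (k r : ℕ) : Lk ν k r ≤ 1 := (Lk_le k le_rfl).trans (th_le_one k r r)

theorem Lk_mono (k : ℕ) {r r' : ℕ} (h : r ≤ r') : Lk ν k r ≤ Lk ν k r' :=
  le_ciInf fun n => (Lk_le k (h.trans (Nat.le_add_right r' n))).trans (th_mono k h)

theorem Lk_le_pk (k r : ℕ) : Lk ν k r ≤ pk ν k :=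
  le_ciSup (f := fun r => Lk ν k r) ⟨1, by rintro _ ⟨m, rfl⟩; exact Lk_le_one k m⟩ r

theorem exists_th_le (k r : ℕ) {ε : ℝ} (hε : 0 < ε) :
    ∃ n0, ∀ n, n0 ≤ n → th ν k r n ≤ pk ν k + ε := by
  obtain ⟨m, hm⟩ := exists_lt_of_ciInf_lt
    (show (⨅ n, th ν k r (r + n)) < Lk ν k r + ε from lt_add_of_pos_right _ hε)
  refine ⟨r + m, fun n hn => ?_⟩
  have h1 := th_anti (ν := ν) k (Nat.le_add_right r m) hn
  have h2 := Lk_le_pk (ν := ν) k r
  linarith

omit [IsProbabilityMeasure ν] in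
theorem exists_le_Lk (k : ℕ) {ε : ℝ} (hε : 0 < ε) : ∃ r, pk ν k - ε ≤ Lk ν k r := by
  obtain ⟨r, hr⟩ := exists_lt_of_lt_ciSup
    (show pk ν k - ε < (⨆ r, Lk ν k r) from sub_lt_self _ hε)
  exact ⟨r, hr.le⟩

theorem pk_pos (h : ¬ ∀ r, Tendsto (fun n => th ν 1 r n) atTop (𝓝 0)) : 0 < pk ν 1 := by
  by_contra hcon
  push Not at hcon
  apply h
  intro r
  rw [Metric.tendsto_atTop]
  intro ε hε
  obtain ⟨n0, h0⟩ := exists_th_le (ν := ν) 1 r (half_pos hε)
  refine ⟨n0, fun n hn => ?_⟩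
  rw [Real.dist_eq, sub_zero, abs_of_nonneg (th_nonneg _ _ _)]
  linarith [h0 n hn]

/-- **Two far boxes are joined** with probability bounded below if `ω*` percolates with positive
probability. -/
theorem joined (hT : TInv ν) (h3 : ∀ r, Tendsto (fun n => ν {z | Thr z 0 r n}) atTop (𝓝 0))
    (h : ¬ ∀ r, Tendsto (fun n => th ν 1 r n) atTop (𝓝 0)) :
    ∃ (r : ℕ) (δ : ℝ), 0 < δ ∧ ∀ x y : P2, ∃ n : ℕ,
      δ ≤ ν.real {z | ∃ a ∈ Bx x r, ∃ b ∈ Bx y r, Cn z (Bx 0 n) a b} := by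
  have hp := pk_pos h
  set p := pk ν 1 with hpdef
  set ε := p / 16 with hε
  have hε0 : 0 < ε := by positivity
  obtain ⟨r1, hr1⟩ := exists_le_Lk (ν := ν) 1 hε0
  obtain ⟨r2, hr2⟩ := exists_le_Lk (ν := ν) 2 hε0
  set r := max r1 r2 with hr
  have hL1 : p - ε ≤ Lk ν 1 r := hr1.trans (Lk_mono 1 (le_max_left _ _))
  have hL2 : pk ν 2 - ε ≤ Lk ν 2 r := hr2.trans (Lk_mono 2 (le_max_right _ _))
  refine ⟨r, p / 2, half_pos hp, fun x y => ?_⟩
  set R : ℕ := x.1.natAbs + x.2.natAbs + y.1.natAbs + y.2.natAbs + r with hR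
  have hxR : Bx x r ⊆ Bx 0 R := by
    apply Bx_sub_of
    · simp only [Prod.fst_zero, sub_zero, Int.abs_eq_natAbs]; omega
    · simp only [Prod.snd_zero, sub_zero, Int.abs_eq_natAbs]; omega
  have hyR : Bx y r ⊆ Bx 0 R := by
    apply Bx_sub_of
    · simp only [Prod.fst_zero, sub_zero, Int.abs_eq_natAbs]; omega
    · simp only [Prod.snd_zero, sub_zero, Int.abs_eq_natAbs]; omega
  obtain ⟨n1, hn1⟩ := exists_th_le (ν := ν) 1 R hε0
  obtain ⟨n2, hn2⟩ := exists_th_le (ν := ν) 2 R hε0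
  obtain ⟨n3, hn3⟩ : ∃ n0, ∀ n, n0 ≤ n → th ν 3 R n ≤ ε := by
    have h4 := (ENNReal.tendsto_toReal (ENNReal.zero_ne_top)).comp (h3 R)
    simp only [ENNReal.toReal_zero] at h4
    obtain ⟨n0, hn0⟩ := (Metric.tendsto_atTop.1 h4) ε hε0
    refine ⟨n0, fun n hn => ?_⟩
    have h5 := hn0 n hn
    rw [Real.dist_eq, sub_zero] at h5
    exact (le_abs_self _).trans h5.le
  set n := max (max n1 n2) (max n3 R) with hn
  have e1 : n1 ≤ n := (le_max_left _ _).trans (le_max_left _ _)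
  have e2 : n2 ≤ n := (le_max_right _ _).trans (le_max_left _ _)
  have e3 : n3 ≤ n := (le_max_left _ _).trans (le_max_right _ _)
  have e4 : R ≤ n := (le_max_right _ _).trans (le_max_right _ _)
  refine ⟨n, ?_⟩
  have hA : ∀ (k : ℕ) (w : P2), Bx w r ⊆ Bx 0 R →
      Lk ν k r ≤ ν.real {z | Kc k z (Bx 0 n) (Bx w r) (Bd 0 n)} := by
    intro k w hw
    have hle : r ≤ n + w.1.natAbs + w.2.natAbs + 1 := by omega
    refine (Lk_le k hle).trans (th_le_box hT k r n _ w (hw.trans (Bx_mono e4)) ?_ ?_)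
    · rw [Int.abs_eq_natAbs]; omega
    · rw [Int.abs_eq_natAbs]; omega
  have a1 := hA 1 x hxR
  have a2 := hA 1 y hyR
  have a3 := hA 2 x hxR
  have b1 := hn1 n e1
  have b2 := hn2 n e2
  have b3 := hn3 n e3
  -- names
  set Ax : Set ZC := {z | Kc 1 z (Bx 0 n) (Bx x r) (Bd 0 n)} with hAx
  set Ay : Set ZC := {z | Kc 1 z (Bx 0 n) (Bx y r) (Bd 0 n)} with hAy
  set Tx : Set ZC := {z | Kc 2 z (Bx 0 n) (Bx x r) (Bd 0 n)} with hTx
  set AR : Set ZC := {z | Kc 1 z (Bx 0 n) (Bx 0 R) (Bd 0 n)} with hAR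
  set TR : Set ZC := {z | Kc 2 z (Bx 0 n) (Bx 0 R) (Bd 0 n)} with hTR
  set HR : Set ZC := {z | Kc 3 z (Bx 0 n) (Bx 0 R) (Bd 0 n)} with hHR
  set Cxy : Set ZC := {z | ∃ a ∈ Bx x r, ∃ b ∈ Bx y r, Cn z (Bx 0 n) a b} with hCxy
  have mAx : MeasurableSet Ax := (Kc_dep 1 _ _).measurableSet
  have mAy : MeasurableSet Ay := (Kc_dep 1 _ _).measurableSet
  have mTx : MeasurableSet Tx := (Kc_dep 2 _ _).measurableSet
  have hsub : Ax ∩ Ay ⊆ Cxy ∪ ((TR \ Tx) ∪ HR) := by
    rintro z ⟨hzx, hzy⟩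
    by_cases hC : z ∈ Cxy
    · exact Or.inl hC
    · right
      obtain ⟨a, ha, g, hg, hag⟩ := Kc_one.1 hzx
      obtain ⟨b, hb, g', hg', hbg⟩ := Kc_one.1 hzy
      by_cases hT2 : z ∈ Tx
      · right
        obtain ⟨f, hf1, hf2⟩ := hT2
        have hfb : ∀ i, ¬ Cn z (Bx 0 n) (f i) b := fun i hc => hC ⟨f i, (hf1 i).1, b, hb, hc⟩
        refine ⟨![f 0, f 1, b], ?_, ?_⟩
        · intro i
          fin_cases i
          · exact ⟨hxR (hf1 0).1, (hf1 0).2⟩
          · exact ⟨hxR (hf1 1).1, (hf1 1).2⟩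
          · exact ⟨hyR hb, g', hg', hbg⟩
        · intro i j hij
          fin_cases i <;> fin_cases j
          · exact absurd rfl hij
          · exact hf2 0 1 (by decide)
          · exact hfb 0
          · exact hf2 1 0 (by decide)
          · exact absurd rfl hij
          · exact hfb 1
          · exact fun hc => hfb 0 hc.symm
          · exact fun hc => hfb 1 hc.symm
          · exact absurd rfl hij
      · left
        refine ⟨?_, hT2⟩
        have hab : ¬ Cn z (Bx 0 n) a b := fun hc => hC ⟨a, ha, b, hb, hc⟩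
        refine ⟨![a, b], ?_, ?_⟩
        · intro i
          fin_cases i
          · exact ⟨hxR ha, g, hg, hag⟩
          · exact ⟨hyR hb, g', hg', hbg⟩
        · intro i j hij
          fin_cases i <;> fin_cases j
          · exact absurd rfl hij
          · exact hab
          · exact fun hc => hab hc.symm
          · exact absurd rfl hij
  have c1 : ν.real (Ax ∩ Ay) ≤ ν.real Cxy + (ν.real (TR \ Tx) + ν.real HR) :=
    (measureReal_mono hsub).trans ((measureReal_union_le _ _).trans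
      (by gcongr; exact measureReal_union_le _ _))
  have c2 : ν.real (Ax ∪ Ay) + ν.real (Ax ∩ Ay) = ν.real Ax + ν.real Ay :=
    measureReal_union_add_inter mAy
  have c3 : ν.real (Ax ∪ Ay) ≤ ν.real AR :=
    measureReal_mono (Set.union_subset (fun z hz => Kc.mono_X hxR hz)
      (fun z hz => Kc.mono_X hyR hz))
  have c4 : Tx ⊆ TR := fun z hz => Kc.mono_X hxR hz
  have c5 : ν.real (TR \ Tx) = ν.real TR - ν.real Tx := measureReal_sdiff c4 mTx
  have d1 : ν.real AR = th ν 1 R n := rfl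
  have d2 : ν.real TR = th ν 2 R n := rfl
  have d3 : ν.real HR = th ν 3 R n := rfl
  linarith

/-! ### heights -/

/-- The `ℓ¹` distance in a box. -/
theorem lip_box {h : P2 → ℤ} (hl : ∀ f g, Adj f g → |h f - h g| ≤ 2) {x a : P2} {r : ℕ}
    (ha : a ∈ Bx x r) : |h x - h a| ≤ 4 * r := by
  have key : ∀ (k : ℕ) (a : P2), (a.1 - x.1).natAbs + (a.2 - x.2).natAbs = k →
      |h x - h a| ≤ 2 * k := by
    intro k
    induction k with
    | zero =>
      intro a hk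
      have e : a = x := by
        obtain ⟨a1, a2⟩ := a
        obtain ⟨x1, x2⟩ := x
        simp only [Prod.mk.injEq] at hk ⊢
        omega
      rw [e]
      simp
    | succ k ih =>
      intro a hk
      have hb : ∃ b, Adj a b ∧ (b.1 - x.1).natAbs + (b.2 - x.2).natAbs = k := by
        obtain ⟨a1, a2⟩ := a
        obtain ⟨x1, x2⟩ := x
        simp only at hk
        rcases lt_trichotomy a1 x1 with h1 | h1 | h1
        · exact ⟨(a1 + 1, a2), by simp [Adj], by simp only; omega⟩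
        · rcases lt_trichotomy a2 x2 with h2 | h2 | h2
          · exact ⟨(a1, a2 + 1), by simp [Adj], by simp only; omega⟩
          · omega
          · exact ⟨(a1, a2 - 1), by simp [Adj], by simp only; omega⟩
        · exact ⟨(a1 - 1, a2), by simp [Adj], by simp only; omega⟩
      obtain ⟨b, hb1, hb2⟩ := hb
      have h1 := ih b hb2
      have h2 := hl a b hb1
      have h3 := abs_sub_le (h x) (h b) (h a)
      have h4 := abs_sub_comm (h b) (h a)
      push_cast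
      omega
  have h1 := key _ a rfl
  have e1 := abs_le.1 ha.1
  have e2 := abs_le.1 ha.2
  refine h1.trans ?_
  have : (a.1 - x.1).natAbs + (a.2 - x.2).natAbs ≤ 2 * r := by omega
  omega

theorem const_cn {z : ZC} {h : P2 → ℤ} (hc : ∀ f g, Op z f g → h f = h g) {S : Set P2}
    {f g : P2} (h1 : Cn z S f g) : h f = h g := by
  obtain ⟨_, h2⟩ := h1
  induction h2 with
  | refl => rfl
  | tail _ h3 ih => rw [ih, hc _ _ h3.2.2]

/-- **Heights.** If `ω*` percolates with positive probability then `P(|h x - h y| ≤ R) ≥ δ`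
uniformly in `x, y`. -/
theorem heights {Ω : Type*} [MeasurableSpace Ω] {P : Measure Ω} [IsProbabilityMeasure P]
    {Z : Ω → ZC} (hZ : Measurable Z) {H : Ω → P2 → ℤ} (hT : TInv (P.map Z))
    (h3 : ∀ r, Tendsto (fun n => (P.map Z) {z | Thr z 0 r n}) atTop (𝓝 0))
    (hc : ∀ᵐ ω ∂P, ∀ f g, Op (Z ω) f g → H ω f = H ω g)
    (hl : ∀ᵐ ω ∂P, ∀ f g, Adj f g → |H ω f - H ω g| ≤ 2)
    (h : ¬ ∀ r, Tendsto (fun n => th (P.map Z) 1 r n) atTop (𝓝 0)) :
    ∃ (R : ℕ) (δ : ℝ), 0 < δ ∧ ∀ x y : P2, δ ≤ P.real {ω | |H ω x - H ω y| ≤ R} := by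
  haveI : IsProbabilityMeasure (P.map Z) := Measure.isProbabilityMeasure_map hZ.aemeasurable
  obtain ⟨r, δ, hδ, h1⟩ := joined hT h3 h
  refine ⟨8 * r, δ, hδ, fun x y => ?_⟩
  obtain ⟨n, hn⟩ := h1 x y
  refine hn.trans ?_
  have hm : MeasurableSet {z : ZC | ∃ a ∈ Bx x r, ∃ b ∈ Bx y r, Cn z (Bx 0 n) a b} := by
    refine DepOn.measurableSet (F := edB 0 n) ?_
    intro z z' hz
    simp only [Set.mem_ofPred_eq]
    simp only [fun a b => cn_dep (subset_refl (Bx 0 n)) hz (a := a) (b := b)]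
  unfold Measure.real
  rw [Measure.map_apply hZ hm]
  refine ENNReal.toReal_mono (measure_ne_top _ _) (measure_mono_ae ?_)
  filter_upwards [hc, hl] with ω hω1 hω2 hω
  obtain ⟨a, ha, b, hb, hab⟩ := hω
  have e1 := lip_box hω2 ha
  have e2 := lip_box hω2 hb
  have e3 := const_cn hω1 hab
  show |H ω x - H ω y| ≤ ((8 * r : ℕ) : ℤ)
  rw [abs_le] at e1 e2 ⊢
  push_cast
  omega

end Crest.Agent.R161.BK123
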