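import Crest.Agent.R161.Geo_729

-- ▼ part R161/BK_123
section

/-!
Row 161, Step 2 (helper123): finite-volume Burton-Keane count for the dual percolation `ω*`.

* `ZC = Edge → Bool`; `z e = false` means that the dual edge `fA e - fB e` is open (`ω*`-open).
* `Op z f g`, `Cn z S f g` : open step, open connection inside `S`.
* `Bx x n`, `Bd x n` : box of radius `n` around the face `x`, its boundary.
* `Thr z x r n` : three distinct clusters of `z` in `Bx x n` join `Bx x r` to `Bd x n`.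
* `count` : disjoint trifurcation boxes are at most as many as the boundary faces.
-/

set_option autoImplicit false

namespace Crest.Agent.R161.BK123

open Crest.Agent.R161.Geo729

/-- `z e = true`: the edge `e` is cut; `z e = false`: the dual edge of `e` is open. -/
abbrev ZC : Type := Edge → Bool

/-- `f` and `g` are joined by an open dual edge. -/
def Op (z : ZC) (f g : P2) : Prop :=
  ∃ e : Edge, z e = false ∧ ((fA e = f ∧ fB e = g) ∨ (fA e = g ∧ fB e = f))

theorem Op.symm {z : ZC} {f g : P2} (h : Op z f g) : Op z g f := by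
  obtain ⟨e, h1, h2⟩ := h
  exact ⟨e, h1, h2.symm⟩

theorem Op.adj {z : ZC} {f g : P2} (h : Op z f g) : Adj f g := by
  obtain ⟨e, -, h2⟩ := h
  rcases h2 with ⟨rfl, rfl⟩ | ⟨rfl, rfl⟩
  · exact adj_fA_fB e
  · exact (adj_fA_fB e).symm

/-- The edge between two adjacent faces. -/
theorem exists_edge {f g : P2} (h : Adj f g) :
    ∃ e : Edge, (fA e = f ∧ fB e = g) ∨ (fA e = g ∧ fB e = f) := by
  obtain ⟨a, b⟩ := f
  rcases h with rfl | rfl | rfl | rfl
  · exact ⟨((a + 1, b), true), Or.inr ⟨by simp, by simp⟩⟩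
  · exact ⟨((a, b), true), Or.inl ⟨by simp, by simp⟩⟩
  · exact ⟨((a, b + 1), false), Or.inr ⟨by simp, by simp⟩⟩
  · exact ⟨((a, b), false), Or.inl ⟨by simp, by simp⟩⟩

/-- One open step inside `S`. -/
def St (z : ZC) (S : Set P2) (f g : P2) : Prop := f ∈ S ∧ g ∈ S ∧ Op z f g

/-- Open connection inside `S` (between elements of `S`). -/
def Cn (z : ZC) (S : Set P2) (f g : P2) : Prop := f ∈ S ∧ Relation.ReflTransGen (St z S) f g

theorem St.symm {z : ZC} {S : Set P2} {f g : P2} (h : St z S f g) : St z S g f :=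
  ⟨h.2.1, h.1, h.2.2.symm⟩

theorem Cn.refl {z : ZC} {S : Set P2} {f : P2} (h : f ∈ S) : Cn z S f f :=
  ⟨h, Relation.ReflTransGen.refl⟩

theorem Cn.mem_left {z : ZC} {S : Set P2} {f g : P2} (h : Cn z S f g) : f ∈ S := h.1

theorem Cn.mem_right {z : ZC} {S : Set P2} {f g : P2} (h : Cn z S f g) : g ∈ S := by
  obtain ⟨h1, h2⟩ := h
  rcases Relation.ReflTransGen.cases_tail h2 with h3 | ⟨c, _, h4⟩
  · rw [h3]; exact h1
  · exact h4.2.1

theorem rtg_symm {z : ZC} {S : Set P2} {f g : P2} (h : Relation.ReflTransGen (St z S) f g) :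
    Relation.ReflTransGen (St z S) g f := by
  induction h with
  | refl => exact Relation.ReflTransGen.refl
  | tail _ h2 ih => exact Relation.ReflTransGen.head h2.symm ih

theorem Cn.symm {z : ZC} {S : Set P2} {f g : P2} (h : Cn z S f g) : Cn z S g f :=
  ⟨h.mem_right, rtg_symm h.2⟩

theorem Cn.trans {z : ZC} {S : Set P2} {f g k : P2} (h : Cn z S f g) (h' : Cn z S g k) :
    Cn z S f k := ⟨h.1, h.2.trans h'.2⟩

theorem Cn.step {z : ZC} {S : Set P2} {f g : P2} (hf : f ∈ S) (hg : g ∈ S) (h : Op z f g) :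
    Cn z S f g := ⟨hf, Relation.ReflTransGen.single ⟨hf, hg, h⟩⟩

theorem Cn.mono {z : ZC} {S T : Set P2} (hST : S ⊆ T) {f g : P2} (h : Cn z S f g) :
    Cn z T f g := by
  refine ⟨hST h.1, ?_⟩
  obtain ⟨_, h2⟩ := h
  induction h2 with
  | refl => exact Relation.ReflTransGen.refl
  | tail _ hs ih => exact Relation.ReflTransGen.tail ih ⟨hST hs.1, hST hs.2.1, hs.2.2⟩

/-- A connection all of whose points lie in `T` is a connection inside `S ∩ T`. -/
theorem Cn.inter {z : ZC} {S T : Set P2} {f g : P2} (h : Cn z S f g)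
    (hT : ∀ k, Cn z S f k → k ∈ T) : Cn z (S ∩ T) f g := by
  obtain ⟨h1, h2⟩ := h
  refine ⟨⟨h1, hT f (Cn.refl h1)⟩, ?_⟩
  induction h2 with
  | refl => exact Relation.ReflTransGen.refl
  | @tail b c hb hc ih =>
    exact Relation.ReflTransGen.tail ih
      ⟨⟨hc.1, hT _ ⟨h1, hb⟩⟩, ⟨hc.2.1, hT _ ⟨h1, hb.tail hc⟩⟩, hc.2.2⟩

/-! ### boxes -/

/-- Box of radius `n` around `x`. -/
def Bx (x : P2) (n : ℕ) : Set P2 := {y | |y.1 - x.1| ≤ (n : ℤ) ∧ |y.2 - x.2| ≤ (n : ℤ)}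

/-- Boundary of the box. -/
def Bd (x : P2) (n : ℕ) : Set P2 :=
  {y | y ∈ Bx x n ∧ (|y.1 - x.1| = (n : ℤ) ∨ |y.2 - x.2| = (n : ℤ))}

theorem mem_Bx {x y : P2} {n : ℕ} :
    y ∈ Bx x n ↔ |y.1 - x.1| ≤ (n : ℤ) ∧ |y.2 - x.2| ≤ (n : ℤ) := Iff.rfl

theorem Bx_mono {x : P2} {m n : ℕ} (h : m ≤ n) : Bx x m ⊆ Bx x n := by
  intro y hy
  have : (m : ℤ) ≤ n := by exact_mod_cast h
  exact ⟨hy.1.trans this, hy.2.trans this⟩

theorem self_mem_Bx (x : P2) (n : ℕ) : x ∈ Bx x n := by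
  simp [mem_Bx]

/-- A step from a non-boundary point of the box stays in the box. -/
theorem mem_Bx_of_adj {x f g : P2} {n : ℕ} (hf : f ∈ Bx x n) (hf' : f ∉ Bd x n)
    (h : Adj f g) : g ∈ Bx x n := by
  obtain ⟨a, b⟩ := f
  obtain ⟨c, d⟩ := g
  obtain ⟨u, v⟩ := x
  simp only [Bd, mem_Bx, Set.mem_ofPred_eq, not_and, not_or] at hf hf' ⊢
  have h3 := hf' hf
  simp only [Adj, Prod.mk.injEq] at h
  constructor
  · rw [abs_le] at hf ⊢
    have h5 : |a - u| < (n : ℤ) := lt_of_le_of_ne (abs_le.2 hf.1) h3.1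
    rw [abs_lt] at h5
    omega
  · have h4 := hf.2
    have h5 : |b - v| < (n : ℤ) := lt_of_le_of_ne h4 h3.2
    rw [abs_lt] at h5
    rw [abs_le]
    omega

/-- First hitting of the boundary of a box by an open path leaving it. -/
theorem exit_bd {z : ZC} {S : Set P2} {x a b : P2} {m : ℕ} (h : Cn z S a b) (ha : a ∈ Bx x m)
    (hb : b ∉ Bx x m ∨ b ∈ Bd x m) : ∃ s ∈ Bd x m, Cn z (S ∩ Bx x m) a s := by
  obtain ⟨haS, h2⟩ := h
  revert haS ha
  induction h2 using Relation.ReflTransGen.head_induction_on with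
  | refl =>
    intro ha haS
    rcases hb with hb | hb
    · exact absurd ha hb
    · exact ⟨b, hb, Cn.refl (S := S ∩ Bx x m) ⟨haS, ha⟩⟩
  | @head a c hac _ ih =>
    intro ha haS
    by_cases had : a ∈ Bd x m
    · exact ⟨a, had, Cn.refl (S := S ∩ Bx x m) ⟨haS, ha⟩⟩
    · have hc : c ∈ Bx x m := mem_Bx_of_adj ha had hac.2.2.adj
      obtain ⟨s, hs, hcs⟩ := ih hc hac.2.1
      exact ⟨s, hs, (Cn.step (S := S ∩ Bx x m) ⟨haS, ha⟩ ⟨hac.2.1, hc⟩ hac.2.2).trans hcs⟩

/-- Last exit from the inner box. -/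
theorem last_exit {z : ZC} {S T : Set P2} {f g : P2} (h : Cn z S f g) (hf : f ∈ T)
    (hg : g ∉ T) : ∃ a ∈ T, ∃ b, Cn z S f a ∧ Op z a b ∧ Cn z (S \ T) b g := by
  obtain ⟨hfS, h2⟩ := h
  have key : ∀ f, Relation.ReflTransGen (St z S) f g → f ∈ S →
      (Cn z (S \ T) f g) ∨ ∃ a ∈ T, ∃ b, Cn z S f a ∧ Op z a b ∧ Cn z (S \ T) b g := by
    intro f h2
    induction h2 using Relation.ReflTransGen.head_induction_on with
    | refl => intro hgS; exact Or.inl (Cn.refl (S := S \ T) ⟨hgS, hg⟩)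
    | @head a c hac _ ih =>
      intro haS
      rcases ih hac.2.1 with h3 | ⟨a', ha', b', h3, h4, h5⟩
      · by_cases haT : a ∈ T
        · exact Or.inr ⟨a, haT, c, Cn.refl haS, hac.2.2, h3⟩
        · exact Or.inl ((Cn.step (S := S \ T) ⟨haS, haT⟩ h3.mem_left hac.2.2).trans h3)
      · exact Or.inr ⟨a', ha', b', (Cn.step haS hac.2.1 hac.2.2).trans h3, h4, h5⟩
  rcases key f h2 hfS with h3 | h3
  · exact absurd hf h3.mem_left.2
  · exact h3

/-- Three distinct clusters of `z` in `Bx x n` join `Bx x r` to `Bd x n`. -/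
def Thr (z : ZC) (x : P2) (r n : ℕ) : Prop :=
  ∃ f : Fin 3 → P2, (∀ i, f i ∈ Bx x r ∧ ∃ g ∈ Bd x n, Cn z (Bx x n) (f i) g) ∧
    ∀ i j, i ≠ j → ¬ Cn z (Bx x n) (f i) (f j)

/-- Three distinct clusters of `z` outside `Bx x r` adjacent to `Bx x r` and reaching `Bd x n`. -/
def Tri (z : ZC) (x : P2) (r n : ℕ) : Prop :=
  ∃ b : Fin 3 → P2, (∀ i, (∃ a ∈ Bx x r, Op z a (b i)) ∧
    ∃ g ∈ Bd x n, Cn z (Bx x n \ Bx x r) (b i) g) ∧
    ∀ i j, i ≠ j → ¬ Cn z (Bx x n \ Bx x r) (b i) (b j)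

/-- All dual edges inside `Bx x r` are open. -/
def AllO (z : ZC) (x : P2) (r : ℕ) : Prop :=
  ∀ e, fA e ∈ Bx x r → fB e ∈ Bx x r → z e = false

theorem tri_of_thr {z : ZC} {x : P2} {r n : ℕ} (hrn : r < n) (h : Thr z x r n) :
    Tri z x r n := by
  obtain ⟨f, h1, h2⟩ := h
  have key : ∀ i, ∃ b, (∃ a ∈ Bx x r, Op z a b ∧ Cn z (Bx x n) (f i) a) ∧
      ∃ g ∈ Bd x n, Cn z (Bx x n \ Bx x r) b g := by
    intro i
    obtain ⟨hf, g, hg, hc⟩ := h1 i
    have hgr : g ∉ Bx x r := by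
      intro hgr
      have hrn' : (r : ℤ) < n := by exact_mod_cast hrn
      rcases hg.2 with h3 | h3
      · have := hgr.1; omega
      · have := hgr.2; omega
    obtain ⟨a, ha, b, h3, h4, h5⟩ := last_exit hc hf hgr
    exact ⟨b, ⟨a, ha, h4, h3⟩, g, hg, h5⟩
  choose b hb using key
  refine ⟨b, fun i => ⟨?_, (hb i).2⟩, fun i j hij hc => h2 i j hij ?_⟩
  · obtain ⟨a, ha, h3, _⟩ := (hb i).1
    exact ⟨a, ha, h3⟩
  · obtain ⟨a, ha, h3, h4⟩ := (hb i).1
    obtain ⟨a', ha', h3', h4'⟩ := (hb j).1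
    have hc' : Cn z (Bx x n) (b i) (b j) := hc.mono Set.sdiff_subset
    have e1 : Cn z (Bx x n) a (b i) := Cn.step h4.mem_right hc'.mem_left h3
    have e2 : Cn z (Bx x n) (b j) a' := (Cn.step h4'.mem_right hc'.mem_right h3').symm
    exact ((h4.trans e1).trans hc').trans (e2.trans h4'.symm)

/-- Open all dual edges inside `Bx x r`. -/
noncomputable def opn (x : P2) (r : ℕ) (z : ZC) : ZC := by
  classical exact fun e => if fA e ∈ Bx x r ∧ fB e ∈ Bx x r then false else z e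

theorem op_opn {x : P2} {r : ℕ} {z : ZC} {a b : P2} (h : a ∉ Bx x r ∨ b ∉ Bx x r) :
    Op (opn x r z) a b ↔ Op z a b := by
  have key : ∀ e : Edge, ((fA e = a ∧ fB e = b) ∨ (fA e = b ∧ fB e = a)) →
      opn x r z e = z e := by
    intro e he
    unfold opn
    rw [if_neg]
    rintro ⟨h1, h2⟩
    rcases he with ⟨rfl, rfl⟩ | ⟨rfl, rfl⟩
    · rcases h with h | h <;> contradiction
    · rcases h with h | h <;> contradiction
  constructor
  · rintro ⟨e, h1, h2⟩
    exact ⟨e, by rw [← key e h2]; exact h1, h2⟩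
  · rintro ⟨e, h1, h2⟩
    exact ⟨e, by rw [key e h2]; exact h1, h2⟩

theorem cn_congr {z z' : ZC} {S : Set P2} (h : ∀ a ∈ S, ∀ b ∈ S, Op z a b ↔ Op z' a b) {f g : P2} :
    Cn z S f g ↔ Cn z' S f g := by
  have e : St z S = St z' S := by
    funext a b
    refine propext ⟨fun hs => ⟨hs.1, hs.2.1, (h a hs.1 b hs.2.1).1 hs.2.2⟩,
      fun hs => ⟨hs.1, hs.2.1, (h a hs.1 b hs.2.1).2 hs.2.2⟩⟩
  unfold Cn
  rw [e]

theorem tri_opn {x : P2} {r n : ℕ} {z : ZC} : Tri (opn x r z) x r n ↔ Tri z x r n := by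
  have hc : ∀ f g, Cn (opn x r z) (Bx x n \ Bx x r) f g ↔ Cn z (Bx x n \ Bx x r) f g :=
    fun f g => cn_congr fun a ha b _ => op_opn (Or.inl ha.2)
  unfold Tri
  simp only [hc]
  constructor
  · rintro ⟨b, h1, h2⟩
    refine ⟨b, fun i => ⟨?_, (h1 i).2⟩, h2⟩
    obtain ⟨⟨a, ha, h3⟩, g, hg, h4⟩ := h1 i
    exact ⟨a, ha, (op_opn (Or.inr h4.mem_left.2)).1 h3⟩
  · rintro ⟨b, h1, h2⟩
    refine ⟨b, fun i => ⟨?_, (h1 i).2⟩, h2⟩
    obtain ⟨⟨a, ha, h3⟩, g, hg, h4⟩ := h1 i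
    exact ⟨a, ha, (op_opn (Or.inr h4.mem_left.2)).2 h3⟩

theorem allO_opn {x : P2} {r : ℕ} {z : ZC} : AllO (opn x r z) x r := by
  intro e h1 h2
  unfold opn
  rw [if_pos ⟨h1, h2⟩]

/-- The box is connected when all its dual edges are open. -/
theorem cn_of_allO {z : ZC} {x : P2} {r : ℕ} (h : AllO z x r) {a b : P2} (ha : a ∈ Bx x r)
    (hb : b ∈ Bx x r) : Cn z (Bx x r) a b := by
  have step : ∀ a b : P2, a ∈ Bx x r → b ∈ Bx x r → Adj a b → Cn z (Bx x r) a b := by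
    intro a b ha hb hab
    obtain ⟨e, he⟩ := exists_edge hab
    refine Cn.step ha hb ⟨e, ?_, he⟩
    rcases he with ⟨h1, h2⟩ | ⟨h1, h2⟩
    · exact h e (h1 ▸ ha) (h2 ▸ hb)
    · exact h e (h1 ▸ hb) (h2 ▸ ha)
  have key : ∀ (k : ℕ) (a : P2), a ∈ Bx x r → (a.1 - x.1).natAbs + (a.2 - x.2).natAbs = k →
      Cn z (Bx x r) a x := by
    intro k
    induction k with
    | zero =>
      intro a ha hk
      have e : a = x := by
        obtain ⟨a1, a2⟩ := a
        obtain ⟨x1, x2⟩ := x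
        simp only [Prod.mk.injEq] at hk ⊢
        omega
      rw [e]
      exact Cn.refl (self_mem_Bx _ _)
    | succ k ih =>
      intro a ha hk
      obtain ⟨a1, a2⟩ := a
      obtain ⟨x1, x2⟩ := x
      simp only [mem_Bx, abs_le] at ha
      simp only at hk
      rcases lt_trichotomy a1 x1 with h1 | h1 | h1
      · have hm : ((a1 + 1, a2) : P2) ∈ Bx (x1, x2) r := by
          simp only [mem_Bx, abs_le]; omega
        exact (step _ _ (by simp only [mem_Bx, abs_le]; omega) hm (by simp [Adj])).trans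
          (ih _ hm (by simp only; omega))
      · rcases lt_trichotomy a2 x2 with h2 | h2 | h2
        · have hm : ((a1, a2 + 1) : P2) ∈ Bx (x1, x2) r := by
            simp only [mem_Bx, abs_le]; omega
          exact (step _ _ (by simp only [mem_Bx, abs_le]; omega) hm (by simp [Adj])).trans
            (ih _ hm (by simp only; omega))
        · exfalso
          omega
        · have hm : ((a1, a2 - 1) : P2) ∈ Bx (x1, x2) r := by
            simp only [mem_Bx, abs_le]; omega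
          exact (step _ _ (by simp only [mem_Bx, abs_le]; omega) hm (by simp [Adj])).trans
            (ih _ hm (by simp only; omega))
      · have hm : ((a1 - 1, a2) : P2) ∈ Bx (x1, x2) r := by
          simp only [mem_Bx, abs_le]; omega
        exact (step _ _ (by simp only [mem_Bx, abs_le]; omega) hm (by simp [Adj])).trans
          (ih _ hm (by simp only; omega))
  exact (key _ a ha rfl).trans (key _ b hb rfl).symm

/-! ### the counting lemma -/

/-- numbering of the faces -/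
def rho (f : P2) : ℕ := Encodable.encode f

theorem rho_inj {f g : P2} (h : rho f = rho g) : f = g := Encodable.encode_injective h

/-- The boundary of a box is finite. -/
theorem Bx_finite (x : P2) (n : ℕ) : (Bx x n).Finite := by
  refine (((Finset.Icc (x.1 - n) (x.1 + n)) ×ˢ (Finset.Icc (x.2 - n) (x.2 + n)) :
    Finset P2).finite_toSet).subset ?_
  intro y hy
  simp only [Finset.coe_product, Finset.coe_Icc, Set.mem_prod, Set.mem_Icc]
  have h1 := abs_le.1 hy.1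
  have h2 := abs_le.1 hy.2
  omega

theorem Bd_finite (x : P2) (n : ℕ) : (Bd x n).Finite :=
  (Bx_finite x n).subset fun _ h => h.1

/-- `s` is the marked boundary face of the trifurcation box `Bx x r`. -/
structure Mark (z : ZC) (r m : ℕ) (x s : P2) : Prop where
  bd : s ∈ Bd 0 m
  touch : ∃ a ∈ Bx x r, ∃ b, Op z a b ∧ Cn z (Bx 0 m \ Bx x r) s b
  min : ∀ s' ∈ Bd 0 m, Cn z (Bx 0 m \ Bx x r) s s' → rho s ≤ rho s'
  other : ∃ y : Fin 2 → P2, (∀ i, y i ∈ Bd 0 m ∧ rho (y i) < rho s ∧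
      ∃ a ∈ Bx x r, ∃ b, Op z a b ∧ Cn z (Bx 0 m \ Bx x r) (y i) b) ∧
    ¬ Cn z (Bx 0 m \ Bx x r) (y 0) (y 1)

/-- The two indices different from `i`. -/
def jj (i : Fin 3) (k : Fin 2) : Fin 3 := if k = 0 then i + 1 else i + 2

theorem jj_ne : ∀ (i : Fin 3) (k : Fin 2), jj i k ≠ i := by decide

theorem jj_ne' : ∀ i : Fin 3, jj i 0 ≠ jj i 1 := by decide

theorem exists_mark {z : ZC} {r m n : ℕ} {x : P2} (hn : 2 * m ≤ n)
    (hx : Bx x (r + 1) ⊆ Bx 0 m) (h : Tri z x r n) : ∃ s, Mark z r m x s := by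
  classical
  obtain ⟨b, h1, h2⟩ := h
  have hx0 : x ∈ Bx 0 m := hx (self_mem_Bx _ _)
  have hsub : Bx 0 m ⊆ Bx x n := by
    intro y hy
    have e1 := abs_le.1 hy.1
    have e2 := abs_le.1 hy.2
    have e3 := abs_le.1 hx0.1
    have e4 := abs_le.1 hx0.2
    have e5 : (2 * (m : ℤ)) ≤ n := by exact_mod_cast hn
    simp only [Prod.fst_zero, Prod.snd_zero] at e1 e2 e3 e4
    simp only [mem_Bx, abs_le]
    omega
  have hex : ∀ i, ∃ s ∈ Bd 0 m, Cn z (Bx 0 m \ Bx x r) (b i) s := by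
    intro i
    obtain ⟨⟨a, ha, hab⟩, g, hg, hc⟩ := h1 i
    have hb0 : b i ∈ Bx 0 m := by
      apply hx
      have h3 := hab.adj
      have e1 := abs_le.1 ha.1
      have e2 := abs_le.1 ha.2
      generalize b i = w at h3 ⊢
      obtain ⟨a1, a2⟩ := a
      obtain ⟨w1, w2⟩ := w
      obtain ⟨x1, x2⟩ := x
      simp only [Adj, Prod.mk.injEq] at h3
      simp only at e1 e2
      simp only [mem_Bx, abs_le]
      push_cast
      omega
    have hg0 : g ∉ Bx 0 m ∨ g ∈ Bd 0 m := by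
      by_cases hgm : g ∈ Bx 0 m
      · right
        refine ⟨hgm, ?_⟩
        have e1 := abs_le.1 hgm.1
        have e2 := abs_le.1 hgm.2
        have e3 := abs_le.1 hx0.1
        have e4 := abs_le.1 hx0.2
        have e5 : (2 * (m : ℤ)) ≤ n := by exact_mod_cast hn
        simp only [Prod.fst_zero, Prod.snd_zero, sub_zero] at e1 e2 e3 e4 ⊢
        rcases hg.2 with h5 | h5
        · left
          rcases abs_eq_abs.1 (h5.trans (Int.natAbs_natCast n ▸ (Int.abs_eq_natAbs (n:ℤ)).symm))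
            with h6 | h6
          · rw [abs_of_nonneg (by omega)]; omega
          · rw [abs_of_nonpos (by omega)]; omega
        · right
          rcases abs_eq_abs.1 (h5.trans (Int.natAbs_natCast n ▸ (Int.abs_eq_natAbs (n:ℤ)).symm))
            with h6 | h6
          · rw [abs_of_nonneg (by omega)]; omega
          · rw [abs_of_nonpos (by omega)]; omega
      · exact Or.inl hgm
    obtain ⟨s, hs, hc'⟩ := exit_bd hc hb0 hg0
    refine ⟨s, hs, hc'.mono ?_⟩
    rintro y ⟨⟨_, hy1⟩, hy2⟩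
    exact ⟨hy2, hy1⟩
  -- minimal boundary faces
  have hmin : ∀ i, ∃ s ∈ Bd 0 m, Cn z (Bx 0 m \ Bx x r) (b i) s ∧
      ∀ s' ∈ Bd 0 m, Cn z (Bx 0 m \ Bx x r) (b i) s' → rho s ≤ rho s' := by
    intro i
    obtain ⟨s0, hs0, hc0⟩ := hex i
    have hfin : ({s | s ∈ Bd 0 m ∧ Cn z (Bx 0 m \ Bx x r) (b i) s}).Finite :=
      (Bd_finite 0 m).subset fun _ h => h.1
    obtain ⟨s, hs, hs'⟩ := Set.exists_min_image _ rho hfin ⟨s0, hs0, hc0⟩
    exact ⟨s, hs.1, hs.2, fun s' h3 h4 => hs' s' ⟨h3, h4⟩⟩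
  choose μ hμ1 hμ2 hμ3 using hmin
  have hne : ∀ i j, i ≠ j → ¬ Cn z (Bx 0 m \ Bx x r) (μ i) (μ j) := by
    intro i j hij hc
    refine h2 i j hij ?_
    have := ((hμ2 i).trans hc).trans (hμ2 j).symm
    exact this.mono (Set.sdiff_subset_sdiff_left hsub)
  have hne' : ∀ i j, i ≠ j → rho (μ i) ≠ rho (μ j) := by
    intro i j hij he
    refine hne i j hij ?_
    rw [rho_inj he]
    exact Cn.refl (hμ2 j).mem_right
  obtain ⟨i0, -, hi0⟩ := Finset.exists_max_image (Finset.univ : Finset (Fin 3))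
    (fun i => rho (μ i)) ⟨0, Finset.mem_univ _⟩
  have hlt : ∀ j, j ≠ i0 → rho (μ j) < rho (μ i0) := fun j hj =>
    lt_of_le_of_ne (hi0 j (Finset.mem_univ _)) (hne' j i0 hj)
  have htouch : ∀ i, ∃ a ∈ Bx x r, ∃ b', Op z a b' ∧ Cn z (Bx 0 m \ Bx x r) (μ i) b' := by
    intro i
    obtain ⟨⟨a, ha, hab⟩, _⟩ := h1 i
    exact ⟨a, ha, b i, hab, (hμ2 i).symm⟩
  refine ⟨μ i0, hμ1 i0, htouch i0, fun s' h3 h4 => hμ3 i0 s' h3 ((hμ2 i0).trans h4),
    fun k => μ (jj i0 k), ?_, ?_⟩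
  · intro k
    exact ⟨hμ1 _, hlt _ (jj_ne i0 k), htouch _⟩
  · exact hne _ _ (jj_ne' i0)

theorem inj_aux {z : ZC} {r m : ℕ} {x x' s : P2} (h : Mark z r m x s) (h' : Mark z r m x' s)
    (hO : AllO z x r) (hO' : AllO z x' r) (hd : Disjoint (Bx x r) (Bx x' r))
    (hx : Bx x r ⊆ Bx 0 m) (hx' : Bx x' r ⊆ Bx 0 m)
    (hp : ∃ p ∈ Bx x' r, Cn z (Bx 0 m \ Bx x r) s p) : False := by
  obtain ⟨p, hp, hsp⟩ := hp
  obtain ⟨y, hy, hne⟩ := h'.other
  have hB : Bx x r ⊆ Bx 0 m \ Bx x' r := fun k hk => ⟨hx hk, Set.disjoint_left.1 hd hk⟩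
  have hB' : Bx x' r ⊆ Bx 0 m \ Bx x r := fun k hk => ⟨hx' hk, Set.disjoint_right.1 hd hk⟩
  have key : ∃ i, ∀ k, Cn z (Bx 0 m \ Bx x' r) (y i) k → k ∉ Bx x r := by
    by_contra hcon
    push Not at hcon
    obtain ⟨k0, h01, h02⟩ := hcon 0
    obtain ⟨k1, h11, h12⟩ := hcon 1
    exact hne ((h01.trans ((cn_of_allO hO h02 h12).mono hB)).trans h11.symm)
  obtain ⟨i, hi⟩ := key
  obtain ⟨h1, h2, a, ha, b, hab, hyb⟩ := hy i
  have hyb' : Cn z (Bx 0 m \ Bx x r) (y i) b := by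
    refine (hyb.inter (T := (Bx x r)ᶜ) hi).mono ?_
    rintro k ⟨⟨hk1, _⟩, hk2⟩
    exact ⟨hk1, hk2⟩
  have hba : Cn z (Bx 0 m \ Bx x r) b a := Cn.step hyb'.mem_right (hB' ha) hab.symm
  have hap : Cn z (Bx 0 m \ Bx x r) a p := (cn_of_allO hO' ha hp).mono hB'
  have hall := hsp.trans (((hyb'.trans hba).trans hap).symm)
  have := h.min (y i) h1 hall
  omega

/-- Different trifurcation boxes get different marks. -/
theorem mark_inj {z : ZC} {r m : ℕ} {x x' s : P2} (h : Mark z r m x s) (h' : Mark z r m x' s)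
    (hO : AllO z x r) (hO' : AllO z x' r) (hx : Bx x r ⊆ Bx 0 m) (hx' : Bx x' r ⊆ Bx 0 m)
    (hd : Disjoint (Bx x r) (Bx x' r)) : False := by
  by_cases hp : ∃ p ∈ Bx x' r, Cn z (Bx 0 m \ Bx x r) s p
  · exact inj_aux h h' hO hO' hd hx hx' hp
  · refine inj_aux h' h hO' hO hd.symm hx' hx ?_
    push Not at hp
    obtain ⟨a, ha, b, hab, hsb⟩ := h.touch
    have hsb' : Cn z (Bx 0 m \ Bx x' r) s b := by
      refine (hsb.inter (T := (Bx x' r)ᶜ) fun k hk hkm => hp k hkm hk).mono ?_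
      rintro k ⟨⟨hk1, _⟩, hk2⟩
      exact ⟨hk1, hk2⟩
    exact ⟨a, ha, hsb'.trans (Cn.step hsb'.mem_right
      ⟨hx ha, Set.disjoint_left.1 hd ha⟩ hab.symm)⟩

/-- Disjoint trifurcation boxes are at most as many as the boundary faces. -/
theorem count {z : ZC} {r m n : ℕ} (hn : 2 * m ≤ n) (I : Finset P2)
    (hI : ∀ x ∈ I, Bx x (r + 1) ⊆ Bx 0 m)
    (hd : ∀ x ∈ I, ∀ y ∈ I, x ≠ y → Disjoint (Bx x r) (Bx y r))
    (h : ∀ x ∈ I, Tri z x r n ∧ AllO z x r) : I.card ≤ (Bd_finite 0 m).toFinset.card := by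
  classical
  have hex : ∀ x ∈ I, ∃ s, Mark z r m x s := fun x hx => exists_mark hn (hI x hx) (h x hx).1
  choose! s hs using hex
  have hsub : ∀ x ∈ I, Bx x r ⊆ Bx 0 m := fun x hx =>
    (Bx_mono (Nat.le_succ r)).trans (hI x hx)
  refine Finset.card_le_card_of_injOn s (fun x hx => ?_) (fun x hx y hy hxy => ?_)
  · simp only [Set.Finite.coe_toFinset]
    exact (hs x hx).bd
  · by_contra hne
    have h1 := hs x hx
    have h2 := hs y hy
    rw [← hxy] at h2
    exact mark_inj h1 h2 (h x hx).2 (h y hy).2 (hsub x hx) (hsub y hy) (hd x hx y hy hne)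

/-! ### translations -/

/-- Translate a percolation configuration. -/
def shiftZ (a : P2) (z : ZC) : ZC := fun e => z (e.1 + a, e.2)

theorem op_shift {a : P2} {z : ZC} {f g : P2} :
    Op (shiftZ a z) f g ↔ Op z (f + a) (g + a) := by
  constructor
  · rintro ⟨⟨v, d⟩, h1, h2⟩
    refine ⟨(v + a, d), h1, ?_⟩
    rcases h2 with ⟨rfl, rfl⟩ | ⟨rfl, rfl⟩
    · left
      refine ⟨rfl, ?_⟩
      cases d <;> simp [fB] <;> ext <;> simp <;> ring
    · right
      refine ⟨rfl, ?_⟩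
      cases d <;> simp [fB] <;> ext <;> simp <;> ring
  · rintro ⟨⟨v, d⟩, h1, h2⟩
    refine ⟨(v - a, d), by simpa [shiftZ] using h1, ?_⟩
    rcases h2 with ⟨h2, h3⟩ | ⟨h2, h3⟩
    · left
      simp only [fA_mk] at h2
      subst h2
      refine ⟨by simp, ?_⟩
      have : g = fB (f + a, d) - a := by rw [h3]; simp
      rw [this]
      cases d <;> simp [fB] <;> ext <;> simp <;> ring
    · right
      simp only [fA_mk] at h2
      subst h2
      refine ⟨by simp, ?_⟩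
      have : f = fB (g + a, d) - a := by rw [h3]; simp
      rw [this]
      cases d <;> simp [fB] <;> ext <;> simp <;> ring

theorem cn_shift {a : P2} {z : ZC} {S : Set P2} {f g : P2} :
    Cn (shiftZ a z) {y | y + a ∈ S} f g ↔ Cn z S (f + a) (g + a) := by
  constructor
  · rintro ⟨h1, h2⟩
    refine ⟨h1, ?_⟩
    clear h1
    induction h2 with
    | refl => exact Relation.ReflTransGen.refl
    | tail _ h3 ih => exact Relation.ReflTransGen.tail ih ⟨h3.1, h3.2.1, op_shift.1 h3.2.2⟩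
  · rintro ⟨h1, h2⟩
    refine ⟨h1, ?_⟩
    clear h1
    have key : ∀ p q, Relation.ReflTransGen (St z S) p q →
        Relation.ReflTransGen (St (shiftZ a z) {y | y + a ∈ S}) (p - a) (q - a) := by
      intro p q hpq
      induction hpq with
      | refl => exact Relation.ReflTransGen.refl
      | tail _ h3 ih =>
        refine Relation.ReflTransGen.tail ih ⟨?_, ?_, op_shift.2 ?_⟩
        · simpa using h3.1
        · simpa using h3.2.1
        · simpa using h3.2.2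
    simpa using key _ _ h2

theorem Bx_shift (a x : P2) (n : ℕ) : Bx x n = {y | y + a ∈ Bx (x + a) n} := by
  ext y
  simp [mem_Bx]

theorem Bd_shift (a x : P2) (n : ℕ) : Bd x n = {y | y + a ∈ Bd (x + a) n} := by
  ext y
  simp [Bd, mem_Bx]

theorem tri_shift {a : P2} {z : ZC} {x : P2} {r n : ℕ} :
    Tri (shiftZ a z) x r n ↔ Tri z (x + a) r n := by
  have e1 : Bx x n \ Bx x r = {y | y + a ∈ Bx (x + a) n \ Bx (x + a) r} := by
    ext y
    simp [mem_Bx]
  unfold Tri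
  rw [e1]
  simp only [cn_shift, op_shift]
  rw [Bx_shift a x r, Bd_shift a x n]
  constructor
  · rintro ⟨b, h1, h2⟩
    refine ⟨fun i => b i + a, fun i => ?_, h2⟩
    obtain ⟨⟨c, hc, h3⟩, g, hg, h4⟩ := h1 i
    exact ⟨⟨c + a, hc, h3⟩, g + a, hg, h4⟩
  · rintro ⟨b, h1, h2⟩
    refine ⟨fun i => b i - a, fun i => ?_, fun i j hij => by simpa using h2 i j hij⟩
    obtain ⟨⟨c, hc, h3⟩, g, hg, h4⟩ := h1 i
    exact ⟨⟨c - a, by simpa using hc, by simpa using h3⟩, g - a, by simpa using hg,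
      by simpa using h4⟩

theorem allO_shift {a : P2} {z : ZC} {x : P2} {r : ℕ} :
    AllO (shiftZ a z) x r ↔ AllO z (x + a) r := by
  unfold AllO
  rw [Bx_shift a x r]
  have hA : ∀ e : Edge, fA (e.1 + a, e.2) = fA e + a := fun e => rfl
  have hB : ∀ e : Edge, fB (e.1 + a, e.2) = fB e + a := by
    rintro ⟨v, d⟩
    cases d <;> simp [fB] <;> ext <;> simp <;> ring
  constructor
  · intro h e h1 h2
    have h3 := h (e.1 - a, e.2)
    have hA' := hA (e.1 - a, e.2)
    have hB' := hB (e.1 - a, e.2)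
    simp only [sub_add_cancel] at hA' hB'
    have e2 : shiftZ a z (e.1 - a, e.2) = z e := by simp [shiftZ]
    rw [e2] at h3
    apply h3
    · simp only [Set.mem_ofPred_eq]
      rw [← hA']; exact h1
    · simp only [Set.mem_ofPred_eq]
      rw [← hB']; exact h2
  · intro h e h1 h2
    refine h (e.1 + a, e.2) ?_ ?_
    · rw [hA]; exact h1
    · rw [hB]; exact h2

end Crest.Agent.R161.BK123
end

-- ▼ part R161/BKm_123

/-!
Row 161, Step 2 (helper123): Burton-Keane for a translation invariant, insertion tolerant law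
`μ` on `ZC = Edge → Bool`:
`thr_tendsto` : `μ (Thr z 0 r n) → 0` as `n → ∞`, for every `r`.
-/

set_option autoImplicit false

namespace Crest.Agent.R161.BK123

open Crest.Agent.R161.Geo729 MeasureTheory Filter Topology
open scoped ENNReal

/-- `A` depends only on the edges of `F`. -/
def DepOn (F : Finset Edge) (A : Set ZC) : Prop :=
  ∀ z z' : ZC, (∀ e ∈ F, z e = z' e) → (z ∈ A ↔ z' ∈ A)

theorem DepOn.measurableSet {F : Finset Edge} {A : Set ZC} (h : DepOn F A) :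
    MeasurableSet A := by
  classical
  have e : A = (fun (z : ZC) (e : F) => z e) ⁻¹' ((fun (z : ZC) (e : F) => z e) '' A) := by
    ext z
    constructor
    · intro hz
      exact ⟨z, hz, rfl⟩
    · rintro ⟨z', hz', he⟩
      refine (h z' z fun e he' => ?_).1 hz'
      exact congrFun he ⟨e, he'⟩
  have hm : Measurable (fun (z : ZC) (e : F) => z e) :=
    measurable_pi_lambda _ fun e => measurable_pi_apply _
  rw [e]
  exact hm (Set.toFinite _).measurableSet

theorem DepOn.mono {F G : Finset Edge} {A : Set ZC} (h : DepOn F A) (hFG : F ⊆ G) :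
    DepOn G A := fun z z' hz => h z z' fun e he => hz e (hFG he)


/-- The edges whose two bordering faces lie in `Bx x n`. -/
noncomputable def edB (x : P2) (n : ℕ) : Finset Edge :=
  ((Bx_finite x n).toFinset ×ˢ Finset.univ)

theorem mem_edB {x : P2} {n : ℕ} {e : Edge} (h : fA e ∈ Bx x n) : e ∈ edB x n := by
  simp only [edB, Finset.mem_product, Set.Finite.mem_toFinset, Finset.mem_univ, and_true]
  exact h

theorem op_dep {x : P2} {n : ℕ} {z z' : ZC} (h : ∀ e ∈ edB x n, z e = z' e) {a b : P2}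
    (ha : a ∈ Bx x n) (hb : b ∈ Bx x n) : Op z a b ↔ Op z' a b := by
  constructor
  · rintro ⟨e, h1, h2⟩
    refine ⟨e, ?_, h2⟩
    rw [← h e (mem_edB ?_)]
    · exact h1
    · rcases h2 with ⟨rfl, _⟩ | ⟨rfl, _⟩ <;> assumption
  · rintro ⟨e, h1, h2⟩
    refine ⟨e, ?_, h2⟩
    rw [h e (mem_edB ?_)]
    · exact h1
    · rcases h2 with ⟨rfl, _⟩ | ⟨rfl, _⟩ <;> assumption

theorem cn_dep {x : P2} {n : ℕ} {S : Set P2} (hS : S ⊆ Bx x n) {z z' : ZC}
    (h : ∀ e ∈ edB x n, z e = z' e) {a b : P2} : Cn z S a b ↔ Cn z' S a b :=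
  cn_congr fun _ ha _ hb => op_dep h (hS ha) (hS hb)


theorem tri_dep_aux {x : P2} {r n : ℕ} (hrn : r ≤ n) {z z' : ZC}
    (h : ∀ e ∈ edB x n, z e = z' e) (hz : Tri z x r n) : Tri z' x r n := by
  have hc : ∀ a b, Cn z (Bx x n \ Bx x r) a b ↔ Cn z' (Bx x n \ Bx x r) a b :=
    fun a b => cn_dep Set.sdiff_subset h
  obtain ⟨b, h1, h2⟩ := hz
  refine ⟨b, fun i => ?_, fun i j hij => by rw [← hc]; exact h2 i j hij⟩
  obtain ⟨⟨a, ha, h3⟩, g, hg, h4⟩ := h1 i
  exact ⟨⟨a, ha, (op_dep h (Bx_mono hrn ha) h4.mem_left.1).1 h3⟩, g, hg, (hc _ _).1 h4⟩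

theorem tri_dep {x : P2} {r n : ℕ} (hrn : r ≤ n) : DepOn (edB x n) {z | Tri z x r n} :=
  fun _ _ h => ⟨tri_dep_aux hrn h, tri_dep_aux hrn fun e he => (h e he).symm⟩

theorem allO_dep {x : P2} {r n : ℕ} (hrn : r ≤ n) : DepOn (edB x n) {z | AllO z x r} := by
  have key : ∀ z z' : ZC, (∀ e ∈ edB x n, z e = z' e) → AllO z x r → AllO z' x r := by
    intro z z' h hz e h1 h2
    rw [← h e (mem_edB (Bx_mono hrn h1))]
    exact hz e h1 h2
  exact fun z z' h => ⟨key z z' h, key z' z fun e he => (h e he).symm⟩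

theorem meas_triO {x : P2} {r n : ℕ} (hrn : r ≤ n) :
    MeasurableSet {z : ZC | Tri z x r n ∧ AllO z x r} :=
  (tri_dep hrn).measurableSet.inter (allO_dep hrn).measurableSet

/-! ### insertion -/

/-- Open the edges of `E`. -/
noncomputable def opnF (E : Finset Edge) (z : ZC) : ZC := by
  classical exact fun e => if e ∈ E then false else z e

theorem measurable_upd (e : Edge) : Measurable (fun z : ZC => Function.update z e false) := by
  refine measurable_pi_lambda _ fun e' => ?_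
  by_cases h : e' = e
  · subst h
    simp
  · simp only [Function.update_of_ne h]
    exact measurable_pi_apply _


/-- Insertion tolerance: opening one edge is absolutely continuous with bounded density. -/
def Ins (μ : Measure ZC) : Prop :=
  ∀ e : Edge, ∃ C : ℝ≥0∞, C ≠ ∞ ∧ ∀ A : Set ZC, MeasurableSet A →
    μ ((fun z : ZC => Function.update z e false) ⁻¹' A) ≤ C * μ A

theorem Ins.opnF {μ : Measure ZC} (h : Ins μ) (E : Finset Edge) :
    ∃ C : ℝ≥0∞, C ≠ ∞ ∧ ∀ A : Set ZC, MeasurableSet A → μ (opnF E ⁻¹' A) ≤ C * μ A := by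
  classical
  induction E using Finset.induction_on with
  | empty =>
    refine ⟨1, ENNReal.one_ne_top, fun A hA => ?_⟩
    rw [one_mul]
    apply le_of_eq
    congr 1
  | insert e E heE ih =>
    obtain ⟨C, hC, h1⟩ := ih
    obtain ⟨C', hC', h2⟩ := h e
    refine ⟨C * C', ENNReal.mul_ne_top hC hC', fun A hA => ?_⟩
    have e1 : BK123.opnF (insert e E) ⁻¹' A =
        BK123.opnF E ⁻¹' ((fun z : ZC => Function.update z e false) ⁻¹' A) := by
      ext z
      simp only [Set.mem_preimage]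
      have : BK123.opnF (insert e E) z = Function.update (BK123.opnF E z) e false := by
        funext e'
        unfold BK123.opnF
        by_cases he : e' = e
        · subst he
          simp
        · simp [Finset.mem_insert, he]
      rw [this]
    rw [e1]
    calc μ (BK123.opnF E ⁻¹' ((fun z : ZC => Function.update z e false) ⁻¹' A))
        ≤ C * μ ((fun z : ZC => Function.update z e false) ⁻¹' A) :=
          h1 _ (measurable_upd e hA)
      _ ≤ C * (C' * μ A) := by gcongr; exact h2 A hA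
      _ = C * C' * μ A := by rw [mul_assoc]

theorem Ins.opn {μ : Measure ZC} (h : Ins μ) (x : P2) (r : ℕ) :
    ∃ C : ℝ≥0∞, C ≠ ∞ ∧ ∀ A : Set ZC, MeasurableSet A → μ (opn x r ⁻¹' A) ≤ C * μ A := by
  classical
  obtain ⟨C, hC, h1⟩ := h.opnF ((edB x r).filter fun e => fB e ∈ Bx x r)
  refine ⟨C, hC, fun A hA => ?_⟩
  convert h1 A hA using 3
  funext z e
  unfold BK123.opn BK123.opnF
  have : (fA e ∈ Bx x r ∧ fB e ∈ Bx x r) ↔ e ∈ (edB x r).filter fun e => fB e ∈ Bx x r := by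
    rw [Finset.mem_filter]
    constructor
    · rintro ⟨h2, h3⟩
      exact ⟨mem_edB h2, h3⟩
    · rintro ⟨h2, h3⟩
      refine ⟨?_, h3⟩
      simp only [edB, Finset.mem_product, Set.Finite.mem_toFinset, Finset.mem_univ,
        and_true] at h2
      exact h2
  by_cases h4 : fA e ∈ Bx x r ∧ fB e ∈ Bx x r
  · rw [if_pos h4, if_pos (this.1 h4)]
  · rw [if_neg h4, if_neg (fun h5 => h4 (this.2 h5))]

/-- Translation invariance. -/
def TInv (μ : Measure ZC) : Prop := ∀ a : P2, μ.map (shiftZ a) = μ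

theorem measurable_shiftZ (a : P2) : Measurable (shiftZ a) :=
  measurable_pi_lambda _ fun _ => measurable_pi_apply _

theorem TInv.preimage {μ : Measure ZC} (h : TInv μ) (a : P2) {A : Set ZC}
    (hA : MeasurableSet A) : μ (shiftZ a ⁻¹' A) = μ A := by
  conv_rhs => rw [← h a]
  rw [Measure.map_apply (measurable_shiftZ a) hA]

/-! ### the grid -/

/-- Centres of disjoint boxes. -/
noncomputable def grid (r k : ℕ) : Finset P2 :=
  ((Finset.Icc (-(k : ℤ)) k) ×ˢ (Finset.Icc (-(k : ℤ)) k)).image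
    fun p => ((2 * (r : ℤ) + 1) * p.1, (2 * (r : ℤ) + 1) * p.2)

theorem card_grid (r k : ℕ) : (grid r k).card = (2 * k + 1) * (2 * k + 1) := by
  unfold grid
  rw [Finset.card_image_of_injective, Finset.card_product, Int.card_Icc]
  · have : ((k : ℤ) + 1 - -(k : ℤ)).toNat = 2 * k + 1 := by omega
    rw [this]
  · rintro ⟨a, b⟩ ⟨c, d⟩ h
    simp only [Prod.mk.injEq] at h
    have h0 : (2 * (r : ℤ) + 1) ≠ 0 := by positivity
    exact Prod.ext (mul_left_cancel₀ h0 h.1) (mul_left_cancel₀ h0 h.2)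

theorem grid_sub {r k : ℕ} {x : P2} (hx : x ∈ grid r k) :
    Bx x (r + 1) ⊆ Bx 0 ((2 * r + 1) * k + r + 1) := by
  unfold grid at hx
  rw [Finset.mem_image] at hx
  obtain ⟨⟨a, b⟩, hp, rfl⟩ := hx
  simp only [Finset.mem_product, Finset.mem_Icc] at hp
  intro y hy
  simp only [mem_Bx, abs_le, Prod.fst_zero, Prod.snd_zero, sub_zero] at hy ⊢
  push_cast at hy ⊢
  have h0 : (0 : ℤ) ≤ 2 * (r : ℤ) + 1 := by positivity
  have h1 := mul_le_mul_of_nonneg_left hp.1.2 h0
  have h2 := mul_le_mul_of_nonneg_left hp.1.1 h0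
  have h3 := mul_le_mul_of_nonneg_left hp.2.2 h0
  have h4 := mul_le_mul_of_nonneg_left hp.2.1 h0
  refine ⟨⟨?_, ?_⟩, ?_, ?_⟩ <;> nlinarith [hy.1.1, hy.1.2, hy.2.1, hy.2.2]

theorem grid_disj {r k : ℕ} {x y : P2} (hx : x ∈ grid r k) (hy : y ∈ grid r k)
    (hxy : x ≠ y) : Disjoint (Bx x r) (Bx y r) := by
  unfold grid at hx hy
  rw [Finset.mem_image] at hx hy
  obtain ⟨⟨a, b⟩, _, rfl⟩ := hx
  obtain ⟨⟨c, d⟩, _, rfl⟩ := hy
  rw [Set.disjoint_left]
  intro w h1 h2
  simp only [mem_Bx, abs_le] at h1 h2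
  have h0 : (0 : ℤ) < 2 * (r : ℤ) + 1 := by positivity
  have key : ∀ u v w : ℤ, -(r : ℤ) ≤ w - (2 * (r : ℤ) + 1) * u → w - (2 * (r : ℤ) + 1) * u ≤ r →
      -(r : ℤ) ≤ w - (2 * (r : ℤ) + 1) * v → w - (2 * (r : ℤ) + 1) * v ≤ r → u = v := by
    intro u v w e1 e2 e3 e4
    rcases lt_trichotomy u v with h | h | h
    · have : (2 * (r : ℤ) + 1) * (u + 1) ≤ (2 * (r : ℤ) + 1) * v :=
        mul_le_mul_of_nonneg_left (by omega) h0.le
      nlinarith
    · exact h
    · have : (2 * (r : ℤ) + 1) * (v + 1) ≤ (2 * (r : ℤ) + 1) * u :=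
        mul_le_mul_of_nonneg_left (by omega) h0.le
      nlinarith
  apply hxy
  rw [key a c w.1 h1.1.1 h1.1.2 h2.1.1 h2.1.2, key b d w.2 h1.2.1 h1.2.2 h2.2.1 h2.2.2]

theorem card_Bd (m : ℕ) : (Bd_finite 0 m).toFinset.card ≤ 4 * (2 * m + 1) := by
  classical
  have hsub : (Bd_finite 0 m).toFinset ⊆
      (((Finset.Icc (-(m : ℤ)) m).image fun a => ((m : ℤ), a)) ∪
        ((Finset.Icc (-(m : ℤ)) m).image fun a => (-(m : ℤ), a))) ∪
      (((Finset.Icc (-(m : ℤ)) m).image fun a => (a, (m : ℤ))) ∪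
        ((Finset.Icc (-(m : ℤ)) m).image fun a => (a, -(m : ℤ)))) := by
    intro y hy
    simp only [Set.Finite.mem_toFinset, Bd, mem_Bx, Prod.fst_zero, Prod.snd_zero, sub_zero,
      Set.mem_ofPred_eq, abs_le] at hy
    simp only [Finset.mem_union, Finset.mem_image, Finset.mem_Icc]
    obtain ⟨⟨h1, h2⟩, h3⟩ := hy
    obtain ⟨y1, y2⟩ := y
    simp only at h1 h2 h3
    simp only [Prod.mk.injEq]
    rcases h3 with h3 | h3
    · rcases abs_eq_abs.1 (h3.trans (abs_of_nonneg (by positivity : (0:ℤ) ≤ (m:ℤ))).symm) with h4 | h4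
      · exact Or.inl (Or.inl ⟨y2, h2, h4.symm, rfl⟩)
      · exact Or.inl (Or.inr ⟨y2, h2, h4.symm, rfl⟩)
    · rcases abs_eq_abs.1 (h3.trans (abs_of_nonneg (by positivity : (0:ℤ) ≤ (m:ℤ))).symm) with h4 | h4
      · exact Or.inr (Or.inl ⟨y1, h1, rfl, h4.symm⟩)
      · exact Or.inr (Or.inr ⟨y1, h1, rfl, h4.symm⟩)
  have hc : (Finset.Icc (-(m : ℤ)) m).card = 2 * m + 1 := by
    rw [Int.card_Icc]; omega
  refine (Finset.card_le_card hsub).trans ?_
  refine (Finset.card_union_le _ _).trans ?_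
  have e1 := Finset.card_union_le ((Finset.Icc (-(m : ℤ)) m).image fun a => ((m : ℤ), a))
    ((Finset.Icc (-(m : ℤ)) m).image fun a => (-(m : ℤ), a))
  have e2 := Finset.card_union_le ((Finset.Icc (-(m : ℤ)) m).image fun a => (a, (m : ℤ)))
    ((Finset.Icc (-(m : ℤ)) m).image fun a => (a, -(m : ℤ)))
  have e3 := Finset.card_image_le (s := Finset.Icc (-(m : ℤ)) m) (f := fun a => ((m : ℤ), a))
  have e4 := Finset.card_image_le (s := Finset.Icc (-(m : ℤ)) m) (f := fun a => (-(m : ℤ), a))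
  have e5 := Finset.card_image_le (s := Finset.Icc (-(m : ℤ)) m) (f := fun a => (a, (m : ℤ)))
  have e6 := Finset.card_image_le (s := Finset.Icc (-(m : ℤ)) m) (f := fun a => (a, -(m : ℤ)))
  omega

/-! ### the expectation bound -/

theorem triO_bound (μ : Measure ZC) [IsProbabilityMeasure μ] (hT : TInv μ) (r k n : ℕ)
    (hn : 2 * ((2 * r + 1) * k + r + 1) ≤ n) :
    ((2 * k + 1) * (2 * k + 1) : ℕ) * μ {z | Tri z 0 r n ∧ AllO z 0 r} ≤
      ((4 * (2 * ((2 * r + 1) * k + r + 1) + 1) : ℕ) : ℝ≥0∞) := by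
  classical
  have hrn : r ≤ n := by nlinarith [Nat.zero_le ((2 * r + 1) * k)]
  have hx : ∀ x : P2, μ {z | Tri z x r n ∧ AllO z x r} = μ {z | Tri z 0 r n ∧ AllO z 0 r} := by
    intro x
    rw [← hT.preimage x (meas_triO (x := 0) hrn)]
    congr 1
    ext z
    simp only [Set.mem_preimage, Set.mem_ofPred_eq, tri_shift, allO_shift, zero_add]
  have h1 : ∑ x ∈ grid r k, μ {z | Tri z x r n ∧ AllO z x r} =
      ((2 * k + 1) * (2 * k + 1) : ℕ) * μ {z | Tri z 0 r n ∧ AllO z 0 r} := by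
    rw [Finset.sum_congr rfl fun x _ => hx x, Finset.sum_const, card_grid, nsmul_eq_mul]
  rw [← h1]
  have h2 : ∀ x ∈ grid r k, μ {z | Tri z x r n ∧ AllO z x r} =
      ∫⁻ z, ({z | Tri z x r n ∧ AllO z x r} : Set ZC).indicator 1 z ∂μ := by
    intro x _
    rw [lintegral_indicator_one (meas_triO hrn)]
  rw [Finset.sum_congr rfl h2, ← lintegral_finsetSum]
  · calc ∫⁻ z, ∑ x ∈ grid r k, ({z | Tri z x r n ∧ AllO z x r} : Set ZC).indicator 1 z ∂μ
        ≤ ∫⁻ _, ((4 * (2 * ((2 * r + 1) * k + r + 1) + 1) : ℕ) : ℝ≥0∞) ∂μ := by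
          refine lintegral_mono fun z => ?_
          have e1 : ∑ x ∈ grid r k, ({z | Tri z x r n ∧ AllO z x r} : Set ZC).indicator
              (1 : ZC → ℝ≥0∞) z =
              (((grid r k).filter fun x => Tri z x r n ∧ AllO z x r).card : ℝ≥0∞) := by
            rw [Finset.card_filter]
            push_cast
            refine Finset.sum_congr rfl fun x _ => ?_
            by_cases h : Tri z x r n ∧ AllO z x r
            · simp [Set.indicator, h]
            · simp [Set.indicator, h]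
          rw [e1]
          refine Nat.cast_le.2 ?_
          refine (count hn _ (fun x hx => grid_sub (Finset.mem_filter.1 hx).1)
            (fun x hx y hy hxy => grid_disj (Finset.mem_filter.1 hx).1
              (Finset.mem_filter.1 hy).1 hxy)
            (fun x hx => (Finset.mem_filter.1 hx).2)).trans (card_Bd _)
      _ = _ := by rw [lintegral_const, measure_univ, mul_one]
  · intro x _
    exact measurable_one.indicator (meas_triO hrn)

/-- **Burton-Keane, finite-volume form.** -/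
theorem thr_tendsto (μ : Measure ZC) [IsProbabilityMeasure μ] (hT : TInv μ) (hI : Ins μ)
    (r : ℕ) : Tendsto (fun n => μ {z | Thr z 0 r n}) atTop (𝓝 0) := by
  obtain ⟨C, hC, h1⟩ := hI.opn 0 r
  have h2 : ∀ n, r < n → μ {z | Thr z 0 r n} ≤ C * μ {z | Tri z 0 r n ∧ AllO z 0 r} := by
    intro n hn
    refine le_trans ?_ (h1 _ (meas_triO hn.le))
    refine measure_mono fun z hz => ?_
    simp only [Set.mem_preimage, Set.mem_ofPred_eq] at hz ⊢
    exact ⟨tri_opn.2 (tri_of_thr hn hz), allO_opn⟩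
  rw [ENNReal.tendsto_atTop_zero]
  intro ε hε
  obtain ⟨k, hk⟩ := ENNReal.exists_nat_mul_gt (a := ε) (b := C * ((4 * (2 * r + 3) : ℕ) : ℝ≥0∞))
    hε.ne' (ENNReal.mul_ne_top hC (ENNReal.natCast_ne_top _))
  refine ⟨2 * ((2 * r + 1) * k + r + 1), fun n hn => ?_⟩
  have hrn : r < n := by nlinarith [Nat.zero_le ((2 * r + 1) * k)]
  refine (h2 n hrn).trans ?_
  have hb := triO_bound μ hT r k n hn
  set p := μ {z | Tri z 0 r n ∧ AllO z 0 r} with hp
  have hk0 : ((2 * k + 1 : ℕ) : ℝ≥0∞) ≠ 0 := by simp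
  have hk1 : ((2 * k + 1 : ℕ) : ℝ≥0∞) ≠ ∞ := ENNReal.natCast_ne_top _
  have hb1 : ((2 * k + 1 : ℕ) : ℝ≥0∞) * p ≤ ((4 * (2 * r + 3) : ℕ) : ℝ≥0∞) := by
    rw [← ENNReal.mul_le_mul_iff_right hk0 hk1, ← mul_assoc, ← Nat.cast_mul, ← Nat.cast_mul]
    refine hb.trans (Nat.cast_le.2 ?_)
    nlinarith
  rw [← ENNReal.mul_le_mul_iff_right hk0 hk1]
  calc ((2 * k + 1 : ℕ) : ℝ≥0∞) * (C * p) = C * (((2 * k + 1 : ℕ) : ℝ≥0∞) * p) := by ring
    _ ≤ C * ((4 * (2 * r + 3) : ℕ) : ℝ≥0∞) := by gcongr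
    _ ≤ (k : ℝ≥0∞) * ε := hk.le
    _ ≤ ((2 * k + 1 : ℕ) : ℝ≥0∞) * ε := by
        gcongr
        omega

end Crest.Agent.R161.BK123
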