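import Crest.Agent.R161.Dmp_341
import Crest.Agent.R161.Hull_374

/-!
# Row 161: domain Markov property, II (helper341)

For a simply connected finite face set `D` (`Dom D`) cut along its whole boundary (`CutE D ω`) the
boundary heights are all equal (`level D ω`), and:

* `E_cut2`   : `E_F[1_{CutE D} G(ω, insL D ω)] = E_F[1_{CutE D} E_D[G(ω, ·)]]`, `G(·, β)` outside `D`;
* `E_explore`: the same for a random hull;
* `state_cut2`: the same under the gradient state `P` for local gradient observables;
* `E_neg`, `E_K_zero`, `cut_mean_zero`, `cut_decorr`: consequences of the symmetry `K ↦ -K`.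
-/

set_option autoImplicit false

noncomputable section

namespace Crest.Agent.R161.Dmp341

open Finset hiding box
open Crest.Agent.R161.Geo729 Crest.Agent.R161.Defs372 MeasureTheory

/-! ### Geometry -/

theorem mem_bdE_iff_Bd {D : Finset P2} {e : Edge} : e ∈ bdE D ↔ Hull374.Bd (D : Set P2) e := by
  rw [mem_bdE]
  unfold Hull374.Bd
  simp only [Finset.mem_coe]
  tauto

theorem exists_bdE {D : Finset P2} {v : P2} (hv : v ∈ bdV D) :
    ∃ e ∈ bdE D, src e = v ∨ tgt e = v := by
  obtain ⟨⟨f, hf, hcor⟩, hint⟩ := mem_bdV.1 hv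
  obtain ⟨i, j⟩ := v
  by_contra hcon
  push Not at hcon
  have h1 : ((i, j) : P2) ∈ D ↔ ((i, j - 1) : P2) ∈ D := by
    by_contra h
    exact (hcon ((i, j), false) (by rw [mem_bdE]; simpa using h)).1 (by simp)
  have h2 : ((i - 1, j) : P2) ∈ D ↔ ((i - 1, j - 1) : P2) ∈ D := by
    by_contra h
    exact (hcon ((i - 1, j), false) (by rw [mem_bdE]; simpa using h)).2 (by simp)
  have h3 : ((i, j) : P2) ∈ D ↔ ((i - 1, j) : P2) ∈ D := by
    by_contra h
    exact (hcon ((i, j), true) (by rw [mem_bdE]; simpa using h)).1 (by simp)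
  apply hint
  rw [mem_intVerts]
  have hall : ((i, j) : P2) ∈ D := by
    simp only [Geo729.IsCorner] at hcor
    obtain ⟨a, b⟩ := f
    simp only [Prod.mk.injEq] at hcor
    rcases hcor with ⟨rfl, rfl⟩ | ⟨rfl, rfl⟩ | ⟨rfl, rfl⟩ | ⟨rfl, rfl⟩
    · exact hf
    · exact h3.2 (by simpa using hf)
    · exact h1.2 (by simpa using hf)
    · exact h3.2 (h2.2 (by simpa using hf))
  exact ⟨hall, h3.1 hall, h1.1 hall, h2.1 (h3.1 hall)⟩

/-- A function with equal values at the ends of every boundary edge of a simply connected domain is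
constant on the boundary vertices. -/
theorem const_bdV {α : Type*} {D : Finset P2} (hD : Dom D) (K : P2 → α)
    (hK : ∀ e ∈ bdE D, K (src e) = K (tgt e)) {u v : P2} (hu : u ∈ bdV D) (hv : v ∈ bdV D) :
    K u = K v := by
  obtain ⟨e, he, hue⟩ := exists_bdE hu
  obtain ⟨e', he', hve⟩ := exists_bdE hv
  have hhull := Hull374.hull (D : Set P2) (Or.inl D.finite_toSet) hD.conn hD.sc
    (mem_bdE_iff_Bd.1 he) (mem_bdE_iff_Bd.1 he')
  have h1 : K (src e) = K (src e') := by
    unfold Hull374.BConn at hhull
    generalize src e' = w at hhull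
    induction hhull with
    | refl => rfl
    | tail _ h2 ih =>
      obtain ⟨e1, h3, ⟨h4, h5⟩ | ⟨h4, h5⟩⟩ := h2
      · rw [ih, h4, h5, hK e1 (mem_bdE_iff_Bd.2 h3)]
      · rw [ih, h4, h5, hK e1 (mem_bdE_iff_Bd.2 h3)]
  have h2 : K u = K (src e) := by
    rcases hue with h | h
    · rw [← h]
    · rw [← h, hK e he]
  have h3 : K v = K (src e') := by
    rcases hve with h | h
    · rw [← h]
    · rw [← h, hK e' he']
  rw [h2, h3, h1]

/-- All edges between `D` and its complement are cut. -/
def CutE (D : Finset P2) (ω : Cfg) : Prop := ∀ e ∈ bdE D, ω.2.2 e = true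

/-- The height of the boundary of `D`. -/
def level (D : Finset P2) (ω : Cfg) : ℤ := if h : (bdV D).Nonempty then ω.1 h.choose else 0

/-- The configuration inside `D` relative to the boundary height. -/
def insL (D : Finset P2) (ω : Cfg) : Cfg := ins D (level D ω) ω

theorem level_of_mem {D : Finset P2} (h : (bdV D).Nonempty) (ω : Cfg) :
    ∃ v ∈ bdV D, level D ω = ω.1 v := ⟨h.choose, h.choose_spec, by simp [level, h]⟩

theorem even_level {D : Finset P2} {ω : Cfg} (he : ∀ v, Even (ω.1 v)) : Even (level D ω) := by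
  unfold level
  split_ifs with h
  · exact he _
  · simp

theorem cutAt_level {D : Finset P2} (hD : Dom D) {ω : Cfg} (he : ∀ v, Even (ω.1 v))
    (hc : CutE D ω) (hok : ∀ e, EdgeOk ω e) : CutAt D (level D ω) ω where
  even := even_level he
  cut := hc
  ht := fun v hv => by
    obtain ⟨w, hw, h1⟩ := level_of_mem ⟨v, hv⟩ ω
    rw [h1]
    exact const_bdV hD ω.1 (fun e he => (hok e).1 (hc e he)) hv hw

theorem CutAt.cutE {D : Finset P2} {q : ℤ} {ω : Cfg} (h : CutAt D q ω) : CutE D ω := h.cut

theorem CutAt.level_eq {D : Finset P2} {q : ℤ} {ω : Cfg} (h : CutAt D q ω)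
    (hne : (bdV D).Nonempty) : level D ω = q := by
  obtain ⟨w, hw, h1⟩ := level_of_mem hne ω
  rw [h1, h.ht w hw]

theorem edgeOk_of_pr {c : ℝ} {F : Finset P2} {ω : Cfg} (h : pr c F ω ≠ 0) :
    ∀ e, EdgeOk ω e := by
  have hv : Valid F ω := by
    by_contra h1
    exact h (pr_of_not_valid c h1)
  intro e
  by_cases he : e ∈ intEdges F
  · by_contra hno
    apply h
    rw [pr_of_valid c hv]
    unfold wt
    rw [Finset.prod_eq_zero he (ew_eq_zero hno), zero_div]
  · constructor
    · intro _
      obtain ⟨h1, h2⟩ := not_int_of_not_intEdges he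
      rw [hv.zero _ h1, hv.zero _ h2]
    · intro h1
      rw [hv.cut e he] at h1
      exact absurd h1 (by simp)

/-- To compare expectations one may assume the edge constraints. -/
theorem E_congr' {c : ℝ} {F : Finset P2} {f g : Cfg → ℝ}
    (h : ∀ ω, Valid F ω → (∀ e, EdgeOk ω e) → f ω = g ω) : E c F f = E c F g := by
  refine Finset.sum_congr rfl fun ω hω => ?_
  by_cases h0 : pr c F ω = 0
  · rw [h0, zero_mul, zero_mul]
  · rw [h ω (mem_conf.1 hω) (edgeOk_of_pr h0)]

theorem E_mono' {c : ℝ} (hc : 1 ≤ c) {F : Finset P2} {f g : Cfg → ℝ}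
    (h : ∀ ω, Valid F ω → (∀ e, EdgeOk ω e) → f ω ≤ g ω) : E c F f ≤ E c F g := by
  refine Finset.sum_le_sum fun ω hω => ?_
  by_cases h0 : pr c F ω = 0
  · rw [h0, zero_mul, zero_mul]
  · exact mul_le_mul_of_nonneg_left (h ω (mem_conf.1 hω) (edgeOk_of_pr h0)) (pr_nonneg hc F ω)


/-! ### Domain Markov property with the boundary level -/

open Classical in
theorem E_cut2 {c : ℝ} (hc : 1 ≤ c) {F D : Finset P2} (hDF : D ⊆ F) (hD : Dom D)
    {G : Cfg → Cfg → ℝ} (hG : ∀ β, OutLoc D (fun ω => G ω β)) :
    E c F (fun ω => if CutE D ω then G ω (insL D ω) else 0) =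
      E c F (fun ω => if CutE D ω then E c D (G ω) else 0) := by
  -- fixed level
  have key : ∀ q : ℤ, E c F (fun ω => if CutAt D q ω then G ω (ins D q ω) else 0) =
      E c F (fun ω => if CutAt D q ω then E c D (G ω) else 0) := by
    intro q
    have h1 : ∀ ω, Valid F ω → (if CutAt D q ω then G ω (ins D q ω) else 0) =
        ∑ β ∈ conf D, (if CutAt D q ω then G ω β * (if ins D q ω = β then 1 else 0) else 0) := by
      intro ω hω
      split_ifs with hcut
      · rw [Finset.sum_eq_single (ins D q ω)]
        · simp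
        · intro b _ hb
          rw [if_neg (Ne.symm hb), mul_zero]
        · intro h
          exact absurd (mem_conf.2 (valid_ins hDF hω hcut)) h
      · simp
    rw [E_congr h1, E_sum]
    have h2 : ∀ β ∈ conf D, E c F (fun ω => if CutAt D q ω then
        G ω β * (if ins D q ω = β then 1 else 0) else 0) =
        E c F (fun ω => if CutAt D q ω then G ω β else 0) * pr c D β := by
      intro β hβ
      have h3 := E_cut hc hDF q (g := fun ω => G ω β) (f := fun ω => if ω = β then 1 else 0) (hG β)
      rw [h3]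
      congr 1
      unfold E
      rw [Finset.sum_eq_single β]
      · simp
      · intro b _ hb
        simp [hb]
      · intro h; exact absurd hβ h
    rw [Finset.sum_congr rfl h2]
    have h3 : ∀ ω, Valid F ω → (if CutAt D q ω then E c D (G ω) else 0) =
        ∑ β ∈ conf D, (pr c D β * if CutAt D q ω then G ω β else 0) := by
      intro ω _
      split_ifs
      · rfl
      · simp
    rw [E_congr h3, E_sum]
    refine Finset.sum_congr rfl fun β _ => ?_
    rw [E_smul, mul_comm]
  by_cases hne : (bdV D).Nonempty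
  · -- decomposition over the level
    have hdec : ∀ Φ : ℤ → Cfg → ℝ, E c F (fun ω => if CutE D ω then Φ (level D ω) ω else 0) =
        ∑ q ∈ Finset.Icc (-(hb F)) (hb F), E c F (fun ω => if CutAt D q ω then Φ q ω else 0) := by
      intro Φ
      rw [← E_sum]
      refine E_congr' fun ω hω hok => ?_
      split_ifs with hcut
      · have hA := cutAt_level hD hω.even hcut hok
        rw [Finset.sum_eq_single (level D ω)]
        · rw [if_pos hA]
        · intro q _ hq
          rw [if_neg]
          intro h
          exact hq (h.level_eq hne).symm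
        · intro h
          exfalso
          apply h
          obtain ⟨w, _, h1⟩ := level_of_mem hne ω
          rw [h1, Finset.mem_Icc]
          exact abs_le.1 (hω.abs_vert w)
      · symm
        refine Finset.sum_eq_zero fun q _ => ?_
        rw [if_neg]
        intro h
        exact hcut h.cutE
    have e1 := hdec (fun q ω => G ω (ins D q ω))
    have e2 := hdec (fun _ ω => E c D (G ω))
    unfold insL
    rw [e1, e2]
    exact Finset.sum_congr rfl fun q _ => key q
  · have hl : ∀ ω, level D ω = 0 := fun ω => by simp [level, hne]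
    have hiff : ∀ ω, CutE D ω ↔ CutAt D 0 ω := by
      intro ω
      constructor
      · intro h
        exact ⟨by simp, h, fun v hv => absurd ⟨v, hv⟩ hne⟩
      · exact fun h => h.cutE
    have e := key 0
    simp only [insL, hl]
    simp only [hiff]
    exact e

open Classical in
/-- Product form. -/
theorem E_cutE {c : ℝ} (hc : 1 ≤ c) {F D : Finset P2} (hDF : D ⊆ F) (hD : Dom D)
    {g f : Cfg → ℝ} (hg : OutLoc D g) :
    E c F (fun ω => if CutE D ω then g ω * f (insL D ω) else 0) =
      E c F (fun ω => if CutE D ω then g ω else 0) * E c D f := by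
  rw [E_cut2 hc hDF hD (G := fun ω β => g ω * f β)
    (fun β ω ω' h1 h2 h3 => by simp only [hg ω ω' h1 h2 h3])]
  rw [mul_comm, ← E_smul]
  refine E_congr fun ω _ => ?_
  split_ifs
  · rw [E_smul, mul_comm]
  · simp

/-! ### Random hulls -/


/-! ### Symmetry -/

/-- Change of sign of the heights in `D`. -/
def negC (D : Finset P2) (ω : Cfg) : Cfg :=
  (fun v => - ω.1 v, fun f => if f ∈ D then - ω.2.1 f else ω.2.1 f, ω.2.2)

theorem negC_negC (D : Finset P2) (ω : Cfg) : negC D (negC D ω) = ω := by
  refine Prod.ext ?_ (Prod.ext ?_ rfl)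
  · funext v; simp [negC]
  · funext f
    by_cases hf : f ∈ D <;> simp [negC, hf]

theorem valid_negC {D : Finset P2} {ω : Cfg} (h : Valid D ω) : Valid D (negC D ω) where
  zero := fun v hv => by simp [negC, h.zero v hv]
  even := fun v => by simpa [negC] using h.even v
  off := fun f hf => by simp [negC, hf, h.off f hf]
  corner := fun f hf v hv => by
    simp only [negC, hf, if_true]
    rw [show - ω.1 v - - ω.2.1 f = -(ω.1 v - ω.2.1 f) by ring, abs_neg]
    exact h.corner f hf v hv
  cut := fun e he => h.cut e he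

theorem wt_negC (c : ℝ) (D : Finset P2) (ω : Cfg) : wt c D (negC D ω) = wt c D ω := by
  unfold wt
  refine Finset.prod_congr rfl fun e he => ?_
  rw [mem_intEdges] at he
  unfold ew
  simp [negC, he.1, he.2]

theorem E_neg (c : ℝ) (D : Finset P2) (f : Cfg → ℝ) :
    E c D (fun ω => f (negC D ω)) = E c D f := by
  unfold E
  refine Finset.sum_nbij' (negC D) (negC D) ?_ ?_ ?_ ?_ ?_
  · intro ω hω
    exact mem_conf.2 (valid_negC (mem_conf.1 hω))
  · intro ω hω
    exact mem_conf.2 (valid_negC (mem_conf.1 hω))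
  · intro ω _; exact negC_negC D ω
  · intro ω _; exact negC_negC D ω
  · intro ω hω
    rw [pr_of_valid c (mem_conf.1 hω), pr_of_valid c (valid_negC (mem_conf.1 hω)), wt_negC]

/-- Odd observables of the vertex heights have mean zero. -/
theorem E_odd (c : ℝ) (D : Finset P2) {f : Cfg → ℝ} (hf : ∀ ω, f (negC D ω) = - f ω) :
    E c D f = 0 := by
  have h := E_neg c D f
  have h2 : E c D (fun ω => f (negC D ω)) = - E c D f := by
    rw [show (fun ω => f (negC D ω)) = fun ω => (-1 : ℝ) * f ω from by funext ω; rw [hf]; ring,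
      E_smul]
    ring
  linarith


/-! ### Localisation -/

theorem outLoc_const {α : Type*} (D : Finset P2) (a : α) : OutLoc D (fun _ : Cfg => a) :=
  fun _ _ _ _ _ => rfl


theorem OutLoc.comp {α β : Type*} {D : Finset P2} {g : Cfg → α} (hg : OutLoc D g) (φ : α → β) :
    OutLoc D (fun ω => φ (g ω)) := fun ω ω' h1 h2 h3 => by
  show φ (g ω) = φ (g ω')
  rw [hg ω ω' h1 h2 h3]





theorem outLoc_level_self (D : Finset P2) : OutLoc D (level D) := by
  intro ω ω' h1 _ _
  unfold level
  split_ifs with h
  · exact h1 _ (mem_bdV.1 h.choose_spec).2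
  · rfl




theorem insL_K {D : Finset P2} {v : P2} (hv : v ∈ intVerts D) (ω : Cfg) :
    (insL D ω).1 v = ω.1 v - level D ω := by simp [insL, ins, hv]



/-! ### Boxes -/

theorem conn_h {S : Set P2} {b : ℤ} : ∀ {a a' : ℤ}, (∀ x, min a a' ≤ x → x ≤ max a a' → (x, b) ∈ S) →
    Conn S (a, b) (a', b) := by
  have key : ∀ (n : ℕ) (a : ℤ), (∀ x, a ≤ x → x ≤ a + n → (x, b) ∈ S) →
      Conn S (a, b) (a + n, b) := by
    intro n a
    induction n with
    | zero =>
      intro _
      have h0 : Conn S (a, b) (a, b) := Relation.ReflTransGen.refl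
      simpa using h0
    | succ n ih =>
      intro h
      refine Relation.ReflTransGen.tail (ih fun x h1 h2 => h x h1 (by push_cast; omega))
        ⟨h _ (by omega) (by push_cast; omega), h _ (by push_cast; omega) (by push_cast; omega), ?_⟩
      unfold Adj
      left
      push_cast
      simp only [Prod.mk.injEq]
      exact ⟨by ring, trivial⟩
  intro a a' h
  rcases le_total a a' with h1 | h1
  · have := key (a' - a).toNat a (fun x h2 h3 => h x (by omega) (by omega))
    rwa [show a + ((a' - a).toNat : ℤ) = a' by omega] at this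
  · have := key (a - a').toNat a' (fun x h2 h3 => h x (by omega) (by omega))
    rw [show a' + ((a - a').toNat : ℤ) = a by omega] at this
    exact this.symm

theorem conn_v {S : Set P2} {a : ℤ} : ∀ {b b' : ℤ}, (∀ y, min b b' ≤ y → y ≤ max b b' → (a, y) ∈ S) →
    Conn S (a, b) (a, b') := by
  have key : ∀ (n : ℕ) (b : ℤ), (∀ y, b ≤ y → y ≤ b + n → (a, y) ∈ S) →
      Conn S (a, b) (a, b + n) := by
    intro n b
    induction n with
    | zero =>
      intro _
      have h0 : Conn S (a, b) (a, b) := Relation.ReflTransGen.refl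
      simpa using h0
    | succ n ih =>
      intro h
      refine Relation.ReflTransGen.tail (ih fun x h1 h2 => h x h1 (by push_cast; omega))
        ⟨h _ (by omega) (by push_cast; omega), h _ (by push_cast; omega) (by push_cast; omega), ?_⟩
      unfold Adj
      right; right; left
      push_cast
      simp only [Prod.mk.injEq]
      exact ⟨trivial, by ring⟩
  intro b b' h
  rcases le_total b b' with h1 | h1
  · have := key (b' - b).toNat b (fun x h2 h3 => h x (by omega) (by omega))
    rwa [show b + ((b' - b).toNat : ℤ) = b' by omega] at this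
  · have := key (b - b').toNat b' (fun x h2 h3 => h x (by omega) (by omega))
    rw [show b' + ((b - b').toNat : ℤ) = b by omega] at this
    exact this.symm

/-- Rectangles are simply connected domains. -/
theorem dom_rect (x0 x1 y0 y1 : ℤ) : Dom (Finset.Icc x0 x1 ×ˢ Finset.Icc y0 y1) where
  conn := by
    rintro ⟨a, b⟩ hf ⟨a', b'⟩ hg
    simp only [Finset.coe_product, Finset.coe_Icc, Set.mem_prod, Set.mem_Icc] at hf hg
    refine Conn.trans (conn_h (a' := a') fun x h1 h2 => ?_) (conn_v fun y h1 h2 => ?_)
    · simp only [Finset.coe_product, Finset.coe_Icc, Set.mem_prod, Set.mem_Icc]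
      omega
    · simp only [Finset.coe_product, Finset.coe_Icc, Set.mem_prod, Set.mem_Icc]
      omega
  sc := by
    have hmem : ∀ x y : ℤ, (x, y) ∈ ((Finset.Icc x0 x1 ×ˢ Finset.Icc y0 y1 : Finset P2) : Set P2)ᶜ ↔
        ¬ ((x0 ≤ x ∧ x ≤ x1) ∧ y0 ≤ y ∧ y ≤ y1) := by
      intro x y
      rw [Set.mem_compl_iff, Finset.mem_coe, Finset.mem_product, Finset.mem_Icc, Finset.mem_Icc]
    have key : ∀ f ∈ ((Finset.Icc x0 x1 ×ˢ Finset.Icc y0 y1 : Finset P2) : Set P2)ᶜ,
        Conn ((Finset.Icc x0 x1 ×ˢ Finset.Icc y0 y1 : Finset P2) : Set P2)ᶜ f (x1 + 1, y1 + 1) := by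
      rintro ⟨a, b⟩ hf
      rw [hmem] at hf
      by_cases h1 : x0 ≤ a ∧ a ≤ x1
      · -- `b` is outside
        refine Conn.trans (conn_h (a' := x1 + 1) fun x h2 h3 => ?_) (conn_v fun y h2 h3 => ?_)
        · rw [hmem]; omega
        · rw [hmem]; omega
      · refine Conn.trans (conn_v (b' := y1 + 1) fun x h2 h3 => ?_) (conn_h fun y h2 h3 => ?_)
        · rw [hmem]; omega
        · rw [hmem]; omega
    intro f hf g hg
    exact (key f hf).trans (key g hg).symm

theorem dom_box (n : ℕ) : Dom (box n) := dom_rect _ _ _ _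

theorem exists_box (F : Finset P2) : ∃ n : ℕ, F ⊆ box n := by
  induction F using Finset.induction_on with
  | empty => exact ⟨0, by simp⟩
  | insert a F _ ih =>
    obtain ⟨n, hn⟩ := ih
    refine ⟨n + a.1.natAbs + a.2.natAbs + 1, ?_⟩
    intro f hf
    rw [Finset.mem_insert] at hf
    simp only [box, Finset.mem_product, Finset.mem_Icc]
    rcases hf with rfl | hf
    · omega
    · have := hn hf
      simp only [box, Finset.mem_product, Finset.mem_Icc] at this
      omega

theorem box_mono {m n : ℕ} (h : m ≤ n) : box m ⊆ box n := by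
  intro f hf
  simp only [box, Finset.mem_product, Finset.mem_Icc] at hf ⊢
  omega

/-! ### The gradient state -/


theorem GradInv.norm0 {α : Type*} {f : Cfg → α} (hf : GradInv f) (ω : Cfg) :
    f (Defs372.norm0 ω) = f ω := hf ω _

/-- Two local gradient observables with the same expectation in all large simply connected domains have
the same expectation in the gradient state. -/
theorem IsState.congr {c : ℝ} {P : Measure Cfg} (hP : IsState c P) {S : Finset P2} {f g : Cfg → ℝ}
    (hf : Loc (S : Set P2) f) (hg : Loc (S : Set P2) g) {n₀ : ℕ}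
    (h : ∀ F : Finset P2, Dom F → box n₀ ⊆ F →
      E c F (fun ω => f (Defs372.norm0 ω)) = E c F (fun ω => g (Defs372.norm0 ω))) :
    ∫ ω, f ω ∂P = ∫ ω, g ω ∂P := by
  by_contra hne
  have hpos : 0 < |∫ ω, f ω ∂P - ∫ ω, g ω ∂P| / 2 := by
    have := abs_pos.2 (sub_ne_zero.2 hne)
    linarith
  obtain ⟨n1, h1⟩ := hP.lim S f hf _ hpos
  obtain ⟨n2, h2⟩ := hP.lim S g hg _ hpos
  set n := max n₀ (max n1 n2)
  have e1 := h1 (box n) (dom_box n) (box_mono (by omega))
  have e2 := h2 (box n) (dom_box n) (box_mono (by omega))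
  rw [← h (box n) (dom_box n) (box_mono (by omega))] at e2
  rw [abs_lt] at e1 e2
  rcases abs_cases (∫ ω, f ω ∂P - ∫ ω, g ω ∂P) with h3 | h3 <;> linarith [e1.1, e1.2, e2.1, e2.2]

theorem level_addH {D : Finset P2} (hne : (bdV D).Nonempty) (a : ℤ) (ω : Cfg) :
    level D (addH a ω) = level D ω + a := by
  simp [level, hne, addH]

theorem bdV_nonempty_of_int {D : Finset P2} (h : (bdV D) = ∅) : intVerts D = ∅ ∧ D = ∅ := by
  have hD : D = ∅ := by
    by_contra hne
    obtain ⟨m, hm, hmax⟩ := Finset.exists_max_image D (fun f => f.1) (Finset.nonempty_iff_ne_empty.2 hne)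
    have : (m.1 + 1, m.2) ∈ bdV D := by
      rw [mem_bdV]
      refine ⟨⟨m, hm, by simp [Geo729.IsCorner]⟩, ?_⟩
      intro h1
      rw [mem_intVerts] at h1
      have := hmax _ h1.1
      simp at this
    rw [h] at this
    simp at this
  exact ⟨by rw [hD]; simp [intVerts], hD⟩

theorem insL_addH (D : Finset P2) (a : ℤ) (ω : Cfg) : insL D (addH a ω) = insL D ω := by
  by_cases hne : (bdV D).Nonempty
  · unfold insL ins
    rw [level_addH hne]
    refine Prod.ext ?_ (Prod.ext ?_ rfl)
    · funext v
      simp only [addH]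
      split_ifs
      · ring
      · rfl
    · funext v
      simp only [addH]
      split_ifs
      · ring
      · rfl
  · obtain ⟨h1, h2⟩ := bdV_nonempty_of_int (Finset.not_nonempty_iff_eq_empty.1 hne)
    subst h2
    unfold insL ins
    rw [h1]
    simp [addH]

/-- Sites needed to see `D` and its boundary. -/
def hullSites (D : Finset P2) : Finset P2 :=
  D.biUnion corners ∪ (bdE D).image Prod.fst

theorem self_mem_hullSites {D : Finset P2} {f : P2} (hf : f ∈ D) : f ∈ hullSites D := by
  refine Finset.mem_union_left _ (Finset.mem_biUnion.2 ⟨f, hf, ?_⟩)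
  simp [corners]

theorem level_congr {D : Finset P2} {ω ω' : Cfg} (h : AgreeOn (hullSites D : Set P2) ω ω') :
    level D ω = level D ω' := by
  unfold level
  split_ifs with hne
  · refine (h _ ?_).1
    have := (mem_bdV.1 hne.choose_spec).1
    obtain ⟨f, hf, hc⟩ := this
    exact Finset.mem_coe.2 (Finset.mem_union_left _ (Finset.mem_biUnion.2 ⟨f, hf, mem_corners.2 hc⟩))
  · rfl

theorem loc_insL (D : Finset P2) : Loc (hullSites D : Set P2) (insL D) := by
  intro ω ω' h
  unfold insL ins
  rw [level_congr h]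
  refine Prod.ext ?_ (Prod.ext ?_ ?_)
  · funext v
    simp only
    split_ifs with hv
    · rw [(h v (self_mem_hullSites (Finset.mem_filter.1 hv).1)).1]
    · rfl
  · funext v
    simp only
    split_ifs with hv
    · rw [(h v (self_mem_hullSites hv)).2.1]
    · rfl
  · funext e
    simp only
    split_ifs with he
    · exact (h e.1 (self_mem_hullSites (mem_intEdges.1 he).1)).2.2 e.2
    · rfl


theorem Loc.mono {α : Type*} {S T : Set P2} {f : Cfg → α} (hf : Loc S f) (h : S ⊆ T) : Loc T f :=
  fun ω ω' h1 => hf ω ω' fun v hv => h1 v (h hv)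



end Crest.Agent.R161.Dmp341
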