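import Crest.Agent.R161.Ring1_421
import Crest.Agent.R161.Dmp2_341
import Crest.Agent.R161.NuInv_421

-- ▼ part R161/Blk1_696
section

/-!
# Row 161, block E4 (helper696), part 1: inner hull

`hullI n ω` : the filled hull of the faces reached from `box n` through non-cut edges, as a subset of
`box (2n)`. If there is a cut circuit in the annulus, then `hullI` is a domain whose boundary is cut, and
the event `hullI = D` is, on `CutE D`, an event of the inside configuration `insL D ω`.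
-/

set_option autoImplicit false

noncomputable section

namespace Crest.Agent.R161.Blk696

open Crest.Agent.R161.Geo729 Crest.Agent.R161.Defs372 Crest.Agent.R161.Dual374
open Crest.Agent.R161.Hull374 Crest.Agent.R161.Ifc372 Crest.Agent.R161.Dmp341
open Crest.Agent.R161.Ring421

theorem mem_ball {x f : P2} {n : ℕ} :
    f ∈ ball x n ↔ (x.1 - n ≤ f.1 ∧ f.1 ≤ x.1 + n - 1) ∧ (x.2 - n ≤ f.2 ∧ f.2 ≤ x.2 + n - 1) := by
  obtain ⟨a, b⟩ := f
  simp [ball]

theorem ball_subset {x : P2} {n m : ℕ} (h : n ≤ m) : ball x n ⊆ ball x m := by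
  intro f hf
  rw [mem_ball] at *
  omega

theorem dom_ball (x : P2) (n : ℕ) : Dom (ball x n) := dom_rect _ _ _ _

/-- If all boundary edges of a set `D ⊇ A` are `Z`-edges then `Reach Z A ⊆ D`. -/
theorem reach_sub_of_bd {Z : Edge → Prop} {A D : Set P2}
    (h1 : A ⊆ D) (h3 : ∀ e, Bd D e → Z e) : Reach Z A ⊆ D := by
  refine reach_subset h1 ?_
  rintro f g hf ⟨e, he, h4⟩
  by_contra hg
  apply he
  apply h3
  rcases h4 with ⟨h5, h6⟩ | ⟨h5, h6⟩
  · left; rw [← h5, ← h6]; exact ⟨hf, hg⟩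
  · right; rw [← h5, ← h6]; exact ⟨hg, hf⟩

theorem circ_of_bd {Z : Edge → Prop} {x : P2} {n m : ℕ} {D : Set P2}
    (h1 : (ball x n : Set P2) ⊆ D) (h2 : D ⊆ (ball x m : Set P2)) (h3 : ∀ e, Bd D e → Z e) :
    Circ Z x n m := (reach_sub_of_bd h1 h3).trans h2

/-- the far point outside `ball x m` -/
def far (x : P2) (m : ℕ) : P2 := (x.1 + m, x.2)

theorem far_not_mem (x : P2) (m : ℕ) : far x m ∉ ball x m := by
  rw [mem_ball]
  simp [far]

open Classical in
/-- The filled hull of `R` inside `ball x m`. -/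
def fillB (x : P2) (m : ℕ) (R : Set P2) : Finset P2 :=
  (ball x m).filter fun f => f ∉ Comp Rᶜ (far x m)

theorem mem_fillB {x : P2} {m : ℕ} {R : Set P2} {f : P2} :
    f ∈ fillB x m R ↔ f ∈ ball x m ∧ f ∉ Comp Rᶜ (far x m) := by
  simp [fillB]

theorem fillB_coe {x : P2} {m : ℕ} {R : Set P2} (hR : R ⊆ (ball x m : Set P2)) :
    (fillB x m R : Set P2) = (Comp Rᶜ (far x m))ᶜ := by
  ext f
  simp only [Finset.mem_coe, mem_fillB, Set.mem_compl_iff]
  refine ⟨fun h => h.2, fun h => ⟨?_, h⟩⟩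
  by_contra hf
  apply h
  have hsc := (dom_ball x m).sc
  have hfar : far x m ∈ ((ball x m : Finset P2) : Set P2)ᶜ := by
    simpa using far_not_mem x m
  have h1 : Conn ((ball x m : Finset P2) : Set P2)ᶜ (far x m) f := hsc _ hfar _ (by simpa using hf)
  exact h1.mono (Set.compl_subset_compl.2 hR)

theorem subset_fillB {x : P2} {m : ℕ} {R : Set P2} (hR : R ⊆ (ball x m : Set P2)) :
    R ⊆ (fillB x m R : Set P2) := by
  rw [fillB_coe hR]
  intro f hf hc
  have hx : far x m ∈ Rᶜ := fun h => far_not_mem x m (by simpa using hR h)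
  exact comp_subset hx hc hf

/-- inner hull of the configuration -/
def hullI (x : P2) (n m : ℕ) (ω : Cfg) : Finset P2 := fillB x m (Reach (cutE ω) (ball x n : Set P2))

theorem isConn_ball (x : P2) (n : ℕ) : IsConn (ball x n : Set P2) := (dom_ball x n).conn

theorem ball_nonempty (x : P2) {n : ℕ} (hn : 1 ≤ n) : (ball x n : Set P2).Nonempty := by
  refine ⟨x, ?_⟩
  rw [Finset.mem_coe, mem_ball]
  omega

/-- Properties of the inner hull when there is a circuit. -/
theorem hullI_spec {x : P2} {n m : ℕ} (hn : 1 ≤ n) {ω : Cfg}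
    (hc : Circ (cutE ω) x n m) :
    Dom (hullI x n m ω) ∧ ball x n ⊆ hullI x n m ω ∧ hullI x n m ω ⊆ ball x m ∧
      CutE (hullI x n m ω) ω := by
  set R := Reach (cutE ω) (ball x n : Set P2) with hR
  have hRB : R ⊆ (ball x m : Set P2) := hc
  have hRc : IsConn R := reach_isConn _ _ (isConn_ball x n)
  have hRne : R.Nonempty := (ball_nonempty x hn).mono (subset_reach _ _)
  have hx : far x m ∉ R := fun h => far_not_mem x m (by simpa using hRB h)
  obtain ⟨h1, h2⟩ := comp_compl_conn R hRc hRne (far x m) hx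
  have hcoe : (hullI x n m ω : Set P2) = (Comp Rᶜ (far x m))ᶜ := fillB_coe hRB
  refine ⟨⟨?_, ?_⟩, ?_, ?_, ?_⟩
  · rw [hcoe]; exact h1
  · unfold SC
    rw [hcoe, compl_compl]
    exact comp_isConn _ _
  · intro f hf
    have : f ∈ (hullI x n m ω : Set P2) := subset_fillB hRB (subset_reach _ _ (by simpa using hf))
    simpa using this
  · intro f hf
    exact (mem_fillB.1 hf).1
  · intro e he
    rw [mem_bdE_iff_Bd, hcoe, bd_compl] at he
    have hDR : Comp Rᶜ (far x m) ⊆ Rᶜ := comp_subset hx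
    show cutE ω e
    apply reach_bd (A := (ball x n : Set P2))
    rw [← hR]
    rcases he with ⟨h3, h4⟩ | ⟨h3, h4⟩
    · exact Or.inr ⟨hDR h3, h2 _ _ h3 (adj_fA_fB e) h4⟩
    · exact Or.inl ⟨h2 _ _ h4 (adj_fA_fB e).symm h3, hDR h4⟩

/-- On a cut domain the exploration from `ball x n` only sees the inside configuration. -/
theorem reach_insL {x : P2} {n : ℕ} {D : Finset P2} (hD : ball x n ⊆ D) {ω : Cfg}
    (hc : CutE D ω) (q : ℤ) :
    Reach (cutE (ins D q ω)) (ball x n : Set P2) = Reach (cutE ω) (ball x n : Set P2) := by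
  have hA : (ball x n : Set P2) ⊆ (D : Set P2) := by exact_mod_cast hD
  have h1 : Reach (cutE ω) (ball x n : Set P2) ⊆ (D : Set P2) := by
    refine reach_sub_of_bd hA ?_
    intro e he
    exact hc e (mem_bdE_iff_Bd.2 he)
  have hz : ∀ e, e ∉ intEdges D → cutE (ins D q ω) e := by
    intro e he
    simp [cutE, ins, he]
  have hz' : ∀ e, e ∈ intEdges D → (cutE (ins D q ω) e ↔ cutE ω e) := by
    intro e he
    simp [cutE, ins, he]
  have h2 : Reach (cutE (ins D q ω)) (ball x n : Set P2) ⊆ (D : Set P2) := by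
    refine reach_sub_of_bd hA ?_
    intro e he
    exact hz e (not_intEdges_of_bdE (mem_bdE_iff_Bd.2 he))
  have h3 : ∀ e, fA e ∈ (D : Set P2) ∨ fB e ∈ (D : Set P2) → (cutE (ins D q ω) e ↔ cutE ω e) := by
    intro e he
    by_cases hi : e ∈ intEdges D
    · exact hz' e hi
    · refine ⟨fun _ => ?_, fun _ => hz e hi⟩
      apply hc e
      rw [mem_bdE]
      rw [mem_intEdges] at hi
      simp only [Finset.mem_coe] at he
      tauto
  apply Set.Subset.antisymm
  · refine reach_subset (subset_reach _ _) ?_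
    rintro f g hf ⟨e, he, h4⟩
    have hfD : f ∈ (D : Set P2) := h1 hf
    refine reach_step hf ⟨e, ?_, h4⟩
    intro hz1
    apply he
    refine (h3 e ?_).2 hz1
    rcases h4 with ⟨h5, _⟩ | ⟨h5, _⟩
    · left; rwa [← h5]
    · right; rwa [← h5]
  · refine reach_subset (subset_reach _ _) ?_
    rintro f g hf ⟨e, he, h4⟩
    have hfD : f ∈ (D : Set P2) := h2 hf
    refine reach_step hf ⟨e, ?_, h4⟩
    intro hz1
    apply he
    refine (h3 e ?_).1 hz1
    rcases h4 with ⟨h5, _⟩ | ⟨h5, _⟩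
    · left; rwa [← h5]
    · right; rwa [← h5]

theorem hullI_insL {x : P2} {n m : ℕ} {D : Finset P2} (hD : ball x n ⊆ D) {ω : Cfg}
    (hc : CutE D ω) : hullI x n m (insL D ω) = hullI x n m ω := by
  unfold hullI insL
  rw [reach_insL hD hc]

/-- boundary edges of the hull are cut edges at the height `level`. -/
theorem minus_of_level {x : P2} {n m : ℕ} {D : Finset P2} (hD : Dom D) (h1 : ball x n ⊆ D)
    (h2 : D ⊆ ball x m) {ω : Cfg} (he : ∀ v, Even (ω.1 v)) (hok : ∀ e, EdgeOk ω e)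
    (hc : CutE D ω) (hl : ¬ (4 : ℤ) ∣ level D ω) : Circ (minusE ω) x n m := by
  have hA := cutAt_level hD he hc hok
  refine circ_of_bd (D := (D : Set P2)) (by exact_mod_cast h1) (by exact_mod_cast h2) ?_
  intro e hbd
  have hb : e ∈ bdE D := mem_bdE_iff_Bd.2 hbd
  refine ⟨hc e hb, ?_⟩
  have hsrc : src e ∈ bdV D := by
    rw [mem_bdV]
    refine ⟨?_, (not_int_of_not_intEdges (not_intEdges_of_bdE hb)).1⟩
    rcases hbd with ⟨h3, _⟩ | ⟨_, h3⟩
    · exact ⟨_, by simpa using h3, isCorner_src_fA e⟩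
    · exact ⟨_, by simpa using h3, isCorner_src_fB e⟩
  rw [hA.ht _ hsrc]
  exact hl

end Crest.Agent.R161.Blk696
end
end

-- ▼ part R161/Blk2_696
section

/-!
# Row 161, block E4 (helper696), part 2: from cut circuits to minus-cut circuits

`minus_of_R` : if for every domain `D` between `ball x n` and `ball x m`, given that the boundary of `D`
is cut its height is `≡ 2 mod 4` with conditional probability at least `a`, then
`a * P(cut circuit) ≤ P(minus circuit)`.
-/

set_option autoImplicit false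

noncomputable section

namespace Crest.Agent.R161.Blk696

open Crest.Agent.R161.Geo729 Crest.Agent.R161.Defs372 Crest.Agent.R161.Dual374
open Crest.Agent.R161.Hull374 Crest.Agent.R161.Ifc372 Crest.Agent.R161.Dmp341
open Crest.Agent.R161.Ring421

/-- INPUT (R) at given data: -/
def RAt (c : ℝ) (B : Finset P2) (x : P2) (n m : ℕ) (a : ℝ) : Prop :=
  ∀ D : Finset P2, Dom D → ball x n ⊆ D → D ⊆ ball x m →
    a * Pr c B {ω | ∃ q, CutAt D q ω} ≤ Pr c B {ω | ∃ q, CutAt D q ω ∧ ¬ (4 : ℤ) ∣ q}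


open Classical in
theorem Pr_mono' {c : ℝ} (hc : 1 ≤ c) {F : Finset P2} {A B : Set Cfg}
    (h : ∀ ω, Valid F ω → (∀ e, EdgeOk ω e) → ω ∈ A → ω ∈ B) : Pr c F A ≤ Pr c F B := by
  unfold Pr
  refine E_mono' hc fun ω h1 h2 => ?_
  by_cases hA : ω ∈ A
  · rw [if_pos hA, if_pos (h ω h1 h2 hA)]
  · rw [if_neg hA]
    split_ifs <;> norm_num

theorem bdV_ne {D : Finset P2} (h : D.Nonempty) : (bdV D).Nonempty := by
  rw [Finset.nonempty_iff_ne_empty]
  intro h1
  have := (bdV_nonempty_of_int h1).2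
  rw [this] at h
  exact absurd h (by simp)

theorem exists_cutAt_iff {D : Finset P2} (hD : Dom D) {ω : Cfg} (he : ∀ v, Even (ω.1 v))
    (hok : ∀ e, EdgeOk ω e) : (∃ q, CutAt D q ω) ↔ CutE D ω :=
  ⟨fun ⟨_, h⟩ => h.cutE, fun h => ⟨_, cutAt_level hD he h hok⟩⟩

theorem exists_cutAt_iff' {D : Finset P2} (hD : Dom D) (hne : D.Nonempty) {ω : Cfg}
    (he : ∀ v, Even (ω.1 v)) (hok : ∀ e, EdgeOk ω e) :
    (∃ q, CutAt D q ω ∧ ¬ (4 : ℤ) ∣ q) ↔ (CutE D ω ∧ ¬ (4 : ℤ) ∣ level D ω) := by
  constructor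
  · rintro ⟨q, h, h4⟩
    refine ⟨h.cutE, ?_⟩
    rw [h.level_eq (bdV_ne hne)]
    exact h4
  · rintro ⟨h, h4⟩
    exact ⟨_, cutAt_level hD he h hok, h4⟩

open Classical in
/-- the admissible hulls -/
def adm (x : P2) (n m : ℕ) : Finset (Finset P2) :=
  (ball x m).powerset.filter fun D => Dom D ∧ ball x n ⊆ D

theorem mem_adm {x : P2} {n m : ℕ} {D : Finset P2} :
    D ∈ adm x n m ↔ D ⊆ ball x m ∧ Dom D ∧ ball x n ⊆ D := by
  simp [adm]

open Classical in
theorem minus_of_R {c : ℝ} (hc : 1 ≤ c) {B : Finset P2} {x : P2} {n m : ℕ} (hn : 1 ≤ n)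
    (hB : ball x m ⊆ B) {a : ℝ} (hR : RAt c B x n m a) :
    a * Pr c B {ω | Circ (cutE ω) x n m} ≤ Pr c B {ω | Circ (minusE ω) x n m} := by
  -- the inside weight of a hull
  set I : Finset P2 → ℝ := fun D => E c D (fun β => if hullI x n m β = D then 1 else 0) with hI
  have hI0 : ∀ D, 0 ≤ I D := fun D => E_nonneg hc fun ω _ => by split_ifs <;> norm_num
  -- factorisation
  have hfac : ∀ D ∈ adm x n m, ∀ g : Cfg → ℝ, OutLoc D g →
      E c B (fun ω => if CutE D ω ∧ hullI x n m ω = D then g ω else 0) =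
        E c B (fun ω => if CutE D ω then g ω else 0) * I D := by
    intro D hD g hg
    obtain ⟨h1, h2, h3⟩ := mem_adm.1 hD
    rw [hI]
    simp only
    rw [← E_cutE hc (h1.trans hB) h2 hg]
    refine E_congr fun ω _ => ?_
    by_cases hcut : CutE D ω
    · rw [if_pos hcut, hullI_insL h3 hcut]
      by_cases hh : hullI x n m ω = D
      · rw [if_pos ⟨hcut, hh⟩, if_pos hh, mul_one]
      · rw [if_neg (fun h => hh h.2), if_neg hh, mul_zero]
    · rw [if_neg hcut, if_neg (fun h => hcut h.1)]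
  -- decomposition of the cut circuit event
  have hdec : Pr c B {ω | Circ (cutE ω) x n m} =
      ∑ D ∈ adm x n m, E c B (fun ω => if CutE D ω ∧ hullI x n m ω = D then (1 : ℝ) else 0) := by
    unfold Pr
    rw [← E_sum]
    refine E_congr' fun ω hω hok => ?_
    by_cases hcirc : Circ (cutE ω) x n m
    · obtain ⟨h1, h2, h3, h4⟩ := hullI_spec hn hcirc
      rw [if_pos (show ω ∈ {ω | Circ (cutE ω) x n m} from hcirc),
        Finset.sum_eq_single (hullI x n m ω)]
      · rw [if_pos ⟨h4, rfl⟩]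
      · intro D _ hD
        rw [if_neg (fun h => hD h.2.symm)]
      · intro h
        exact absurd (mem_adm.2 ⟨h3, h1, h2⟩) h
    · rw [if_neg (show ω ∉ {ω | Circ (cutE ω) x n m} from hcirc)]
      symm
      refine Finset.sum_eq_zero fun D hD => ?_
      rw [if_neg]
      rintro ⟨h5, _⟩
      obtain ⟨h1, h2, h3⟩ := mem_adm.1 hD
      apply hcirc
      refine circ_of_bd (D := (D : Set P2)) (by exact_mod_cast h3) (by exact_mod_cast h1) ?_
      intro e he
      exact h5 e (mem_bdE_iff_Bd.2 he)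
  -- lower bound of the minus circuit event
  have hlow : ∑ D ∈ adm x n m, E c B (fun ω => if CutE D ω ∧ hullI x n m ω = D then
        (if ¬ (4 : ℤ) ∣ level D ω then (1 : ℝ) else 0) else 0) ≤
      Pr c B {ω | Circ (minusE ω) x n m} := by
    unfold Pr
    rw [← E_sum]
    refine E_mono' hc fun ω hω hok => ?_
    by_cases hm : Circ (minusE ω) x n m
    · rw [if_pos (show ω ∈ {ω | Circ (minusE ω) x n m} from hm)]
      by_cases hmem : hullI x n m ω ∈ adm x n m
      · rw [Finset.sum_eq_single (hullI x n m ω)]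
        · split_ifs <;> norm_num
        · intro D _ hD
          rw [if_neg (fun h => hD h.2.symm)]
        · intro h
          exact absurd hmem h
      · rw [Finset.sum_eq_zero]
        · norm_num
        · intro D hD
          rw [if_neg]
          rintro ⟨_, h⟩
          exact hmem (h ▸ hD)
    · rw [if_neg (show ω ∉ {ω | Circ (minusE ω) x n m} from hm)]
      refine (Finset.sum_eq_zero fun D hD => ?_).le
      by_cases h1 : CutE D ω ∧ hullI x n m ω = D
      · rw [if_pos h1, if_neg]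
        intro h4
        obtain ⟨h5, h6, h7⟩ := mem_adm.1 hD
        exact hm (minus_of_level h6 h7 h5 hω.even hok h1.1 h4)
      · rw [if_neg h1]
  refine le_trans ?_ hlow
  rw [hdec, Finset.mul_sum]
  refine Finset.sum_le_sum fun D hD => ?_
  obtain ⟨h1, h2, h3⟩ := mem_adm.1 hD
  have hDne : D.Nonempty := by
    obtain ⟨f, hf⟩ := ball_nonempty x hn
    exact ⟨f, h3 (by simpa using hf)⟩
  rw [hfac D hD (fun _ => 1) (outLoc_const D 1),
    hfac D hD (fun ω => if ¬ (4 : ℤ) ∣ level D ω then (1 : ℝ) else 0)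
      ((outLoc_level_self D).comp (fun q => if ¬ (4 : ℤ) ∣ q then (1 : ℝ) else 0)), ← mul_assoc]
  refine mul_le_mul_of_nonneg_right ?_ (hI0 D)
  have h4 := hR D h2 h3 h1
  have e1 : Pr c B {ω | ∃ q, CutAt D q ω} =
      E c B (fun ω => if CutE D ω then (1 : ℝ) else 0) := by
    unfold Pr
    refine E_congr' fun ω hω hok => ?_
    simp only [Set.mem_setOf_eq, exists_cutAt_iff h2 hω.even hok]
  have e2 : Pr c B {ω | ∃ q, CutAt D q ω ∧ ¬ (4 : ℤ) ∣ q} =
      E c B (fun ω => if CutE D ω then (if ¬ (4 : ℤ) ∣ level D ω then (1 : ℝ) else 0) else 0) := by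
    unfold Pr
    refine E_congr' fun ω hω hok => ?_
    simp only [Set.mem_setOf_eq, exists_cutAt_iff' h2 hDne hω.even hok]
    by_cases h5 : CutE D ω <;> by_cases h6 : (4 : ℤ) ∣ level D ω <;> simp [h5, h6]
  rw [e1, e2] at h4
  exact h4

end Crest.Agent.R161.Blk696
end
end

-- ▼ part R161/Blk3_696

/-!
# Row 161, block E4 (helper696), part 3: uniform circuits and blocking

* `AtFk c` : comparison inequalities of the `(τ, ζ+, -ζ-)` representation (input, helper729);
* `RIn c P` : input (R) (helper770);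
* `CoreAt c n L q` : circuits of both signs at scale `n` have probability `≥ q` given everything off
  `ball x (L n)`;
* `core_of_R`, `unifCirc_of`, `lemU_of_unifCirc`, `blocking_of`.
-/

set_option autoImplicit false

noncomputable section

namespace Crest.Agent.R161.Blk696

open MeasureTheory
open Crest.Agent.R161.Geo729 Crest.Agent.R161.Defs372 Crest.Agent.R161.Dual374
open Crest.Agent.R161.Hull374 Crest.Agent.R161.Ifc372 Crest.Agent.R161.Dmp341
open Crest.Agent.R161.Ring421 Crest.Agent.R161.NuInv421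

/-- increasing in `ζ+`, decreasing in `ζ-` -/
def IncC (f : Cfg → ℝ) : Prop := ∀ ω ω' : Cfg, (∀ e, plusE ω e → plusE ω' e) →
  (∀ e, minusE ω' e → minusE ω e) → f ω ≤ f ω'

/-- `f` depends only on `(k mod 4, z)` inside `B` -/
def InTZ (B : Finset P2) (f : Cfg → ℝ) : Prop :=
  ∀ ω ω' : Cfg, (∀ v ∈ intVerts B, (4 : ℤ) ∣ ω.1 v - ω'.1 v) →
    (∀ e ∈ intEdges B, ω.2.2 e = ω'.2.2 e) → f ω = f ω'

/-- comparison inequalities (input from the FK representation) -/
structure AtFk (c : ℝ) : Prop where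
  low : ∀ F B : Finset P2, Dom F → Dom B → ∀ f g : Cfg → ℝ, IncC f → InTZ B f → (∀ ω, 0 ≤ g ω) →
    OffTZ B g → E c F g * E c B (fun ω => f (addH 2 ω)) ≤ E c F (fun ω => g ω * f ω)
  up : ∀ F B : Finset P2, Dom F → Dom B → B ⊆ F → ∀ f g : Cfg → ℝ, IncC f → InTZ B f →
    (∀ ω, 0 ≤ g ω) → OffTZ B g → E c F (fun ω => g ω * f ω) ≤ E c F g * E c B f

/-- circuits of both signs at scale `n`, uniformly given everything off `ball x (L n)` -/
def CoreAt (c : ℝ) (n L : ℕ) (q : ℝ) : Prop :=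
  ∀ F : Finset P2, Dom F → ∀ x : P2, ∀ g : Cfg → ℝ, (∀ ω, 0 ≤ g ω) → OffTZ (ball x (L * n)) g →
    q * E c F g ≤ E c F (fun ω => g ω * indP (fun ω => Circ (plusE ω) x n (2 * n)) ω) ∧
    (ball x (L * n) ⊆ F →
      q * E c F g ≤ E c F (fun ω => g ω * indP (fun ω => Circ (minusE ω) x n (2 * n)) ω))

/-- INPUT (R). -/
def RIn (c : ℝ) (P : Measure Cfg) : Prop :=
  ∀ c3 : ℝ, 0 < c3 → ∃ M r0 L : ℕ, 3 ≤ L ∧ ∀ n : ℕ, r0 ≤ n →
    (∀ t : ℕ, n ≤ t → t ≤ M * n → c3 ≤ ((nu P) (CircZ (0, 0) t (2 * t))).toReal) →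
      RAt c (ball (0, 0) (L * n)) (0, 0) n (2 * n) (1 / 3)

/-! ### basic facts about `Circ` as function of the configuration -/

theorem indP_nonneg (A : Cfg → Prop) (ω : Cfg) : 0 ≤ indP A ω := by
  unfold indP; split_ifs <;> norm_num

theorem indP_le_one (A : Cfg → Prop) (ω : Cfg) : indP A ω ≤ 1 := by
  unfold indP; split_ifs <;> norm_num

theorem indP_of {A : Cfg → Prop} {ω : Cfg} (h : A ω) : indP A ω = 1 := if_pos h
theorem indP_of_not {A : Cfg → Prop} {ω : Cfg} (h : ¬ A ω) : indP A ω = 0 := if_neg h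

theorem indP_mono {A B : Cfg → Prop} {ω ω' : Cfg} (h : A ω → B ω') : indP A ω ≤ indP B ω' := by
  by_cases hA : A ω
  · rw [indP_of hA, indP_of (h hA)]
  · rw [indP_of_not hA]; exact indP_nonneg _ _

theorem indP_congr {A B : Cfg → Prop} {ω ω' : Cfg} (h : A ω ↔ B ω') : indP A ω = indP B ω' :=
  le_antisymm (indP_mono h.1) (indP_mono h.2)

theorem Pr_eq (c : ℝ) (F : Finset P2) (A : Cfg → Prop) : Pr c F {ω | A ω} = E c F (indP A) := by
  classical
  unfold Pr
  refine E_congr fun ω _ => ?_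
  unfold indP
  by_cases h : A ω
  · rw [if_pos h]; exact if_pos h
  · rw [if_neg h]; exact if_neg h

/-- the sign of a cut edge -/
def SE (s : Bool) (ω : Cfg) : Edge → Prop := if s then plusE ω else minusE ω

theorem SE_true (ω : Cfg) : SE true ω = plusE ω := rfl
theorem SE_false (ω : Cfg) : SE false ω = minusE ω := rfl

theorem SE_congr {s : Bool} {ω ω' : Cfg} {e : Edge} (h1 : (4 : ℤ) ∣ ω.1 (src e) - ω'.1 (src e))
    (h2 : ω.2.2 e = ω'.2.2 e) : SE s ω e ↔ SE s ω' e := by
  have h3 : (4 : ℤ) ∣ ω.1 (src e) ↔ (4 : ℤ) ∣ ω'.1 (src e) := by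
    constructor <;> intro h <;> omega
  cases s
  · simp only [SE_false, minusE, h2, h3]
  · simp only [SE_true, plusE, h2, h3]

theorem inner_of_bord {x : P2} {m : ℕ} {e : Edge} (h : fA e ∈ ball x m ∨ fB e ∈ ball x m) :
    e ∈ intEdges (ball x (m + 1)) ∧ src e ∈ intVerts (ball x (m + 1)) := by
  obtain ⟨⟨a, b⟩, s⟩ := e
  obtain ⟨x1, x2⟩ := x
  rw [mem_intEdges, mem_intVerts]
  cases s <;> simp only [mem_ball, fA_mk, fB_h, fB_v, src_mk, IntV, Finset.mem_coe] at h ⊢ <;>
    push_cast <;> omega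

theorem circ_inTZ {s : Bool} {x : P2} {n m : ℕ} {B : Finset P2} (hB : ball x (m + 1) ⊆ B)
    {ω ω' : Cfg} (h1 : ∀ v ∈ intVerts B, (4 : ℤ) ∣ ω.1 v - ω'.1 v)
    (h2 : ∀ e ∈ intEdges B, ω.2.2 e = ω'.2.2 e) :
    Circ (SE s ω) x n m ↔ Circ (SE s ω') x n m := by
  refine reach_subset_iff fun e he => ?_
  obtain ⟨h3, h4⟩ := inner_of_bord (x := x) (m := m) (by simpa using he)
  exact SE_congr (h1 _ (intVerts_mono hB h4)) (h2 e (intEdges_mono hB h3))

/-- `Circ` does not depend on the edges inside the inner ball. -/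
theorem circ_of_agree {Z Z' : Edge → Prop} {x : P2} {n m : ℕ}
    (h : ∀ e, ¬ (fA e ∈ ball x n ∧ fB e ∈ ball x n) → Z e → Z' e) (hc : Circ Z x n m) :
    Circ Z' x n m := by
  refine Set.Subset.trans ?_ hc
  refine reach_subset (subset_reach _ _) ?_
  rintro f g hf ⟨e, he, h3⟩
  by_cases hin : fA e ∈ ball x n ∧ fB e ∈ ball x n
  · apply subset_reach
    rcases h3 with ⟨_, h4⟩ | ⟨_, h4⟩
    · rw [h4]; exact_mod_cast hin.2
    · rw [h4]; exact_mod_cast hin.1
  · exact reach_step hf ⟨e, fun hz => he (h e hin hz), h3⟩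

theorem circ_offTZ {s : Bool} {x : P2} {n m : ℕ} {B : Finset P2} (hB : B ⊆ ball x n)
    {ω ω' : Cfg} (h1 : ∀ v, v ∉ intVerts B → (4 : ℤ) ∣ ω.1 v - ω'.1 v)
    (h2 : ∀ e, e ∉ intEdges B → ω.2.2 e = ω'.2.2 e) :
    Circ (SE s ω) x n m ↔ Circ (SE s ω') x n m := by
  have key : ∀ e, ¬ (fA e ∈ ball x n ∧ fB e ∈ ball x n) → (SE s ω e ↔ SE s ω' e) := by
    intro e he
    have h3 : e ∉ intEdges B := fun h => he (mem_intEdges.1 (intEdges_mono hB h))
    exact SE_congr (h1 _ (not_int_of_not_intEdges h3).1) (h2 e h3)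
  exact ⟨circ_of_agree fun e he => (key e he).1, circ_of_agree fun e he => (key e he).2⟩

theorem plusE_addH_two {ω : Cfg} (he : ∀ v, Even (ω.1 v)) (e : Edge) :
    plusE (addH 2 ω) e ↔ minusE ω e := by
  simp only [plusE, minusE, addH]
  have h := he (src e)
  obtain ⟨r, hr⟩ := h
  have : (4 : ℤ) ∣ ω.1 (src e) + 2 ↔ ¬ (4 : ℤ) ∣ ω.1 (src e) := by omega
  rw [this]


theorem circ_congr_all {Z Z' : Edge → Prop} {x : P2} {n m : ℕ} (h : ∀ e, Z e ↔ Z' e) :
    Circ Z x n m ↔ Circ Z' x n m :=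
  ⟨circ_mono fun e => (h e).1, circ_mono fun e => (h e).2⟩

/-! ### translations -/

theorem circ_shift {Z : Edge → Prop} (a x : P2) (n m : ℕ) :
    Circ (fun e => Z (e.1 + a, e.2)) x n m ↔ Circ Z (x + a) n m := by
  unfold Circ
  constructor
  · intro h f hf
    have h1 : f - a ∈ Reach (fun e => Z (e.1 + a, e.2)) (ball x n : Set P2) := by
      refine (reach_shift (Z := Z) a (ball x n : Set P2) (f - a)).2 ?_
      rw [image_ball]
      simpa using hf
    have h2 := h h1
    have := (ball_shift x a (f - a) m).2 h2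
    simpa using this
  · intro h f hf
    have h1 := (reach_shift (Z := Z) a (ball x n : Set P2) f).1 hf
    rw [image_ball] at h1
    exact (ball_shift x a f m).1 (h h1)

theorem tr_img_ball (a : P2) (m : ℕ) : (Aut373.Aut.tr a).img (ball (0, 0) m) = ball a m := by
  ext f
  rw [Aut373.Aut.mem_img']
  have h1 : (Aut373.Aut.tr a).Fc.symm f = f - a := by
    show (Equiv.addRight a).symm f = f - a
    simp [sub_eq_add_neg]
  rw [h1]
  have h2 := ball_shift (0, 0) a (f - a) m
  have e1 : f - a + a = f := by simp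
  have e2 : ((0, 0) : P2) + a = a := by
    obtain ⟨a1, a2⟩ := a
    simp
  rw [e1, e2] at h2
  exact h2.symm

theorem E_trans_minus {c : ℝ} (a : P2) (m n k : ℕ) :
    E c (ball a m) (indP (fun ω => Circ (minusE ω) a n k)) =
      E c (ball (0, 0) m) (indP (fun ω => Circ (minusE ω) (0, 0) n k)) := by
  rw [(Aut373.Aut.tr a).E_aut c (ball (0, 0) m), tr_img_ball]
  refine E_congr fun ω _ => ?_
  rw [Aut373.Aut.tr_cfg]
  refine indP_congr ?_
  have h1 : ∀ e : Edge, minusE (Defs372.trans a ω) e ↔ minusE ω (e.1 + a, e.2) := by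
    intro e
    simp only [minusE, Defs372.trans, src]
  have h2 := circ_shift (Z := minusE ω) a (0, 0) n k
  have e2 : ((0, 0) : P2) + a = a := by
    obtain ⟨a1, a2⟩ := a
    simp
  rw [e2] at h2
  rw [← h2]
  exact circ_congr_all fun e => (h1 e).symm

/-! ### the core estimate -/

theorem core_of_minus {c : ℝ} (hc : 1 ≤ c) (A : AtFk c) {n L : ℕ} (hn : 1 ≤ n) (hL : 3 ≤ L) {q : ℝ}
    (hq : q ≤ Pr c (ball (0, 0) (L * n)) {ω | Circ (minusE ω) (0, 0) n (2 * n)}) :
    CoreAt c n L q := by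
  intro F hF x g hg0 hg
  have hq' : q ≤ E c (ball x (L * n)) (indP (fun ω => Circ (minusE ω) x n (2 * n))) := by
    rw [E_trans_minus, ← Pr_eq]
    exact hq
  have hsub : ball x (2 * n + 1) ⊆ ball x (L * n) := by
    apply ball_subset
    nlinarith
  have h0 : 0 ≤ E c F g := E_nonneg hc fun ω _ => hg0 ω
  constructor
  · have h := A.low F (ball x (L * n)) hF (dom_ball x _)
      (indP (fun ω => Circ (plusE ω) x n (2 * n))) g
      (fun ω ω' h1 _ => indP_mono (circ_mono h1))
      (fun ω ω' h1 h2 => indP_congr (circ_inTZ (s := true) hsub h1 h2)) hg0 hg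
    have h1 : E c (ball x (L * n)) (fun ω => indP (fun ω => Circ (plusE ω) x n (2 * n)) (addH 2 ω)) =
        E c (ball x (L * n)) (indP (fun ω => Circ (minusE ω) x n (2 * n))) := by
      refine E_congr fun ω hω => indP_congr ?_
      exact circ_congr_all (plusE_addH_two hω.even)
    rw [h1] at h
    calc q * E c F g ≤ E c (ball x (L * n)) (indP (fun ω => Circ (minusE ω) x n (2 * n))) * E c F g :=
          mul_le_mul_of_nonneg_right hq' h0
      _ = E c F g * E c (ball x (L * n)) (indP (fun ω => Circ (minusE ω) x n (2 * n))) := mul_comm _ _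
      _ ≤ _ := h
  · intro hBF
    have h := A.up F (ball x (L * n)) hF (dom_ball x _) hBF
      (fun ω => 1 - indP (fun ω => Circ (minusE ω) x n (2 * n)) ω) g
      (fun ω ω' _ h2 => sub_le_sub_left (indP_mono (circ_mono h2)) 1)
      (fun ω ω' h1 h2 => by
        have h3 : indP (fun ω => Circ (minusE ω) x n (2 * n)) ω =
            indP (fun ω => Circ (minusE ω) x n (2 * n)) ω' :=
          indP_congr (circ_inTZ (s := false) hsub h1 h2)
        simp only [h3]) hg0 hg
    have e1 : E c F (fun ω => g ω * (1 - indP (fun ω => Circ (minusE ω) x n (2 * n)) ω)) =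
        E c F g - E c F (fun ω => g ω * indP (fun ω => Circ (minusE ω) x n (2 * n)) ω) := by
      rw [← E_sub]
      refine E_congr fun ω _ => by ring
    have e2 : E c (ball x (L * n)) (fun ω => 1 - indP (fun ω => Circ (minusE ω) x n (2 * n)) ω) =
        1 - E c (ball x (L * n)) (indP (fun ω => Circ (minusE ω) x n (2 * n))) := by
      rw [E_sub, E_const hc]
    rw [e1, e2] at h
    have h3 : q * E c F g ≤ E c (ball x (L * n)) (indP (fun ω => Circ (minusE ω) x n (2 * n))) *
        E c F g := mul_le_mul_of_nonneg_right hq' h0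
    nlinarith

/-! ### iteration over nested scales -/

/-- Conditional lower bound for circuits of sign `s` at scale `m`, given everything off
`ball x R`. -/
def Step (c : ℝ) (F : Finset P2) (x : P2) (s : Bool) (m R : ℕ) (q : ℝ) : Prop :=
  ∀ g : Cfg → ℝ, (∀ ω, 0 ≤ g ω) → OffTZ (ball x R) g →
    q * E c F g ≤ E c F (fun ω => g ω * indP (fun ω => Circ (SE s ω) x m (2 * m)) ω)

theorem iter {c : ℝ} (hc : 1 ≤ c) {F : Finset P2} {x : P2} {s : Bool} {q : ℝ} (hq : q ≤ 1)
    (J : ℕ) : ∀ (m R : ℕ → ℕ), (∀ j, R j ≤ m (j + 1)) → (∀ j, m j ≤ m (j + 1)) →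
      (∀ j, j < J → Step c F x s (m j) (R j) q) →
      E c F (indP (fun ω => ∀ j, j < J → ¬ Circ (SE s ω) x (m j) (2 * m j))) ≤ (1 - q) ^ J := by
  induction J with
  | zero =>
    intro m R _ _ _
    rw [pow_zero]
    refine (E_mono hc (g := fun _ => 1) fun ω _ => indP_le_one _ _).trans ?_
    rw [E_const hc]
  | succ J ih =>
    intro m R h1 h2 h3
    have hmono : Monotone m := monotone_nat_of_le_succ h2
    set g : Cfg → ℝ := indP (fun ω => ∀ j, j < J → ¬ Circ (SE s ω) x (m (j + 1)) (2 * m (j + 1)))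
      with hg
    have hoff : OffTZ (ball x (R 0)) g := by
      intro ω ω' hv he
      refine indP_congr ?_
      refine forall₂_congr fun j _ => ?_
      rw [circ_offTZ (s := s) (x := x) (n := m (j + 1)) (m := 2 * m (j + 1))
        (ball_subset ((h1 0).trans (hmono (by omega)))) hv he]
    have hs := h3 0 (by omega) g (fun ω => indP_nonneg _ ω) hoff
    have hih := ih (fun j => m (j + 1)) (fun j => R (j + 1)) (fun j => h1 _) (fun j => h2 _)
      (fun j hj => h3 (j + 1) (by omega))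
    have hdec : E c F (indP (fun ω => ∀ j, j < J + 1 → ¬ Circ (SE s ω) x (m j) (2 * m j))) =
        E c F g - E c F (fun ω => g ω * indP (fun ω => Circ (SE s ω) x (m 0) (2 * m 0)) ω) := by
      rw [← E_sub]
      refine E_congr fun ω _ => ?_
      have hiff : (∀ j, j < J + 1 → ¬ Circ (SE s ω) x (m j) (2 * m j)) ↔
          (¬ Circ (SE s ω) x (m 0) (2 * m 0)) ∧
            ∀ j, j < J → ¬ Circ (SE s ω) x (m (j + 1)) (2 * m (j + 1)) := by
        constructor
        · intro h
          exact ⟨h 0 (by omega), fun j hj => h (j + 1) (by omega)⟩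
        · rintro ⟨h0, h⟩ j hj
          cases j with
          | zero => exact h0
          | succ j => exact h j (by omega)
      by_cases hC : Circ (SE s ω) x (m 0) (2 * m 0)
      · rw [indP_of_not (fun h => (hiff.1 h).1 hC),
          indP_of (A := fun ω => Circ (SE s ω) x (m 0) (2 * m 0)) hC]
        ring
      · rw [indP_of_not (A := fun ω => Circ (SE s ω) x (m 0) (2 * m 0)) hC, mul_zero, sub_zero, hg]
        refine indP_congr ?_
        rw [hiff]
        exact ⟨fun h => h.2, fun h => ⟨hC, h⟩⟩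
    rw [hdec, pow_succ]
    have hEg : E c F g ≤ (1 - q) ^ J := hih
    nlinarith [mul_le_mul_of_nonneg_right hEg (sub_nonneg.2 hq)]

/-! ### `UnifCirc → LemU` -/

theorem q_le_one {c : ℝ} (hc : 1 ≤ c) {F : Finset P2} {x : P2} {s : Bool} {m R : ℕ} {q : ℝ}
    (h : Step c F x s m R q) : q ≤ 1 := by
  have h1 := h (fun _ => 1) (fun _ => zero_le_one) (fun _ _ _ _ => rfl)
  rw [E_const hc, mul_one] at h1
  refine h1.trans ?_
  refine (E_mono hc (g := fun _ => 1) fun ω _ => ?_).trans (E_const hc F 1).le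
  rw [one_mul]
  exact indP_le_one _ _

theorem exists_pow_le {q ε : ℝ} (hq0 : 0 < q) (hε : 0 < ε) : ∃ J : ℕ, q ≤ 1 → (1 - q) ^ J ≤ ε := by
  by_cases h1 : q ≤ 1
  · obtain ⟨J, hJ⟩ := exists_pow_lt_of_lt_one hε (show 1 - q < 1 by linarith)
    exact ⟨J, fun _ => hJ.le⟩
  · exact ⟨0, fun h => absurd h h1⟩

theorem lemU_of_unifCirc {c : ℝ} (hc : 1 ≤ c) (h : UnifCirc c) : LemU c := by
  obtain ⟨q, n0, L, hq, hL, h⟩ := h
  intro ε hε
  obtain ⟨J, hJ⟩ := exists_pow_le hq hε
  refine ⟨J, n0, L, hL, fun F hF x n hn => ?_⟩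
  have hLpos : 1 ≤ L := by omega
  have hscale : ∀ j, n0 ≤ L ^ j * n := fun j =>
    hn.trans (Nat.le_mul_of_pos_left n (Nat.pos_of_ne_zero (by positivity)))
  have hstep : ∀ j, Step c F x true (L ^ j * n) (L * (L ^ j * n)) q := by
    intro j g hg0 hg
    exact (h F hF x (L ^ j * n) (hscale j) g hg0 hg).1
  have hq1 := q_le_one hc (hstep 0)
  have := iter hc hq1 J (fun j => L ^ j * n) (fun j => L * (L ^ j * n))
    (fun j => by
      rw [pow_succ]
      exact le_of_eq (by ring))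
    (fun j => by
      rw [pow_succ]
      nlinarith [Nat.zero_le (L ^ j * n)])
    (fun j _ => hstep j)
  exact this.trans (hJ hq1)

/-! ### from the plane state to finite domains -/

theorem E_one {c : ℝ} (hc : 1 ≤ c) (F : Finset P2) : E c F (fun _ => 1) = 1 := E_const hc F 1

open Classical in
/-- The symmetrised indicator of an event of the plus-cut percolation, in finite volume. -/
theorem E_GA {c : ℝ} (F : Finset P2) (A : Set (Edge → Bool)) :
    E c F (GA A) = (E c F (indP (fun ω => plusMap ω ∈ A)) +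
      E c F (indP (fun ω => plusMap (addH 2 ω) ∈ A))) / 2 := by
  rw [← E_add, div_eq_inv_mul, ← E_smul]
  refine E_congr fun ω _ => ?_
  unfold GA indP
  ring

theorem plusMap_true (ω : Cfg) (e : Edge) : plusMap ω e = true ↔ plusE ω e := by
  unfold plusMap
  simp

theorem mem_circZ_plus {ω : Cfg} {x : P2} {n m : ℕ} :
    plusMap ω ∈ CircZ x n m ↔ Circ (SE true ω) x n m :=
  circ_congr_all fun e => plusMap_true ω e


theorem nu_le_plus {c : ℝ} (hc : 1 ≤ c) (A : AtFk c) {P : Measure Cfg} (hP : IsState c P)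
    {B : Finset P2} (hB : Dom B) {n m : ℕ} (hm : ball (0, 0) (m + 1) ⊆ B) :
    (nu P).real (CircZ (0, 0) n m) ≤ Pr c B {ω | Circ (plusE ω) (0, 0) n m} := by
  have := hP.prob
  refine le_of_forall_pos_lt_add fun ε hε => ?_
  have hloc := loc_GA (locOn_circZ (0, 0) n m)
  obtain ⟨N, hN⟩ := Aut373.lim_neut hP hloc (neut_GA _) hε
  obtain ⟨N', hN'⟩ := Dmp341.exists_box (box N ∪ B)
  have hF := Dmp341.dom_box N'
  have h1 := hN (box N') hF (Finset.union_subset_left hN')
  rw [← nu_real (measurableSet_circZ _ _ _)] at h1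
  have hBF : B ⊆ box N' := Finset.union_subset_right hN'
  set f : Cfg → ℝ := indP (fun ω => Circ (plusE ω) (0, 0) n m) with hf
  have hinc : IncC f := fun ω ω' h1 _ => indP_mono (circ_mono h1)
  have hin : ∀ B' : Finset P2, ball (0, 0) (m + 1) ⊆ B' → InTZ B' f := fun B' hB' ω ω' h1 h2 =>
    indP_congr (circ_inTZ (s := true) hB' h1 h2)
  -- minus circuits are less likely than plus circuits
  have h2 : E c (box N') (indP (fun ω => plusMap (addH 2 ω) ∈ CircZ (0, 0) n m)) ≤
      E c (box N') f := by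
    have h := A.low (box N') (box N') hF hF f (fun _ => 1) hinc (hin _ (hm.trans hBF))
      (fun _ => zero_le_one) (fun _ _ _ _ => rfl)
    rw [E_one hc, one_mul] at h
    simp only [one_mul] at h
    refine le_trans (le_of_eq ?_) h
    refine E_congr fun ω hω => indP_congr ?_
    exact circ_congr_all fun e => plusMap_true _ e
  have h3 : E c (box N') f ≤ E c B f := by
    have h := A.up (box N') B hF hB hBF f (fun _ => 1) hinc (hin _ hm)
      (fun _ => zero_le_one) (fun _ _ _ _ => rfl)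
    rw [E_one hc, one_mul] at h
    simp only [one_mul] at h
    exact h
  have h4 : E c (box N') (indP (fun ω => plusMap ω ∈ CircZ (0, 0) n m)) = E c (box N') f :=
    E_congr fun ω _ => indP_congr mem_circZ_plus
  rw [E_GA, h4] at h1
  rw [Pr_eq]
  have h5 := abs_lt.1 h1
  linarith [h5.1]

/-- **From (R) to the core estimate at one scale.** -/
theorem core_of_R {c : ℝ} (hc : 1 ≤ c) (A : AtFk c) {P : Measure Cfg} (hP : IsState c P)
    {n L : ℕ} (hn : 1 ≤ n) (hL : 3 ≤ L) {a c3 : ℝ} (ha : 0 ≤ a)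
    (hR : RAt c (ball (0, 0) (L * n)) (0, 0) n (2 * n) a)
    (hc3 : c3 ≤ (nu P).real (CircZ (0, 0) n (2 * n))) : CoreAt c n L (a * c3) := by
  have hsub : ball ((0, 0) : P2) (2 * n + 1) ⊆ ball (0, 0) (L * n) := by
    apply ball_subset
    nlinarith
  refine core_of_minus hc A hn hL ?_
  have h1 := minus_of_R hc hn ((ball_subset (Nat.le_succ _)).trans hsub) hR
  have h2 := nu_le_plus hc A hP (dom_ball (0, 0) (L * n)) (n := n) (m := 2 * n) hsub
  have h3 : Pr c (ball (0, 0) (L * n)) {ω | Circ (plusE ω) (0, 0) n (2 * n)} ≤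
      Pr c (ball (0, 0) (L * n)) {ω | Circ (cutE ω) (0, 0) n (2 * n)} :=
    Pr_mono' hc fun ω _ _ h => circ_mono (fun e he => he.1) h
  calc a * c3 ≤ a * Pr c (ball (0, 0) (L * n)) {ω | Circ (cutE ω) (0, 0) n (2 * n)} :=
        mul_le_mul_of_nonneg_left (hc3.trans (h2.trans h3)) ha
    _ ≤ _ := h1

/-- **Uniform circuits** from (R) and RSW. -/
theorem unifCirc_of {c : ℝ} (hc : 1 ≤ c) (A : AtFk c) {P : Measure Cfg} (hP : IsState c P)
    (hR : RIn c P) (hrsw : RSWc (nu P)) : UnifCirc c := by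
  obtain ⟨c3, n0, hc3, h3⟩ := hrsw
  obtain ⟨M, r0, L, hL, hRL⟩ := hR c3 hc3
  refine ⟨1 / 3 * c3, max 1 (max n0 r0), L, by positivity, by omega, fun F hF x n hn => ?_⟩
  have h1 : 1 ≤ n := (le_max_left _ _).trans hn
  have h2 : n0 ≤ n := (le_max_left _ _).trans ((le_max_right _ _).trans hn)
  have h4 : r0 ≤ n := (le_max_right _ _).trans ((le_max_right _ _).trans hn)
  have hcore := core_of_R hc A hP h1 hL (by norm_num)
    (hRL n h4 fun t ht _ => h3 t (h2.trans ht)) (h3 n h2)
  exact hcore F hF x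


end Crest.Agent.R161.Blk696
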