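import Crest.Agent.R161.Asm2_695
import Crest.Agent.R161.Dmp2_341
import Crest.Agent.R161.Aut_373

/-!
R161, block I (helper695): mixtures of zero boundary condition laws from a ring event.

* `state_cutE_neut` : domain Markov property of the gradient state for outside observables which are
  neutral (invariant under even shifts of the heights).
* `sym F ω = F ω + F (addH 2 ω)`.
* `RingEv A W Din Dout S` : abstract ring event `A` with random domain `W`.
* `mixture` : from a ring event of positive probability, with `Din ⊆ W` up to a small conditional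
  probability, one gets a mixture of zero boundary condition laws.
-/

set_option autoImplicit false

noncomputable section

namespace Crest.Agent.R161.Mix695

open Finset MeasureTheory
open Crest.Agent.R161.Geo729 Crest.Agent.R161.Defs372 Crest.Agent.R161.Dmp341
open Crest.Agent.R161.Aut373 (Neut Par valid_par loc_integrable loc_measurable)

/-! ### domain Markov property for neutral observables -/

open Classical in
theorem state_cutE_neut {c : ℝ} (hc : 1 ≤ c) {P : Measure Cfg} (hP : IsState c P) {D : Finset P2}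
    (hD : Dom D) {S : Finset P2} {g : Cfg → ℝ} (f : Cfg → ℝ) (hg : OutLoc D g)
    (hloc : Loc (S : Set P2) g) (hn : Neut g) (hcut : ∀ ω, g ω ≠ 0 → CutE D ω) :
    ∫ ω, g ω * f (insL D ω) ∂P = (∫ ω, g ω ∂P) * E c D f := by
  obtain ⟨n₀, hn₀⟩ := Dmp341.exists_box D
  rw [← integral_mul_const]
  refine IsState.congr hP (S := S ∪ hullSites D) (n₀ := n₀) ?_ ?_ ?_
  · intro ω ω' h
    have h1 : AgreeOn (S : Set P2) ω ω' := fun v hv => h v (by simp [Finset.mem_coe.1 hv])
    have h2 : AgreeOn (hullSites D : Set P2) ω ω' := fun v hv => h v (by simp [Finset.mem_coe.1 hv])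
    simp only [loc_insL D ω ω' h2, hloc ω ω' h1]
  · intro ω ω' h
    have h1 : AgreeOn (S : Set P2) ω ω' := fun v hv => h v (by simp [Finset.mem_coe.1 hv])
    simp only [hloc ω ω' h1]
  · intro F _ hFn
    have e1 : ∀ ω, Valid F ω → g (Defs372.norm0 ω) = g ω := fun ω hω => hn.norm0 (valid_par hω)
    have e5 : ∀ ω, insL D (Defs372.norm0 ω) = insL D ω := fun ω => insL_addH D _ ω
    have h := E_cutE hc (hn₀.trans hFn) hD hg (f := f)
    have h1 : E c F (fun ω => g (Defs372.norm0 ω) * f (insL D (Defs372.norm0 ω))) =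
        E c F (fun ω => if CutE D ω then g ω * f (insL D ω) else 0) := by
      refine E_congr fun ω hω => ?_
      rw [e1 ω hω, e5]
      split_ifs with hh
      · rfl
      · have : g ω = 0 := by
          by_contra h0
          exact hh (hcut ω h0)
        rw [this, zero_mul]
    have h2 : E c F (fun ω => g (Defs372.norm0 ω) * E c D f) =
        E c F (fun ω => if CutE D ω then g ω else 0) * E c D f := by
      rw [mul_comm, ← E_smul]
      refine E_congr fun ω hω => ?_
      rw [e1 ω hω, mul_comm]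
      split_ifs with hh
      · rfl
      · have : g ω = 0 := by
          by_contra h0
          exact hh (hcut ω h0)
        rw [this]
    rw [h1, h2, h]

/-! ### symmetrisation -/

/-- symmetrised functional -/
def sym (F : Cfg → ℝ) (ω : Cfg) : ℝ := F ω + F (addH 2 ω)

/-- 4-periodic functionals -/
def Per4 {α : Type*} (F : Cfg → α) : Prop := ∀ (ω : Cfg) (k : ℤ), F (addH (4 * k) ω) = F ω

theorem addH_addH (a b : ℤ) (ω : Cfg) : addH a (addH b ω) = addH (a + b) ω := by
  simp only [addH, add_assoc, add_comm a b]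

theorem neut_sym {F : Cfg → ℝ} (hF : Per4 F) : Neut (sym F) := by
  intro ω _ a ha
  obtain ⟨b, rfl⟩ := ha
  unfold sym
  rcases Int.even_or_odd' b with ⟨k, rfl | rfl⟩
  · have e1 : F (addH (2 * k + 2 * k) ω) = F ω := by
      rw [show 2 * k + 2 * k = 4 * k by ring]; exact hF _ _
    have e2 : F (addH 2 (addH (2 * k + 2 * k) ω)) = F (addH 2 ω) := by
      rw [addH_addH, show 2 + (2 * k + 2 * k) = 4 * k + 2 by ring, ← addH_addH]; exact hF _ _
    rw [e1, e2]
  · have e1 : F (addH (2 * k + 1 + (2 * k + 1)) ω) = F (addH 2 ω) := by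
      rw [show 2 * k + 1 + (2 * k + 1) = 4 * k + 2 by ring, ← addH_addH]; exact hF _ _
    have e2 : F (addH 2 (addH (2 * k + 1 + (2 * k + 1)) ω)) = F ω := by
      rw [addH_addH, show 2 + (2 * k + 1 + (2 * k + 1)) = 4 * (k + 1) by ring]; exact hF _ _
    rw [e1, e2, add_comm]

theorem agreeOn_addH {S : Set P2} {ω ω' : Cfg} (h : AgreeOn S ω ω') (a : ℤ) :
    AgreeOn S (addH a ω) (addH a ω') := fun v hv => by
  obtain ⟨h1, h2, h3⟩ := h v hv
  exact ⟨by simp [addH, h1], by simp [addH, h2], h3⟩

theorem loc_sym {S : Set P2} {F : Cfg → ℝ} (hF : Loc S F) : Loc S (sym F) := fun ω ω' h => by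
  unfold sym
  rw [hF ω ω' h, hF _ _ (agreeOn_addH h 2)]

theorem outLoc_sym {D : Finset P2} {F : Cfg → ℝ} (hF : OutLoc D F) : OutLoc D (sym F) := by
  intro ω ω' h1 h2 h3
  unfold sym
  rw [hF ω ω' h1 h2 h3, hF (addH 2 ω) (addH 2 ω')
    (fun v hv => by simp [addH, h1 v hv]) (fun v hv => by simp [addH, h2 v hv]) h3]

theorem sym_nonneg {F : Cfg → ℝ} (hF : ∀ ω, 0 ≤ F ω) (ω : Cfg) : 0 ≤ sym F ω :=
  add_nonneg (hF _) (hF _)


/-! ### ring events -/

open Classical in
/-- indicator -/
def ind (A : Cfg → Prop) (ω : Cfg) : ℝ := if A ω then 1 else 0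

theorem ind_nonneg (A : Cfg → Prop) (ω : Cfg) : 0 ≤ ind A ω := by
  unfold ind; split_ifs <;> norm_num

theorem ind_le_one (A : Cfg → Prop) (ω : Cfg) : ind A ω ≤ 1 := by
  unfold ind; split_ifs <;> norm_num

theorem ind_of {A : Cfg → Prop} {ω : Cfg} (h : A ω) : ind A ω = 1 := if_pos h
theorem ind_of_not {A : Cfg → Prop} {ω : Cfg} (h : ¬ A ω) : ind A ω = 0 := if_neg h

theorem loc_ind {S : Set P2} {A : Cfg → Prop} (hA : Loc S A) : Loc S (ind A) := fun ω ω' h => by
  unfold ind
  rw [hA ω ω' h]

theorem outLoc_ind {D : Finset P2} {A : Cfg → Prop} (hA : OutLoc D A) : OutLoc D (ind A) :=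
  fun ω ω' h1 h2 h3 => by
    unfold ind
    rw [hA ω ω' h1 h2 h3]

theorem per4_ind {A : Cfg → Prop} (hA : Per4 A) : Per4 (ind A) := fun ω k => by
  unfold ind
  rw [hA ω k]

/-- Abstract ring event `A` with random domain `W`; `Din` and `Dout` are deterministic bounds. -/
structure RingEv (A : Cfg → Prop) (W : Cfg → Set P2) (Din Dout S : Finset P2) : Prop where
  locA : Loc (S : Set P2) A
  sub : ∀ ω, A ω → (Din : Set P2) ⊆ W ω → W ω ⊆ Dout
  dom : ∀ D : Finset P2, ∀ ω, A ω → (Din : Set P2) ⊆ W ω → W ω = D → Dom D ∧ CutE D ω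
  locD : ∀ D : Finset P2, Din ⊆ D → D ⊆ Dout →
    Loc (S : Set P2) (fun ω => A ω ∧ W ω = (D : Set P2))
  perD : ∀ D : Finset P2, Din ⊆ D → D ⊆ Dout → Per4 (fun ω => A ω ∧ W ω = (D : Set P2))
  out : ∀ D : Finset P2, Din ⊆ D → D ⊆ Dout → OutLoc D (fun ω => A ω ∧ W ω = (D : Set P2))

/-- construction from a local periodic pair `A`, `W` -/
theorem RingEv.of_loc {A : Cfg → Prop} {W : Cfg → Set P2} {Din Dout S : Finset P2}
    (perA : Per4 A) (perW : Per4 W) (locA : Loc (S : Set P2) A) (locW : Loc (S : Set P2) W)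
    (sub : ∀ ω, A ω → (Din : Set P2) ⊆ W ω → W ω ⊆ Dout)
    (dom : ∀ D : Finset P2, ∀ ω, A ω → (Din : Set P2) ⊆ W ω → W ω = D → Dom D ∧ CutE D ω)
    (out : ∀ D : Finset P2, Din ⊆ D → D ⊆ Dout →
      OutLoc D (fun ω => A ω ∧ W ω = (D : Set P2))) : RingEv A W Din Dout S where
  locA := locA
  sub := sub
  dom := dom
  locD := fun D _ _ ω ω' hag => by simp only [locA ω ω' hag, locW ω ω' hag]
  perD := fun D _ _ ω k => by simp only [perA ω k, perW ω k]
  out := out

/-- the event that the ring is good: `A` and `Din ⊆ W` -/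
def good (A : Cfg → Prop) (W : Cfg → Set P2) (Din : Finset P2) (ω : Cfg) : Prop :=
  A ω ∧ (Din : Set P2) ⊆ W ω

/-- the event that the ring is bad: `A` and not `Din ⊆ W` -/
def bad (A : Cfg → Prop) (W : Cfg → Set P2) (Din : Finset P2) (ω : Cfg) : Prop :=
  A ω ∧ ¬ (Din : Set P2) ⊆ W ω

theorem ind_good_add_bad (A : Cfg → Prop) (W : Cfg → Set P2) (Din : Finset P2) (ω : Cfg) :
    ind (good A W Din) ω + ind (bad A W Din) ω = ind A ω := by
  unfold ind good bad
  by_cases h1 : A ω <;> by_cases h2 : (Din : Set P2) ⊆ W ω <;> simp [h1, h2]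

section mixture

variable {A : Cfg → Prop} {W : Cfg → Set P2} {Din Dout S : Finset P2}

open Classical in
/-- the possible domains -/
def Idx (Din Dout : Finset P2) : Finset (Finset P2) :=
  Dout.powerset.filter fun D => Din ⊆ D ∧ Dom D

theorem mem_Idx {Din Dout D : Finset P2} : D ∈ Idx Din Dout ↔ D ⊆ Dout ∧ Din ⊆ D ∧ Dom D := by
  simp [Idx]

theorem RingEv.sum_ind (h : RingEv A W Din Dout S) (ω : Cfg) :
    ∑ D ∈ Idx Din Dout, ind (fun ω => A ω ∧ W ω = (D : Set P2)) ω = ind (good A W Din) ω := by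
  classical
  by_cases hg : good A W Din ω
  · rw [ind_of hg]
    have hfin : (W ω).Finite := Dout.finite_toSet.subset (h.sub ω hg.1 hg.2)
    set D0 : Finset P2 := hfin.toFinset with hD0
    have hD0W : W ω = (D0 : Set P2) := by simp [hD0]
    have hmem : D0 ∈ Idx Din Dout := by
      rw [mem_Idx]
      refine ⟨?_, ?_, (h.dom D0 ω hg.1 hg.2 hD0W).1⟩
      · have := h.sub ω hg.1 hg.2
        rw [hD0W] at this
        exact_mod_cast this
      · have := hg.2
        rw [hD0W] at this
        exact_mod_cast this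
    rw [Finset.sum_eq_single D0]
    · exact ind_of ⟨hg.1, hD0W⟩
    · intro D _ hne
      refine ind_of_not fun hD => hne ?_
      have := hD.2
      rw [hD0W] at this
      exact_mod_cast this.symm
    · intro hh; exact absurd hmem hh
  · rw [ind_of_not hg]
    refine Finset.sum_eq_zero fun D hD => ind_of_not fun hAD => hg ⟨hAD.1, ?_⟩
    rw [hAD.2]
    exact_mod_cast (mem_Idx.1 hD).2.1

theorem RingEv.loc_good (h : RingEv A W Din Dout S) :
    Loc (S : Set P2) (ind (good A W Din)) := fun ω ω' hag => by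
  rw [← h.sum_ind ω, ← h.sum_ind ω']
  refine Finset.sum_congr rfl fun D hD => ?_
  obtain ⟨h1, h2, -⟩ := mem_Idx.1 hD
  exact loc_ind (h.locD D h2 h1) ω ω' hag

theorem RingEv.loc_bad (h : RingEv A W Din Dout S) :
    Loc (S : Set P2) (ind (bad A W Din)) := fun ω ω' hag => by
  have e : ∀ ω, ind (bad A W Din) ω = ind A ω - ind (good A W Din) ω := fun ω => by
    rw [← ind_good_add_bad A W Din ω]; ring
  rw [e, e, loc_ind h.locA ω ω' hag, h.loc_good ω ω' hag]

theorem RingEv.sum_sym (h : RingEv A W Din Dout S) (ω : Cfg) :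
    ∑ D ∈ Idx Din Dout, sym (ind fun ω => A ω ∧ W ω = (D : Set P2)) ω =
      sym (ind (good A W Din)) ω := by
  unfold sym
  rw [Finset.sum_add_distrib, h.sum_ind, h.sum_ind]

/-- **Mixture theorem.** -/
theorem mixture {c : ℝ} (hc : 1 ≤ c) {P : Measure Cfg} (hP : IsState c P)
    (h : RingEv A W Din Dout S) {ε p : ℝ} (hε : 0 ≤ ε) (hε2 : ε ≤ 1 / 2) (hp : 0 < p)
    (hpos : p ≤ ∫ ω, sym (ind A) ω ∂P)
    (hbad : ∫ ω, sym (ind (bad A W Din)) ω ∂P ≤ ε * ∫ ω, sym (ind A) ω ∂P) :
    ∃ w : Finset P2 → ℝ, (∀ D ∈ Idx Din Dout, 0 ≤ w D) ∧ ∑ D ∈ Idx Din Dout, w D = 1 ∧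
      ∀ (f : Cfg → ℝ) (m : ℝ), Measurable f → (∀ ω, |f ω| ≤ 1) →
        (∀ D ∈ Idx Din Dout, ∀ ω, f (insL D ω) = f ω) →
        |∫ ω, sym (ind A) ω * (f ω - m) ∂P| ≤ ε * p →
        |∑ D ∈ Idx Din Dout, w D * E c D f - m| ≤ 8 * ε := by
  classical
  have := hP.prob
  set a : ℝ := ∫ ω, sym (ind A) ω ∂P with ha
  have ha0 : 0 < a := hp.trans_le hpos
  set b : Finset P2 → Cfg → ℝ := fun D => sym (ind fun ω => A ω ∧ W ω = (D : Set P2)) with hb
  have hbint : ∀ D ∈ Idx Din Dout, Integrable (b D) P := fun D hD =>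
    loc_integrable hP (loc_sym (loc_ind (h.locD D (mem_Idx.1 hD).2.1 (mem_Idx.1 hD).1)))
  have hgint : Integrable (sym (ind (good A W Din))) P :=
    loc_integrable hP (loc_sym h.loc_good)
  have hbadint : Integrable (sym (ind (bad A W Din))) P :=
    loc_integrable hP (loc_sym h.loc_bad)
  have hAint : Integrable (sym (ind A)) P := loc_integrable hP (loc_sym (loc_ind h.locA))
  have hsplit : ∀ ω, sym (ind A) ω = sym (ind (good A W Din)) ω + sym (ind (bad A W Din)) ω := by
    intro ω
    unfold sym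
    rw [← ind_good_add_bad A W Din ω, ← ind_good_add_bad A W Din (addH 2 ω)]
    ring
  set N : ℝ := ∫ ω, sym (ind (good A W Din)) ω ∂P with hN
  have hNa : a = N + ∫ ω, sym (ind (bad A W Din)) ω ∂P := by
    rw [ha, hN, ← integral_add hgint hbadint]
    exact integral_congr_ae (Filter.Eventually.of_forall hsplit)
  have hNhalf : a / 2 ≤ N := by
    have : ε * a ≤ 1 / 2 * a := mul_le_mul_of_nonneg_right hε2 ha0.le
    linarith
  have hN0 : 0 < N := by linarith
  have hsumN : ∑ D ∈ Idx Din Dout, ∫ ω, b D ω ∂P = N := by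
    rw [← integral_finsetSum _ fun D hD => hbint D hD]
    exact integral_congr_ae (Filter.Eventually.of_forall fun ω => h.sum_sym ω)
  refine ⟨fun D => (∫ ω, b D ω ∂P) / N, ?_, ?_, ?_⟩
  · intro D _
    exact div_nonneg (integral_nonneg fun ω => sym_nonneg (ind_nonneg _) ω) hN0.le
  · rw [← Finset.sum_div, hsumN, div_self hN0.ne']
  · intro f m hfm hf1 hfD hward
    -- Markov property
    have key : ∀ D ∈ Idx Din Dout, (∫ ω, b D ω ∂P) * E c D f = ∫ ω, b D ω * f ω ∂P := by
      intro D hD
      obtain ⟨hD1, hD2, hD3⟩ := mem_Idx.1 hD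
      have h1 := state_cutE_neut hc hP hD3 (S := S) (g := b D) f
        (outLoc_sym (outLoc_ind (h.out D hD2 hD1))) (loc_sym (loc_ind (h.locD D hD2 hD1)))
        (neut_sym (per4_ind (h.perD D hD2 hD1))) ?_
      · rw [← h1]
        refine integral_congr_ae (Filter.Eventually.of_forall fun ω => ?_)
        simp only
        rw [hfD D hD]
      · intro ω hω
        have hcase : (A ω ∧ W ω = (D : Set P2)) ∨
            (A (addH 2 ω) ∧ W (addH 2 ω) = (D : Set P2)) := by
          by_contra hcon
          push Not at hcon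
          apply hω
          simp only [hb, sym]
          rw [ind_of_not (fun hh => hcon.1 hh.1 hh.2), ind_of_not (fun hh => hcon.2 hh.1 hh.2),
            add_zero]
        rcases hcase with ⟨h2, h3⟩ | ⟨h2, h3⟩
        · exact (h.dom D ω h2 (by rw [h3]; exact_mod_cast hD2) h3).2
        · exact (h.dom D (addH 2 ω) h2 (by rw [h3]; exact_mod_cast hD2) h3).2
    have hmulint : ∀ {g : Cfg → ℝ}, Integrable g P → Integrable (fun ω => g ω * f ω) P := by
      intro g hg
      refine Integrable.mono hg (hg.aestronglyMeasurable.mul hfm.aestronglyMeasurable)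
        (Filter.Eventually.of_forall fun ω => ?_)
      rw [norm_mul]
      exact mul_le_of_le_one_right (norm_nonneg _) (hf1 ω)
    have hm2 : |m| ≤ 2 := by
      have e0 : ∫ ω, sym (ind A) ω * (f ω - m) ∂P = (∫ ω, sym (ind A) ω * f ω ∂P) - a * m := by
        rw [ha, ← integral_mul_const, ← integral_sub (hmulint hAint) (hAint.mul_const m)]
        refine integral_congr_ae (Filter.Eventually.of_forall fun ω => ?_)
        simp only
        ring
      have e1 : |∫ ω, sym (ind A) ω * f ω ∂P| ≤ a := by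
        rw [← Real.norm_eq_abs]
        refine norm_integral_le_of_norm_le hAint (Filter.Eventually.of_forall fun ω => ?_)
        have h0 := sym_nonneg (ind_nonneg A) ω
        rw [norm_mul, Real.norm_eq_abs, Real.norm_eq_abs, abs_of_nonneg h0]
        exact mul_le_of_le_one_right h0 (hf1 ω)
      rw [e0] at hward
      have h5 : ε * p ≤ ε * a := mul_le_mul_of_nonneg_left hpos hε
      have h6 : ε * a ≤ 1 / 2 * a := mul_le_mul_of_nonneg_right hε2 ha0.le
      have e2 : |a * m| ≤ 2 * a := by
        have := abs_sub_abs_le_abs_sub (a * m) (∫ ω, sym (ind A) ω * f ω ∂P)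
        rw [abs_sub_comm] at this
        linarith
      rw [abs_mul, abs_of_pos ha0, mul_comm 2 a] at e2
      exact le_of_mul_le_mul_left e2 ha0
    have hsum1 : ∑ D ∈ Idx Din Dout, (∫ ω, b D ω ∂P) / N * E c D f =
        (∫ ω, sym (ind (good A W Din)) ω * f ω ∂P) / N := by
      have e1 : ∑ D ∈ Idx Din Dout, (∫ ω, b D ω ∂P) / N * E c D f =
          (∑ D ∈ Idx Din Dout, ∫ ω, b D ω * f ω ∂P) / N := by
        rw [Finset.sum_div]
        refine Finset.sum_congr rfl fun D hD => ?_
        rw [← key D hD]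
        ring
      rw [e1, ← integral_finsetSum _ fun D hD => hmulint (hbint D hD)]
      congr 1
      refine integral_congr_ae (Filter.Eventually.of_forall fun ω => ?_)
      simp only
      rw [← Finset.sum_mul, h.sum_sym ω]
    have hdiff : (∫ ω, sym (ind (good A W Din)) ω * f ω ∂P) - m * N =
        (∫ ω, sym (ind A) ω * (f ω - m) ∂P) -
          ∫ ω, sym (ind (bad A W Din)) ω * (f ω - m) ∂P := by
      have i1 : Integrable (fun ω => sym (ind A) ω * (f ω - m)) P := by
        have := (hmulint hAint).sub (hAint.mul_const m)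
        refine this.congr (Filter.Eventually.of_forall fun ω => ?_)
        simp only [Pi.sub_apply]
        ring
      have i2 : Integrable (fun ω => sym (ind (bad A W Din)) ω * (f ω - m)) P := by
        have := (hmulint hbadint).sub (hbadint.mul_const m)
        refine this.congr (Filter.Eventually.of_forall fun ω => ?_)
        simp only [Pi.sub_apply]
        ring
      rw [← integral_sub i1 i2, hN, mul_comm m, ← integral_mul_const,
        ← integral_sub (hmulint hgint) (hgint.mul_const m)]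
      refine integral_congr_ae (Filter.Eventually.of_forall fun ω => ?_)
      simp only
      rw [hsplit ω]
      ring
    have hbadb : |∫ ω, sym (ind (bad A W Din)) ω * (f ω - m) ∂P| ≤ 3 * (ε * a) := by
      have h1 : ∀ ω, ‖sym (ind (bad A W Din)) ω * (f ω - m)‖ ≤
          3 * sym (ind (bad A W Din)) ω := by
        intro ω
        have h0 := sym_nonneg (ind_nonneg (bad A W Din)) ω
        rw [norm_mul, Real.norm_eq_abs, Real.norm_eq_abs, abs_of_nonneg h0]
        have h2 : |f ω - m| ≤ 3 := (abs_sub _ _).trans (by linarith [hf1 ω])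
        nlinarith
      have h2 := norm_integral_le_of_norm_le (μ := P) (hbadint.const_mul 3)
        (Filter.Eventually.of_forall h1)
      rw [integral_const_mul] at h2
      rw [← Real.norm_eq_abs]
      refine h2.trans ?_
      exact mul_le_mul_of_nonneg_left hbad (by norm_num)
    rw [hsum1]
    have e3 : (∫ ω, sym (ind (good A W Din)) ω * f ω ∂P) / N - m =
        ((∫ ω, sym (ind (good A W Din)) ω * f ω ∂P) - m * N) / N := by
      field_simp
    rw [e3, abs_div, abs_of_pos hN0, div_le_iff₀ hN0, hdiff]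
    have h5 : ε * p ≤ ε * a := mul_le_mul_of_nonneg_left hpos hε
    calc _ ≤ |∫ ω, sym (ind A) ω * (f ω - m) ∂P| +
          |∫ ω, sym (ind (bad A W Din)) ω * (f ω - m) ∂P| := abs_sub _ _
      _ ≤ ε * a + 3 * (ε * a) := add_le_add (hward.trans h5) hbadb
      _ = 8 * ε * (a / 2) := by ring
      _ ≤ 8 * ε * N := mul_le_mul_of_nonneg_left hNhalf (by positivity)

end mixture

end Crest.Agent.R161.Mix695
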