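import Crest.Agent.R161.LcD_991
import Crest.Agent.R161.Csq3_472
import Crest.Agent.R161.Aut_373

-- ▼ part R161/Mod4_991
section

/-!
# Row 161: mod-4 observables in finite volume (helper991)

Main result `abs_E_sgn_le`: for `d` local on `box m` there is a constant `C` such that for every
`F ⊇ box (m+1)` and every height-shift invariant version of `d`
`|E c F (fun ω => sg4 ω * d (norm0 ω))| ≤ C * Pr c F {ω | ω.1 (0,0) = 0}`,
where `sg4 ω = ±1` according to `ω.1 (0,0) mod 4`.
-/

set_option autoImplicit false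

noncomputable section

namespace Crest.Agent.R161.Mod991

open Finset Crest.Agent.R161.Geo729 Crest.Agent.R161.Defs372 Crest.Agent.R161.Ht132
open Crest.Agent.R161.LcD991

/-! ### alternating sums of log-concave sequences -/

theorem alt_range {f : ℕ → ℝ} (h0 : ∀ n, 0 ≤ f n) (hf : Antitone f) (K : ℕ) :
    0 ≤ ∑ n ∈ Finset.range K, (-1 : ℝ) ^ n * f n ∧
      ∑ n ∈ Finset.range K, (-1 : ℝ) ^ n * f n ≤ f 0 := by
  induction K generalizing f with
  | zero => simpa using h0 0
  | succ K ih =>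
    have h1 := ih (f := fun n => f (n + 1)) (fun n => h0 _) (fun a b hab => hf (by omega))
    rw [Finset.sum_range_succ']
    have h2 : ∑ n ∈ Finset.range K, (-1 : ℝ) ^ (n + 1) * f (n + 1) =
        -∑ n ∈ Finset.range K, (-1 : ℝ) ^ n * f (n + 1) := by
      rw [← Finset.sum_neg_distrib]
      exact Finset.sum_congr rfl fun n _ => by ring
    have h3 : f (0 + 1) ≤ f 0 := hf (by omega)
    rw [h2]
    simp only [pow_zero, one_mul]
    constructor <;> linarith [h1.1, h1.2]

theorem sum_Icc_sym (F : ℤ → ℝ) (m : ℤ) (K : ℕ) :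
    ∑ b ∈ Finset.Icc (m - K) (m + K), F b =
      ∑ n ∈ Finset.range (K + 1), F (m + n) + ∑ n ∈ Finset.range (K + 1), F (m - n) - F m := by
  induction K with
  | zero => simp
  | succ K ih =>
    have e : Finset.Icc (m - ((K + 1 : ℕ) : ℤ)) (m + ((K + 1 : ℕ) : ℤ)) =
        insert (m - ((K + 1 : ℕ) : ℤ)) (insert (m + ((K + 1 : ℕ) : ℤ)) (Finset.Icc (m - K) (m + K))) := by
      ext x
      simp only [Finset.mem_insert, Finset.mem_Icc]
      push_cast
      omega
    rw [e, Finset.sum_insert, Finset.sum_insert, ih, Finset.sum_range_succ _ (K + 1),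
      Finset.sum_range_succ _ (K + 1)]
    · ring
    · simp only [Finset.mem_Icc]; push_cast; omega
    · simp only [Finset.mem_insert, Finset.mem_Icc]; push_cast; omega

/-- sign of the parity -/
def sg (b : ℤ) : ℝ := if Even b then 1 else -1

theorem sg_add_nat (m : ℤ) (n : ℕ) : sg (m + n) = sg m * (-1) ^ n := by
  induction n with
  | zero => simp
  | succ n ih =>
    have : sg (m + (n : ℤ) + 1) = -sg (m + n) := by
      unfold sg
      by_cases h : Even (m + (n : ℤ))
      · rw [if_pos h, if_neg (by rw [Int.even_add_one]; simpa using h)]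
      · rw [if_neg h, if_pos (by rw [Int.even_add_one]; exact h)]; simp
    push_cast
    rw [← add_assoc, this, ih, pow_succ]
    ring

theorem sg_sub_nat (m : ℤ) (n : ℕ) : sg (m - n) = sg m * (-1) ^ n := by
  have h := sg_add_nat (m - n) n
  have h2 : m - (n : ℤ) + n = m := by ring
  rw [h2] at h
  rw [h, mul_assoc, ← mul_pow]
  norm_num

theorem abs_sg (b : ℤ) : |sg b| = 1 := by
  unfold sg; split_ifs <;> simp

/-- alternating sums of a log-concave sequence with finite support are bounded by its maximum -/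
theorem alt_lc {q : ℤ → ℝ} (h0 : ∀ b, 0 ≤ q b)
    (hlc : ∀ a b, a < b → q a * q b ≤ q (a + 1) * q (b - 1)) {N : ℕ}
    (hN : ∀ b, b ∉ Finset.Icc (-(N : ℤ)) N → q b = 0) {M : ℝ} (hM : ∀ b, q b ≤ M) :
    |∑ b ∈ Finset.Icc (-(N : ℤ)) N, sg b * q b| ≤ M := by
  obtain ⟨m, hm, hmax⟩ := Finset.exists_max_image (Finset.Icc (-(N : ℤ)) N) q
    ⟨0, by simp⟩
  have hmax' : ∀ b, q b ≤ q m := by
    intro b
    by_cases hb : b ∈ Finset.Icc (-(N : ℤ)) N
    · exact hmax b hb
    · rw [hN b hb]; exact h0 m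
  rcases (h0 m).eq_or_lt with hz | hpos
  · have : ∀ b, q b = 0 := fun b => le_antisymm (by rw [hz]; exact hmax' b) (h0 b)
    simp only [this, mul_zero, Finset.sum_const_zero, abs_zero]
    exact (h0 0).trans (hM 0)
  · have hup : ∀ n : ℕ, q (m + ((n + 1 : ℕ) : ℤ)) ≤ q (m + n) := by
      intro n
      rcases Nat.eq_zero_or_pos n with rfl | hn
      · simpa using hmax' (m + 1)
      · have h1 := hlc m (m + ((n + 1 : ℕ) : ℤ)) (by push_cast; omega)
        have e : m + ((n + 1 : ℕ) : ℤ) - 1 = m + n := by push_cast; ring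
        rw [e] at h1
        have h2 := hmax' (m + 1)
        by_contra h3
        push Not at h3
        have h4 := h0 (m + n)
        have h5 : q (m + 1) * q (m + n) ≤ q m * q (m + n) := mul_le_mul_of_nonneg_right h2 h4
        have h6 : q m * q (m + n) < q m * q (m + ((n + 1 : ℕ) : ℤ)) :=
          mul_lt_mul_of_pos_left h3 hpos
        linarith
    have hdn : ∀ n : ℕ, q (m - ((n + 1 : ℕ) : ℤ)) ≤ q (m - n) := by
      intro n
      rcases Nat.eq_zero_or_pos n with rfl | hn
      · simpa using hmax' (m - 1)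
      · have h1 := hlc (m - ((n + 1 : ℕ) : ℤ)) m (by push_cast; omega)
        have e : m - ((n + 1 : ℕ) : ℤ) + 1 = m - n := by push_cast; ring
        rw [e] at h1
        have h2 := hmax' (m - 1)
        by_contra h3
        push Not at h3
        have h4 := h0 (m - n)
        have h5 : q (m - n) * q (m - 1) ≤ q (m - n) * q m := mul_le_mul_of_nonneg_left h2 h4
        have h6 : q (m - n) * q m < q (m - ((n + 1 : ℕ) : ℤ)) * q m :=
          mul_lt_mul_of_pos_right h3 hpos
        linarith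
    have ha1 : Antitone fun n : ℕ => q (m + n) := antitone_nat_of_succ_le hup
    have ha2 : Antitone fun n : ℕ => q (m - n) := antitone_nat_of_succ_le hdn
    set K : ℕ := 2 * N with hK
    have hsub : Finset.Icc (-(N : ℤ)) N ⊆ Finset.Icc (m - K) (m + K) := by
      intro b hb
      simp only [Finset.mem_Icc] at hb hm ⊢
      rw [hK]; push_cast; omega
    rw [Finset.sum_subset hsub fun b _ hb => by rw [hN b hb, mul_zero], sum_Icc_sym]
    have e1 : ∑ n ∈ Finset.range (K + 1), sg (m + n) * q (m + n) =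
        sg m * ∑ n ∈ Finset.range (K + 1), (-1 : ℝ) ^ n * q (m + n) := by
      rw [Finset.mul_sum]
      exact Finset.sum_congr rfl fun n _ => by rw [sg_add_nat]; ring
    have e2 : ∑ n ∈ Finset.range (K + 1), sg (m - n) * q (m - n) =
        sg m * ∑ n ∈ Finset.range (K + 1), (-1 : ℝ) ^ n * q (m - n) := by
      rw [Finset.mul_sum]
      exact Finset.sum_congr rfl fun n _ => by rw [sg_sub_nat]; ring
    rw [e1, e2, ← mul_add, ← mul_sub, abs_mul, abs_sg, one_mul]
    have r1 := alt_range (fun n => h0 (m + n)) ha1 (K + 1)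
    have r2 := alt_range (fun n => h0 (m - n)) ha2 (K + 1)
    simp only [Nat.cast_zero, add_zero, sub_zero] at r1 r2
    have := hM m
    rw [abs_le]
    constructor <;> linarith [r1.1, r1.2, r2.1, r2.2]

/-! ### averaging over the cut variables -/

/-- weight of an open dual edge given the heights -/
def aw (c : ℝ) (p : Pr2) (e : Edge) : ℝ :=
  if p.2 (fA e) = p.2 (fB e) then (if p.1 (src e) = p.1 (tgt e) then c - 1 else 1) else 0

/-- weight of a cut edge given the heights -/
def bw (p : Pr2) (e : Edge) : ℝ := if p.1 (src e) = p.1 (tgt e) then 1 else 0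

theorem aw_add_bw {F : Finset P2} {p : Pr2} (hp : Valid2 F p) (c : ℝ) {e : Edge}
    (he : e ∈ intEdges F) : aw c p e + bw p e = w6 c p e := by
  unfold aw bw w6
  by_cases a : p.1 (src e) = p.1 (tgt e) <;> by_cases b : p.2 (fA e) = p.2 (fB e)
  · simp [a, b]
  · simp [a, b]
  · simp [a, b]
  · rcases hp.ice he with h | h
    · exact absurd h a
    · exact absurd h b

theorem ew_zOf (c : ℝ) (p : Pr2) (T : Finset Edge) (e : Edge) :
    ew c (p.1, p.2, zOf T) e = if e ∈ T then aw c p e else bw p e := by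
  unfold ew aw bw
  by_cases h : e ∈ T
  · have : zOf T e = false := zOf_false.2 h
    simp [this, h]
  · have : zOf T e = true := zOf_true.2 h
    simp [this, h]

/-- normalised average over the cut variables of the edges in `E0` -/
def avgW (c : ℝ) (E0 : Finset Edge) (p : Pr2) (G : (Edge → Bool) → ℝ) : ℝ :=
  (∑ T ∈ E0.powerset, (∏ e ∈ E0, (if e ∈ T then aw c p e else bw p e)) * G (zOf T)) /
    ∏ e ∈ E0, w6 c p e

theorem sum_z_avg {c : ℝ} (hc : 1 ≤ c) {F : Finset P2} {p : Pr2} (hp : Valid2 F p)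
    {E0 : Finset Edge} (hE : E0 ⊆ intEdges F) (G : (Edge → Bool) → ℝ)
    (hG : ∀ z z' : Edge → Bool, (∀ e ∈ E0, z e = z' e) → G z = G z') :
    ∑ T ∈ (intEdges F).powerset, wt c F (p.1, p.2, zOf T) * G (zOf T) =
      wt6 c F p * avgW c E0 p G := by
  classical
  set E1 : Finset Edge := intEdges F \ E0 with hE1
  have hdisj : Disjoint E0 E1 := Finset.disjoint_sdiff
  have hunion : E0 ∪ E1 = intEdges F := Finset.union_sdiff_of_subset hE
  have hsplit : ∑ T ∈ (intEdges F).powerset, wt c F (p.1, p.2, zOf T) * G (zOf T) =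
      ∑ q ∈ E0.powerset ×ˢ E1.powerset,
        ((∏ e ∈ E0, (if e ∈ q.1 then aw c p e else bw p e)) * G (zOf q.1)) *
          ∏ e ∈ E1, (if e ∈ q.2 then aw c p e else bw p e) := by
    refine Finset.sum_nbij' (fun T => (T ∩ E0, T ∩ E1)) (fun q => q.1 ∪ q.2) ?_ ?_ ?_ ?_ ?_
    · intro T hT
      simp only [Finset.mem_product, Finset.mem_powerset]
      exact ⟨Finset.inter_subset_right, Finset.inter_subset_right⟩
    · rintro ⟨T0, T1⟩ h
      simp only [Finset.mem_product, Finset.mem_powerset] at h ⊢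
      rw [← hunion]
      exact Finset.union_subset_union h.1 h.2
    · intro T hT
      rw [Finset.mem_powerset] at hT
      simp only
      rw [← Finset.inter_union_distrib_left, hunion, Finset.inter_eq_left.2 hT]
    · rintro ⟨T0, T1⟩ h
      simp only [Finset.mem_product, Finset.mem_powerset] at h
      refine Prod.ext ?_ ?_
      · ext e
        simp only [Finset.mem_inter, Finset.mem_union]
        constructor
        · rintro ⟨h1 | h1, h2⟩
          · exact h1
          · exact absurd h2 (Finset.disjoint_right.1 hdisj (h.2 h1))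
        · exact fun h1 => ⟨Or.inl h1, h.1 h1⟩
      · ext e
        simp only [Finset.mem_inter, Finset.mem_union]
        constructor
        · rintro ⟨h1 | h1, h2⟩
          · exact absurd h2 (Finset.disjoint_left.1 hdisj (h.1 h1))
          · exact h1
        · exact fun h1 => ⟨Or.inr h1, h.2 h1⟩
    · intro T hT
      simp only
      have h1 : wt c F (p.1, p.2, zOf T) =
          (∏ e ∈ E0, (if e ∈ T ∩ E0 then aw c p e else bw p e)) *
            ∏ e ∈ E1, (if e ∈ T ∩ E1 then aw c p e else bw p e) := by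
        unfold wt
        rw [← hunion, Finset.prod_union hdisj]
        congr 1
        · refine Finset.prod_congr rfl fun e he => ?_
          rw [ew_zOf]
          simp [he]
        · refine Finset.prod_congr rfl fun e he => ?_
          rw [ew_zOf]
          simp [he]
      have h2 : G (zOf T) = G (zOf (T ∩ E0)) := by
        refine hG _ _ fun e he => ?_
        unfold zOf
        simp [he]
      rw [h1, h2]
      ring
  rw [hsplit, Finset.sum_product]
  simp only
  have h3 : ∑ T1 ∈ E1.powerset, ∏ e ∈ E1, (if e ∈ T1 then aw c p e else bw p e) =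
      ∏ e ∈ E1, w6 c p e := by
    have h4 : ∀ e ∈ E1, w6 c p e = aw c p e + bw p e := fun e he =>
      (aw_add_bw hp c (Finset.mem_sdiff.1 he).1).symm
    rw [Finset.prod_congr rfl h4, Finset.prod_add]
    refine Finset.sum_congr rfl fun T hT => ?_
    rw [Finset.mem_powerset] at hT
    rw [← Finset.prod_sdiff hT, mul_comm]
    congr 1
    · exact Finset.prod_congr rfl fun e he => by rw [if_pos he]
    · exact Finset.prod_congr rfl fun e he => by rw [if_neg (Finset.mem_sdiff.1 he).2]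
  have h5 : ∀ T0 ∈ E0.powerset, ∑ T1 ∈ E1.powerset,
      ((∏ e ∈ E0, (if e ∈ T0 then aw c p e else bw p e)) * G (zOf T0)) *
          ∏ e ∈ E1, (if e ∈ T1 then aw c p e else bw p e) =
      ((∏ e ∈ E0, (if e ∈ T0 then aw c p e else bw p e)) * G (zOf T0)) *
        ∏ e ∈ E1, w6 c p e := fun T0 _ => by rw [← Finset.mul_sum, h3]
  rw [Finset.sum_congr rfl h5, ← Finset.sum_mul]
  unfold avgW wt6
  have h6 : (∏ e ∈ E0, w6 c p e) ≠ 0 :=
    (Finset.prod_pos fun e _ => w6_pos (lt_of_lt_of_le one_pos hc) p e).ne'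
  have h7 : ∏ e ∈ intEdges F, w6 c p e = (∏ e ∈ E0, w6 c p e) * ∏ e ∈ E1, w6 c p e := by
    rw [← hunion, Finset.prod_union hdisj]
  rw [h7]
  field_simp

end Crest.Agent.R161.Mod991
end
end

-- ▼ part R161/Mod4b_991
section

/-!
# Row 161: mod-4 observables in finite volume, patterns (helper991)

`abs_E_sg4_le`: for `d` local on `box m` there is a constant `C` with
`|E c F (fun ω => sg4 ω * d (norm0 ω))| ≤ C * Pr c F {ω | ω.1 (0,0) = 0}` for all `F ⊇ box (m+1)`.
-/

set_option autoImplicit false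

noncomputable section

namespace Crest.Agent.R161.Mod991

open Finset hiding box
open Crest.Agent.R161.Geo729 Crest.Agent.R161.Defs372 Crest.Agent.R161.Ht132
open Crest.Agent.R161.LcD991

/-! ### geometry -/

theorem mem_box {n : ℕ} {v : P2} :
    v ∈ box n ↔ (-(n : ℤ) ≤ v.1 ∧ v.1 ≤ n - 1) ∧ (-(n : ℤ) ≤ v.2 ∧ v.2 ≤ n - 1) := by
  unfold box
  rw [Finset.mem_product, Finset.mem_Icc, Finset.mem_Icc]

/-- edges with lower-left site in `box m` -/
def E0 (m : ℕ) : Finset Edge := box m ×ˢ Finset.univ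

theorem mem_E0 {m : ℕ} {e : Edge} : e ∈ E0 m ↔ e.1 ∈ box m := by
  simp [E0]

theorem E0_sites {m : ℕ} {e : Edge} (he : e ∈ E0 m) :
    src e ∈ box (m + 1) ∧ tgt e ∈ box (m + 1) ∧ fA e ∈ box (m + 1) ∧ fB e ∈ box (m + 1) := by
  rw [mem_E0, mem_box] at he
  obtain ⟨⟨a, b⟩, t⟩ := e
  simp only at he
  cases t
  · simp only [mem_box, src_mk, tgt_h, fA_mk, fB_h]; push_cast; omega
  · simp only [mem_box, src_mk, tgt_v, fA_mk, fB_v]; push_cast; omega

theorem E0_sub {m : ℕ} {F : Finset P2} (hF : box (m + 1) ⊆ F) : E0 m ⊆ intEdges F := by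
  intro e he
  obtain ⟨_, _, h3, h4⟩ := E0_sites he
  exact mem_intEdges.2 ⟨hF h3, hF h4⟩

/-- the sites of `box n` -/
def Is (n : ℕ) : Finset Site := (box n).disjSum (box n)

theorem inl_mem_Is {n : ℕ} {v : P2} : (Sum.inl v : Site) ∈ Is n ↔ v ∈ box n := by
  simp [Is]

theorem inr_mem_Is {n : ℕ} {v : P2} : (Sum.inr v : Site) ∈ Is n ↔ v ∈ box n := by
  simp [Is]

theorem step_corner {F : Finset P2} {p : Pr2} (hp : Valid2 F p) {g v w : P2} (hg : g ∈ F)
    (hv : Geo729.IsCorner v g) (hw : Geo729.IsCorner w g) : |p.1 v - p.1 w| ≤ 2 := by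
  have h1 := hp.corner g hg v hv
  have h2 := hp.corner g hg w hw
  rw [abs_le]
  rcases abs_eq (by norm_num : (0 : ℤ) ≤ 1) |>.1 h1 with h1 | h1 <;>
  rcases abs_eq (by norm_num : (0 : ℤ) ≤ 1) |>.1 h2 with h2 | h2 <;>
  constructor <;> linarith

theorem lip_vert {F : Finset P2} {p : Pr2} (hp : Valid2 F p) {N : ℕ} (hF : box N ⊆ F) (n : ℕ) :
    ∀ v : P2, v ∈ box N → v.1.natAbs + v.2.natAbs = n → |p.1 v - p.1 (0, 0)| ≤ 2 * n := by
  induction n with
  | zero =>
    rintro ⟨a, b⟩ _ h
    have ha : a = 0 := by simp only at h; omega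
    have hb : b = 0 := by simp only at h; omega
    subst ha hb
    simp
  | succ n ih =>
    rintro ⟨a, b⟩ hv h
    simp only at h
    rw [mem_box] at hv
    simp only at hv
    -- choose the previous point
    have key : ∃ w g : P2, w ∈ box N ∧ w.1.natAbs + w.2.natAbs = n ∧ g ∈ box N ∧
        Geo729.IsCorner (a, b) g ∧ Geo729.IsCorner w g := by
      rcases lt_trichotomy a 0 with ha | ha | ha
      · refine ⟨(a + 1, b), (a, b), ?_, ?_, ?_, Or.inl rfl, Or.inr (Or.inl rfl)⟩
        · rw [mem_box]; simp only; omega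
        · simp only; omega
        · rw [mem_box]; simp only; omega
      · rcases lt_trichotomy b 0 with hb | hb | hb
        · refine ⟨(a, b + 1), (a, b), ?_, ?_, ?_, Or.inl rfl, Or.inr (Or.inr (Or.inl rfl))⟩
          · rw [mem_box]; simp only; omega
          · simp only; omega
          · rw [mem_box]; simp only; omega
        · omega
        · refine ⟨(a, b - 1), (a, b - 1), ?_, ?_, ?_, ?_, Or.inl rfl⟩
          · rw [mem_box]; simp only; omega
          · simp only; omega
          · rw [mem_box]; simp only; omega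
          · refine Or.inr (Or.inr (Or.inl ?_)); simp
      · refine ⟨(a - 1, b), (a - 1, b), ?_, ?_, ?_, ?_, Or.inl rfl⟩
        · rw [mem_box]; simp only; omega
        · simp only; omega
        · rw [mem_box]; simp only; omega
        · refine Or.inr (Or.inl ?_); simp
    obtain ⟨w, g, hw, hwn, hg, hc1, hc2⟩ := key
    have h1 := ih w hw hwn
    have h2 := step_corner hp (hF hg) hc1 hc2
    have h3 : p.1 (a, b) - p.1 (0, 0) = (p.1 (a, b) - p.1 w) + (p.1 w - p.1 (0, 0)) := by ring
    rw [h3]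
    refine (abs_add_le _ _).trans ?_
    push_cast
    linarith

/-- bound for the gradients in `box N` -/
theorem lip_site {F : Finset P2} {p : Pr2} (hp : Valid2 F p) {N : ℕ} (hF : box N ⊆ F) {x : Site}
    (hx : x ∈ Is N) : |toH p x - p.1 (0, 0)| ≤ 4 * N + 1 := by
  have key : ∀ v : P2, v ∈ box N → |p.1 v - p.1 (0, 0)| ≤ 4 * N := by
    intro v hv
    have h1 := lip_vert hp hF _ v hv rfl
    rw [mem_box] at hv
    have h2 : ((v.1.natAbs + v.2.natAbs : ℕ) : ℤ) ≤ 2 * N := by omega
    linarith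
  rcases x with v | f
  · rw [inl_mem_Is] at hx
    rw [toH_inl]
    linarith [key v hx]
  · rw [inr_mem_Is] at hx
    rw [toH_inr]
    have h1 := key f hx
    have h2 := hp.corner f (hF hx) f (Or.inl rfl)
    have h3 : p.2 f - p.1 (0, 0) = -(p.1 f - p.2 f) + (p.1 f - p.1 (0, 0)) := by ring
    rw [h3]
    refine (abs_add_le _ _).trans ?_
    rw [abs_neg, h2]
    linarith

/-! ### patterns -/

open Classical in
/-- normalised pattern on the sites of `box N` -/
def pat (N : ℕ) (p : Pr2) : Site → ℤ := fun x => if x ∈ Is N then toH p x - p.1 (0, 0) else 0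

open Classical in
/-- extension by zero -/
def extP (N : ℕ) (g : {x // x ∈ Is N} → ℤ) : Site → ℤ := fun x => if h : x ∈ Is N then g ⟨x, h⟩ else 0

open Classical in
/-- a finite set containing all patterns -/
def PatF (N : ℕ) : Finset (Site → ℤ) :=
  (Fintype.piFinset fun _ : {x // x ∈ Is N} => Finset.Icc (-(4 * (N : ℤ) + 1)) (4 * N + 1)).image
    (extP N)

theorem pat_mem {F : Finset P2} {p : Pr2} (hp : Valid2 F p) {N : ℕ} (hF : box N ⊆ F) :
    pat N p ∈ PatF N := by
  classical
  unfold PatF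
  rw [Finset.mem_image]
  refine ⟨fun x => toH p x.1 - p.1 (0, 0), ?_, ?_⟩
  · rw [Fintype.mem_piFinset]
    intro x
    rw [Finset.mem_Icc]
    exact abs_le.1 (lip_site hp hF x.2)
  · funext x
    unfold extP pat
    by_cases h : x ∈ Is N <;> simp [h]

theorem PatF_off {N : ℕ} {π : Site → ℤ} (h : π ∈ PatF N) {x : Site} (hx : x ∉ Is N) : π x = 0 := by
  classical
  unfold PatF at h
  rw [Finset.mem_image] at h
  obtain ⟨g, _, rfl⟩ := h
  unfold extP
  simp [hx]

open Classical in
theorem sum_pat_fiber {c : ℝ} {F : Finset P2} {N : ℕ} (hN : 0 < N) {π : Site → ℤ}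
    (hπ : π ∈ PatF N) (hπ0 : π (Sum.inl (0, 0)) = 0) :
    ∑ p ∈ (conf2 F).filter (fun p => pat N p = π), wt6 c F p * sg (p.1 (0, 0) / 2) =
      ∑ b ∈ Finset.Icc (-((hb F).toNat : ℤ)) (hb F).toNat, sg b * Zp c F (Is N) π b := by
  classical
  have h0 : (0, 0) ∈ box N := by rw [mem_box]; simp only; omega
  have h0' : (Sum.inl (0, 0) : Site) ∈ Is N := inl_mem_Is.2 h0
  have hhb : (0 : ℤ) ≤ hb F := by unfold hb; positivity
  have e1 : ∀ b : ℤ, ∀ p : Pr2, (pat N p = π ∧ p.1 (0, 0) = 2 * b) ↔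
      (∀ x ∈ Is N, toH p x = π x + 2 * b) := by
    intro b p
    constructor
    · rintro ⟨rfl, h2⟩ x hx
      unfold pat
      rw [if_pos hx, h2]
      ring
    · intro h
      have h2 : p.1 (0, 0) = 2 * b := by
        have := h _ h0'
        rw [hπ0, toH_inl] at this
        linarith
      refine ⟨?_, h2⟩
      funext x
      unfold pat
      by_cases hx : x ∈ Is N
      · rw [if_pos hx, h x hx, h2]; ring
      · rw [if_neg hx, PatF_off hπ hx]
  have e2 : ∀ b : ℤ, sg b * Zp c F (Is N) π b =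
      ∑ p ∈ (conf2 F).filter (fun p => pat N p = π),
        (if p.1 (0, 0) = 2 * b then wt6 c F p * sg (p.1 (0, 0) / 2) else 0) := by
    intro b
    rw [← Finset.sum_filter, Finset.filter_filter, Zp_eq, Finset.mul_sum]
    refine Finset.sum_congr ?_ fun p hp => ?_
    · ext p
      simp only [Finset.mem_filter, e1]
    · rw [Finset.mem_filter] at hp
      rw [hp.2.2, mul_comm]
      congr 2
      omega
  rw [Finset.sum_congr rfl fun b _ => e2 b, Finset.sum_comm]
  refine Finset.sum_congr rfl fun p hp => ?_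
  have hp' := mem_conf2.1 (Finset.mem_filter.1 hp).1
  obtain ⟨r, hr⟩ := hp'.even (0, 0)
  have h3 := (valid_mk hp' (Finset.empty_subset _)).abs_vert (0, 0)
  simp only at h3
  rw [Finset.sum_eq_single r]
  · rw [if_pos (by omega)]
  · intro b _ hbr
    rw [if_neg]
    intro h4
    apply hbr
    omega
  · intro h4
    exfalso
    apply h4
    rw [Finset.mem_Icc]
    rw [abs_le] at h3
    omega

open Classical in
theorem abs_sum_pat_le {c : ℝ} (hc : 1 ≤ c) {F : Finset P2} {N : ℕ} (hN : 0 < N)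
    {π : Site → ℤ} (hπ : π ∈ PatF N) :
    |∑ p ∈ (conf2 F).filter (fun p => pat N p = π), wt6 c F p * sg (p.1 (0, 0) / 2)| ≤
      Z6 c F * Pr c F {ω | ω.1 (0, 0) = 0} := by
  classical
  have h0 : (0, 0) ∈ box N := by rw [mem_box]; simp only; omega
  have h0' : (Sum.inl (0, 0) : Site) ∈ Is N := inl_mem_Is.2 h0
  by_cases hπ0 : π (Sum.inl (0, 0)) = 0
  · rw [sum_pat_fiber hN hπ hπ0]
    refine alt_lc (fun b => Zp_nonneg hc F _ _ b) (fun a b hab => Zp_lc hc F _ _ hab) ?_
      fun b => Zp_le hc F (0, 0) h0' hπ0 b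
    intro b hb'
    rw [Zp_eq, Finset.filter_false_of_mem, Finset.sum_empty]
    intro p hp hpx
    apply hb'
    have h1 := hpx _ h0'
    rw [hπ0, toH_inl] at h1
    have h2 := (valid_mk (mem_conf2.1 hp) (Finset.empty_subset _)).abs_vert (0, 0)
    simp only at h2
    rw [abs_le] at h2
    rw [Finset.mem_Icc]
    have hhb : (0 : ℤ) ≤ hb F := by unfold hb; positivity
    omega
  · rw [Finset.filter_false_of_mem, Finset.sum_empty, abs_zero]
    · refine mul_nonneg (Z6_pos hc F).le ?_
      have := (slc_site hc F (0, 0)).nonneg 0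
      simpa using this
    · rintro p _ rfl
      apply hπ0
      unfold pat
      rw [if_pos h0', toH_inl, sub_self]

/-! ### the conditional average as a function of the pattern -/

/-- the average over the cut variables, as a function of the pattern -/
def Dpat (c : ℝ) (m : ℕ) (d : Cfg → ℝ) (π : Site → ℤ) : ℝ :=
  avgW c (E0 m) (ofH π) (fun z => d ((ofH π).1, (ofH π).2, z))

theorem avgW_congr {c : ℝ} {E : Finset Edge} {p p' : Pr2} {G G' : (Edge → Bool) → ℝ}
    (ha : ∀ e ∈ E, aw c p e = aw c p' e) (hb' : ∀ e ∈ E, bw p e = bw p' e)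
    (hw : ∀ e ∈ E, w6 c p e = w6 c p' e) (hG : ∀ z, G z = G' z) :
    avgW c E p G = avgW c E p' G' := by
  unfold avgW
  rw [Finset.prod_congr rfl hw]
  congr 1
  refine Finset.sum_congr rfl fun T _ => ?_
  rw [hG]
  congr 1
  refine Finset.prod_congr rfl fun e he => ?_
  rw [ha e he, hb' e he]

theorem pat_vert {N : ℕ} (p : Pr2) {v : P2} (hv : v ∈ box N) :
    (ofH (pat N p)).1 v = p.1 v - p.1 (0, 0) := by
  unfold ofH pat
  simp only
  rw [if_pos (inl_mem_Is.2 hv), toH_inl]

theorem pat_face {N : ℕ} (p : Pr2) {f : P2} (hf : f ∈ box N) :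
    (ofH (pat N p)).2 f = p.2 f - p.1 (0, 0) := by
  unfold ofH pat
  simp only
  rw [if_pos (inr_mem_Is.2 hf), toH_inr]

theorem box_succ {m : ℕ} {v : P2} (hv : v ∈ box m) : v ∈ box (m + 1) := by
  rw [mem_box] at hv ⊢
  push_cast
  omega

theorem d_pat {m : ℕ} (p : Pr2) {d : Cfg → ℝ} (hd : Loc (box m : Set P2) d) (z : Edge → Bool) :
    d (norm0 (p.1, p.2, z)) = d ((ofH (pat (m + 1) p)).1, (ofH (pat (m + 1) p)).2, z) := by
  refine hd _ _ fun v hv' => ⟨?_, ?_, fun b => rfl⟩
  · exact (sub_eq_add_neg (p.1 v) (p.1 (0, 0))).symm.trans (pat_vert p (box_succ hv')).symm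
  · exact (sub_eq_add_neg (p.2 v) (p.1 (0, 0))).symm.trans (pat_face p (box_succ hv')).symm

theorem avgW_pat {c : ℝ} {m : ℕ} (p : Pr2) {d : Cfg → ℝ} (hd : Loc (box m : Set P2) d) :
    avgW c (E0 m) p (fun z => d (norm0 (p.1, p.2, z))) = Dpat c m d (pat (m + 1) p) := by
  unfold Dpat
  refine avgW_congr ?_ ?_ ?_ fun z => d_pat p hd z
  · intro e he
    obtain ⟨h1, h2, h3, h4⟩ := E0_sites he
    unfold aw
    rw [pat_vert p h1, pat_vert p h2, pat_face p h3, pat_face p h4]
    simp only [sub_left_inj]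
  · intro e he
    obtain ⟨h1, h2, h3, h4⟩ := E0_sites he
    unfold bw
    rw [pat_vert p h1, pat_vert p h2]
    simp only [sub_left_inj]
  · intro e he
    obtain ⟨h1, h2, h3, h4⟩ := E0_sites he
    unfold w6
    rw [pat_vert p h1, pat_vert p h2, pat_face p h3, pat_face p h4]
    simp only [sub_left_inj]

/-- sign of the base height mod 4 -/
def sg4 (ω : Cfg) : ℝ := if (4 : ℤ) ∣ ω.1 (0, 0) then 1 else -1

theorem sg4_eq {ω : Cfg} (h : Even (ω.1 (0, 0))) : sg4 ω = sg (ω.1 (0, 0) / 2) := by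
  obtain ⟨r, hr⟩ := h
  unfold sg4 sg
  have e : ω.1 (0, 0) / 2 = r := by omega
  rw [e]
  by_cases h : Even r
  · rw [if_pos h, if_pos]
    obtain ⟨s, hs⟩ := h
    exact ⟨s, by omega⟩
  · rw [if_neg h, if_neg]
    rintro ⟨s, hs⟩
    apply h
    exact ⟨s, by omega⟩

/-- **Main finite-volume estimate.** -/
theorem abs_E_sg4_le {c : ℝ} (hc : 1 ≤ c) {m : ℕ} {d : Cfg → ℝ} (hd : Loc (box m : Set P2) d)
    {F : Finset P2} (hF : box (m + 1) ⊆ F) :
    |E c F (fun ω => sg4 ω * d (norm0 ω))| ≤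
      (∑ π ∈ PatF (m + 1), |Dpat c m d π|) * Pr c F {ω | ω.1 (0, 0) = 0} := by
  classical
  have hZ := Z6_pos hc F
  have e1 : E c F (fun ω => sg4 ω * d (norm0 ω)) =
      (∑ p ∈ conf2 F, wt6 c F p * sg (p.1 (0, 0) / 2) * Dpat c m d (pat (m + 1) p)) / Z6 c F := by
    rw [E_eq_div, sum_conf, Z_eq]
    congr 1
    refine Finset.sum_congr rfl fun p hp => ?_
    have hp' := mem_conf2.1 hp
    have h1 := sum_z_avg hc hp' (E0_sub hF) (fun z => d (norm0 (p.1, p.2, z))) (by
      intro z z' hz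
      refine hd _ _ fun v hv => ⟨rfl, rfl, fun b => ?_⟩
      exact hz (v, b) (mem_E0.2 hv))
    rw [avgW_pat p hd] at h1
    have h2 : ∀ T ∈ (intEdges F).powerset,
        wt c F (p.1, p.2, zOf T) * (sg4 (p.1, p.2, zOf T) * d (norm0 (p.1, p.2, zOf T))) =
        sg (p.1 (0, 0) / 2) * (wt c F (p.1, p.2, zOf T) * d (norm0 (p.1, p.2, zOf T))) := by
      intro T _
      rw [sg4_eq (hp'.even (0, 0))]
      ring
    rw [Finset.sum_congr rfl h2, ← Finset.mul_sum, h1]
    ring
  have e2 : ∑ p ∈ conf2 F, wt6 c F p * sg (p.1 (0, 0) / 2) * Dpat c m d (pat (m + 1) p) =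
      ∑ π ∈ PatF (m + 1), Dpat c m d π *
        ∑ p ∈ (conf2 F).filter (fun p => pat (m + 1) p = π), wt6 c F p * sg (p.1 (0, 0) / 2) := by
    rw [← Finset.sum_fiberwise_of_maps_to (g := pat (m + 1)) (t := PatF (m + 1))
      fun p hp => pat_mem (mem_conf2.1 hp) hF]
    refine Finset.sum_congr rfl fun π _ => ?_
    rw [Finset.mul_sum]
    refine Finset.sum_congr rfl fun p hp => ?_
    rw [(Finset.mem_filter.1 hp).2]
    ring
  rw [e1, e2, abs_div, abs_of_pos hZ, div_le_iff₀ hZ, Finset.sum_mul, Finset.sum_mul]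
  refine (Finset.abs_sum_le_sum_abs _ _).trans (Finset.sum_le_sum fun π hπ => ?_)
  rw [abs_mul]
  have h3 := abs_sum_pat_le hc (F := F) (Nat.succ_pos m) hπ
  calc |Dpat c m d π| * _ ≤ |Dpat c m d π| * (Z6 c F * Pr c F {ω | ω.1 (0, 0) = 0}) :=
        mul_le_mul_of_nonneg_left h3 (abs_nonneg _)
    _ = _ := by ring

end Crest.Agent.R161.Mod991
end
end

-- ▼ part R161/Mod4c_991

/-!
# Row 161, leaf L1 (helper991): convergence of mod-4 observables

`tendsto_psym`: under `IsState c P` and delocalisation, `E c F f → ∫ f d(Psym P)` along simply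
connected domains, for every local `f` with `f (addH 4 ω) = f ω`.
-/

set_option autoImplicit false

noncomputable section

namespace Crest.Agent.R161.Mod991

open Finset hiding box
open MeasureTheory
open Crest.Agent.R161.Geo729 Crest.Agent.R161.Defs372 Crest.Agent.R161.Ht132
open Crest.Agent.R161.LcD991 Crest.Agent.R161.Ifc372

/-- **Delocalisation** (output of leaf L2): the probability of height `0` at the origin is small in
large domains. -/
def Deloc (c : ℝ) : Prop := ∀ ε : ℝ, 0 < ε → ∃ n : ℕ, ∀ F : Finset P2, Dom F → box n ⊆ F →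
  Pr c F {ω | ω.1 (0, 0) = 0} < ε

theorem addH_addH (a b : ℤ) (ω : Cfg) : addH a (addH b ω) = addH (b + a) ω := by
  unfold addH
  simp only [add_assoc]

theorem addH_zero (ω : Cfg) : addH 0 ω = ω := by
  unfold addH
  simp

theorem per_nat {α : Type*} {f : Cfg → α} (h4 : ∀ ω, f (addH 4 ω) = f ω) (n : ℕ) (ω : Cfg) :
    f (addH (4 * n) ω) = f ω := by
  induction n with
  | zero => simp [addH_zero]
  | succ n ih =>
    have : addH (4 * ((n + 1 : ℕ) : ℤ)) ω = addH 4 (addH (4 * n) ω) := by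
      rw [addH_addH]
      congr 1
    rw [this, h4, ih]

theorem per_int {α : Type*} {f : Cfg → α} (h4 : ∀ ω, f (addH 4 ω) = f ω) (n : ℤ) (ω : Cfg) :
    f (addH (4 * n) ω) = f ω := by
  rcases Int.eq_nat_or_neg n with ⟨m, rfl | rfl⟩
  · exact per_nat h4 m ω
  · have h := per_nat h4 m (addH (4 * -(m : ℤ)) ω)
    rw [addH_addH] at h
    have e : (4 * -(m : ℤ) + 4 * m : ℤ) = 0 := by ring
    rw [e, addH_zero] at h
    exact h.symm

theorem addH_norm0 (ω : Cfg) : addH (ω.1 (0, 0)) (norm0 ω) = ω := by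
  unfold norm0
  rw [addH_addH, neg_add_cancel, addH_zero]

theorem split4 {f : Cfg → ℝ} (h4 : ∀ ω, f (addH 4 ω) = f ω) {ω : Cfg} (he : Even (ω.1 (0, 0))) :
    f ω = (f (norm0 ω) + f (addH 2 (norm0 ω))) / 2 +
      sg4 ω * ((f (norm0 ω) - f (addH 2 (norm0 ω))) / 2) := by
  unfold sg4
  by_cases h : (4 : ℤ) ∣ ω.1 (0, 0)
  · obtain ⟨n, hn⟩ := h
    have h1 : f ω = f (norm0 ω) := by
      conv_lhs => rw [← addH_norm0 ω, hn]
      exact per_int h4 n _
    rw [if_pos ⟨n, hn⟩, h1]
    ring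
  · obtain ⟨r, hr⟩ := he
    obtain ⟨n, hn⟩ : ∃ n : ℤ, ω.1 (0, 0) = 2 + 4 * n := by
      refine ⟨(r - 1) / 2, ?_⟩
      omega
    have h1 : f ω = f (addH 2 (norm0 ω)) := by
      conv_lhs => rw [← addH_norm0 ω, hn]
      rw [← addH_addH]
      exact per_int h4 n _
    rw [if_neg h, h1]
    ring

theorem loc_addH {α : Type*} {S : Set P2} {f : Cfg → α} (hf : Loc S f) (a : ℤ) :
    Loc S (fun ω => f (addH a ω)) := by
  intro ω ω' h
  refine hf _ _ fun v hv => ?_
  obtain ⟨h1, h2, h3⟩ := h v hv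
  refine ⟨?_, ?_, h3⟩
  · simp only [addH]; rw [h1]
  · simp only [addH]; rw [h2]

theorem loc_mono {α : Type*} {S T : Set P2} (hST : S ⊆ T) {f : Cfg → α} (hf : Loc S f) :
    Loc T f := fun ω ω' h => hf ω ω' fun v hv => h v (hST hv)

theorem integral_psym {c : ℝ} {P : Measure Cfg} (hP : IsState c P) {S : Finset P2} {f : Cfg → ℝ}
    (hf : Loc (S : Set P2) f) :
    ∫ ω, f ω ∂(Psym P) = ∫ ω, (f ω + f (addH 2 ω)) / 2 ∂P := by
  have hm := Aut373.loc_measurable hf
  have hi := Aut373.loc_integrable hP hf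
  have hi2 := Aut373.loc_integrable hP (loc_addH hf 2)
  have ha := Csq472.measurable_addH 2
  have hi3 : Integrable f (P.map (addH 2)) :=
    (integrable_map_measure hm.aestronglyMeasurable ha.aemeasurable).2 hi2
  unfold Psym
  rw [integral_add_measure (hi.smul_measure (by simp)) (hi3.smul_measure (by simp)),
    integral_smul_measure, integral_smul_measure,
    integral_map ha.aemeasurable hm.aestronglyMeasurable]
  have e : (fun ω => (f ω + f (addH 2 ω)) / 2) =
      fun ω => (1 / 2 : ℝ) * (f ω + f (addH 2 ω)) := by funext ω; ring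
  rw [e, integral_const_mul, integral_add hi hi2]
  simp only [ENNReal.toReal_inv, ENNReal.toReal_ofNat, smul_eq_mul]
  ring

/-- **Convergence of mod-4 observables** (leaf L1). -/
theorem tendsto_psym {c : ℝ} (hc : 1 ≤ c) {P : Measure Cfg} (hP : IsState c P) (hdel : Deloc c)
    {S : Finset P2} {f : Cfg → ℝ} (hf : Loc (S : Set P2) f) (h4 : ∀ ω, f (addH 4 ω) = f ω)
    {ε : ℝ} (hε : 0 < ε) :
    ∃ n : ℕ, ∀ F : Finset P2, Dom F → box n ⊆ F → |E c F f - ∫ ω, f ω ∂(Psym P)| < ε := by
  obtain ⟨m, hm⟩ := Aut373.exists_box S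
  have hSm : (S : Set P2) ⊆ (box m : Set P2) := by exact_mod_cast hm m le_rfl
  set g : Cfg → ℝ := fun ω => (f ω + f (addH 2 ω)) / 2 with hg
  set d : Cfg → ℝ := fun ω => (f ω - f (addH 2 ω)) / 2 with hd
  have hgl : Loc (S : Set P2) g := fun ω ω' h => by
    simp only [hg]
    rw [hf ω ω' h]
    have := loc_addH hf 2 ω ω' h
    simp only at this
    rw [this]
  have hdl : Loc (box m : Set P2) d := fun ω ω' h => by
    simp only [hd]
    rw [loc_mono hSm hf ω ω' h]
    have := loc_addH (loc_mono hSm hf) 2 ω ω' h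
    simp only at this
    rw [this]
  obtain ⟨C, hC⟩ : ∃ C : ℝ, C = ∑ π ∈ PatF (m + 1), |Dpat c m d π| := ⟨_, rfl⟩
  have hC0 : 0 ≤ C := by rw [hC]; exact Finset.sum_nonneg fun _ _ => abs_nonneg _
  obtain ⟨n1, hn1⟩ := hP.lim S g hgl (ε / 2) (by linarith)
  obtain ⟨n2, hn2⟩ := hdel (ε / (2 * (C + 1))) (by positivity)
  refine ⟨max (max n1 n2) (m + 1), fun F hF hbox => ?_⟩
  have hbm : ∀ a b : ℕ, a ≤ b → box a ⊆ box b := by
    intro a b hab v hv
    rw [mem_box] at hv ⊢
    omega
  have hb1 : box n1 ⊆ F := (hbm _ _ (by omega)).trans hbox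
  have hb2 : box n2 ⊆ F := (hbm _ _ (by omega)).trans hbox
  have hb3 : box (m + 1) ⊆ F := (hbm _ _ (by omega)).trans hbox
  have h1 := hn1 F hF hb1
  have h2 := hn2 F hF hb2
  have h3 := abs_E_sg4_le hc hdl hb3
  rw [← hC] at h3
  have e1 : E c F f = E c F (fun ω => g (norm0 ω)) + E c F (fun ω => sg4 ω * d (norm0 ω)) := by
    rw [← E_add]
    exact E_congr fun ω hω => split4 h4 (hω.even (0, 0))
  have e2 : ∫ ω, f ω ∂(Psym P) = ∫ ω, g ω ∂P := integral_psym hP hf
  rw [e1, e2]
  have h4' : C * Pr c F {ω | ω.1 (0, 0) = 0} ≤ ε / 2 := by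
    have h5 : 0 ≤ Pr c F {ω | ω.1 (0, 0) = 0} := by
      have := (slc_site hc F (0, 0)).nonneg 0
      simpa using this
    calc C * Pr c F {ω | ω.1 (0, 0) = 0} ≤ (C + 1) * (ε / (2 * (C + 1))) :=
          mul_le_mul (by linarith) h2.le h5 (by linarith)
      _ = ε / 2 := by field_simp
  have h6 : E c F (fun ω => g (norm0 ω)) + E c F (fun ω => sg4 ω * d (norm0 ω)) - ∫ ω, g ω ∂P =
      (E c F (fun ω => g (norm0 ω)) - ∫ ω, g ω ∂P) + E c F (fun ω => sg4 ω * d (norm0 ω)) := by
    ring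
  rw [h6]
  refine (abs_add_le _ _).trans_lt ?_
  linarith

end Crest.Agent.R161.Mod991
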