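import Crest.Agent.R161.Asm2_695
import Crest.Agent.R161.Clo_389
import Crest.Agent.R161.CloL_389
import Crest.Agent.R161.NuInv_421
import Crest.Agent.R161.Mod4c_991
import Crest.Agent.R161.Mix_695

-- ▼ part R161/Lap_695
section

/-!
R161, block I (helper695): the five point Laplacian.

* `lap5 δ ψ z` : second differences (not divided by `δ²`);
* `lap5_sub_le` : `|lap5 δ ψ z - δ² Δψ z| ≤ C δ⁴`;
* `sum_lap5` : exact neutrality;
* `abs_K_le` : deterministic bound of the heights in a domain contained in a disc;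
* `X_sub_lap5` : deterministic comparison of `X δ D (-Δψ)` with its discrete version.
-/

set_option autoImplicit false

noncomputable section

namespace Crest.Agent.R161.Lap695

open Finset Filter Topology Metric
open Crest.Agent.R161.Geo729 Crest.Agent.R161.Defs372 Crest.Agent.R161.Asm695
open Crest.ProbabilityR.AshkinTeller
open scoped ContDiff Laplacian

/-- five point Laplacian at mesh `δ`, not divided by `δ²` -/
def lap5 (δ : ℝ) (ψ : ℂ → ℝ) (z : ℂ) : ℝ :=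
  ψ (z + δ) + ψ (z - δ) + ψ (z + δ * Complex.I) + ψ (z - δ * Complex.I) - 4 * ψ z

/-! ### one dimensional estimate -/

theorem step_bound {φ φ' : ℝ → ℝ} {C h : ℝ} (hd : ∀ t, HasDerivAt φ (φ' t) t)
    (h0 : φ 0 = 0) (hb : ∀ t ∈ Set.Icc 0 h, |φ' t| ≤ C) (hC : 0 ≤ C) :
    ∀ t ∈ Set.Icc 0 h, |φ t| ≤ C * h := by
  intro t ht
  have h1 := norm_image_sub_le_of_norm_deriv_le_segment' (f := φ) (f' := φ') (C := C) (a := 0)
    (b := h) (fun x _ => (hd x).hasDerivWithinAt)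
    (fun x hx => by rw [Real.norm_eq_abs]; exact hb x ⟨hx.1, hx.2.le⟩) t ht
  rw [h0, sub_zero, sub_zero, Real.norm_eq_abs] at h1
  exact h1.trans (mul_le_mul_of_nonneg_left ht.2 hC)

theorem second_diff {f f1 f2 f3 f4 : ℝ → ℝ} {M h : ℝ} (hh : 0 ≤ h)
    (h1 : ∀ t, HasDerivAt f (f1 t) t) (h2 : ∀ t, HasDerivAt f1 (f2 t) t)
    (h3 : ∀ t, HasDerivAt f2 (f3 t) t) (h4 : ∀ t, HasDerivAt f3 (f4 t) t)
    (hM : ∀ t, |f4 t| ≤ M) :
    |f h + f (-h) - 2 * f 0 - h ^ 2 * f2 0| ≤ 2 * M * h ^ 4 := by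
  have hM0 : 0 ≤ M := (abs_nonneg _).trans (hM 0)
  have neg : ∀ {g g' : ℝ → ℝ}, (∀ t, HasDerivAt g (g' t) t) →
      ∀ t, HasDerivAt (fun s => g (-s)) (-(g' (-t))) t := by
    intro g g' hg t
    have := (hg (-t)).comp t (hasDerivAt_neg t)
    simpa [Function.comp_def] using this
  -- third level
  have b3 : ∀ t ∈ Set.Icc 0 h, |f3 t - f3 (-t)| ≤ 2 * M * h := by
    refine step_bound (φ := fun t => f3 t - f3 (-t)) (φ' := fun t => f4 t - -(f4 (-t)))
      (fun t => (h4 t).sub (neg h4 t)) (by simp) (fun t _ => ?_) (by positivity)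
    rw [sub_neg_eq_add]
    calc |f4 t + f4 (-t)| ≤ |f4 t| + |f4 (-t)| := abs_add_le _ _
      _ ≤ 2 * M := by linarith [hM t, hM (-t)]
  have b2 : ∀ t ∈ Set.Icc 0 h, |f2 t + f2 (-t) - 2 * f2 0| ≤ 2 * M * h * h := by
    refine step_bound (φ := fun t => f2 t + f2 (-t) - 2 * f2 0) (φ' := fun t => f3 t + -(f3 (-t)))
      (fun t => ((h3 t).add (neg h3 t)).sub_const _) (by simp; ring) (fun t ht => ?_)
      (by positivity)
    rw [← sub_eq_add_neg]
    exact b3 t ht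
  have b1 : ∀ t ∈ Set.Icc 0 h, |f1 t - f1 (-t) - 2 * t * f2 0| ≤ 2 * M * h * h * h := by
    refine step_bound (φ := fun t => f1 t - f1 (-t) - 2 * t * f2 0)
      (φ' := fun t => f2 t - -(f2 (-t)) - 2 * 1 * f2 0)
      (fun t => ((h2 t).sub (neg h2 t)).sub ((((hasDerivAt_id t).const_mul 2)).mul_const _))
      (by simp) (fun t ht => ?_) (by positivity)
    rw [sub_neg_eq_add, mul_one]
    exact b2 t ht
  have b0 : ∀ t ∈ Set.Icc 0 h, |f t + f (-t) - 2 * f 0 - t ^ 2 * f2 0| ≤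
      2 * M * h * h * h * h := by
    refine step_bound (φ := fun t => f t + f (-t) - 2 * f 0 - t ^ 2 * f2 0)
      (φ' := fun t => f1 t + -(f1 (-t)) - (2 : ℕ) * t ^ (2 - 1) * f2 0)
      (fun t => (((h1 t).add (neg h1 t)).sub_const _).sub ((hasDerivAt_pow 2 t).mul_const _))
      (by simp; ring) (fun t ht => ?_) (by positivity)
    have := b1 t ht
    rw [← sub_eq_add_neg]
    simpa using this
  have := b0 h ⟨hh, le_rfl⟩
  calc _ ≤ 2 * M * h * h * h * h := this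
    _ = 2 * M * h ^ 4 := by ring

/-! ### directional derivatives -/

/-- `k`-th derivative in the direction `e` -/
def dirD (k : ℕ) (ψ : ℂ → ℝ) (e z : ℂ) : ℝ := iteratedFDeriv ℝ k ψ z (fun _ => e)

theorem dirD_zero (ψ : ℂ → ℝ) (e z : ℂ) : dirD 0 ψ e z = ψ z := by
  simp [dirD]

theorem hasDerivAt_dirD {ψ : ℂ → ℝ} (hψ : ContDiff ℝ ∞ ψ) (k : ℕ) (e z : ℂ) (t : ℝ) :
    HasDerivAt (fun t : ℝ => dirD k ψ e (z + t * e)) (dirD (k + 1) ψ e (z + t * e)) t := by
  have h1 : Differentiable ℝ (iteratedFDeriv ℝ k ψ) :=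
    hψ.differentiable_iteratedFDeriv (by exact_mod_cast WithTop.coe_lt_coe.2 (ENat.natCast_lt_top k))
  have h2 := (h1 (z + t * e)).hasFDerivAt
  have h3 : HasDerivAt (fun t : ℝ => z + (t : ℂ) * e) e t := by
    have h4 : HasDerivAt (fun t : ℝ => (t : ℂ)) 1 t := Complex.ofRealCLM.hasDerivAt
    have := (h4.mul_const e).const_add z
    simpa using this
  have h5 := h2.comp_hasDerivAt t h3
  have h6 := ((ContinuousMultilinearMap.apply ℝ (fun _ : Fin k => ℂ) ℝ
    (fun _ => e)).hasFDerivAt (x := iteratedFDeriv ℝ k ψ (z + t * e))).comp_hasDerivAt t h5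
  exact h6

theorem abs_dirD_le {ψ : ℂ → ℝ} (k : ℕ) {e : ℂ} (he : ‖e‖ = 1) (z : ℂ) :
    |dirD k ψ e z| ≤ ‖iteratedFDeriv ℝ k ψ z‖ := by
  have := (iteratedFDeriv ℝ k ψ z).le_opNorm (fun _ => e)
  simp only [he, Finset.prod_const_one, mul_one, Real.norm_eq_abs] at this
  exact this

theorem laplacian_eq (ψ : ℂ → ℝ) (z : ℂ) :
    (Δ ψ) z = dirD 2 ψ 1 z + dirD 2 ψ Complex.I z := by
  rw [InnerProductSpace.laplacian_eq_iteratedFDeriv_complexPlane]
  unfold dirD
  have e : ∀ a : ℂ, (![a, a] : Fin 2 → ℂ) = fun _ => a := by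
    intro a; funext i; fin_cases i <;> rfl
  simp only [e]

theorem second_diff_dir {ψ : ℂ → ℝ} (hψ : ContDiff ℝ ∞ ψ) {M : ℝ}
    (hM : ∀ z, ‖iteratedFDeriv ℝ 4 ψ z‖ ≤ M) {e : ℂ} (he : ‖e‖ = 1) (z : ℂ) {δ : ℝ}
    (hδ : 0 ≤ δ) :
    |ψ (z + δ * e) + ψ (z - δ * e) - 2 * ψ z - δ ^ 2 * dirD 2 ψ e z| ≤ 2 * M * δ ^ 4 := by
  have h := second_diff hδ (hasDerivAt_dirD hψ 0 e z) (hasDerivAt_dirD hψ 1 e z)
    (hasDerivAt_dirD hψ 2 e z) (hasDerivAt_dirD hψ 3 e z)
    (fun t => (abs_dirD_le 4 he _).trans (hM _))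
  simp only [dirD_zero, Complex.ofReal_zero, zero_mul, add_zero, Complex.ofReal_neg, neg_mul,
    ← sub_eq_add_neg] at h
  exact h

/-- **Taylor estimate of the five point Laplacian.** -/
theorem lap5_sub_le {ψ : ℂ → ℝ} (hψ : ContDiff ℝ ∞ ψ) (hc : HasCompactSupport ψ) :
    ∃ C : ℝ, 0 ≤ C ∧ ∀ (δ : ℝ) (z : ℂ), 0 ≤ δ → |lap5 δ ψ z - δ ^ 2 * (Δ ψ) z| ≤ C * δ ^ 4 := by
  obtain ⟨M, hM⟩ := (hψ.continuous_iteratedFDeriv (m := 4)
    (WithTop.coe_le_coe.2 (le_top : ((4 : ℕ) : ℕ∞) ≤ ⊤))).bounded_above_of_compact_support (hc.iteratedFDeriv 4)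
  have hM0 : 0 ≤ M := (norm_nonneg _).trans (hM 0)
  refine ⟨4 * M, by positivity, fun δ z hδ => ?_⟩
  have h1 := second_diff_dir hψ hM (e := 1) (by simp) z hδ
  have h2 := second_diff_dir hψ hM (e := Complex.I) (by simp) z hδ
  rw [mul_one] at h1
  rw [laplacian_eq]
  unfold lap5
  rw [abs_le] at h1 h2 ⊢
  constructor <;> nlinarith [h1.1, h1.2, h2.1, h2.2]

/-! ### positions -/

theorem pos_add (δ : ℝ) (v a : P2) : pos δ (v + a) = pos δ v + pos δ a := by
  simp only [pos, Prod.fst_add, Prod.snd_add]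
  push_cast
  ring

theorem pos_e1 (δ : ℝ) : pos δ ((1, 0) : P2) = δ := by simp [pos]
theorem pos_me1 (δ : ℝ) : pos δ ((-1, 0) : P2) = -δ := by simp [pos]
theorem pos_e2 (δ : ℝ) : pos δ ((0, 1) : P2) = δ * Complex.I := by simp [pos]
theorem pos_me2 (δ : ℝ) : pos δ ((0, -1) : P2) = -(δ * Complex.I) := by simp [pos]

/-- discrete form of the five point Laplacian at a lattice point -/
theorem lap5_pos (δ : ℝ) (ψ : ℂ → ℝ) (v : P2) :
    lap5 δ ψ (pos δ v) = ψ (pos δ (v + (1, 0))) + ψ (pos δ (v + (-1, 0))) +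
      ψ (pos δ (v + (0, 1))) + ψ (pos δ (v + (0, -1))) - 4 * ψ (pos δ v) := by
  unfold lap5
  rw [pos_add, pos_add, pos_add, pos_add, pos_e1, pos_me1, pos_e2, pos_me2, ← sub_eq_add_neg,
    ← sub_eq_add_neg]

/-- norm of a coordinate -/
theorem abs_fst_le (δ : ℝ) (v : P2) : |δ * v.1| ≤ ‖pos δ v‖ := by
  have : (pos δ v).re = δ * v.1 := by simp [pos]
  rw [← this]
  exact Complex.abs_re_le_norm _

theorem abs_snd_le (δ : ℝ) (v : P2) : |δ * v.2| ≤ ‖pos δ v‖ := by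
  have : (pos δ v).im = δ * v.2 := by simp [pos]
  rw [← this]
  exact Complex.abs_im_le_norm _

/-- finitely many lattice points in a disc -/
theorem finite_pos {δ R : ℝ} (hδ : 0 < δ) : {v : P2 | ‖pos δ v‖ ≤ R}.Finite := by
  obtain ⟨n, hn⟩ := exists_nat_ge (R / δ)
  refine (Finset.finite_toSet (Finset.Icc (-(n : ℤ)) n ×ˢ Finset.Icc (-(n : ℤ)) n)).subset ?_
  intro v hv
  have key : ∀ x : ℤ, |δ * x| ≤ ‖pos δ v‖ → -(n : ℤ) ≤ x ∧ x ≤ n := by
    intro x hx
    have h1 : |δ * x| ≤ R := hx.trans hv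
    rw [abs_mul, abs_of_pos hδ] at h1
    have h2 : |(x : ℝ)| ≤ n := by
      refine le_trans ?_ hn
      rw [le_div_iff₀ hδ]
      linarith
    have h3 : |x| ≤ (n : ℤ) := by exact_mod_cast h2
    exact abs_le.1 h3
  simp only [Finset.coe_product, Finset.coe_Icc, Set.mem_prod, Set.mem_Icc]
  exact ⟨key _ (abs_fst_le δ v), key _ (abs_snd_le δ v)⟩

/-! ### neutrality -/

/-- the discrete weights vanish off the `δ`-neighbourhood of the support -/
theorem lap5_eq_zero {δ R : ℝ} {ψ : ℂ → ℝ} (hδ : 0 ≤ δ) (hψ : ∀ z, R ≤ ‖z‖ → ψ z = 0) {z : ℂ}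
    (hz : R + δ ≤ ‖z‖) : lap5 δ ψ z = 0 := by
  have key : ∀ w : ℂ, ‖w‖ ≤ δ → ψ (z + w) = 0 := by
    intro w hw
    apply hψ
    have := norm_sub_norm_le z (-w)
    rw [sub_neg_eq_add, norm_neg] at this
    linarith
  have n1 : ‖(δ : ℂ)‖ ≤ δ := by rw [Complex.norm_real, Real.norm_eq_abs, abs_of_nonneg hδ]
  have n2 : ‖(δ : ℂ) * Complex.I‖ ≤ δ := by rw [norm_mul, Complex.norm_I, mul_one]; exact n1
  unfold lap5
  rw [sub_eq_add_neg z, sub_eq_add_neg z, key _ n1, key _ n2, key _ (by rwa [norm_neg]),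
    key _ (by rwa [norm_neg]), hψ z (by linarith)]
  ring

/-- **exact neutrality** of the discrete Laplacian -/
theorem sum_lap5 {δ R : ℝ} (hδ : 0 < δ) {ψ : ℂ → ℝ} (hψ : ∀ z, R ≤ ‖z‖ → ψ z = 0)
    {S : Finset P2} (hS : ∀ v, lap5 δ ψ (pos δ v) ≠ 0 → v ∈ S) :
    ∑ v ∈ S, lap5 δ ψ (pos δ v) = 0 := by
  have hfs : ∀ g : P2 → ℝ, (∀ v, R + δ < ‖pos δ v‖ → g v = 0) → g.HasFiniteSupport := by
    intro g hg
    refine (finite_pos (δ := δ) (R := R + δ) hδ).subset ?_
    intro v hv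
    by_contra hcon
    exact hv (hg v (not_le.1 hcon))
  have hz : ∀ v : P2, R + δ < ‖pos δ v‖ → ψ (pos δ v) = 0 := fun v hv => hψ _ (by linarith)
  have hza : ∀ a : P2, ‖pos δ a‖ ≤ δ → ∀ v : P2, R + δ < ‖pos δ v‖ → ψ (pos δ (v + a)) = 0 := by
    intro a ha v hv
    apply hψ
    rw [pos_add]
    have h1 := norm_sub_norm_le (pos δ v) (-(pos δ a))
    rw [sub_neg_eq_add, norm_neg] at h1
    linarith
  have n1 : ‖(δ : ℂ)‖ ≤ δ := by rw [Complex.norm_real, Real.norm_eq_abs, abs_of_pos hδ]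
  have n2 : ‖(δ : ℂ) * Complex.I‖ ≤ δ := by rw [norm_mul, Complex.norm_I, mul_one]; exact n1
  have z1 := hza (1, 0) (by rw [pos_e1]; exact n1)
  have z2 := hza (-1, 0) (by rw [pos_me1, norm_neg]; exact n1)
  have z3 := hza (0, 1) (by rw [pos_e2]; exact n2)
  have z4 := hza (0, -1) (by rw [pos_me2, norm_neg]; exact n2)
  have hshift : ∀ a : P2, ∑ᶠ v : P2, ψ (pos δ (v + a)) = ∑ᶠ v : P2, ψ (pos δ v) := fun a =>
    finsum_comp_equiv (f := fun v : P2 => ψ (pos δ v)) (Equiv.addRight a)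
  have h1 : ∑ᶠ v : P2, lap5 δ ψ (pos δ v) = 0 := by
    have e : (fun v : P2 => lap5 δ ψ (pos δ v)) = fun v =>
        (((ψ (pos δ (v + (1, 0))) + ψ (pos δ (v + (-1, 0)))) + ψ (pos δ (v + (0, 1)))) +
          ψ (pos δ (v + (0, -1)))) + (-4) * ψ (pos δ v) := by
      funext v
      rw [lap5_pos]
      ring
    rw [e,
      finsum_add_distrib (hfs _ fun v hv => by rw [z1 v hv, z2 v hv, z3 v hv, z4 v hv]; ring)
        (hfs _ fun v hv => by rw [hz v hv]; ring),
      finsum_add_distrib (hfs _ fun v hv => by rw [z1 v hv, z2 v hv, z3 v hv]; ring)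
        (hfs _ fun v hv => z4 v hv),
      finsum_add_distrib (hfs _ fun v hv => by rw [z1 v hv, z2 v hv]; ring)
        (hfs _ fun v hv => z3 v hv),
      finsum_add_distrib (hfs _ fun v hv => z1 v hv) (hfs _ fun v hv => z2 v hv),
      hshift, hshift, hshift, hshift, ← mul_finsum]
    ring
  rw [finsum_eq_sum_of_support_subset _ (s := S)] at h1
  · exact h1
  · intro v hv
    exact Finset.mem_coe.2 (hS v hv)

/-! ### deterministic bounds -/

theorem norm_pos_div {δ r : ℝ} (hr : 0 < r) (v : P2) : ‖pos (δ / r) v‖ = ‖pos δ v‖ / r := by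
  have : pos (δ / r) v = pos δ v / r := by
    simp only [pos]
    push_cast
    ring
  rw [this, norm_div, Complex.norm_real, Real.norm_eq_abs, abs_of_pos hr]

theorem mem_disc {δ r : ℝ} (hδ : 0 < δ) (hr : 0 < r) {f : P2} : f ∈ disc δ r ↔
    ‖pos δ f‖ < r ∧ ‖pos δ (f.1 + 1, f.2)‖ < r ∧ ‖pos δ (f.1, f.2 + 1)‖ < r ∧
      ‖pos δ (f.1 + 1, f.2 + 1)‖ < r := by
  rw [disc_of_pos hr, Geo132.faces_eq (div_pos hδ hr), ← Geo132.isDomainFace_iff (div_pos hδ hr)]
  simp only [IsDomainFace, norm_pos_div hr, div_lt_one hr]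

/-- faces of `disc δ r` are at distance `< r` from the origin -/
theorem norm_lt_of_mem_disc {δ r : ℝ} (hδ : 0 < δ) {f : P2} (h : f ∈ disc δ r) :
    ‖pos δ f‖ < r := by
  by_cases hr : 0 < r
  · exact ((mem_disc hδ hr).1 h).1
  · rw [disc, if_neg hr] at h
    simp at h

/-- **deterministic bound of the heights** in a domain contained in a disc -/
theorem abs_K_le {δ R : ℝ} (hδ : 0 < δ) (hR : 0 < R) {D : Finset P2} (hD : D ⊆ disc δ R) {u : Cfg}
    (hω : Valid D u) (v : P2) : |(u.1 v : ℝ)| ≤ 4 * R / δ + 8 := by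
  by_cases hv : v ∈ intVerts D
  · have hvD : v ∈ D := (Finset.mem_filter.1 hv).1
    set n : ℕ := ⌈2 * R / δ⌉₊ + 2 with hn
    have hn1 : 2 * R / δ ≤ (n : ℝ) - 2 := by
      rw [hn]; push_cast
      have := Nat.le_ceil (2 * R / δ)
      linarith
    have hn2 : (n : ℝ) < 2 * R / δ + 3 := by
      rw [hn]; push_cast
      have := Nat.ceil_lt_add_one (a := 2 * R / δ) (by positivity)
      linarith
    have hn0 : 1 ≤ n := by omega
    have hex : ((v.1 + ((n - 1 : ℕ) : ℤ) + 1 : ℤ), v.2) ∉ D := by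
      intro hmem
      have h1 := norm_lt_of_mem_disc hδ (hD hmem)
      have h2 := norm_lt_of_mem_disc hδ (hD hvD)
      have h3 := (abs_fst_le δ _).trans h1.le
      have h4 := (abs_fst_le δ v).trans_lt h2
      have h5 : ((v.1 + ((n - 1 : ℕ) : ℤ) + 1 : ℤ) : ℝ) = v.1 + n := by
        have : (((n - 1 : ℕ) : ℤ)) = (n : ℤ) - 1 := by omega
        rw [this]; push_cast; ring
      simp only at h3
      rw [h5] at h3
      have h6 := (abs_le.1 h3).2
      have h7 := (abs_lt.1 h4).1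
      have h8 : 2 * R ≤ δ * n := by
        rw [div_le_iff₀ hδ] at hn1
        nlinarith
      nlinarith
    have h1 := hω.abs_face_le n v ⟨n - 1, by omega, hex⟩
    have h2 := hω.corner v hvD v (by simp [Geo729.IsCorner])
    have h3 : |u.1 v| ≤ 2 * n + 2 := by
      rw [abs_le] at h1 ⊢
      rcases abs_eq (by norm_num : (0 : ℤ) ≤ 1) |>.1 h2 with h2 | h2 <;>
      constructor <;> linarith [h1.1, h1.2]
    have h4 : |(u.1 v : ℝ)| ≤ 2 * n + 2 := by exact_mod_cast h3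
    have h5 : 4 * R / δ = 2 * (2 * R / δ) := by ring
    rw [h5]
    linarith
  · rw [hω.zero v hv]
    simp only [Int.cast_zero, abs_zero]
    positivity

/-- number of faces of a domain contained in a disc -/
theorem card_le {δ R : ℝ} (hδ : 0 < δ) {D : Finset P2} (hD : D ⊆ disc δ R) :
    (D.card : ℝ) ≤ (2 * R / δ + 1) ^ 2 := by
  by_cases hne : D.Nonempty
  swap
  · rw [Finset.not_nonempty_iff_eq_empty.1 hne]
    simp only [Finset.card_empty, Nat.cast_zero]
    positivity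
  have hR : 0 < R := by
    obtain ⟨f, hf⟩ := hne
    exact (norm_nonneg _).trans_lt (norm_lt_of_mem_disc hδ (hD hf))
  set n : ℤ := ⌊R / δ⌋ with hn
  have hn0 : 0 ≤ n := Int.floor_nonneg.2 (by positivity)
  have hn1 : (n : ℝ) ≤ R / δ := Int.floor_le _
  have hsub : D ⊆ Finset.Icc (-n) n ×ˢ Finset.Icc (-n) n := by
    intro f hf
    have h1 := norm_lt_of_mem_disc hδ (hD hf)
    have key : ∀ x : ℤ, |δ * x| ≤ ‖pos δ f‖ → -n ≤ x ∧ x ≤ n := by
      intro x hx
      have h2 : |δ * x| ≤ R := hx.trans h1.le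
      rw [abs_mul, abs_of_pos hδ] at h2
      have h3 : |(x : ℝ)| ≤ R / δ := by
        rw [le_div_iff₀ hδ]
        linarith
      have h4 : |x| ≤ n := by
        rw [hn, Int.le_floor]
        push_cast
        exact h3
      exact abs_le.1 h4
    rw [Finset.mem_product, Finset.mem_Icc, Finset.mem_Icc]
    exact ⟨key _ (abs_fst_le δ f), key _ (abs_snd_le δ f)⟩
  have h1 := Finset.card_le_card hsub
  rw [Finset.card_product, Int.card_Icc] at h1
  have h2 : ((n + 1 - -n).toNat : ℝ) = 2 * n + 1 := by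
    have : ((n + 1 - -n).toNat : ℤ) = 2 * n + 1 := by omega
    exact_mod_cast this
  calc (D.card : ℝ) ≤ (((n + 1 - -n).toNat * (n + 1 - -n).toNat : ℕ) : ℝ) := by exact_mod_cast h1
    _ = (2 * n + 1) ^ 2 := by push_cast; rw [h2]; ring
    _ ≤ (2 * R / δ + 1) ^ 2 := by
        have : 2 * (n : ℝ) + 1 ≤ 2 * R / δ + 1 := by
          have : 2 * R / δ = 2 * (R / δ) := by ring
          rw [this]; linarith
        have h0 : (0 : ℝ) ≤ 2 * n + 1 := by
          have : (0 : ℝ) ≤ n := by exact_mod_cast hn0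
          linarith
        gcongr

/-- **Deterministic comparison** of `X δ D (-Δψ)` with its discrete version. -/
theorem X_sub_lap5 {ψ : ℂ → ℝ} (hψ : ContDiff ℝ ∞ ψ) (hc : HasCompactSupport ψ) {R : ℝ}
    (hR : 0 < R) : ∃ C : ℝ, 0 ≤ C ∧ ∀ δ : ℝ, 0 < δ → δ ≤ 1 → ∀ D : Finset P2, D ⊆ disc δ R →
      ∀ u, Valid D u →
        |X δ D (fun z => -(Δ ψ) z) u - Lin D (fun v => -lap5 δ ψ (pos δ v)) u| ≤ C * δ := by
  obtain ⟨C, hC0, hC⟩ := lap5_sub_le hψ hc
  refine ⟨C * ((2 * R + 1) ^ 2 * (4 * R + 8)), by positivity, fun δ hδ hδ1 D hD u hω => ?_⟩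
  have h1 : X δ D (fun z => -(Δ ψ) z) u - Lin D (fun v => -lap5 δ ψ (pos δ v)) u =
      ∑ v ∈ D, (u.1 v : ℝ) * (lap5 δ ψ (pos δ v) - δ ^ 2 * (Δ ψ) (pos δ v)) := by
    unfold X Lin
    rw [← Finset.sum_sub_distrib]
    exact Finset.sum_congr rfl fun v _ => by ring
  rw [h1]
  calc _ ≤ ∑ v ∈ D, |(u.1 v : ℝ) * (lap5 δ ψ (pos δ v) - δ ^ 2 * (Δ ψ) (pos δ v))| :=
        Finset.abs_sum_le_sum_abs _ _
    _ ≤ ∑ _v ∈ D, (4 * R / δ + 8) * (C * δ ^ 4) := by
        refine Finset.sum_le_sum fun v _ => ?_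
        rw [abs_mul]
        exact mul_le_mul (abs_K_le hδ hR hD hω v) (hC δ _ hδ.le) (abs_nonneg _) (by positivity)
    _ = D.card * ((4 * R / δ + 8) * (C * δ ^ 4)) := by rw [Finset.sum_const, nsmul_eq_mul]
    _ ≤ (2 * R / δ + 1) ^ 2 * ((4 * R / δ + 8) * (C * δ ^ 4)) :=
        mul_le_mul_of_nonneg_right (card_le hδ hD) (by positivity)
    _ = C * ((2 * R + δ) ^ 2 * (4 * R + 8 * δ)) * δ := by field_simp
    _ ≤ C * ((2 * R + 1) ^ 2 * (4 * R + 8)) * δ := by
        have a1 : (2 * R + δ) ^ 2 ≤ (2 * R + 1) ^ 2 := by gcongr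
        have a2 : 4 * R + 8 * δ ≤ 4 * R + 8 := by linarith
        have a3 : (2 * R + δ) ^ 2 * (4 * R + 8 * δ) ≤ (2 * R + 1) ^ 2 * (4 * R + 8) :=
          mul_le_mul a1 a2 (by positivity) (by positivity)
        exact mul_le_mul_of_nonneg_right (mul_le_mul_of_nonneg_left a3 hC0) hδ.le

end Crest.Agent.R161.Lap695
end
end

-- ▼ part R161/RingGeo_695
section

/-!
R161, block I (helper695): geometry of the coarse ring.

Coarse vertex sets `disc 1 R` (= `faces (1/R)`), blocks `regF M (disc 1 R)`.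
-/

set_option autoImplicit false

noncomputable section

namespace Crest.Agent.R161.RingGeo695

open Finset Metric
open Crest.Agent.R161.Geo729 Crest.Agent.R161.Defs372 Crest.Agent.R161.Asm695
open Crest.Agent.R161.Lap695 Crest.Agent.R161.Clo389
open Crest.ProbabilityR.AshkinTeller

/-! ### positions -/

theorem add00 (v : P2) : v + (0, 0) = v := by ext <;> simp
theorem add10 (v : P2) : v + (1, 0) = (v.1 + 1, v.2) := by ext <;> simp
theorem add01 (v : P2) : v + (0, 1) = (v.1, v.2 + 1) := by ext <;> simp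
theorem add11 (v : P2) : v + (1, 1) = (v.1 + 1, v.2 + 1) := by ext <;> simp
theorem addm10 (v : P2) : v + (-1, 0) = (v.1 - 1, v.2) := by ext <;> simp [sub_eq_add_neg]
theorem add0m1 (v : P2) : v + (0, -1) = (v.1, v.2 - 1) := by ext <;> simp [sub_eq_add_neg]
theorem addm1m1 (v : P2) : v + (-1, -1) = (v.1 - 1, v.2 - 1) := by
  ext <;> simp [sub_eq_add_neg]

theorem norm_pos_scale {δ : ℝ} (hδ : 0 < δ) (v : P2) : ‖pos δ v‖ = δ * ‖pos 1 v‖ := by
  have : pos δ v = (δ : ℂ) * pos 1 v := by simp [pos]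
  rw [this, norm_mul, Complex.norm_real, Real.norm_eq_abs, abs_of_pos hδ]


theorem norm_pos_small {v : P2} (h1 : |v.1| ≤ 1) (h2 : |v.2| ≤ 1) : ‖pos 1 v‖ ≤ 3 / 2 := by
  have h : pos 1 v = (v.1 : ℂ) + (v.2 : ℂ) * Complex.I := by simp [pos]
  have h3 : ‖pos 1 v‖ ^ 2 = (v.1 : ℝ) ^ 2 + (v.2 : ℝ) ^ 2 := by
    rw [h, ← Complex.normSq_eq_norm_sq, Complex.normSq_apply]
    simp
    ring
  have h1' : |(v.1 : ℝ)| ≤ 1 := by exact_mod_cast h1
  have h2' : |(v.2 : ℝ)| ≤ 1 := by exact_mod_cast h2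
  have h4 : (v.1 : ℝ) ^ 2 ≤ 1 := by
    rw [← sq_abs]; nlinarith [abs_nonneg (v.1 : ℝ)]
  have h5 : (v.2 : ℝ) ^ 2 ≤ 1 := by
    rw [← sq_abs]; nlinarith [abs_nonneg (v.2 : ℝ)]
  nlinarith [norm_nonneg (pos 1 v)]

theorem norm_pos_add_le (v e : P2) : ‖pos 1 (v + e)‖ ≤ ‖pos 1 v‖ + ‖pos 1 e‖ := by
  rw [pos_add]; exact norm_add_le _ _


/-- distance between a face and its coarse vertex -/
theorem norm_nv_sub {M : ℕ} (hM : 0 < M) (f : P2) :
    ‖pos 1 f - ((2 * M : ℝ) : ℂ) * pos 1 (nv M f)‖ ≤ 2 * M := by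
  have h := Arc389.mem_ball.1 (mem_block hM f)
  simp only [cv] at h
  set v := nv M f with hv
  have e : pos 1 f - ((2 * M : ℝ) : ℂ) * pos 1 v =
      ((f.1 - 2 * M * v.1 : ℤ) : ℂ) + ((f.2 - 2 * M * v.2 : ℤ) : ℂ) * Complex.I := by
    simp only [pos]
    push_cast
    ring
  have h1 : |((f.1 - 2 * M * v.1 : ℤ) : ℝ)| ≤ M := by
    have : |f.1 - 2 * M * v.1| ≤ (M : ℤ) := by rw [abs_le]; constructor <;> linarith
    exact_mod_cast this
  have h2 : |((f.2 - 2 * M * v.2 : ℤ) : ℝ)| ≤ M := by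
    have : |f.2 - 2 * M * v.2| ≤ (M : ℤ) := by rw [abs_le]; constructor <;> linarith
    exact_mod_cast this
  rw [e]
  refine (norm_add_le _ _).trans ?_
  rw [norm_mul, Complex.norm_I, mul_one, Complex.norm_intCast, Complex.norm_intCast]
  linarith

theorem norm_nv_le {M : ℕ} (hM : 0 < M) (f : P2) :
    2 * M * ‖pos 1 (nv M f)‖ ≤ ‖pos 1 f‖ + 2 * M := by
  have h1 := norm_nv_sub hM f
  have h2 := norm_sub_norm_le (((2 * M : ℝ) : ℂ) * pos 1 (nv M f)) (pos 1 f)
  rw [norm_sub_rev] at h2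
  have h3 : ‖((2 * M : ℝ) : ℂ) * pos 1 (nv M f)‖ = 2 * M * ‖pos 1 (nv M f)‖ := by
    rw [norm_mul, Complex.norm_real, Real.norm_eq_abs, abs_of_nonneg (by positivity)]
  rw [h3] at h2
  linarith

theorem norm_le_nv {M : ℕ} (hM : 0 < M) (f : P2) :
    ‖pos 1 f‖ ≤ 2 * M * ‖pos 1 (nv M f)‖ + 2 * M := by
  have h1 := norm_nv_sub hM f
  have h2 := norm_sub_norm_le (pos 1 f) (((2 * M : ℝ) : ℂ) * pos 1 (nv M f))
  have h3 : ‖((2 * M : ℝ) : ℂ) * pos 1 (nv M f)‖ = 2 * M * ‖pos 1 (nv M f)‖ := by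
    rw [norm_mul, Complex.norm_real, Real.norm_eq_abs, abs_of_nonneg (by positivity)]
  rw [h3] at h2
  linarith

/-! ### coarse discs -/

theorem mem_coarse_of {R : ℝ} {v : P2} (h : ‖pos 1 v‖ ≤ R - 2) : v ∈ disc 1 R := by
  have hR : 0 < R := by linarith [norm_nonneg (pos 1 v)]
  rw [mem_disc one_pos hR]
  have key : ∀ e : P2, |e.1| ≤ 1 → |e.2| ≤ 1 → ‖pos 1 (v + e)‖ < R := fun e h1 h2 => by
    have := norm_pos_add_le v e
    have := norm_pos_small h1 h2
    linarith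
  refine ⟨by linarith, ?_, ?_, ?_⟩
  · rw [← add10]; exact key (1, 0) (by simp) (by simp)
  · rw [← add01]; exact key (0, 1) (by simp) (by simp)
  · rw [← add11]; exact key (1, 1) (by simp) (by simp)

theorem norm_lt_of_coarse {R : ℝ} {v : P2} (h : v ∈ disc 1 R) : ‖pos 1 v‖ < R :=
  norm_lt_of_mem_disc one_pos h

theorem coarse_compl_conn {R : ℝ} (hR : 0 < R) : IsConn ((disc 1 R : Finset P2) : Set P2)ᶜ :=
  (dom_disc one_pos hR).sc

theorem coarse_conn {R : ℝ} (hR : 0 < R) : IsConn ((disc 1 R : Finset P2) : Set P2) :=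
  (dom_disc one_pos hR).conn

theorem zero_mem_coarse {R : ℝ} (hR : 2 ≤ R) : ((0, 0) : P2) ∈ disc 1 R := by
  apply mem_coarse_of
  have : pos 1 ((0, 0) : P2) = 0 := by simp [pos]
  rw [this, norm_zero]
  linarith

theorem inner_coarse {R1 R2 : ℝ} (h : R2 + 4 ≤ R1) : Clo389.Inner (disc 1 R1) (disc 1 R2) := by
  intro v hv u h1 h2
  apply mem_coarse_of
  have h3 := norm_lt_of_coarse hv
  have h4 := norm_pos_add_le v (u - v)
  rw [add_sub_cancel] at h4
  have h5 : ‖pos 1 (u - v)‖ ≤ 3 / 2 := norm_pos_small (by simpa using h1) (by simpa using h2)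
  linarith

/-- ring cells are near the circle of radius `R` -/
theorem ringCell_norm {R : ℝ} {a : P2} (ha : a ∈ ringCells (disc 1 R)) {u : P2}
    (hu : Geo729.IsCorner u a) : R - 4 < ‖pos 1 u‖ ∧ ‖pos 1 u‖ < R + 2 := by
  obtain ⟨⟨v, hv, hva⟩, w, hw, hwa⟩ := mem_ringCells.1 ha
  have hd : ∀ x y : P2, Geo729.IsCorner x a → Geo729.IsCorner y a →
      |x.1 - y.1| ≤ 1 ∧ |x.2 - y.2| ≤ 1 := by
    intro x y hx hy
    obtain ⟨a1, a2⟩ := a
    simp only [Geo729.IsCorner] at hx hy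
    rcases hx with rfl | rfl | rfl | rfl <;> rcases hy with rfl | rfl | rfl | rfl <;> simp
  constructor
  · have h1 : R - 2 < ‖pos 1 w‖ := by
      by_contra hcon
      exact hw (mem_coarse_of (not_lt.1 hcon))
    have h2 := norm_pos_add_le u (w - u)
    rw [add_sub_cancel] at h2
    have h3 : ‖pos 1 (w - u)‖ ≤ 3 / 2 :=
      norm_pos_small (by simpa using (hd w u hwa hu).1) (by simpa using (hd w u hwa hu).2)
    linarith
  · have h1 := norm_lt_of_coarse hv
    have h2 := norm_pos_add_le v (u - v)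
    rw [add_sub_cancel] at h2
    have h3 : ‖pos 1 (u - v)‖ ≤ 3 / 2 :=
      norm_pos_small (by simpa using (hd u v hu hva).1) (by simpa using (hd u v hu hva).2)
    linarith

/-! ### blocks and discs -/

/-- blocks of the outer coarse disc -/
theorem regF_subset {M : ℕ} (hM : 0 < M) {δ R ρ' : ℝ} (hδ : 0 < δ)
    (h : δ * (2 * M * R + 2 * M + 2) ≤ ρ') : regF M (disc 1 R) ⊆ disc δ ρ' := by
  intro f hf
  rw [mem_regF hM] at hf
  have h1 := norm_lt_of_coarse hf
  have hR : 0 < R := (norm_nonneg _).trans_lt h1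
  have h2 := norm_le_nv hM f
  have hM' : (0 : ℝ) < M := by exact_mod_cast hM
  have h3 : ‖pos 1 f‖ < 2 * M * R + 2 * M := by
    have : 2 * M * ‖pos 1 (nv M f)‖ < 2 * M * R := mul_lt_mul_of_pos_left h1 (by positivity)
    linarith
  have hρ' : 0 < ρ' := lt_of_lt_of_le (by positivity) h
  have key : ∀ e : P2, |e.1| ≤ 1 → |e.2| ≤ 1 → ‖pos δ (f + e)‖ < ρ' := fun e h4 h5 => by
    rw [norm_pos_scale hδ]
    have h6 := norm_pos_add_le f e
    have h7 := norm_pos_small h4 h5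
    refine lt_of_lt_of_le (mul_lt_mul_of_pos_left ?_ hδ) h
    linarith
  rw [mem_disc hδ hρ']
  refine ⟨?_, ?_, ?_, ?_⟩
  · rw [← add00 f]; exact key (0, 0) (by simp) (by simp)
  · rw [← add10]; exact key (1, 0) (by simp) (by simp)
  · rw [← add01]; exact key (0, 1) (by simp) (by simp)
  · rw [← add11]; exact key (1, 1) (by simp) (by simp)

/-- faces near the origin belong to the blocks of the inner coarse disc -/
theorem mem_regF_of {M : ℕ} (hM : 0 < M) {δ R : ℝ} (hδ : 0 < δ) {f : P2}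
    (h : ‖pos δ f‖ ≤ δ * (2 * M * (R - 3))) : f ∈ regF M (disc 1 R) := by
  rw [mem_regF hM]
  apply mem_coarse_of
  have hM' : (0 : ℝ) < M := by exact_mod_cast hM
  rw [norm_pos_scale hδ] at h
  have h1 := le_of_mul_le_mul_left h hδ
  have h2 := norm_nv_le hM f
  have h3 : 2 * M * ‖pos 1 (nv M f)‖ ≤ 2 * M * (R - 2) := by linarith
  exact le_of_mul_le_mul_left h3 (by positivity)

theorem subset_regF {M : ℕ} (hM : 0 < M) {δ R ρ' : ℝ} (hδ : 0 < δ)
    (h : ρ' ≤ δ * (2 * M * (R - 3))) : disc δ ρ' ⊆ regF M (disc 1 R) := fun _ hf =>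
  mem_regF_of hM hδ ((norm_lt_of_mem_disc hδ hf).le.trans h)

/-- vertices near the origin are interior to the blocks of the inner coarse disc -/
theorem mem_intVerts_of {M : ℕ} (hM : 0 < M) {δ R : ℝ} (hδ : 0 < δ) {v : P2}
    (h : ‖pos δ v‖ + 2 * δ ≤ δ * (2 * M * (R - 3))) : v ∈ intVerts (regF M (disc 1 R)) := by
  have key : ∀ e : P2, |e.1| ≤ 1 → |e.2| ≤ 1 → v + e ∈ regF M (disc 1 R) := fun e h1 h2 => by
    apply mem_regF_of hM hδ
    refine le_trans ?_ h
    rw [norm_pos_scale hδ, norm_pos_scale hδ]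
    have h6 := norm_pos_add_le v e
    have h7 := norm_pos_small h1 h2
    nlinarith
  unfold intVerts
  rw [Finset.mem_filter]
  refine ⟨?_, ?_, ?_, ?_⟩
  · rw [← add00 v]; exact key (0, 0) (by simp) (by simp)
  · rw [← addm10]; exact key (-1, 0) (by simp) (by simp)
  · rw [← add0m1]; exact key (0, -1) (by simp) (by simp)
  · rw [← addm1m1]; exact key (-1, -1) (by simp) (by simp)

end Crest.Agent.R161.RingGeo695
end
end

-- ▼ part R161/CloP_389
section

/-!
# Row 161, block H-e: the closed ring (helper389), probability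

* `EpS`: ring event of the plus-cut percolation; `BadS`: ring event without closing circuits around some
  boundary midpoint.
* `bad_nu`: `nu P (BadS) ≤ ε nu P (EpS)` for `M ≥ lam g`, `g ≥ g0`, `lam = lam(ε)`, from FKG and `LemU`.
* `inner_subset`: off `BadS`, the ring event implies that the inner blocks are contained in `WF`.
-/

set_option autoImplicit false

noncomputable section

namespace Crest.Agent.R161.Clo389

open Finset hiding box
open MeasureTheory
open Crest.Agent.R161.Geo729 Crest.Agent.R161.Defs372 Crest.Agent.R161.Dual374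
open Crest.Agent.R161.Hull374 Crest.Agent.R161.Ifc372 Crest.Agent.R161.Arc389
open Crest.Agent.R161.Ring421 Crest.Agent.R161.NuInv421

variable {M g : ℕ} {𝒱 : Finset P2}

/-- ring event of a percolation configuration -/
def EpS (M g : ℕ) (𝒱 : Finset P2) : Set (Edge → Bool) := {z | Ep M g 𝒱 (fun e => z e = true)}

theorem plusMap_true (ω : Cfg) : (fun e => plusMap ω e = true) = plusE ω := by
  funext e
  unfold plusMap
  exact propext (by simp)

theorem mem_EpS {ω : Cfg} : plusMap ω ∈ EpS M g 𝒱 ↔ Ep M g 𝒱 (plusE ω) := by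
  unfold EpS
  rw [Set.mem_ofPred_eq, plusMap_true]

theorem locOn_EpS : LocOn (bord (ringF M g 𝒱)) (EpS M g 𝒱) := by
  intro z z' h
  refine Ep_congr_loc fun e he => ?_
  rw [h e (mem_bord.2 he)]

theorem incEv_EpS : IncEv (EpS M g 𝒱) := by
  intro z z' h hz a ha
  exact (Ring421.reach_anti h _).trans (hz a ha)

/-- some circuit round the midpoint `e` at the scales `L^j n`, `j < J` -/
def MidS (M n L J : ℕ) (e : Edge) : Set (Edge → Bool) :=
  {z | ∃ j < J, Circ (fun e' => z e' = true) (mid M e) (L ^ j * n) (2 * (L ^ j * n))}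

theorem locOn_circ (x : P2) (n m K : ℕ) (h : m ≤ K) :
    LocOn (bord (ball x K)) {z | Circ (fun e' => z e' = true) x n m} := by
  intro z z' hz
  refine Ring421.reach_subset_iff fun e he => ?_
  rw [hz e (mem_bord.2 (he.imp (fun h1 => ?_) fun h1 => ?_))]
  · exact ball_mono h (Finset.mem_coe.1 h1)
  · exact ball_mono h (Finset.mem_coe.1 h1)

theorem locEv_MidS (M n L J : ℕ) (e : Edge) : LocEv (MidS M n L J e) := by
  refine ⟨bord (ball (mid M e) (∑ j ∈ Finset.range J, 2 * (L ^ j * n))), ?_⟩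
  intro z z' hz
  refine exists_congr fun j => and_congr_right fun hj => ?_
  refine locOn_circ (mid M e) _ _ _ ?_ z z' hz
  exact Finset.single_le_sum (f := fun j => 2 * (L ^ j * n)) (fun _ _ => Nat.zero_le _)
    (Finset.mem_range.2 hj)

theorem incEv_MidS (M n L J : ℕ) (e : Edge) : IncEv (MidS M n L J e) := by
  rintro z z' h ⟨j, hj, hc⟩
  exact ⟨j, hj, (Ring421.reach_anti h _).trans hc⟩

theorem indP_congr {A B : Cfg → Prop} {ω ω' : Cfg} (h : A ω ↔ B ω') : indP A ω = indP B ω' := by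
  unfold indP
  by_cases h1 : A ω
  · rw [if_pos h1, if_pos (h.1 h1)]
  · rw [if_neg h1, if_neg fun h2 => h1 (h.2 h2)]

/-- locality of plus-cut events as functions of the configuration -/
theorem loc_plus {S : Finset Edge} {A : Set (Edge → Bool)} (hA : LocOn S A) :
    Loc ((S.image Prod.fst : Finset P2) : Set P2) (indP fun ω => plusMap ω ∉ A) := by
  classical
  intro ω ω' h
  have key : plusMap ω ∈ A ↔ plusMap ω' ∈ A := by
    apply hA
    intro e he
    have := (plusE_agree h (e := e) (by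
      rw [Finset.mem_coe, Finset.mem_image]; exact ⟨e, he, rfl⟩)).1
    unfold plusMap
    rw [decide_eq_decide]
    exact this
  exact indP_congr (not_congr key)

theorem psym_prob {P : Measure Cfg} [IsProbabilityMeasure P] : IsProbabilityMeasure (Psym P) := by
  constructor
  unfold Psym
  rw [Measure.add_apply, Measure.smul_apply, Measure.smul_apply,
    Measure.map_apply (measurable_addH 2) MeasurableSet.univ]
  simp only [Set.preimage_univ, measure_univ, smul_eq_mul, mul_one]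
  exact ENNReal.inv_two_add_inv_two

theorem integral_indP_psym {P : Measure Cfg} [IsProbabilityMeasure P] {A : Set (Edge → Bool)}
    (hA : MeasurableSet A) :
    ∫ ω, indP (fun ω => plusMap ω ∉ A) ω ∂(Psym P) = (nu P).real Aᶜ := by
  classical
  have := psym_prob (P := P)
  have h1 : (fun ω => indP (fun ω => plusMap ω ∉ A) ω) =
      (plusMap ⁻¹' Aᶜ).indicator (fun _ => (1 : ℝ)) := by
    funext ω
    unfold indP
    by_cases h : plusMap ω ∈ A
    · rw [if_neg (not_not.2 h), Set.indicator_of_notMem]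
      intro h'; exact h' h
    · rw [if_pos h, Set.indicator_of_mem]
      exact h
  have hm : MeasurableSet (plusMap ⁻¹' Aᶜ) := measurable_plusMap hA.compl
  rw [h1, integral_indicator_const _ hm, smul_eq_mul, mul_one]
  unfold nu Measure.real
  rw [Measure.map_apply measurable_plusMap hA.compl]

/-- **The closing circuits exist with high probability.** -/
theorem nu_mid_compl {c : ℝ} (hc : 1 ≤ c) {P : Measure Cfg} (hP : IsState c P)
    (hdel : Mod991.Deloc c) {ε : ℝ} {J n0 L : ℕ}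
    (hU : ∀ F : Finset P2, Dom F → ∀ (x : P2) (n : ℕ), n0 ≤ n →
      E c F (fun ω => indP (fun ω => ∀ j : ℕ, j < J →
        ¬ Circ (plusE ω) x (L ^ j * n) (2 * (L ^ j * n))) ω) ≤ ε)
    (M n : ℕ) (hn : n0 ≤ n) (e : Edge) : (nu P).real (MidS M n L J e)ᶜ ≤ ε := by
  classical
  have := hP.prob
  obtain ⟨S, hS⟩ := locEv_MidS M n L J e
  have hmeas : MeasurableSet (MidS M n L J e) := (locEv_MidS M n L J e).measurableSet
  have hloc := loc_plus hS
  have h4 : ∀ ω, indP (fun ω => plusMap ω ∉ MidS M n L J e) (addH 4 ω) =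
      indP (fun ω => plusMap ω ∉ MidS M n L J e) ω := by
    intro ω
    have : plusMap (addH 4 ω) = plusMap ω := by
      funext e'
      unfold plusMap
      rw [decide_eq_decide]
      exact plusE_addH4 ω e'
    exact indP_congr (by rw [this])
  rw [← integral_indP_psym hmeas]
  refine le_of_forall_pos_le_add fun η hη => ?_
  obtain ⟨k, hk⟩ := Mod991.tendsto_psym hc hP hdel hloc h4 hη
  have h1 := hk (Defs372.box k) (Rect597.dom_box k) (Finset.Subset.refl _)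
  have h2 := hU (Defs372.box k) (Rect597.dom_box k) (mid M e) n hn
  have h3 : E c (Defs372.box k) (indP fun ω => plusMap ω ∉ MidS M n L J e) ≤ ε := by
    refine le_trans (le_of_eq ?_) h2
    congr 1
    funext ω
    have : plusMap ω ∉ MidS M n L J e ↔ ∀ j : ℕ, j < J →
        ¬ Circ (plusE ω) (mid M e) (L ^ j * n) (2 * (L ^ j * n)) := by
      unfold MidS
      rw [Set.mem_ofPred_eq, plusMap_true]
      push Not
      rfl
    exact indP_congr this
  rw [abs_lt] at h1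
  linarith [h1.1, h1.2]

/-- ring event without a closing circuit round some boundary midpoint -/
def BadS (M g : ℕ) (𝒱 : Finset P2) : Set (Edge → Bool) :=
  {z | z ∈ EpS M g 𝒱 ∧ ∃ e ∈ bdEdges 𝒱, ∀ n m : ℕ, 2 * g ≤ n → 4 * m ≤ M →
    ¬ Circ (fun e' => z e' = true) (mid M e) n m}


theorem locEv_BadS : LocEv (BadS M g 𝒱) := by
  refine ⟨bord (ringF M g 𝒱) ∪ (bdEdges 𝒱).biUnion (fun e => bord (ball (mid M e) M)), ?_⟩
  intro z z' h
  have h1 : z ∈ EpS M g 𝒱 ↔ z' ∈ EpS M g 𝒱 :=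
    locOn_EpS z z' fun e he => h e (Finset.mem_union_left _ he)
  refine and_congr h1 (exists_congr fun e => and_congr_right fun he => ?_)
  refine forall_congr' fun n => forall_congr' fun m => forall_congr' fun _ =>
    forall_congr' fun hm => not_congr ?_
  refine locOn_circ (mid M e) n m M (by omega) z z' fun e' he' => h e' ?_
  exact Finset.mem_union_right _ (Finset.mem_biUnion.2 ⟨e, he, he'⟩)

/-- **H-e, probability.** -/
theorem bad_nu {c : ℝ} (hc : 1 ≤ c) {P : Measure Cfg} (hP : IsState c P)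
    (hdel : Mod991.Deloc c) (hF : FKGLoc (nu P)) (hU : LemU c) (𝒱 : Finset P2) {ε : ℝ}
    (hε : 0 < ε) :
    ∃ lam g0 : ℕ, 16 ≤ lam ∧ 1 ≤ g0 ∧ ∀ g M : ℕ, g0 ≤ g → lam * g ≤ M →
      (nu P).real (BadS M g 𝒱) ≤ ε * (nu P).real (EpS M g 𝒱) := by
  classical
  have := hP.prob
  set N : ℕ := (bdEdges 𝒱).card with hN
  have hε' : 0 < ε / (N + 1) := by positivity
  obtain ⟨J, n0, L, hL, h⟩ := hU _ hε'
  have hL1 : 1 ≤ L := le_trans (by norm_num) hL
  refine ⟨16 * L ^ J, max n0 1, ?_, le_max_right _ _, fun g M hg hM => ?_⟩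
  · have : 1 ≤ L ^ J := Nat.one_le_pow _ _ hL1
    omega
  have hg0 : n0 ≤ 2 * g := by
    have := (le_max_left n0 1).trans hg
    omega
  have hsub : BadS M g 𝒱 ⊆ ⋃ e ∈ bdEdges 𝒱, (EpS M g 𝒱 ∩ (MidS M (2 * g) L J e)ᶜ) := by
    rintro z ⟨hz, e, he, hall⟩
    rw [Set.mem_iUnion₂]
    refine ⟨e, he, hz, ?_⟩
    rintro ⟨j, hj, hcirc⟩
    refine hall _ _ ?_ ?_ hcirc
    · exact Nat.le_mul_of_pos_left _ (pow_pos hL1 j)
    · have h1 : L ^ j ≤ L ^ J := Nat.pow_le_pow_right hL1 hj.le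
      have h2 : L ^ j * (2 * g) ≤ L ^ J * (2 * g) := Nat.mul_le_mul_right _ h1
      calc 4 * (2 * (L ^ j * (2 * g))) ≤ 4 * (2 * (L ^ J * (2 * g))) := by omega
        _ = 16 * L ^ J * g := by ring
        _ ≤ M := hM
  have hone : ∀ e ∈ bdEdges 𝒱, (nu P).real (EpS M g 𝒱 ∩ (MidS M (2 * g) L J e)ᶜ) ≤
      ε / (N + 1) * (nu P).real (EpS M g 𝒱) := by
    intro e _
    have hEm : MeasurableSet (EpS M g 𝒱) := (locOn_EpS).measurableSet
    have hMm : MeasurableSet (MidS M (2 * g) L J e) := (locEv_MidS _ _ _ _ _).measurableSet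
    have h1 : (nu P).real (EpS M g 𝒱) * (nu P).real (MidS M (2 * g) L J e) ≤
        (nu P).real (EpS M g 𝒱 ∩ MidS M (2 * g) L J e) := by
      have := hF (EpS M g 𝒱) (MidS M (2 * g) L J e) ⟨_, locOn_EpS⟩ (locEv_MidS M (2 * g) L J e)
        incEv_EpS (incEv_MidS M (2 * g) L J e)
      unfold Measure.real
      rw [← ENNReal.toReal_mul]
      exact ENNReal.toReal_mono (measure_ne_top _ _) this
    have h2 : (nu P).real (EpS M g 𝒱 ∩ (MidS M (2 * g) L J e)ᶜ) =
        (nu P).real (EpS M g 𝒱) - (nu P).real (EpS M g 𝒱 ∩ MidS M (2 * g) L J e) := by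
      have := measureReal_inter_add_sdiff (μ := nu P) (s := EpS M g 𝒱) hMm
      rw [Set.sdiff_eq] at this
      linarith
    have h3 : (nu P).real (MidS M (2 * g) L J e) = 1 - (nu P).real (MidS M (2 * g) L J e)ᶜ := by
      rw [probReal_compl_eq_one_sub hMm]
      ring
    have h4 := nu_mid_compl hc hP hdel h M (2 * g) hg0 e
    have h5 : 0 ≤ (nu P).real (EpS M g 𝒱) := measureReal_nonneg
    rw [h2]
    rw [h3] at h1
    nlinarith
  calc (nu P).real (BadS M g 𝒱)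
      ≤ (nu P).real (⋃ e ∈ bdEdges 𝒱, (EpS M g 𝒱 ∩ (MidS M (2 * g) L J e)ᶜ)) :=
        measureReal_mono hsub (measure_ne_top _ _)
    _ ≤ ∑ e ∈ bdEdges 𝒱, (nu P).real (EpS M g 𝒱 ∩ (MidS M (2 * g) L J e)ᶜ) :=
        measureReal_biUnion_finset_le _ _
    _ ≤ ∑ _e ∈ bdEdges 𝒱, ε / (N + 1) * (nu P).real (EpS M g 𝒱) := Finset.sum_le_sum hone
    _ = N * (ε / (N + 1) * (nu P).real (EpS M g 𝒱)) := by rw [Finset.sum_const, nsmul_eq_mul]
    _ ≤ ε * (nu P).real (EpS M g 𝒱) := by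
        have h5 : 0 ≤ (nu P).real (EpS M g 𝒱) := measureReal_nonneg
        have h6 : (N : ℝ) * (ε / (N + 1)) ≤ ε := by
          rw [mul_div_assoc', div_le_iff₀ (by positivity)]
          nlinarith
        calc (N : ℝ) * (ε / (N + 1) * (nu P).real (EpS M g 𝒱))
            = (N * (ε / (N + 1))) * (nu P).real (EpS M g 𝒱) := by ring
          _ ≤ ε * (nu P).real (EpS M g 𝒱) := mul_le_mul_of_nonneg_right h6 h5

/-- **Off the bad event the inner blocks are contained in the random domain.** -/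
theorem inner_subset {𝒱in : Finset P2} (hg : 1 ≤ g) (hM : 2 * g < M) (hin : Inner 𝒱 𝒱in)
    (hinc : IsConn (𝒱in : Set P2)) (h0 : (0, 0) ∈ 𝒱in) {ω : Cfg} (hE : Ep M g 𝒱 (plusE ω))
    (hbad : plusMap ω ∉ BadS M g 𝒱) :
    regF M 𝒱in ⊆ WF M g 𝒱 ω ∧ ((0, 0) : P2) ∈ WF M g 𝒱 ω := by
  have hM0 : 0 < M := by omega
  have hmid : ∀ e ∈ bdEdges 𝒱, ∃ n m : ℕ, 2 * g ≤ n ∧ 4 * m ≤ M ∧ Circ (plusE ω) (mid M e) n m := by
    intro e he
    by_contra hcon
    push Not at hcon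
    apply hbad
    refine ⟨mem_EpS.2 hE, e, he, fun n m hn hm => ?_⟩
    rw [plusMap_true]
    exact hcon n m hn hm
  obtain ⟨h1, h2⟩ := closed (C := cutE ω) hg hM (fun e he => he.1) hin hinc h0 hE hmid
  have h00 : nv M (0, 0) = (0, 0) := by
    rw [nv_eq_iff hM0, mem_ball]
    simp only [cv, mul_zero]
    have : (0 : ℤ) < M := by exact_mod_cast hM0
    omega
  have h3 : (0, 0) ∉ RZ M g 𝒱 (plusE ω) (cutE ω) := h1 _ (by rw [h00]; exact h0)
  refine ⟨?_, (zero_mem_WF_iff hM0).2 h3⟩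
  rw [← Finset.coe_subset, WF_of_not hM0 h3]
  exact h2

end Crest.Agent.R161.Clo389
end
end

-- ▼ part R161/CloR_389

/-!
# Row 161, block H-e: the ring event in the form of `Mix_695` (helper389)

* `WW M g 𝒱 ω` : random domain as a set, `∅` off the ring event or if the origin is explored
* `ringEv` : `Mix695.RingEv` for the ring event `Ep` and `WW`
* `bad_le` : the ring is good up to a small conditional probability
-/

set_option autoImplicit false

noncomputable section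

namespace Crest.Agent.R161.Clo389

open Finset hiding box
open MeasureTheory
open Crest.Agent.R161.Geo729 Crest.Agent.R161.Defs372 Crest.Agent.R161.Dual374
open Crest.Agent.R161.Hull374 Crest.Agent.R161.Ifc372 Crest.Agent.R161.Arc389
open Crest.Agent.R161.Ring421 Crest.Agent.R161.NuInv421 Crest.Agent.R161.Mix695

variable {M g : ℕ} {𝒱 𝒱in : Finset P2}

/-- the ring event -/
def EpC (M g : ℕ) (𝒱 : Finset P2) (ω : Cfg) : Prop := Ep M g 𝒱 (plusE ω)

/-- random domain as a set -/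
def WW (M g : ℕ) (𝒱 : Finset P2) (ω : Cfg) : Set P2 :=
  {f | EpC M g 𝒱 ω ∧ f ∈ WF M g 𝒱 ω}

theorem WW_eq {ω : Cfg} (h : EpC M g 𝒱 ω) : WW M g 𝒱 ω = (WF M g 𝒱 ω : Set P2) := by
  ext f
  exact ⟨fun hf => hf.2, fun hf => ⟨h, hf⟩⟩

theorem plusE_addH4k (ω : Cfg) (k : ℤ) : plusE (addH (4 * k) ω) = plusE ω := by
  funext e
  unfold plusE addH
  simp only
  have : (4 : ℤ) ∣ ω.1 (src e) + 4 * k ↔ (4 : ℤ) ∣ ω.1 (src e) := by omega
  rw [this]

theorem cutE_addH (ω : Cfg) (a : ℤ) : cutE (addH a ω) = cutE ω := rfl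

theorem EpC_per : Per4 (EpC M g 𝒱) := fun ω k => by
  unfold EpC
  rw [plusE_addH4k]

theorem WF_per (ω : Cfg) (k : ℤ) : WF M g 𝒱 (addH (4 * k) ω) = WF M g 𝒱 ω := by
  unfold WF
  rw [plusE_addH4k, cutE_addH]

theorem WW_per : Per4 (WW M g 𝒱) := fun ω k => by
  unfold WW
  rw [EpC_per ω k, WF_per ω k]


theorem EpC_loc : Loc (sitesF M g 𝒱 : Set P2) (EpC M g 𝒱) := by
  intro ω ω' h
  refine propext (Ep_congr_loc fun e he => (plusE_agree h (edge_site ?_)).1)
  exact he.imp (Finset.mem_union_right _) (Finset.mem_union_right _)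

theorem WW_loc (hM0 : 0 < M) : Loc (sitesF M g 𝒱 : Set P2) (WW M g 𝒱) := by
  intro ω ω' h
  have hE := EpC_loc ω ω' h
  by_cases hω : EpC M g 𝒱 ω
  · have hω' : EpC M g 𝒱 ω' := hE ▸ hω
    rw [WW_eq hω, WW_eq hω']
    have hR : RZ M g 𝒱 (plusE ω') (cutE ω') = RZ M g 𝒱 (plusE ω) (cutE ω) := by
      refine RZ_congr_loc hM0 hω ?_ ?_
      · intro e he
        refine (plusE_agree h (edge_site ?_)).1
        exact he.imp (Finset.mem_union_right _) (Finset.mem_union_right _)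
      · intro e he
        refine (plusE_agree h (edge_site ?_)).2
        exact he.imp (Finset.mem_union_left _) (Finset.mem_union_left _)
    unfold WF WZ
    rw [hR]
  · have hω' : ¬ EpC M g 𝒱 ω' := hE ▸ hω
    ext f
    exact ⟨fun hf => absurd hf.1 hω, fun hf => absurd hf.1 hω'⟩

/-- **The ring event.** -/
theorem ringEv (hM : 2 * g < M) (h𝒱 : IsConn (𝒱 : Set P2)ᶜ) (h0 : (0, 0) ∈ 𝒱in) :
    RingEv (EpC M g 𝒱) (WW M g 𝒱) (regF M 𝒱in) (regF M 𝒱) (sitesF M g 𝒱) := by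
  have hM0 : 0 < M := by omega
  have h00 : nv M (0, 0) = (0, 0) := by
    rw [nv_eq_iff hM0, mem_ball]
    simp only [cv, mul_zero]
    have : (0 : ℤ) < M := by exact_mod_cast hM0
    omega
  have h0reg : ((0, 0) : P2) ∈ regF M 𝒱in := by
    rw [mem_regF hM0, h00]
    exact h0
  have hiff : ∀ (D : Finset P2), ((0, 0) : P2) ∈ D → ∀ ω,
      (EpC M g 𝒱 ω ∧ WW M g 𝒱 ω = (D : Set P2)) ↔ ω ∈ evD M g 𝒱 D := by
    intro D hD ω
    constructor
    · rintro ⟨h1, h2⟩
      refine ⟨h1, ?_, hD⟩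
      rw [WW_eq h1] at h2
      exact_mod_cast h2
    · rintro ⟨h1, h2, -⟩
      exact ⟨h1, by rw [WW_eq h1, h2]⟩
  refine RingEv.of_loc EpC_per WW_per EpC_loc (WW_loc hM0) ?_ ?_ ?_
  · intro ω hω _
    rw [WW_eq hω]
    exact_mod_cast WF_subset ω
  · intro D ω hω hsub hD
    have h0D : ((0, 0) : P2) ∈ D := by
      have : ((0, 0) : P2) ∈ WW M g 𝒱 ω := hsub (Finset.mem_coe.2 h0reg)
      rw [hD] at this
      exact_mod_cast this
    obtain ⟨h1, h2, -⟩ := evD_struct hM h𝒱 ((hiff D h0D ω).1 ⟨hω, hD⟩)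
    exact ⟨h1, h2⟩
  · intro D hD _
    have h0D := hD h0reg
    intro ω ω' h1 h2 h3
    have := outLoc_evD (g := g) (𝒱 := 𝒱) hM0 D ω ω' h1 h2 h3
    simp only [hiff D h0D]
    exact this

theorem sym_ind_EpC (ω : Cfg) : sym (ind (EpC M g 𝒱)) ω = 2 * GA (EpS M g 𝒱) ω := by
  classical
  have h1 : ∀ ω, ind (EpC M g 𝒱) ω = if plusMap ω ∈ EpS M g 𝒱 then 1 else 0 := by
    intro ω
    by_cases h : EpC M g 𝒱 ω
    · rw [ind_of h, if_pos (mem_EpS.2 h)]
    · rw [ind_of_not h, if_neg fun h' => h (mem_EpS.1 h')]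
  unfold sym GA
  rw [h1, h1]
  ring

/-- **The ring is good up to a small conditional probability.** -/
theorem bad_le {c : ℝ} (hc : 1 ≤ c) {P : Measure Cfg} (hP : IsState c P)
    (hdel : Mod991.Deloc c) (hF : FKGLoc (nu P)) (hU : LemU c) (𝒱 𝒱in : Finset P2)
    (hin : Inner 𝒱 𝒱in) (hinc : IsConn (𝒱in : Set P2)) (h0 : (0, 0) ∈ 𝒱in) {ε : ℝ}
    (hε : 0 < ε) :
    ∃ lam g0 : ℕ, 16 ≤ lam ∧ 1 ≤ g0 ∧ ∀ g M : ℕ, g0 ≤ g → lam * g ≤ M →
      ∫ ω, sym (ind (bad (EpC M g 𝒱) (WW M g 𝒱) (regF M 𝒱in))) ω ∂P ≤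
        ε * ∫ ω, sym (ind (EpC M g 𝒱)) ω ∂P := by
  classical
  have := hP.prob
  obtain ⟨lam, g0, h16, hg0, h⟩ := bad_nu hc hP hdel hF hU 𝒱 hε
  refine ⟨lam, g0, h16, hg0, fun g M hg hM => ?_⟩
  have hg1 : 1 ≤ g := hg0.trans hg
  have hM2 : 2 * g < M := by
    have : 16 * g ≤ lam * g := Nat.mul_le_mul_right _ h16
    omega
  have hb := h g M hg hM
  have hE : ∫ ω, sym (ind (EpC M g 𝒱)) ω ∂P = 2 * (nu P).real (EpS M g 𝒱) := by
    rw [nu_real (locOn_EpS.measurableSet), ← integral_const_mul]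
    exact integral_congr_ae (Filter.Eventually.of_forall fun ω => sym_ind_EpC ω)
  have hB : ∫ ω, sym (ind (bad (EpC M g 𝒱) (WW M g 𝒱) (regF M 𝒱in))) ω ∂P ≤
      2 * (nu P).real (BadS M g 𝒱) := by
    obtain ⟨S, hS⟩ := locEv_BadS (M := M) (g := g) (𝒱 := 𝒱)
    rw [nu_real (locEv_BadS.measurableSet), ← integral_const_mul]
    refine integral_mono_of_nonneg (Filter.Eventually.of_forall fun ω =>
      sym_nonneg (ind_nonneg _) ω) ?_ (Filter.Eventually.of_forall fun ω => ?_)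
    · exact (Aut373.loc_integrable hP (loc_GA hS)).const_mul 2
    · have key : ∀ ω, ind (bad (EpC M g 𝒱) (WW M g 𝒱) (regF M 𝒱in)) ω ≤
          if plusMap ω ∈ BadS M g 𝒱 then 1 else 0 := by
        intro ω
        by_cases hω : plusMap ω ∈ BadS M g 𝒱
        · rw [if_pos hω]; exact ind_le_one _ _
        · rw [if_neg hω, ind_of_not]
          rintro ⟨h1, h2⟩
          apply h2
          rw [WW_eq h1]
          exact_mod_cast (inner_subset hg1 hM2 hin hinc h0 h1 hω).1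
      simp only
      unfold sym GA
      have h1 := key ω
      have h2 := key (addH 2 ω)
      linarith
  rw [hE]
  calc _ ≤ 2 * (nu P).real (BadS M g 𝒱) := hB
    _ ≤ 2 * (ε * (nu P).real (EpS M g 𝒱)) := by linarith
    _ = ε * (2 * (nu P).real (EpS M g 𝒱)) := by ring

end Crest.Agent.R161.Clo389
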