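import Crest.Agent.R161.Ifc_372

-- ▼ part R161/Csq1_472
section

/-!
# Row 161, leaf L3 (helper472), part 1: the finite comparison

* `Hts`, `hts` : heights `(k, h)` of a configuration.
* `pcut c w e` : conditional probability that `e` is cut given the heights `w`; `pcut'` the dual one.
* `Ep S p f` : expectation of `f (open set)` for independent edges `e ∈ S` open with probability `p e`.
* `Ep_mono` : monotonicity in `p` for increasing `f`.
* `sig`, `sw` : exchange of vertices and faces (translation by `(1/2, 1/2)`), `pcut'_sig`.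
* `LRc`, `DBT` : crossing events, `lrc_or_dbt` : duality, `dbt_iff` : dual crossings are crossings of the
  exchanged configuration.
-/

set_option autoImplicit false

noncomputable section

namespace Crest.Agent.R161.Csq472

open MeasureTheory Finset
open Crest.Agent.R161.Geo729 Crest.Agent.R161.Defs372 Crest.Agent.R161.Dual374
open Crest.Agent.R161.Hull374 Crest.Agent.R161.Ifc372

/-- pairs (heights at vertices, heights at faces) -/
abbrev Hts : Type := (P2 → ℤ) × (P2 → ℤ)

/-- heights of a configuration -/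
def hts (ω : Cfg) : Hts := (ω.1, ω.2.1)

/-- conditional probability that the edge `e` is cut (`z e = true`), given the heights -/
def pcut (c : ℝ) (w : Hts) (e : Edge) : ℝ :=
  if w.1 (src e) = w.1 (tgt e) then (if w.2 (fA e) = w.2 (fB e) then 1 / c else 1) else 0

/-- the same with the roles of vertices and faces exchanged -/
def pcut' (c : ℝ) (w : Hts) (e : Edge) : ℝ :=
  if w.2 (fA e) = w.2 (fB e) then (if w.1 (src e) = w.1 (tgt e) then 1 / c else 1) else 0

/-- local corner condition at the edge `e` -/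
def CornerAt (w : Hts) (e : Edge) : Prop :=
  |w.1 (src e) - w.2 (fA e)| = 1 ∧ |w.1 (src e) - w.2 (fB e)| = 1 ∧
    |w.1 (tgt e) - w.2 (fA e)| = 1 ∧ |w.1 (tgt e) - w.2 (fB e)| = 1

theorem isCorner_edge (e : Edge) : Geo729.IsCorner (src e) (fA e) ∧
    Geo729.IsCorner (src e) (fB e) ∧ Geo729.IsCorner (tgt e) (fA e) ∧
    Geo729.IsCorner (tgt e) (fB e) := by
  obtain ⟨⟨a, b⟩, s⟩ := e
  cases s <;> simp [Geo729.IsCorner]

theorem cornerAt_of {ω : Cfg} (h : ∀ f v, Geo729.IsCorner v f → |ω.1 v - ω.2.1 f| = 1) (e : Edge) :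
    CornerAt (hts ω) e := by
  obtain ⟨h1, h2, h3, h4⟩ := isCorner_edge e
  exact ⟨h _ _ h1, h _ _ h2, h _ _ h3, h _ _ h4⟩

theorem pcut_nonneg {c : ℝ} (hc : 1 ≤ c) (w : Hts) (e : Edge) : 0 ≤ pcut c w e := by
  unfold pcut
  split_ifs <;> positivity

theorem pcut_le_one {c : ℝ} (hc : 1 ≤ c) (w : Hts) (e : Edge) : pcut c w e ≤ 1 := by
  unfold pcut
  split_ifs
  · rw [div_le_one (by linarith)]; exact hc
  · exact le_rfl
  · norm_num


theorem pcut'_le_one {c : ℝ} (hc : 1 ≤ c) (w : Hts) (e : Edge) : pcut' c w e ≤ 1 := by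
  unfold pcut'
  split_ifs
  · rw [div_le_one (by linarith)]; exact hc
  · exact le_rfl
  · norm_num

/-- **Comparison**: for `c ≤ 2` an uncut primal edge is less likely than a cut dual edge. -/
theorem one_sub_pcut_le {c : ℝ} (hc : 1 ≤ c) (hc2 : c ≤ 2) {w : Hts} {e : Edge}
    (hw : CornerAt w e) : 1 - pcut c w e ≤ pcut' c w e := by
  unfold pcut pcut'
  by_cases h1 : w.1 (src e) = w.1 (tgt e) <;> by_cases h2 : w.2 (fA e) = w.2 (fB e)
  · simp only [h1, h2, if_true]
    have : 1 / 2 ≤ 1 / c := one_div_le_one_div_of_le (by linarith) hc2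
    linarith
  · simp [h1, h2]
  · simp [h1, h2]
  · exfalso
    obtain ⟨a1, a2, a3, a4⟩ := hw
    rcases (abs_eq (by norm_num : (0 : ℤ) ≤ 1)).1 a1 with a1 | a1 <;>
    rcases (abs_eq (by norm_num : (0 : ℤ) ≤ 1)).1 a2 with a2 | a2 <;>
    rcases (abs_eq (by norm_num : (0 : ℤ) ≤ 1)).1 a3 with a3 | a3 <;>
    rcases (abs_eq (by norm_num : (0 : ℤ) ≤ 1)).1 a4 with a4 | a4 <;> omega

/-! ### independent edges -/

/-- Expectation of `f A`, `A` = random set of open edges of `S`, independent with probabilities `p`. -/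
def Ep (S : Finset Edge) (p : Edge → ℝ) (f : Finset Edge → ℝ) : ℝ :=
  ∑ A ∈ S.powerset, (∏ e ∈ S, if e ∈ A then p e else 1 - p e) * f A

theorem Ep_empty (p : Edge → ℝ) (f : Finset Edge → ℝ) : Ep ∅ p f = f ∅ := by
  simp [Ep]

theorem Ep_insert {S : Finset Edge} {e : Edge} (he : e ∉ S) (p : Edge → ℝ)
    (f : Finset Edge → ℝ) :
    Ep (insert e S) p f = (1 - p e) * Ep S p f + p e * Ep S p (fun A => f (insert e A)) := by
  classical
  unfold Ep
  rw [Finset.sum_powerset_insert he, Finset.mul_sum, Finset.mul_sum]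
  congr 1
  · refine Finset.sum_congr rfl fun A hA => ?_
    have hA' : e ∉ A := fun h => he (Finset.mem_powerset.1 hA h)
    rw [Finset.prod_insert he, if_neg hA']
    ring
  · refine Finset.sum_congr rfl fun A hA => ?_
    rw [Finset.prod_insert he, if_pos (Finset.mem_insert_self e A)]
    have : (∏ x ∈ S, if x ∈ insert e A then p x else 1 - p x) =
        ∏ x ∈ S, if x ∈ A then p x else 1 - p x := by
      refine Finset.prod_congr rfl fun x hx => ?_
      have hxe : x ≠ e := fun h => he (h ▸ hx)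
      simp [Finset.mem_insert, hxe]
    rw [this]
    ring

theorem Ep_congr_p {S : Finset Edge} {p q : Edge → ℝ} (h : ∀ e ∈ S, p e = q e)
    (f : Finset Edge → ℝ) : Ep S p f = Ep S q f := by
  unfold Ep
  refine Finset.sum_congr rfl fun A _ => ?_
  congr 1
  exact Finset.prod_congr rfl fun e he => by rw [h e he]

theorem Ep_mono_f {S : Finset Edge} {p : Edge → ℝ} (h0 : ∀ e ∈ S, 0 ≤ p e)
    (h1 : ∀ e ∈ S, p e ≤ 1) {f g : Finset Edge → ℝ} (hfg : ∀ A, f A ≤ g A) :
    Ep S p f ≤ Ep S p g := by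
  unfold Ep
  refine Finset.sum_le_sum fun A _ => mul_le_mul_of_nonneg_left (hfg A) ?_
  refine Finset.prod_nonneg fun e he => ?_
  split_ifs
  · exact h0 e he
  · linarith [h1 e he]

/-- Monotonicity of the expectation of an increasing function in the edge probabilities. -/
theorem Ep_mono {S : Finset Edge} {p q : Edge → ℝ} (h0 : ∀ e ∈ S, 0 ≤ p e)
    (hpq : ∀ e ∈ S, p e ≤ q e) (h1 : ∀ e ∈ S, q e ≤ 1) {f : Finset Edge → ℝ}
    (hf : ∀ A B, A ⊆ B → f A ≤ f B) : Ep S p f ≤ Ep S q f := by
  classical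
  induction S using Finset.induction_on generalizing f with
  | empty => rw [Ep_empty, Ep_empty]
  | insert e S he ih =>
    rw [Ep_insert he, Ep_insert he]
    have ihf := ih (fun x hx => h0 x (Finset.mem_insert_of_mem hx))
      (fun x hx => hpq x (Finset.mem_insert_of_mem hx))
      (fun x hx => h1 x (Finset.mem_insert_of_mem hx)) hf
    have ihg := ih (fun x hx => h0 x (Finset.mem_insert_of_mem hx))
      (fun x hx => hpq x (Finset.mem_insert_of_mem hx))
      (fun x hx => h1 x (Finset.mem_insert_of_mem hx)) (f := fun A => f (insert e A))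
      (fun A B hAB => hf _ _ (Finset.insert_subset_insert e hAB))
    have hfg : Ep S q f ≤ Ep S q (fun A => f (insert e A)) := by
      refine Ep_mono_f (fun x hx => ?_) (fun x hx => h1 x (Finset.mem_insert_of_mem hx))
        fun A => hf _ _ (Finset.subset_insert e A)
      exact (h0 x (Finset.mem_insert_of_mem hx)).trans (hpq x (Finset.mem_insert_of_mem hx))
    have hp0 := h0 e (Finset.mem_insert_self e S)
    have hpe := hpq e (Finset.mem_insert_self e S)
    have hq1 := h1 e (Finset.mem_insert_self e S)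
    calc (1 - p e) * Ep S p f + p e * Ep S p (fun A => f (insert e A))
        ≤ (1 - p e) * Ep S q f + p e * Ep S q (fun A => f (insert e A)) :=
          add_le_add (mul_le_mul_of_nonneg_left ihf (by linarith))
            (mul_le_mul_of_nonneg_left ihg hp0)
      _ ≤ (1 - q e) * Ep S q f + q e * Ep S q (fun A => f (insert e A)) := by
          nlinarith [mul_nonneg (sub_nonneg.2 hpe) (sub_nonneg.2 hfg)]

/-- Reindexing by an injective map of edges. -/
theorem Ep_image {S : Finset Edge} (s : Edge → Edge) (hs : Function.Injective s) (p : Edge → ℝ)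
    (f : Finset Edge → ℝ) :
    Ep (S.image s) p f = Ep S (fun e => p (s e)) (fun A => f (A.image s)) := by
  classical
  induction S using Finset.induction_on generalizing f with
  | empty => simp [Ep_empty]
  | insert e S he ih =>
    have he' : s e ∉ S.image s := by
      rw [Finset.mem_image]
      rintro ⟨x, hx, hxe⟩
      exact he (hs hxe ▸ hx)
    rw [Finset.image_insert, Ep_insert he', Ep_insert he, ih, ih]
    congr 2
    unfold Ep
    refine Finset.sum_congr rfl fun A _ => ?_
    simp only [Finset.image_insert]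

/-! ### exchange of vertices and faces -/

/-- edge map of the translation by `(1/2, 1/2)` followed by duality -/
def sig (e : Edge) : Edge :=
  if e.2 then ((e.1.1, e.1.2 + 1), false) else ((e.1.1 + 1, e.1.2), true)

@[simp] theorem sig_h (v : P2) : sig (v, false) = ((v.1 + 1, v.2), true) := rfl
@[simp] theorem sig_v (v : P2) : sig (v, true) = ((v.1, v.2 + 1), false) := rfl

/-- inverse of `sig` -/
def sigInv (e : Edge) : Edge :=
  if e.2 then ((e.1.1 - 1, e.1.2), false) else ((e.1.1, e.1.2 - 1), true)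

theorem sigInv_sig (e : Edge) : sigInv (sig e) = e := by
  obtain ⟨⟨a, b⟩, s⟩ := e
  cases s <;> simp [sig, sigInv]

theorem sig_sigInv (e : Edge) : sig (sigInv e) = e := by
  obtain ⟨⟨a, b⟩, s⟩ := e
  cases s <;> simp [sig, sigInv]

theorem sig_injective : Function.Injective sig := fun a b h => by
  rw [← sigInv_sig a, h, sigInv_sig]

theorem fB_sig (e : Edge) : fB (sig e) = src e := by
  obtain ⟨⟨a, b⟩, s⟩ := e
  cases s <;> simp

theorem fA_sig (e : Edge) : fA (sig e) = tgt e := by
  obtain ⟨⟨a, b⟩, s⟩ := e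
  cases s <;> simp

theorem src_sig (e : Edge) : src (sig e) = ((fB e).1 + 1, (fB e).2 + 1) := by
  obtain ⟨⟨a, b⟩, s⟩ := e
  cases s <;> simp

theorem tgt_sig (e : Edge) : tgt (sig e) = ((fA e).1 + 1, (fA e).2 + 1) := by
  obtain ⟨⟨a, b⟩, s⟩ := e
  cases s <;> simp

/-- exchange map on heights (six-vertex translation by one unit), normalised at the origin -/
def sw (w : Hts) : Hts :=
  (fun v => w.2 v - w.2 (0, 0), fun f => w.1 (f.1 + 1, f.2 + 1) - w.2 (0, 0))

theorem pcut'_sig (c : ℝ) (w : Hts) (e : Edge) : pcut' c w (sig e) = pcut c (sw w) e := by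
  have h1 : ((sw w).1 (src e) = (sw w).1 (tgt e)) ↔ (w.2 (fA (sig e)) = w.2 (fB (sig e))) := by
    rw [fA_sig, fB_sig]
    simp only [sw]
    constructor <;> intro h <;> linarith
  have h2 : ((sw w).2 (fA e) = (sw w).2 (fB e)) ↔ (w.1 (src (sig e)) = w.1 (tgt (sig e))) := by
    rw [src_sig, tgt_sig]
    simp only [sw]
    constructor <;> intro h <;> linarith
  unfold pcut pcut'
  simp only [h1, h2]

/-! ### crossing events -/

/-- left-right crossing of the rectangle `[x0,x1] × [y0,y1]` by edges satisfying `Z` -/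
def LRc (x0 x1 y0 y1 : ℤ) (Z : Edge → Prop) : Prop :=
  ∃ a b : P2, a.1 = x0 ∧ y0 ≤ a.2 ∧ a.2 ≤ y1 ∧ b.1 = x1 ∧
    Relation.ReflTransGen (PStep (fun e => Z e ∧ RE x0 x1 y0 y1 e)) a b

/-- bottom-top crossing by faces, through edges satisfying `Z` -/
def DBT (x0 x1 y0 y1 : ℤ) (Z : Edge → Prop) : Prop :=
  ∃ f g : P2, f.2 = y0 - 1 ∧ x0 ≤ f.1 ∧ f.1 < x1 ∧ g.2 = y1 ∧
    Relation.ReflTransGen (DStep (fun e => Z e ∧ RE x0 x1 y0 y1 e)) f g

theorem lrc_or_dbt (x0 x1 y0 y1 : ℤ) (hx : x0 < x1) (hy : y0 ≤ y1) (Z : Edge → Prop) :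
    LRc x0 x1 y0 y1 Z ∨ DBT x0 x1 y0 y1 (fun e => ¬ Z e) :=
  dual_rect x0 x1 y0 y1 hx hy Z

/-- transposition of edges -/
def tr (e : Edge) : Edge := ((e.1.2, e.1.1), !e.2)

@[simp] theorem tr_tr (e : Edge) : tr (tr e) = e := by
  obtain ⟨⟨a, b⟩, s⟩ := e
  simp [tr]

/-- transposition of points -/
def tp (v : P2) : P2 := (v.2, v.1)

@[simp] theorem tp_tp (v : P2) : tp (tp v) = v := rfl

theorem src_tr (e : Edge) : src (tr e) = tp (src e) := by
  obtain ⟨⟨a, b⟩, s⟩ := e
  cases s <;> simp [tr, tp]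

theorem tgt_tr (e : Edge) : tgt (tr e) = tp (tgt e) := by
  obtain ⟨⟨a, b⟩, s⟩ := e
  cases s <;> simp [tr, tp]

/-- A dual crossing through `Z`-edges is a bottom-top crossing of the exchanged edges, i.e. the
transpose of a left-right crossing of the rectangle `[y0-1, y1] × [x0, x1-1]`. -/
theorem dbt_iff (x0 x1 y0 y1 : ℤ) (Z : Edge → Prop) :
    DBT x0 x1 y0 y1 Z ↔ LRc (y0 - 1) y1 x0 (x1 - 1) (fun e => Z (sig (tr e))) := by
  have hstep : ∀ f g : P2, DStep (fun e => Z e ∧ RE x0 x1 y0 y1 e) f g ↔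
      PStep (fun e => Z (sig (tr e)) ∧ RE (y0 - 1) y1 x0 (x1 - 1) e) (tp f) (tp g) := by
    intro f g
    have hRE : ∀ e : Edge, RE x0 x1 y0 y1 (sig (tr e)) ↔ RE (y0 - 1) y1 x0 (x1 - 1) e := by
      intro e
      obtain ⟨⟨a, b⟩, s⟩ := e
      cases s
      · simp only [tr, Bool.not_false, sig_v, RE, true_and, Bool.false_eq_true, false_and,
          or_false]
        omega
      · simp only [tr, Bool.not_true, sig_h, RE, true_and, false_and,
          false_or, Bool.true_eq_false]
        omega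
    constructor
    · rintro ⟨e, ⟨he1, he2⟩, h⟩
      refine ⟨tr (sigInv e), ⟨?_, ?_⟩, ?_⟩
      · simpa [tr_tr, sig_sigInv] using he1
      · rw [← hRE]; simpa [tr_tr, sig_sigInv] using he2
      · have hA : tgt (tr (sigInv e)) = tp (fA e) := by
          rw [tgt_tr, ← fA_sig, sig_sigInv]
        have hB : src (tr (sigInv e)) = tp (fB e) := by
          rw [src_tr, ← fB_sig, sig_sigInv]
        rcases h with ⟨h1, h2⟩ | ⟨h1, h2⟩
        · right; exact ⟨by rw [h1, hA], by rw [h2, hB]⟩
        · left; exact ⟨by rw [h1, hB], by rw [h2, hA]⟩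
    · rintro ⟨e, ⟨he1, he2⟩, h⟩
      refine ⟨sig (tr e), ⟨he1, (hRE e).2 he2⟩, ?_⟩
      have hA : fA (sig (tr e)) = tp (tgt e) := by rw [fA_sig, tgt_tr]
      have hB : fB (sig (tr e)) = tp (src e) := by rw [fB_sig, src_tr]
      rcases h with ⟨h1, h2⟩ | ⟨h1, h2⟩
      · right; exact ⟨by rw [hB, ← h1]; rfl, by rw [hA, ← h2]; rfl⟩
      · left; exact ⟨by rw [hA, ← h1]; rfl, by rw [hB, ← h2]; rfl⟩
  constructor
  · rintro ⟨f, g, h1, h2, h3, h4, h5⟩
    refine ⟨tp f, tp g, h1, h2, by simp only [tp]; omega, h4, ?_⟩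
    exact Relation.ReflTransGen.lift tp (fun a b hab => (hstep a b).1 hab) _ _ h5
  · rintro ⟨a, b, h1, h2, h3, h4, h5⟩
    refine ⟨tp a, tp b, h1, h2, by simp only [tp]; omega, h4, ?_⟩
    refine Relation.ReflTransGen.lift tp (fun a b hab => (hstep _ _).2 ?_) _ _ h5
    simpa using hab

theorem LRc.mono {x0 x1 y0 y1 : ℤ} {Z Z' : Edge → Prop}
    (h : ∀ e, RE x0 x1 y0 y1 e → Z e → Z' e) (hL : LRc x0 x1 y0 y1 Z) : LRc x0 x1 y0 y1 Z' := by
  obtain ⟨a, b, h1, h2, h3, h4, h5⟩ := hL
  refine ⟨a, b, h1, h2, h3, h4, ?_⟩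
  refine Relation.ReflTransGen.mono ?_ _ _ h5
  rintro u v ⟨e, ⟨he1, he2⟩, h'⟩
  exact ⟨e, ⟨h _ he2 he1, he2⟩, h'⟩

theorem DBT.mono {x0 x1 y0 y1 : ℤ} {Z Z' : Edge → Prop}
    (h : ∀ e, RE x0 x1 y0 y1 e → Z e → Z' e) (hL : DBT x0 x1 y0 y1 Z) : DBT x0 x1 y0 y1 Z' := by
  obtain ⟨a, b, h1, h2, h3, h4, h5⟩ := hL
  refine ⟨a, b, h1, h2, h3, h4, ?_⟩
  refine Relation.ReflTransGen.mono ?_ _ _ h5
  rintro u v ⟨e, ⟨he1, he2⟩, h'⟩
  exact ⟨e, ⟨h _ he2 he1, he2⟩, h'⟩

theorem LRc.translate {x0 x1 y0 y1 : ℤ} (t : P2) {Z : Edge → Prop}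
    (hL : LRc x0 x1 y0 y1 (fun e => Z (e.1 + t, e.2))) :
    LRc (x0 + t.1) (x1 + t.1) (y0 + t.2) (y1 + t.2) Z := by
  obtain ⟨a, b, h1, h2, h3, h4, h5⟩ := hL
  refine ⟨a + t, b + t, ?_, ?_, ?_, ?_, ?_⟩
  · simp [h1]
  · simpa using h2
  · simpa using h3
  · simp [h4]
  · refine Relation.ReflTransGen.lift (fun v => v + t) ?_ _ _ h5
    rintro u v ⟨e, ⟨he1, he2⟩, h⟩
    obtain ⟨⟨p, q⟩, s⟩ := e
    obtain ⟨t1, t2⟩ := t
    refine ⟨((p + t1, q + t2), s), ⟨he1, ?_⟩, ?_⟩
    · rcases he2 with ⟨k1, k2, k3, k4, k5⟩ | ⟨k1, k2, k3, k4, k5⟩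
      · left; refine ⟨k1, ?_, ?_, ?_, ?_⟩ <;> simp_all
      · right; refine ⟨k1, ?_, ?_, ?_, ?_⟩ <;> simp_all
    · rcases h with ⟨k1, k2⟩ | ⟨k1, k2⟩
      · left
        subst k1 k2
        cases s <;> simp [src, tgt, add_right_comm]
      · right
        subst k1 k2
        cases s <;> simp [src, tgt, add_right_comm]

end Crest.Agent.R161.Csq472
end
end

-- ▼ part R161/Csq2_472

/-!
# Row 161, leaf L3 (helper472), part 2: crossings of squares by cut edges

Hypotheses on the plane state `P : Measure Cfg`: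
* `CondIndep c P` : given the heights the cut variables are independent with probabilities `pcut`;
* `SwapInv P` : the law of the heights is invariant under the exchange `sw` (six-vertex translation by
  one unit, exchanging vertices and faces);
* `ZInv P` : the law of the cut variables is invariant under transposition and translations;
* `∀ᵐ ω ∂P, GValid ω`.

Results: `cross_half`, `nu_cross_quarter`.
-/

set_option autoImplicit false

noncomputable section

namespace Crest.Agent.R161.Csq472

open MeasureTheory Finset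
open Crest.Agent.R161.Geo729 Crest.Agent.R161.Defs372 Crest.Agent.R161.Dual374
open Crest.Agent.R161.Hull374 Crest.Agent.R161.Ifc372

/-- Given the heights, the cut variables are independent: law of every finite pattern. -/
def CondIndep (c : ℝ) (P : Measure Cfg) : Prop :=
  ∀ (S : Finset Edge) (η : Edge → Bool),
    (P {ω | ∀ e ∈ S, ω.2.2 e = η e}).toReal =
      ∫ ω, ∏ e ∈ S, (if η e = true then pcut c (hts ω) e else 1 - pcut c (hts ω) e) ∂P

/-- Invariance of the law of the heights under the exchange of vertices and faces. -/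
def SwapInv (P : Measure Cfg) : Prop :=
  P.map (fun ω => sw (hts ω)) = P.map hts

/-- Invariance of the law of the cut variables under transposition and translations. -/
structure ZInv (P : Measure Cfg) : Prop where
  tr : P.map (fun ω : Cfg => fun e => ω.2.2 (Csq472.tr e)) = P.map (fun ω : Cfg => ω.2.2)
  trans : ∀ t : P2,
    P.map (fun ω : Cfg => fun e : Edge => ω.2.2 (e.1 + t, e.2)) = P.map (fun ω : Cfg => ω.2.2)

theorem measurable_hts : Measurable hts := by
  unfold hts
  fun_prop

theorem measurable_zc : Measurable (fun ω : Cfg => ω.2.2) := by fun_prop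

theorem measurable_sw : Measurable sw := by
  unfold sw
  fun_prop

theorem measurable_pcut (c : ℝ) (e : Edge) : Measurable (fun w : Hts => pcut c w e) := by
  unfold pcut
  refine Measurable.ite (measurableSet_eq_fun (by fun_prop) (by fun_prop)) ?_ measurable_const
  exact Measurable.ite (measurableSet_eq_fun (by fun_prop) (by fun_prop)) measurable_const
    measurable_const


theorem measurable_Ep {X : Type*} [MeasurableSpace X] (S : Finset Edge) (p : X → Edge → ℝ)
    (hp : ∀ e, Measurable fun x => p x e) (f : Finset Edge → ℝ) :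
    Measurable fun x => Ep S (p x) f := by
  unfold Ep
  refine Finset.measurable_fun_sum _ fun A _ => ?_
  refine Measurable.mul_const ?_ _
  refine Finset.measurable_fun_prod _ fun e _ => ?_
  split_ifs
  · exact hp e
  · exact measurable_const.sub (hp e)

theorem Ep_bound {S : Finset Edge} {p : Edge → ℝ} (h0 : ∀ e ∈ S, 0 ≤ p e)
    (h1 : ∀ e ∈ S, p e ≤ 1) {f : Finset Edge → ℝ} {M : ℝ} (hf : ∀ A, |f A| ≤ M) :
    |Ep S p f| ≤ (2 : ℝ) ^ S.card * M := by
  unfold Ep
  refine (Finset.abs_sum_le_sum_abs _ _).trans ?_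
  calc ∑ A ∈ S.powerset, |(∏ e ∈ S, if e ∈ A then p e else 1 - p e) * f A|
      ≤ ∑ _A ∈ S.powerset, M := by
        refine Finset.sum_le_sum fun A _ => ?_
        rw [abs_mul]
        have hnn : 0 ≤ ∏ e ∈ S, (if e ∈ A then p e else 1 - p e) := by
          refine Finset.prod_nonneg fun e he => ?_
          split_ifs
          · exact h0 e he
          · linarith [h1 e he]
        have hle : ∏ e ∈ S, (if e ∈ A then p e else 1 - p e) ≤ 1 := by
          refine Finset.prod_le_one (fun e he => ?_) fun e he => ?_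
          · split_ifs
            · exact h0 e he
            · linarith [h1 e he]
          · split_ifs
            · exact h1 e he
            · linarith [h0 e he]
        rw [abs_of_nonneg hnn]
        calc _ ≤ 1 * |f A| := mul_le_mul_of_nonneg_right hle (abs_nonneg _)
          _ ≤ M := by rw [one_mul]; exact hf A
    _ = (2 : ℝ) ^ S.card * M := by
        rw [Finset.sum_const, Finset.card_powerset, nsmul_eq_mul]
        push_cast
        ring

theorem integrable_Ep {P : Measure Cfg} [IsProbabilityMeasure P] (S : Finset Edge)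
    (p : Cfg → Edge → ℝ) (hp : ∀ e, Measurable fun x => p x e) (h0 : ∀ x e, 0 ≤ p x e)
    (h1 : ∀ x e, p x e ≤ 1) (f : Finset Edge → ℝ) :
    Integrable (fun ω => Ep S (p ω) f) P := by
  have hM : ∃ M, ∀ A ∈ S.powerset, |f A| ≤ M := by
    refine ⟨∑ A ∈ S.powerset, |f A|, fun A hA => ?_⟩
    exact Finset.single_le_sum (f := fun A => |f A|) (fun _ _ => abs_nonneg _) hA
  obtain ⟨M, hM⟩ := hM
  have hM0 : 0 ≤ M := (abs_nonneg _).trans (hM ∅ (Finset.empty_mem_powerset S))
  have hf' : ∀ x, Ep S (p x) f = Ep S (p x) (fun A => if A ∈ S.powerset then f A else 0) := by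
    intro x
    unfold Ep
    refine Finset.sum_congr rfl fun A hA => ?_
    simp only [if_pos hA]
  refine Integrable.of_bound (C := (2 : ℝ) ^ S.card * M)
    (measurable_Ep S p hp f).aestronglyMeasurable (Filter.Eventually.of_forall fun x => ?_)
  rw [Real.norm_eq_abs, hf' x]
  refine Ep_bound (fun e _ => h0 x e) (fun e _ => h1 x e) fun A => ?_
  split_ifs with hA
  · exact hM A hA
  · simpa using hM0

/-- Sets of percolation configurations depending on finitely many edges are measurable. -/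
theorem measurableSet_of_local (S : Finset Edge) (A : Set (Edge → Bool))
    (hA : ∀ z z' : Edge → Bool, (∀ e ∈ S, z e = z' e) → z ∈ A → z' ∈ A) : MeasurableSet A := by
  classical
  have h : A = (fun (z : Edge → Bool) (e : S) => z e) ⁻¹'
      ((fun (z : Edge → Bool) (e : S) => z e) '' A) := by
    ext z
    constructor
    · intro hz; exact ⟨z, hz, rfl⟩
    · rintro ⟨z', hz', h⟩
      exact hA z' z (fun e he => congrFun h ⟨e, he⟩) hz'
  rw [h]
  have hm : Measurable (fun (z : Edge → Bool) (e : S) => z e) := by fun_prop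
  exact hm (Set.toFinite _).measurableSet

open Classical in
/-- Probability of an event of the cut variables of `S` (in terms of the set of cut edges). -/
theorem prob_cut {c : ℝ} {P : Measure Cfg} [IsProbabilityMeasure P] (hc : 1 ≤ c)
    (hCI : CondIndep c P) (S : Finset Edge) (Q : Finset Edge → Prop) :
    (P {ω | Q (S.filter fun e => ω.2.2 e = true)}).toReal =
      ∫ ω, Ep S (fun e => pcut c (hts ω) e) (fun A => if Q A then 1 else 0) ∂P := by
  have hset : {ω : Cfg | Q (S.filter fun e => ω.2.2 e = true)} =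
      ⋃ A ∈ S.powerset.filter Q, {ω : Cfg | ∀ e ∈ S, ω.2.2 e = decide (e ∈ A)} := by
    ext ω
    simp only [Set.mem_ofPred_eq, Set.mem_iUnion, Finset.mem_filter, Finset.mem_powerset,
      exists_prop]
    constructor
    · intro h
      refine ⟨S.filter fun e => ω.2.2 e = true, ⟨Finset.filter_subset _ _, h⟩, fun e he => ?_⟩
      by_cases hz : ω.2.2 e = true
      · rw [hz]; simp [he, hz]
      · have : ω.2.2 e = false := by simpa using hz
        rw [this]; simp [he, this]
    · rintro ⟨A, ⟨hA1, hA2⟩, hA3⟩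
      have : (S.filter fun e => ω.2.2 e = true) = A := by
        ext e
        rw [Finset.mem_filter]
        constructor
        · rintro ⟨h1, h2⟩
          have := hA3 e h1
          rw [h2] at this
          simpa using this.symm
        · intro h
          refine ⟨hA1 h, ?_⟩
          rw [hA3 e (hA1 h)]
          simpa using h
      rw [this]
      exact hA2
  have hmeas : ∀ A : Finset Edge,
      MeasurableSet {ω : Cfg | ∀ e ∈ S, ω.2.2 e = decide (e ∈ A)} := by
    intro A
    have : {ω : Cfg | ∀ e ∈ S, ω.2.2 e = decide (e ∈ A)} =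
        (fun ω : Cfg => ω.2.2) ⁻¹' {z | ∀ e ∈ S, z e = decide (e ∈ A)} := rfl
    rw [this]
    refine measurable_zc (measurableSet_of_local S _ ?_)
    intro z z' hzz hz e he
    rw [← hzz e he]
    exact hz e he
  have hdisj : Set.PairwiseDisjoint (↑(S.powerset.filter Q) : Set (Finset Edge))
      (fun A => {ω : Cfg | ∀ e ∈ S, ω.2.2 e = decide (e ∈ A)}) := by
    intro A hA B hB hAB
    rw [Function.onFun, Set.disjoint_left]
    intro ω h1 h2
    apply hAB
    have hAS : A ⊆ S := Finset.mem_powerset.1 (Finset.mem_filter.1 hA).1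
    have hBS : B ⊆ S := Finset.mem_powerset.1 (Finset.mem_filter.1 hB).1
    ext e
    constructor
    · intro he
      have k1 := h1 e (hAS he)
      have k2 := h2 e (hAS he)
      rw [k1] at k2
      simpa [he] using k2
    · intro he
      have k1 := h1 e (hBS he)
      have k2 := h2 e (hBS he)
      rw [k1] at k2
      simpa [he] using k2
  rw [hset, measure_biUnion_finset hdisj fun A _ => hmeas A,
    ENNReal.toReal_sum fun A _ => measure_ne_top _ _]
  have h1 : ∀ A : Finset Edge, (P {ω | ∀ e ∈ S, ω.2.2 e = decide (e ∈ A)}).toReal =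
      ∫ ω, ∏ e ∈ S, (if e ∈ A then pcut c (hts ω) e else 1 - pcut c (hts ω) e) ∂P := by
    intro A
    rw [hCI S fun e => decide (e ∈ A)]
    simp only [decide_eq_true_eq]
  rw [Finset.sum_congr rfl fun A _ => h1 A, ← integral_finsetSum]
  · congr 1
    ext ω
    unfold Ep
    rw [Finset.sum_filter]
    refine Finset.sum_congr rfl fun A _ => ?_
    by_cases h : Q A <;> simp [h]
  · intro A _
    have hi := integrable_Ep (P := P) S (fun ω e => pcut c (hts ω) e)
      (fun e => (measurable_pcut c e).comp measurable_hts) (fun _ _ => pcut_nonneg hc _ _)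
      (fun _ _ => pcut_le_one hc _ _) (fun B => if B = A ∩ S then 1 else 0)
    refine hi.congr (Filter.Eventually.of_forall fun ω => ?_)
    simp only
    unfold Ep
    rw [Finset.sum_eq_single_of_mem (A ∩ S) (Finset.mem_powerset.2 Finset.inter_subset_right)]
    · beta_reduce
      rw [if_pos rfl, mul_one]
      refine Finset.prod_congr rfl fun e he => ?_
      simp [he]
    · intro B _ hB
      beta_reduce
      rw [if_neg hB, mul_zero]

/-- flipping all edges -/
theorem Ep_compl [DecidableEq Edge] (S : Finset Edge) (p : Edge → ℝ) (f : Finset Edge → ℝ) :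
    Ep S p f = Ep S (fun e => 1 - p e) (fun A => f (S \ A)) := by
  unfold Ep
  refine Finset.sum_nbij' (fun A => S \ A) (fun A => S \ A) ?_ ?_ ?_ ?_ ?_
  · intro A _; exact Finset.mem_powerset.2 Finset.sdiff_subset
  · intro A _; exact Finset.mem_powerset.2 Finset.sdiff_subset
  · intro A hA; exact Finset.sdiff_sdiff_eq_self (Finset.mem_powerset.1 hA)
  · intro A hA; exact Finset.sdiff_sdiff_eq_self (Finset.mem_powerset.1 hA)
  · intro A hA
    beta_reduce
    rw [Finset.sdiff_sdiff_eq_self (Finset.mem_powerset.1 hA)]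
    congr 1
    refine Finset.prod_congr rfl fun e he => ?_
    by_cases h : e ∈ A <;> simp [h, he]

/-! ### rectangles -/

open Classical in
/-- the finite set of edges `RE x0 x1 y0 y1` -/
def reF (x0 x1 y0 y1 : ℤ) : Finset Edge :=
  ((Finset.Icc x0 x1 ×ˢ Finset.Icc y0 y1) ×ˢ Finset.univ).filter fun e => RE x0 x1 y0 y1 e

theorem mem_reF {x0 x1 y0 y1 : ℤ} {e : Edge} : e ∈ reF x0 x1 y0 y1 ↔ RE x0 x1 y0 y1 e := by
  classical
  unfold reF
  rw [Finset.mem_filter]
  constructor
  · exact fun h => h.2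
  · intro h
    refine ⟨?_, h⟩
    simp only [Finset.mem_product, Finset.mem_Icc, Finset.mem_univ, and_true]
    unfold RE at h
    omega

theorem measurableSet_LRc (x0 x1 y0 y1 : ℤ) :
    MeasurableSet {z : Edge → Bool | LRc x0 x1 y0 y1 fun e => z e = true} := by
  refine measurableSet_of_local (reF x0 x1 y0 y1) _ ?_
  intro z z' h hz
  exact LRc.mono (fun e he hze => by rw [← h e (mem_reF.2 he)]; exact hze) hz


/-- Translation invariance for left-right crossings. -/
theorem ZInv.lrc_le {P : Measure Cfg} (h : ZInv P) (x0 x1 y0 y1 : ℤ) (t : P2) :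
    P {ω | LRc x0 x1 y0 y1 fun e => ω.2.2 e = true} ≤
      P {ω | LRc (x0 + t.1) (x1 + t.1) (y0 + t.2) (y1 + t.2) fun e => ω.2.2 e = true} := by
  have h1 : (P.map (fun ω : Cfg => fun e : Edge => ω.2.2 (e.1 + t, e.2)))
      {z : Edge → Bool | LRc x0 x1 y0 y1 fun e => z e = true} =
      (P.map (fun ω : Cfg => ω.2.2)) {z : Edge → Bool | LRc x0 x1 y0 y1 fun e => z e = true} := by
    rw [h.trans t]
  rw [Measure.map_apply (by fun_prop) (measurableSet_LRc _ _ _ _),
    Measure.map_apply measurable_zc (measurableSet_LRc _ _ _ _)] at h1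
  have h2 : P {ω : Cfg | LRc x0 x1 y0 y1 fun e => ω.2.2 e = true} =
      P {ω : Cfg | LRc x0 x1 y0 y1 fun e => ω.2.2 (e.1 + t, e.2) = true} := h1.symm
  rw [h2]
  exact measure_mono fun ω hω => LRc.translate t hω

/-- **Dual crossings are dominated by primal crossings.** -/
theorem dbt_le {c : ℝ} (hc : 1 ≤ c) (hc2 : c ≤ 2) {P : Measure Cfg} [IsProbabilityMeasure P]
    (hv : ∀ᵐ ω ∂P, GValid ω) (hCI : CondIndep c P) (hSw : SwapInv P) (hZ : ZInv P)
    (x0 x1 y0 y1 : ℤ) :
    (P {ω | DBT x0 x1 y0 y1 fun e => ¬ ω.2.2 e = true}).toReal ≤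
      (P {ω | LRc (y0 - 1) y1 x0 (x1 - 1) fun e => ω.2.2 e = true}).toReal := by
  classical
  set S := reF x0 x1 y0 y1 with hS
  set S' := S.image sigInv with hS'
  have hSS' : S'.image sig = S := by
    rw [hS', Finset.image_image]
    have : sig ∘ sigInv = id := by
      funext e; exact sig_sigInv e
    rw [this, Finset.image_id]
  -- step 1
  have e1 : {ω : Cfg | DBT x0 x1 y0 y1 fun e => ¬ ω.2.2 e = true} =
      {ω : Cfg | (fun A : Finset Edge => DBT x0 x1 y0 y1 fun e => e ∉ A)
        (S.filter fun e => ω.2.2 e = true)} := by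
    ext ω
    simp only [Set.mem_ofPred_eq]
    constructor
    · refine DBT.mono fun e _ h => ?_
      simp [h]
    · refine DBT.mono fun e he h => ?_
      simpa [mem_reF.2 he, hS] using h
  rw [e1]
  refine (le_of_eq (prob_cut hc hCI S
    (fun A : Finset Edge => DBT x0 x1 y0 y1 fun e => e ∉ A))).trans ?_
  -- step 2
  set f : Finset Edge → ℝ := fun A => if DBT x0 x1 y0 y1 (fun e => e ∈ A) then 1 else 0 with hf
  have hfmono : ∀ A B : Finset Edge, A ⊆ B → f A ≤ f B := by
    intro A B hAB
    simp only [hf]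
    by_cases h : DBT x0 x1 y0 y1 (fun e => e ∈ A)
    · rw [if_pos h, if_pos (DBT.mono (fun e _ he => hAB he) h)]
    · rw [if_neg h]
      split_ifs <;> norm_num
  have e2 : ∀ᵐ ω ∂P, Ep S (fun e => pcut c (hts ω) e)
        (fun A => if (fun A : Finset Edge => DBT x0 x1 y0 y1 fun e => e ∉ A) A then 1 else 0) ≤
      Ep S' (fun e => pcut c (sw (hts ω)) e) (fun A => f (A.image sig)) := by
    filter_upwards [hv] with ω hω
    rw [Ep_compl]
    have e3 : Ep S (fun e => 1 - pcut c (hts ω) e)
        (fun A => if (fun A : Finset Edge => DBT x0 x1 y0 y1 fun e => e ∉ A) (S \ A)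
          then 1 else 0) = Ep S (fun e => 1 - pcut c (hts ω) e) f := by
      unfold Ep
      refine Finset.sum_congr rfl fun A hA => ?_
      congr 1
      simp only [hf]
      have : (DBT x0 x1 y0 y1 fun e => e ∉ S \ A) ↔ DBT x0 x1 y0 y1 fun e => e ∈ A := by
        constructor
        · refine DBT.mono fun e he h => ?_
          by_contra hA'
          exact h (Finset.mem_sdiff.2 ⟨mem_reF.2 he, hA'⟩)
        · refine DBT.mono fun e he h => ?_
          simp [h]
      simp only [this]
    rw [e3]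
    refine (Ep_mono (q := pcut' c (hts ω)) (fun e _ => ?_) (fun e _ => ?_) (fun e _ => ?_)
      hfmono).trans ?_
    · linarith [pcut_le_one hc (hts ω) e]
    · exact one_sub_pcut_le hc hc2 (cornerAt_of hω.corner e)
    · exact pcut'_le_one hc _ _
    · rw [← hSS', Ep_image sig sig_injective]
      refine le_of_eq (Ep_congr_p (fun e _ => ?_) _)
      exact pcut'_sig c (hts ω) e
  have hint1 := integrable_Ep (P := P) S (fun ω e => pcut c (hts ω) e)
      (fun e => (measurable_pcut c e).comp measurable_hts) (fun _ _ => pcut_nonneg hc _ _)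
      (fun _ _ => pcut_le_one hc _ _)
      (fun A => if (fun A : Finset Edge => DBT x0 x1 y0 y1 fun e => e ∉ A) A then (1 : ℝ) else 0)
  have hint2 := integrable_Ep (P := P) S' (fun ω e => pcut c (sw (hts ω)) e)
      (fun e => ((measurable_pcut c e).comp measurable_sw).comp measurable_hts)
      (fun _ _ => pcut_nonneg hc _ _)
      (fun _ _ => pcut_le_one hc _ _) (fun A => f (A.image sig))
  refine (integral_mono_ae hint1 hint2 e2).trans ?_
  -- step 3: exchange
  have hG : Measurable (fun w : Hts => Ep S' (fun e => pcut c w e) (fun A => f (A.image sig))) :=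
    measurable_Ep S' (fun w e => pcut c w e) (fun e => measurable_pcut c e) _
  have e4 : ∫ ω, Ep S' (fun e => pcut c (sw (hts ω)) e) (fun A => f (A.image sig)) ∂P =
      ∫ ω, Ep S' (fun e => pcut c (hts ω) e) (fun A => f (A.image sig)) ∂P := by
    rw [← integral_map (μ := P) (φ := fun ω => sw (hts ω))
      (measurable_sw.comp measurable_hts).aemeasurable
      (f := fun w : Hts => Ep S' (fun e => pcut c w e) (fun A => f (A.image sig)))
      hG.aestronglyMeasurable, hSw,
      integral_map measurable_hts.aemeasurable hG.aestronglyMeasurable]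
  rw [e4]
  have e5 : (fun A : Finset Edge => f (A.image sig)) = fun A =>
      if (fun A : Finset Edge => DBT x0 x1 y0 y1 fun e => e ∈ A.image sig) A then 1 else 0 := by
    funext A; simp only [hf]
  rw [e5]
  refine (le_of_eq (prob_cut hc hCI S'
    (fun A : Finset Edge => DBT x0 x1 y0 y1 fun e => e ∈ A.image sig)).symm).trans ?_
  -- step 4: transposition
  have h1 : (P.map (fun ω : Cfg => fun e => ω.2.2 (Csq472.tr e)))
      {z : Edge → Bool | LRc (y0 - 1) y1 x0 (x1 - 1) fun e => z e = true} =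
      (P.map (fun ω : Cfg => ω.2.2))
        {z : Edge → Bool | LRc (y0 - 1) y1 x0 (x1 - 1) fun e => z e = true} := by
    rw [hZ.tr]
  rw [Measure.map_apply (by fun_prop) (measurableSet_LRc _ _ _ _),
    Measure.map_apply measurable_zc (measurableSet_LRc _ _ _ _)] at h1
  have h2 : P {ω : Cfg | LRc (y0 - 1) y1 x0 (x1 - 1) fun e => ω.2.2 e = true} =
      P {ω : Cfg | LRc (y0 - 1) y1 x0 (x1 - 1) fun e => ω.2.2 (Csq472.tr e) = true} := h1.symm
  rw [h2]
  refine ENNReal.toReal_mono (measure_ne_top _ _) (measure_mono ?_)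
  intro ω hω
  simp only [Set.mem_ofPred_eq] at hω ⊢
  rw [dbt_iff] at hω
  refine LRc.mono (fun e _ he => ?_) hω
  obtain ⟨x, hx, hxe⟩ := Finset.mem_image.1 he
  rw [← sig_injective hxe]
  exact (Finset.mem_filter.1 hx).2

/-- **Crossings of squares by cut edges have probability `≥ 1/2`** (rectangle of length `n` and
height `n - 1`, at any place). -/
theorem cross_half {c : ℝ} (hc : 1 ≤ c) (hc2 : c ≤ 2) {P : Measure Cfg} [IsProbabilityMeasure P]
    (hv : ∀ᵐ ω ∂P, GValid ω) (hCI : CondIndep c P) (hSw : SwapInv P) (hZ : ZInv P)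
    (x0 y0 : ℤ) (n : ℕ) (hn : 1 ≤ n) :
    1 / 2 ≤ (P {ω | LRc x0 (x0 + n) y0 (y0 + n - 1) fun e => ω.2.2 e = true}).toReal := by
  have h1 : (1 : ℝ) ≤ (P {ω | LRc x0 (x0 + n) y0 (y0 + n - 1) fun e => ω.2.2 e = true}).toReal +
      (P {ω | DBT x0 (x0 + n) y0 (y0 + n - 1) fun e => ¬ ω.2.2 e = true}).toReal := by
    rw [← ENNReal.toReal_add (measure_ne_top _ _) (measure_ne_top _ _)]
    have : (1 : ENNReal) ≤ P {ω | LRc x0 (x0 + n) y0 (y0 + n - 1) fun e => ω.2.2 e = true} +
        P {ω | DBT x0 (x0 + n) y0 (y0 + n - 1) fun e => ¬ ω.2.2 e = true} := by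
      rw [← measure_univ (μ := P)]
      refine (measure_mono ?_).trans (measure_union_le _ _)
      intro ω _
      rcases lrc_or_dbt x0 (x0 + n) y0 (y0 + n - 1) (by omega) (by omega)
        (fun e => ω.2.2 e = true) with h | h
      · exact Or.inl h
      · exact Or.inr h
    have h3 := ENNReal.toReal_mono
      (ENNReal.add_ne_top.2 ⟨measure_ne_top _ _, measure_ne_top _ _⟩) this
    simpa using h3
  have h2 := dbt_le hc hc2 hv hCI hSw hZ x0 (x0 + n) y0 (y0 + n - 1)
  have h3 := hZ.lrc_le (y0 - 1) (y0 + n - 1) x0 (x0 + n - 1) (x0 - (y0 - 1), y0 - x0)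
  have e1 : y0 - 1 + (x0 - (y0 - 1)) = x0 := by ring
  have e2 : y0 + (n : ℤ) - 1 + (x0 - (y0 - 1)) = x0 + n := by ring
  have e3 : x0 + (y0 - x0) = y0 := by ring
  have e4 : x0 + (n : ℤ) - 1 + (y0 - x0) = y0 + n - 1 := by ring
  simp only [e1, e2, e3, e4] at h3
  have h4 := ENNReal.toReal_mono (measure_ne_top _ _) h3
  linarith

end Crest.Agent.R161.Csq472
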