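import Crest.Agent.R161.BdI_228
import Crest.Agent.R161.Dmp2_341
import Crest.Agent.R161.Asm_695
import Crest.Agent.R161.Arc_389
import Crest.Agent.R161.Asm2_695
import Crest.Agent.R161.Mod4c_991
import Crest.Agent.R161.NuInv_421
import Crest.Agent.R161.Csq3_472
import Crest.Agent.R161.Tas1_682

-- ▼ part R161/Bd_228
section

/-!
# Row 161, block H-d: L1 estimate by cells (helper228)

* `E_mul_sq_le`, `E_abs_le_sqrt`: Cauchy–Schwarz for `E c F`
* `abs_sum_le`: abstract estimate for sums of observables with good events and decorrelation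
* `cellV s a`, `xa s a`: cells of side `s`
* `cells_L1`: the estimate for smeared heights, cell by cell
-/

set_option autoImplicit false

noncomputable section

namespace Crest.Agent.R161.Bd228

open Finset Crest.Agent.R161.Geo729 Crest.Agent.R161.Defs372 Crest.Agent.R161.Hull374
  Crest.Agent.R161.Dual374 Crest.Agent.R161.Ifc372 Crest.Agent.R161.Flip228

/-! ### Cauchy–Schwarz -/

theorem E_mul_sq_le {c : ℝ} (hc : 1 ≤ c) (F : Finset P2) (f g : Cfg → ℝ) :
    (E c F (fun ω => f ω * g ω)) ^ 2 ≤ E c F (fun ω => f ω ^ 2) * E c F (fun ω => g ω ^ 2) := by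
  have h := Finset.sum_mul_sq_le_sq_mul_sq (conf F) (fun ω => Real.sqrt (pr c F ω) * f ω)
    (fun ω => Real.sqrt (pr c F ω) * g ω)
  have e1 : ∀ ω, Real.sqrt (pr c F ω) * f ω * (Real.sqrt (pr c F ω) * g ω) =
      pr c F ω * (f ω * g ω) := by
    intro ω
    have := Real.mul_self_sqrt (pr_nonneg hc F ω)
    calc _ = (Real.sqrt (pr c F ω) * Real.sqrt (pr c F ω)) * (f ω * g ω) := by ring
      _ = _ := by rw [this]
  have e2 : ∀ (f : Cfg → ℝ) ω, (Real.sqrt (pr c F ω) * f ω) ^ 2 = pr c F ω * f ω ^ 2 := by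
    intro f ω
    rw [mul_pow, Real.sq_sqrt (pr_nonneg hc F ω)]
  simp only [e1, e2] at h
  exact h

theorem E_mul_le {c : ℝ} (hc : 1 ≤ c) (F : Finset P2) (f g : Cfg → ℝ) {A B : ℝ}
    (hA : E c F (fun ω => f ω ^ 2) ≤ A) (hB : E c F (fun ω => g ω ^ 2) ≤ B) :
    E c F (fun ω => f ω * g ω) ≤ Real.sqrt (A * B) := by
  apply Real.le_sqrt_of_sq_le
  refine (E_mul_sq_le hc F f g).trans ?_
  exact mul_le_mul hA hB (E_nonneg hc fun ω _ => sq_nonneg _)
    ((E_nonneg hc fun ω _ => sq_nonneg _).trans hA)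

theorem E_abs_le_sqrt {c : ℝ} (hc : 1 ≤ c) (F : Finset P2) (f : Cfg → ℝ) {A : ℝ}
    (hA : E c F (fun ω => f ω ^ 2) ≤ A) : E c F (fun ω => |f ω|) ≤ Real.sqrt A := by
  have h := E_mul_le hc F (fun ω => |f ω|) (fun _ => 1) (A := A) (B := 1)
    (by simpa only [sq_abs] using hA) (by simp only [one_pow]; exact (E_const hc F 1).le)
  simpa only [mul_one] using h

open Classical in
theorem Pr_eq (c : ℝ) (F : Finset P2) (A : Cfg → Prop) :
    Pr c F {ω | A ω} = E c F (fun ω => if A ω then 1 else 0) := rfl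

open Classical in
/-- on an event of small probability -/
theorem E_abs_ind_le {c : ℝ} (hc : 1 ≤ c) (F : Finset P2) (f : Cfg → ℝ) (G : Cfg → Prop)
    {A ε : ℝ} (hA : E c F (fun ω => f ω ^ 2) ≤ A) (hε : Pr c F {ω | ¬ G ω} ≤ ε) :
    E c F (fun ω => if G ω then 0 else |f ω|) ≤ Real.sqrt (A * ε) := by
  have h := E_mul_le hc F (fun ω => |f ω|) (fun ω => if ¬ G ω then 1 else 0) (A := A) (B := ε)
    (by simpa only [sq_abs] using hA) (by
      refine le_trans (le_of_eq ?_) hε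
      rw [Pr_eq]
      congr 1
      funext ω
      split_ifs <;> simp)
  refine le_trans (le_of_eq ?_) h
  congr 1
  funext ω
  split_ifs <;> simp_all

open Classical in
/-- **Abstract estimate.** -/
theorem abs_sum_le {ι : Type*} {c : ℝ} (hc : 1 ≤ c) (F : Finset P2) (I : Finset ι)
    (Y : ι → Cfg → ℝ) (G : ι → Cfg → Prop) (near : ι → Finset ι) (N : ℕ) (M ε : ℝ)
    (hdec : ∀ a ∈ I, ∀ a' ∈ I, a' ∉ near a →
      E c F (fun ω => (if G a ω then Y a ω else 0) * (if G a' ω then Y a' ω else 0)) = 0)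
    (hN : ∀ a ∈ I, (near a).card ≤ N)
    (hM : ∀ a ∈ I, E c F (fun ω => Y a ω ^ 2) ≤ M)
    (hε : ∀ a ∈ I, Pr c F {ω | ¬ G a ω} ≤ ε) (hM0 : 0 ≤ M) :
    E c F (fun ω => |∑ a ∈ I, Y a ω|) ≤
      Real.sqrt (I.card * N * M) + I.card * Real.sqrt (M * ε) := by
  -- good parts
  have hZ2 : ∀ a ∈ I, E c F (fun ω => (if G a ω then Y a ω else 0) ^ 2) ≤ M := by
    intro a ha
    refine (E_mono hc fun ω _ => ?_).trans (hM a ha)
    split_ifs
    · exact le_rfl
    · simpa using sq_nonneg (Y a ω)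
  have h1 : E c F (fun ω => (∑ a ∈ I, (if G a ω then Y a ω else 0)) ^ 2) ≤ I.card * N * M := by
    have e1 : ∀ ω, (∑ a ∈ I, (if G a ω then Y a ω else 0)) ^ 2 =
        ∑ a ∈ I, ∑ a' ∈ I, (if G a ω then Y a ω else 0) * (if G a' ω then Y a' ω else 0) := by
      intro ω
      rw [sq, Finset.sum_mul_sum]
    simp only [e1]
    rw [E_sum]
    have e2 : ∀ a ∈ I, E c F (fun ω => ∑ a' ∈ I, (if G a ω then Y a ω else 0) *
        (if G a' ω then Y a' ω else 0)) ≤ N * M := by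
      intro a ha
      rw [E_sum]
      have e3 : ∀ a' ∈ I, E c F (fun ω => (if G a ω then Y a ω else 0) *
          (if G a' ω then Y a' ω else 0)) ≤ if a' ∈ near a then M else 0 := by
        intro a' ha'
        split_ifs with hn
        · have := E_mul_le hc F _ _ (hZ2 a ha) (hZ2 a' ha')
          rwa [Real.sqrt_mul_self hM0] at this
        · exact (hdec a ha a' ha' hn).le
      refine (Finset.sum_le_sum e3).trans ?_
      rw [← Finset.sum_filter, Finset.sum_const, nsmul_eq_mul]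
      refine mul_le_mul_of_nonneg_right ?_ hM0
      have : (I.filter fun a' => a' ∈ near a).card ≤ (near a).card :=
        Finset.card_le_card fun b hb => (Finset.mem_filter.1 hb).2
      exact_mod_cast this.trans (hN a ha)
    refine (Finset.sum_le_sum e2).trans ?_
    rw [Finset.sum_const, nsmul_eq_mul]
    exact le_of_eq (by ring)
  have h2 := E_abs_le_sqrt hc F _ h1
  -- bad parts
  have h3 : ∀ a ∈ I, E c F (fun ω => if G a ω then 0 else |Y a ω|) ≤ Real.sqrt (M * ε) :=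
    fun a ha => E_abs_ind_le hc F _ _ (hM a ha) (hε a ha)
  have h4 : E c F (fun ω => |∑ a ∈ I, Y a ω|) ≤
      E c F (fun ω => |∑ a ∈ I, (if G a ω then Y a ω else 0)| +
        ∑ a ∈ I, (if G a ω then 0 else |Y a ω|)) := by
    refine E_mono hc fun ω _ => ?_
    have e4 : ∑ a ∈ I, Y a ω = ∑ a ∈ I, (if G a ω then Y a ω else 0) +
        ∑ a ∈ I, (if G a ω then 0 else Y a ω) := by
      rw [← Finset.sum_add_distrib]
      refine Finset.sum_congr rfl fun a _ => ?_
      split_ifs <;> simp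
    rw [e4]
    refine (abs_add_le _ _).trans (add_le_add le_rfl ?_)
    refine (Finset.abs_sum_le_sum_abs _ _).trans (Finset.sum_le_sum fun a _ => ?_)
    split_ifs <;> simp
  rw [E_add, E_sum] at h4
  refine h4.trans (add_le_add h2 ?_)
  refine (Finset.sum_le_sum h3).trans ?_
  rw [Finset.sum_const, nsmul_eq_mul]

/-! ### balls -/

theorem mem_ball {x : P2} {n : ℕ} {f : P2} : f ∈ ball x n ↔
    x.1 - n ≤ f.1 ∧ f.1 ≤ x.1 + n - 1 ∧ x.2 - n ≤ f.2 ∧ f.2 ≤ x.2 + n - 1 := by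
  simp only [ball, Finset.mem_product, Finset.mem_Icc]
  tauto

theorem dom_ball (x : P2) (n : ℕ) : Dom (ball x n) := Dmp341.dom_rect _ _ _ _

theorem conn_ball (x : P2) (n : ℕ) : IsConn (ball x n : Set P2) := (dom_ball x n).conn

theorem conn_compl_ball (x : P2) (n : ℕ) : IsConn (ball x n : Set P2)ᶜ := (dom_ball x n).sc

theorem compl_ball_ne (x : P2) (n : ℕ) : ((ball x n : Set P2)ᶜ).Nonempty := by
  refine ⟨(x.1 + n, x.2), ?_⟩
  intro h
  rw [Finset.mem_coe, mem_ball] at h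
  simp only at h
  omega



theorem self_mem_ball (x : P2) {n : ℕ} (h : 1 ≤ n) : x ∈ ball x n := by
  rw [mem_ball]
  omega

/-! ### cells -/

/-- vertices of the cell `a` of side `s` -/
def cellV (s : ℕ) (a : P2) : Finset P2 :=
  Finset.Ico (a.1 * s) (a.1 * s + s) ×ˢ Finset.Ico (a.2 * s) (a.2 * s + s)

/-- lower left corner of the cell -/
def xa (s : ℕ) (a : P2) : P2 := (a.1 * s, a.2 * s)

theorem mem_cellV {s : ℕ} {a v : P2} : v ∈ cellV s a ↔
    a.1 * s ≤ v.1 ∧ v.1 < a.1 * s + s ∧ a.2 * s ≤ v.2 ∧ v.2 < a.2 * s + s := by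
  simp only [cellV, Finset.mem_product, Finset.mem_Ico]
  tauto

/-- the cell of a vertex -/
def cellOf (s : ℕ) (v : P2) : P2 := (v.1 / s, v.2 / s)

theorem mem_cellV_cellOf {s : ℕ} (hs : 1 ≤ s) (v : P2) : v ∈ cellV s (cellOf s v) := by
  have hs' : (0 : ℤ) < s := by exact_mod_cast hs
  rw [mem_cellV]
  simp only [cellOf]
  have h1 := Int.emod_add_mul_ediv v.1 s
  have h2 := Int.emod_nonneg v.1 hs'.ne'
  have h3 := Int.emod_lt_of_pos v.1 hs'
  have h4 := Int.emod_add_mul_ediv v.2 s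
  have h5 := Int.emod_nonneg v.2 hs'.ne'
  have h6 := Int.emod_lt_of_pos v.2 hs'
  refine ⟨?_, ?_, ?_, ?_⟩ <;> nlinarith

theorem cellOf_of_mem {s : ℕ} {a v : P2} (h : v ∈ cellV s a) : cellOf s v = a := by
  rw [mem_cellV] at h
  obtain ⟨h1, h2, h3, h4⟩ := h
  have hs' : (0 : ℤ) < s := by linarith
  refine Prod.ext ?_ ?_
  · show v.1 / s = a.1
    rw [Int.ediv_eq_iff_of_pos hs']
    constructor <;> nlinarith
  · show v.2 / s = a.2
    rw [Int.ediv_eq_iff_of_pos hs']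
    constructor <;> nlinarith


theorem cell_touch {s m : ℕ} (h : s ≤ m) {a v : P2} (hv : v ∈ cellV s a) :
    Touch (ball (xa s a) m : Set P2) v := by
  refine ⟨v, ?_, Or.inl rfl⟩
  rw [Finset.mem_coe, mem_ball]
  rw [mem_cellV] at hv
  simp only [xa]
  have : (s : ℤ) ≤ m := by exact_mod_cast h
  refine ⟨?_, ?_, ?_, ?_⟩ <;> linarith

theorem touch_ball {x v : P2} {n : ℕ} (h : Touch (ball x n : Set P2) v) :
    x.1 - n ≤ v.1 ∧ v.1 ≤ x.1 + n ∧ x.2 - n ≤ v.2 ∧ v.2 ≤ x.2 + n := by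
  rw [touch_iff] at h
  simp only [Finset.mem_coe, mem_ball] at h
  rcases h with h | h | h | h <;> refine ⟨?_, ?_, ?_, ?_⟩ <;> linarith

/-- cells close to `a` -/
def nearC (Q : ℕ) (a : P2) : Finset P2 :=
  Finset.Icc (a.1 - Q) (a.1 + Q) ×ˢ Finset.Icc (a.2 - Q) (a.2 + Q)

theorem card_nearC (Q : ℕ) (a : P2) : (nearC Q a).card = (2 * Q + 1) ^ 2 := by
  unfold nearC
  rw [Finset.card_product, Int.card_Icc, Int.card_Icc]
  have h1 : (a.1 + (Q : ℤ) + 1 - (a.1 - Q)).toNat = 2 * Q + 1 := by omega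
  have h2 : (a.2 + (Q : ℤ) + 1 - (a.2 - Q)).toNat = 2 * Q + 1 := by omega
  rw [h1, h2, sq]

theorem cell_far {s M Q : ℕ} (hs : 1 ≤ s) (hM : M ≤ Q * s) {a a' : P2} (h : a' ∉ nearC Q a)
    {v : P2} (hv : v ∈ cellV s a') : ¬ Touch (ball (xa s a) M : Set P2) v := by
  intro ht
  apply h
  have h1 := touch_ball ht
  rw [mem_cellV] at hv
  simp only [xa] at h1
  have hs' : (0 : ℤ) < s := by exact_mod_cast hs
  have hM' : (M : ℤ) ≤ Q * s := by exact_mod_cast hM
  simp only [nearC, Finset.mem_product, Finset.mem_Icc]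
  obtain ⟨a1, a2, a3, a4⟩ := h1
  obtain ⟨b1, b2, b3, b4⟩ := hv
  refine ⟨⟨?_, ?_⟩, ⟨?_, ?_⟩⟩
  · by_contra hcon
    push Not at hcon
    have : a'.1 + 1 + Q ≤ a.1 := by omega
    nlinarith
  · by_contra hcon
    push Not at hcon
    have : a.1 + Q + 1 ≤ a'.1 := by omega
    nlinarith
  · by_contra hcon
    push Not at hcon
    have : a'.2 + 1 + Q ≤ a.2 := by omega
    nlinarith
  · by_contra hcon
    push Not at hcon
    have : a.2 + Q + 1 ≤ a'.2 := by omega
    nlinarith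

/-- **L1 estimate by cells.** -/
theorem cells_L1 {c : ℝ} (hc : 1 ≤ c) (F : Finset P2) {s m M Q : ℕ} (hs : 1 ≤ s) (hm : s ≤ m)
    (hM : M ≤ Q * s) (I : Finset P2) (g : P2 → ℝ) (M2 ε : ℝ) (hM20 : 0 ≤ M2)
    (hM2 : ∀ a ∈ I, E c F (fun ω => Lin (cellV s a) g ω ^ 2) ≤ M2)
    (hε : ∀ a ∈ I, Pr c F {ω | ¬ Good (ball (xa s a) M : Set P2) (ball (xa s a) m : Set P2)
      (xa s a) ω} ≤ ε) :
    E c F (fun ω => |∑ a ∈ I, Lin (cellV s a) g ω|) ≤
      Real.sqrt (I.card * (2 * Q + 1) ^ 2 * M2) + I.card * Real.sqrt (M2 * ε) := by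
  have h := abs_sum_le hc F I (fun a => Lin (cellV s a) g)
    (fun a => Good (ball (xa s a) M : Set P2) (ball (xa s a) m : Set P2) (xa s a))
    (nearC Q) ((2 * Q + 1) ^ 2) M2 ε ?_ ?_ hM2 hε hM20
  · push_cast at h
    exact h
  · intro a _ a' _ hn
    exact E_good_mul_zero c F (conn_compl_ball _ _) (compl_ball_ne _ _)
      (self_mem_ball _ (hs.trans hm)) (conn_ball _ _) g g (fun v hv => cell_touch hm hv)
      (fun v hv => cell_far hs hM hn hv)
  · intro a _
    exact (card_nearC Q a).le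

end Crest.Agent.R161.Bd228
end
end

-- ▼ part R161/BdDisc_228
section

/-!
# Row 161, block H: boundary regularity for domains squeezed under a disc (helper228)

* `pc v : ℂ` position of a lattice point
* `far_pt` : a lattice point in the outward direction
* `card_annulus` : number of lattice points in a thin annulus
* `layer_L1` : **(H)** `E_D |∑ K a| ≤ ε` for densities `≤ C/η` living outside the disc of radius
  `ρ - 2η`, `D` any `Dom` below the disc of radius `ρ + η`; from `HA c`, `HC c`.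
-/

set_option autoImplicit false

noncomputable section

namespace Crest.Agent.R161.BdDisc228

open Finset Crest.Agent.R161.Geo729 Crest.Agent.R161.Defs372 Crest.Agent.R161.Hull374
  Crest.Agent.R161.Dual374 Crest.Agent.R161.Ifc372 Crest.Agent.R161.Flip228
  Crest.Agent.R161.BdI228 Crest.Agent.R161.Bd228

/-! ### positions -/

/-- position of a lattice point -/
def pc (v : P2) : ℂ := ⟨(v.1 : ℝ), (v.2 : ℝ)⟩

@[simp] theorem pc_re (v : P2) : (pc v).re = v.1 := rfl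
@[simp] theorem pc_im (v : P2) : (pc v).im = v.2 := rfl

theorem pc_sub_le (v w : P2) :
    ‖pc v - pc w‖ ≤ |(v.1 : ℝ) - w.1| + |(v.2 : ℝ) - w.2| := by
  simpa using Complex.norm_le_abs_re_add_abs_im (pc v - pc w)

theorem le_pc_fst (v w : P2) : |(v.1 : ℝ) - w.1| ≤ ‖pc v - pc w‖ := by
  simpa using Complex.abs_re_le_norm (pc v - pc w)

theorem le_pc_snd (v w : P2) : |(v.2 : ℝ) - w.2| ≤ ‖pc v - pc w‖ := by
  simpa using Complex.abs_im_le_norm (pc v - pc w)

theorem norm_sq_pc (v : P2) : ‖pc v‖ ^ 2 = (v.1 : ℝ) ^ 2 + (v.2 : ℝ) ^ 2 := by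
  rw [← Complex.normSq_eq_norm_sq, Complex.normSq_apply]
  simp only [pc_re, pc_im]
  ring

/-- a lattice point in the outward direction -/
theorem far_pt (v : P2) (hv : 0 < ‖pc v‖) (t : ℝ) (ht : ‖pc v‖ ≤ t) :
    ∃ b : P2, ‖pc b - pc v‖ ≤ t - ‖pc v‖ + 2 ∧ t - 2 ≤ ‖pc b‖ := by
  have ht0 : 0 ≤ t := hv.le.trans ht
  set u : ℂ := ((t / ‖pc v‖ : ℝ) : ℂ) * pc v with hu
  have hun : ‖u‖ = t := by
    rw [hu, norm_mul, Complex.norm_real, Real.norm_eq_abs, abs_of_nonneg (by positivity)]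
    field_simp
  have huv : ‖u - pc v‖ = t - ‖pc v‖ := by
    have : u - pc v = ((t / ‖pc v‖ - 1 : ℝ) : ℂ) * pc v := by
      rw [hu]; push_cast; ring
    rw [this, norm_mul, Complex.norm_real, Real.norm_eq_abs, abs_of_nonneg]
    · field_simp
    · rw [sub_nonneg, one_le_div hv]; exact ht
  refine ⟨(⌊u.re⌋, ⌊u.im⌋), ?_, ?_⟩
  all_goals
    have h1 : ‖pc (⌊u.re⌋, ⌊u.im⌋) - u‖ ≤ 2 := by
      refine (Complex.norm_le_abs_re_add_abs_im _).trans ?_
      simp only [Complex.sub_re, Complex.sub_im, pc_re, pc_im]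
      have h2 : |((⌊u.re⌋ : ℤ) : ℝ) - u.re| ≤ 1 := by
        rw [abs_le]; constructor <;> linarith [Int.floor_le u.re, Int.lt_floor_add_one u.re]
      have h3 : |((⌊u.im⌋ : ℤ) : ℝ) - u.im| ≤ 1 := by
        rw [abs_le]; constructor <;> linarith [Int.floor_le u.im, Int.lt_floor_add_one u.im]
      linarith
  · calc ‖pc (⌊u.re⌋, ⌊u.im⌋) - pc v‖ = ‖(pc (⌊u.re⌋, ⌊u.im⌋) - u) + (u - pc v)‖ := by ring_nf
      _ ≤ ‖pc (⌊u.re⌋, ⌊u.im⌋) - u‖ + ‖u - pc v‖ := norm_add_le _ _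
      _ ≤ t - ‖pc v‖ + 2 := by linarith
  · have h4 := norm_sub_norm_le u (u - pc (⌊u.re⌋, ⌊u.im⌋))
    have h5 : u - (u - pc (⌊u.re⌋, ⌊u.im⌋)) = pc (⌊u.re⌋, ⌊u.im⌋) := by ring
    rw [h5, norm_sub_rev u (pc (⌊u.re⌋, ⌊u.im⌋))] at h4
    linarith

/-! ### counting -/

theorem card_le_of_diam (S : Finset ℤ) (D : ℝ) (hD : 0 ≤ D)
    (h : ∀ a ∈ S, ∀ b ∈ S, (a : ℝ) - b ≤ D) : (S.card : ℝ) ≤ D + 1 := by
  rcases S.eq_empty_or_nonempty with rfl | hne
  · simp; linarith
  · have h1 : S ⊆ Finset.Icc (S.min' hne) (S.max' hne) := fun a ha =>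
      Finset.mem_Icc.2 ⟨S.min'_le a ha, S.le_max' a ha⟩
    have h2 := Finset.card_le_card h1
    rw [Int.card_Icc] at h2
    have h3 := h _ (S.max'_mem hne) _ (S.min'_mem hne)
    have h4 : S.min' hne ≤ S.max' hne := S.min'_le _ (S.max'_mem hne)
    have h5 : ((S.card : ℤ)) ≤ S.max' hne + 1 - S.min' hne := by omega
    have h6 : (S.card : ℝ) ≤ S.max' hne + 1 - S.min' hne := by exact_mod_cast h5
    linarith

theorem card_quarter (S : Finset P2) {r1 r2 : ℝ} (h1 : 1 ≤ r1) (h12 : r1 ≤ r2) (h21 : r2 ≤ 2 * r1)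
    (hS : ∀ a ∈ S, r1 ^ 2 ≤ (a.1 : ℝ) ^ 2 + (a.2 : ℝ) ^ 2 ∧ (a.1 : ℝ) ^ 2 + (a.2 : ℝ) ^ 2 ≤ r2 ^ 2 ∧
      |a.1| ≤ a.2) : (S.card : ℝ) ≤ (2 * r2 + 1) * (3 * (r2 - r1) + 1) := by
  have hfst : ∀ a ∈ S, |(a.1 : ℝ)| ≤ r2 := by
    intro a ha
    obtain ⟨_, h2, _⟩ := hS a ha
    exact abs_le_of_sq_le_sq' (by nlinarith [sq_nonneg (a.2 : ℝ)]) (by linarith) |> abs_le.2
  have hsnd : ∀ a ∈ S, (7 / 10) * r1 ≤ (a.2 : ℝ) := by
    intro a ha
    obtain ⟨h2, _, h3⟩ := hS a ha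
    have h4 : |(a.1 : ℝ)| ≤ (a.2 : ℝ) := by exact_mod_cast h3
    have h5 : (a.1 : ℝ) ^ 2 ≤ (a.2 : ℝ) ^ 2 := by
      rw [← sq_abs (a.1 : ℝ)]
      exact pow_le_pow_left₀ (abs_nonneg _) h4 2
    have h6 : 0 ≤ (a.2 : ℝ) := (abs_nonneg _).trans h4
    by_contra hcon
    push Not at hcon
    nlinarith
  have hcard : S.card = ∑ x ∈ S.image Prod.fst, (S.filter fun a => a.1 = x).card :=
    Finset.card_eq_sum_card_image _ _
  have hfib : ∀ x ∈ S.image Prod.fst, ((S.filter fun a => a.1 = x).card : ℝ) ≤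
      3 * (r2 - r1) + 1 := by
    intro x _
    have e1 : (S.filter fun a => a.1 = x).card = ((S.filter fun a => a.1 = x).image Prod.snd).card := by
      rw [Finset.card_image_of_injOn]
      intro a ha b hb hab
      rw [Finset.mem_coe, Finset.mem_filter] at ha hb
      exact Prod.ext (ha.2.trans hb.2.symm) hab
    rw [e1]
    refine card_le_of_diam _ _ (by linarith) ?_
    intro p hp q hq
    rw [Finset.mem_image] at hp hq
    obtain ⟨a, ha, rfl⟩ := hp
    obtain ⟨b, hb, rfl⟩ := hq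
    rw [Finset.mem_filter] at ha hb
    have ha1 := hsnd a ha.1
    have hb1 := hsnd b hb.1
    obtain ⟨_, h2, _⟩ := hS a ha.1
    obtain ⟨h3, _, _⟩ := hS b hb.1
    have h4 : (a.1 : ℝ) = b.1 := by exact_mod_cast (ha.2.trans hb.2.symm)
    rw [h4] at h2
    by_contra hcon
    push Not at hcon
    have h5 : ((a.2 : ℝ) - b.2) * (a.2 + b.2) ≤ (r2 - r1) * (r2 + r1) := by nlinarith
    have h6 : (14 / 10) * r1 ≤ (a.2 : ℝ) + b.2 := by linarith
    have h7 : (r2 - r1) * (r2 + r1) ≤ (r2 - r1) * (3 * r1) :=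
      mul_le_mul_of_nonneg_left (by linarith) (by linarith)
    have h8 : 3 * (r2 - r1) * ((14 / 10) * r1) ≤ ((a.2 : ℝ) - b.2) * (a.2 + b.2) :=
      mul_le_mul hcon.le h6 (by positivity) (by linarith)
    have h9 : 0 < ((a.2 : ℝ) - b.2) - 3 * (r2 - r1) := by linarith
    have h10 : 0 < ((a.2 : ℝ) - b.2 - 3 * (r2 - r1)) * (a.2 + b.2) :=
      mul_pos h9 (by linarith)
    nlinarith
  have himg : ((S.image Prod.fst).card : ℝ) ≤ 2 * r2 + 1 := by
    refine card_le_of_diam _ _ (by linarith) ?_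
    intro p hp q hq
    rw [Finset.mem_image] at hp hq
    obtain ⟨a, ha, rfl⟩ := hp
    obtain ⟨b, hb, rfl⟩ := hq
    have h2 := abs_le.1 (hfst a ha)
    have h3 := abs_le.1 (hfst b hb)
    linarith [h2.2, h3.1]
  rw [hcard]
  push_cast
  refine (Finset.sum_le_sum hfib).trans ?_
  rw [Finset.sum_const, nsmul_eq_mul]
  exact mul_le_mul_of_nonneg_right himg (by linarith)

theorem card_annulus (S : Finset P2) {r1 r2 : ℝ} (h1 : 1 ≤ r1) (h12 : r1 ≤ r2) (h21 : r2 ≤ 2 * r1)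
    (hS : ∀ a ∈ S, r1 ^ 2 ≤ (a.1 : ℝ) ^ 2 + (a.2 : ℝ) ^ 2 ∧
      (a.1 : ℝ) ^ 2 + (a.2 : ℝ) ^ 2 ≤ r2 ^ 2) :
    (S.card : ℝ) ≤ 4 * ((2 * r2 + 1) * (3 * (r2 - r1) + 1)) := by
  have key : ∀ (p : P2 → Prop) [DecidablePred p] (φ : P2 → P2), Function.Injective φ →
      (∀ a, ((φ a).1 : ℝ) ^ 2 + ((φ a).2 : ℝ) ^ 2 = (a.1 : ℝ) ^ 2 + (a.2 : ℝ) ^ 2) →
      (∀ a, p a → |(φ a).1| ≤ (φ a).2) →
      ((S.filter p).card : ℝ) ≤ (2 * r2 + 1) * (3 * (r2 - r1) + 1) := by
    intro p _ φ hφ hn hp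
    rw [← Finset.card_image_of_injective _ hφ]
    refine card_quarter _ h1 h12 h21 ?_
    intro b hb
    rw [Finset.mem_image] at hb
    obtain ⟨a, ha, rfl⟩ := hb
    rw [Finset.mem_filter] at ha
    rw [hn]
    exact ⟨(hS a ha.1).1, (hS a ha.1).2, hp a ha.2⟩
  have k1 := key (fun a => |a.1| ≤ a.2) id Function.injective_id (fun _ => rfl) (fun _ h => h)
  have k2 := key (fun a => |a.1| ≤ -a.2) (fun a => (a.1, -a.2))
    (fun a b h => by
      simp only [Prod.mk.injEq, neg_inj] at h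
      exact Prod.ext h.1 h.2) (fun a => by push_cast; ring) (fun _ h => h)
  have k3 := key (fun a => |a.2| ≤ a.1) (fun a => (a.2, a.1))
    (fun a b h => by
      simp only [Prod.mk.injEq] at h
      exact Prod.ext h.2 h.1) (fun a => by push_cast; ring) (fun _ h => h)
  have k4 := key (fun a => |a.2| ≤ -a.1) (fun a => (a.2, -a.1))
    (fun a b h => by
      simp only [Prod.mk.injEq, neg_inj] at h
      exact Prod.ext h.2 h.1) (fun a => by push_cast; ring) (fun _ h => h)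
  have hcov : S ⊆ ((S.filter fun a => |a.1| ≤ a.2) ∪ (S.filter fun a => |a.1| ≤ -a.2)) ∪
      ((S.filter fun a => |a.2| ≤ a.1) ∪ (S.filter fun a => |a.2| ≤ -a.1)) := by
    intro a ha
    simp only [Finset.mem_union, Finset.mem_filter, ha, true_and, abs_le]
    omega
  have hle := Finset.card_le_card hcov
  have hu := (Finset.card_union_le ((S.filter fun a => |a.1| ≤ a.2) ∪
    (S.filter fun a => |a.1| ≤ -a.2)) ((S.filter fun a => |a.2| ≤ a.1) ∪
    (S.filter fun a => |a.2| ≤ -a.1)))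
  have hu1 := Finset.card_union_le (S.filter fun a => |a.1| ≤ a.2) (S.filter fun a => |a.1| ≤ -a.2)
  have hu2 := Finset.card_union_le (S.filter fun a => |a.2| ≤ a.1) (S.filter fun a => |a.2| ≤ -a.1)
  have hfin : (S.card : ℝ) ≤ ((S.filter fun a => |a.1| ≤ a.2).card : ℝ) +
      (S.filter fun a => |a.1| ≤ -a.2).card + ((S.filter fun a => |a.2| ≤ a.1).card +
      (S.filter fun a => |a.2| ≤ -a.1).card) := by
    have : S.card ≤ (S.filter fun a => |a.1| ≤ a.2).card +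
      (S.filter fun a => |a.1| ≤ -a.2).card + ((S.filter fun a => |a.2| ≤ a.1).card +
      (S.filter fun a => |a.2| ≤ -a.1).card) := by omega
    exact_mod_cast this
  linarith

/-! ### decomposition into cells -/

open Classical in
/-- the relevant vertices -/
def Sr (D S : Finset P2) (a : P2 → ℝ) : Finset P2 := S.filter fun v => v ∈ D ∧ a v ≠ 0

theorem mem_Sr {D S : Finset P2} {a : P2 → ℝ} {v : P2} :
    v ∈ Sr D S a ↔ v ∈ S ∧ v ∈ D ∧ a v ≠ 0 := by
  simp [Sr]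

open Classical in
/-- the truncated density -/
def gr (D S : Finset P2) (a : P2 → ℝ) (v : P2) : ℝ := if v ∈ Sr D S a then a v else 0

theorem sum_cells {D S : Finset P2} {s : ℕ} (hs : 1 ≤ s) (a : P2 → ℝ) {ω : Cfg}
    (hω : Valid D ω) :
    ∑ v ∈ S, (ω.1 v : ℝ) * a v =
      ∑ q ∈ (Sr D S a).image (cellOf s), Lin (cellV s q) (gr D S a) ω := by
  classical
  have h1 : ∑ v ∈ S, (ω.1 v : ℝ) * a v = ∑ v ∈ Sr D S a, (ω.1 v : ℝ) * a v := by
    unfold Sr
    rw [Finset.sum_filter]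
    refine Finset.sum_congr rfl fun v _ => ?_
    split_ifs with h
    · rfl
    · by_cases hv : v ∈ D
      · have : a v = 0 := by
          by_contra h0
          exact h ⟨hv, h0⟩
        rw [this, mul_zero]
      · have : ω.1 v = 0 := hω.zero v fun hi => hv (Finset.mem_filter.1 hi).1
        rw [this, Int.cast_zero, zero_mul]
  rw [h1, ← Finset.sum_fiberwise_of_maps_to (g := cellOf s)
    (t := (Sr D S a).image (cellOf s)) (fun v hv => Finset.mem_image_of_mem _ hv)]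
  refine Finset.sum_congr rfl fun q _ => ?_
  have h2 : (Sr D S a).filter (fun v => cellOf s v = q) =
      (cellV s q).filter (fun v => v ∈ Sr D S a) := by
    ext v
    rw [Finset.mem_filter, Finset.mem_filter]
    constructor
    · rintro ⟨h3, h4⟩
      refine ⟨?_, h3⟩
      rw [← h4]
      exact mem_cellV_cellOf hs v
    · rintro ⟨h3, h4⟩
      exact ⟨h4, cellOf_of_mem h3⟩
  rw [h2, Finset.sum_filter]
  unfold Lin
  refine Finset.sum_congr rfl fun v _ => ?_
  unfold gr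
  split_ifs
  · ring
  · ring

theorem abs_cell {s : ℕ} {q v : P2} (h : v ∈ cellV s q) :
    ‖pc v - (s : ℂ) * pc q‖ ≤ 2 * s := by
  have e : (s : ℂ) * pc q = pc (xa s q) := by
    apply Complex.ext
    · simp [xa, pc]; ring
    · simp [xa, pc]; ring
  rw [e]
  refine (pc_sub_le _ _).trans ?_
  rw [mem_cellV] at h
  simp only [xa]
  have a1 : |((v.1 : ℝ)) - ((q.1 * s : ℤ) : ℝ)| ≤ s := by
    rw [abs_le]
    have h1 : ((q.1 * s : ℤ) : ℝ) ≤ v.1 := by exact_mod_cast h.1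
    have h2 : (v.1 : ℝ) < ((q.1 * s : ℤ) : ℝ) + s := by exact_mod_cast h.2.1
    constructor <;> linarith [Nat.cast_nonneg (α := ℝ) s]
  have a2 : |((v.2 : ℝ)) - ((q.2 * s : ℤ) : ℝ)| ≤ s := by
    rw [abs_le]
    have h1 : ((q.2 * s : ℤ) : ℝ) ≤ v.2 := by exact_mod_cast h.2.2.1
    have h2 : (v.2 : ℝ) < ((q.2 * s : ℤ) : ℝ) + s := by exact_mod_cast h.2.2.2
    constructor <;> linarith [Nat.cast_nonneg (α := ℝ) s]
  linarith

theorem mem_ball_real {x f : P2} {n : ℕ} : f ∈ ball x n ↔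
    (x.1 : ℝ) - n ≤ f.1 ∧ (f.1 : ℝ) ≤ x.1 + n - 1 ∧ (x.2 : ℝ) - n ≤ f.2 ∧
      (f.2 : ℝ) ≤ x.2 + n - 1 := by
  rw [mem_ball]
  constructor
  · rintro ⟨h1, h2, h3, h4⟩
    exact ⟨by exact_mod_cast h1, by exact_mod_cast h2, by exact_mod_cast h3, by exact_mod_cast h4⟩
  · rintro ⟨h1, h2, h3, h4⟩
    exact ⟨by exact_mod_cast h1, by exact_mod_cast h2, by exact_mod_cast h3, by exact_mod_cast h4⟩

theorem norm_ball_le {x f : P2} {n : ℕ} (h : f ∈ ball x n) : ‖pc f - pc x‖ ≤ 2 * n := by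
  refine (pc_sub_le _ _).trans ?_
  rw [mem_ball_real] at h
  have a1 : |(f.1 : ℝ) - x.1| ≤ n := by rw [abs_le]; constructor <;> linarith [h.1, h.2.1]
  have a2 : |(f.2 : ℝ) - x.2| ≤ n := by rw [abs_le]; constructor <;> linarith [h.2.2.1, h.2.2.2]
  linarith

theorem mem_ball_of_norm {x f : P2} {n : ℕ} (h : ‖pc f - pc x‖ ≤ n - 1) : f ∈ ball x n := by
  rw [mem_ball_real]
  have a1 := abs_le.1 ((le_pc_fst f x).trans h)
  have a2 := abs_le.1 ((le_pc_snd f x).trans h)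
  refine ⟨?_, ?_, ?_, ?_⟩ <;> linarith [a1.1, a1.2, a2.1, a2.2]

/-- geometry near the boundary: `R = (ρ+η)/δ` is an upper bound for the faces of `D` -/
theorem exists_outer {D : Finset P2} {R : ℝ} (hD : ∀ f ∈ D, ‖pc f‖ < R) {v : P2}
    (hv : 0 < ‖pc v‖) (hvR : ‖pc v‖ ≤ R) {s : ℕ} (hs : 9 ≤ s) (h3 : R - ‖pc v‖ ≤ 3 * s) :
    (∃ b : P2, Disjoint (ball b s) D ∧ ∀ w ∈ cellV s (cellOf s v), w ∈ ball b (10 * s)) ∧
    (∃ y ∈ ball (xa s (cellOf s v)) (6 * s), y ∉ D) := by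
  have hs' : (9 : ℝ) ≤ s := by exact_mod_cast hs
  have hcell := mem_cellV_cellOf (hs := by omega) (s := s) v
  have hx : ∀ w ∈ cellV s (cellOf s v), ‖pc w - pc v‖ ≤ 2 * s := by
    intro w hw
    refine (pc_sub_le _ _).trans ?_
    rw [mem_cellV] at hw hcell
    have a1 : |(w.1 : ℝ) - v.1| ≤ s := by
      rw [abs_le]
      have h1 : ((cellOf s v).1 * s : ℤ) ≤ (w.1 : ℝ) := by exact_mod_cast hw.1
      have h2 : (w.1 : ℝ) < ((cellOf s v).1 * s : ℤ) + s := by exact_mod_cast hw.2.1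
      have h3 : ((cellOf s v).1 * s : ℤ) ≤ (v.1 : ℝ) := by exact_mod_cast hcell.1
      have h4 : (v.1 : ℝ) < ((cellOf s v).1 * s : ℤ) + s := by exact_mod_cast hcell.2.1
      constructor <;> linarith
    have a2 : |(w.2 : ℝ) - v.2| ≤ s := by
      rw [abs_le]
      have h1 : ((cellOf s v).2 * s : ℤ) ≤ (w.2 : ℝ) := by exact_mod_cast hw.2.2.1
      have h2 : (w.2 : ℝ) < ((cellOf s v).2 * s : ℤ) + s := by exact_mod_cast hw.2.2.2
      have h3 : ((cellOf s v).2 * s : ℤ) ≤ (v.2 : ℝ) := by exact_mod_cast hcell.2.2.1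
      have h4 : (v.2 : ℝ) < ((cellOf s v).2 * s : ℤ) + s := by exact_mod_cast hcell.2.2.2
      constructor <;> linarith
    linarith
  constructor
  · obtain ⟨b, hb1, hb2⟩ := far_pt v hv (R + 2 * s + 2) (by linarith)
    refine ⟨b, ?_, ?_⟩
    · rw [Finset.disjoint_left]
      intro f hf hfD
      have h4 := hD f hfD
      have h5 := norm_ball_le hf
      have h6 := norm_sub_norm_le (pc b) (pc f)
      rw [norm_sub_rev] at h6
      linarith
    · intro w hw
      apply mem_ball_of_norm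
      have h4 := hx w hw
      have h5 : ‖pc w - pc b‖ ≤ ‖pc w - pc v‖ + ‖pc b - pc v‖ := by
        rw [norm_sub_rev (pc b)]
        calc ‖pc w - pc b‖ = ‖(pc w - pc v) + (pc v - pc b)‖ := by ring_nf
          _ ≤ _ := norm_add_le _ _
      push_cast
      linarith
  · obtain ⟨y, hy1, hy2⟩ := far_pt v hv (R + 2) (by linarith)
    refine ⟨y, ?_, ?_⟩
    · apply mem_ball_of_norm
      have h4 : ‖pc v - pc (xa s (cellOf s v))‖ ≤ 2 * s := by
        have := abs_cell hcell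
        have e : (s : ℂ) * pc (cellOf s v) = pc (xa s (cellOf s v)) := by
          apply Complex.ext
          · simp [xa, pc]; ring
          · simp [xa, pc]; ring
        rwa [e] at this
      have h5 : ‖pc y - pc (xa s (cellOf s v))‖ ≤
          ‖pc y - pc v‖ + ‖pc v - pc (xa s (cellOf s v))‖ := by
        calc ‖pc y - pc (xa s (cellOf s v))‖ =
            ‖(pc y - pc v) + (pc v - pc (xa s (cellOf s v)))‖ := by ring_nf
          _ ≤ _ := norm_add_le _ _
      push_cast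
      linarith
    · intro hyD
      have h4 := hD y hyD
      linarith

/-- number of cells met by the layer -/
theorem card_cells {T : Finset P2} {ρ η δ : ℝ} (hρ : 0 < ρ) (hη : 0 < η) (hηρ : η ≤ ρ / 20)
    (hδ : 0 < δ) {s : ℕ} (hs1 : η ≤ δ * s) (hs2 : δ * s ≤ 2 * η)
    (hT : ∀ v ∈ T, ρ - 2 * η ≤ δ * ‖pc v‖ ∧ δ * ‖pc v‖ ≤ ρ + η) :
    (((T.image (cellOf s)).card : ℕ) : ℝ) ≤ 320 * ρ / η := by
  have hs0 : 0 < δ * s := lt_of_lt_of_le hη hs1
  have hspos : (0 : ℝ) < s := by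
    by_contra h
    push Not at h
    nlinarith
  have hsN : 1 ≤ s := by
    have : 0 < s := by exact_mod_cast hspos
    omega
  set r1 : ℝ := (ρ - 2 * η) / (δ * s) - 2 with hr1
  set r2 : ℝ := (ρ + η) / (δ * s) + 2 with hr2
  have hd : r2 - r1 ≤ 7 := by
    have : r2 - r1 = 3 * η / (δ * s) + 4 := by rw [hr1, hr2]; ring
    rw [this]
    have : 3 * η / (δ * s) ≤ 3 := by
      rw [div_le_iff₀ hs0]; linarith
    linarith
  have h1 : 7 ≤ r1 := by
    have : 9 ≤ (ρ - 2 * η) / (δ * s) := by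
      rw [le_div_iff₀ hs0]
      nlinarith
    linarith
  have h12 : r1 ≤ r2 := by
    have : (ρ - 2 * η) / (δ * s) ≤ (ρ + η) / (δ * s) :=
      div_le_div_of_nonneg_right (by linarith) hs0.le
    linarith
  have hr2u : r2 ≤ ρ / η + 3 := by
    have : (ρ + η) / (δ * s) ≤ (ρ + η) / η :=
      div_le_div_of_nonneg_left (by linarith) hη hs1
    have h3 : (ρ + η) / η = ρ / η + 1 := by field_simp
    linarith
  have hρη : 20 ≤ ρ / η := by
    rw [le_div_iff₀ hη]; linarith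
  have hcard := card_annulus (T.image (cellOf s)) (r1 := r1) (r2 := r2) (by linarith) h12
    (by linarith) (by
      intro q hq
      rw [Finset.mem_image] at hq
      obtain ⟨v, hv, rfl⟩ := hq
      obtain ⟨h4, h5⟩ := hT v hv
      have h6 := abs_cell (mem_cellV_cellOf hsN v)
      set q := cellOf s v with hq
      have h7 : ‖(s : ℂ) * pc q‖ = s * ‖pc q‖ := by
        rw [norm_mul, Complex.norm_natCast]
      have h8 := norm_sub_norm_le (pc v) ((s : ℂ) * pc q)
      have h9 := norm_sub_norm_le ((s : ℂ) * pc q) (pc v)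
      rw [norm_sub_rev] at h9
      rw [h7] at h8 h9
      have h10 : r1 ≤ ‖pc q‖ := by
        rw [hr1, sub_le_iff_le_add, div_le_iff₀ hs0]
        have : δ * ‖pc v‖ ≤ δ * (s * ‖pc q‖ + 2 * s) :=
          mul_le_mul_of_nonneg_left (by linarith) hδ.le
        nlinarith
      have h11 : ‖pc q‖ ≤ r2 := by
        rw [hr2, ← sub_le_iff_le_add, le_div_iff₀ hs0]
        have : δ * (s * ‖pc q‖ - 2 * s) ≤ δ * ‖pc v‖ :=
          mul_le_mul_of_nonneg_left (by linarith) hδ.le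
        nlinarith
      rw [← norm_sq_pc]
      exact ⟨pow_le_pow_left₀ (by linarith) h10 2,
        pow_le_pow_left₀ (norm_nonneg _) h11 2⟩)
  refine hcard.trans ?_
  have h13 : (2 * r2 + 1) * (3 * (r2 - r1) + 1) ≤ (2 * (ρ / η + 3) + 1) * 22 :=
    mul_le_mul (by linarith) (by linarith) (by linarith) (by positivity)
  have h14 : 320 * ρ / η = 320 * (ρ / η) := by ring
  rw [h14]
  linarith

end Crest.Agent.R161.BdDisc228
end
end

-- ▼ part R161/BdFin_228
section

/-!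
# Row 161, block H: boundary regularity (H) (helper228)

`layer_L1`: from `HA c` and `HC c`.
-/

set_option autoImplicit false

noncomputable section

namespace Crest.Agent.R161.BdFin228

open Finset Crest.Agent.R161.Geo729 Crest.Agent.R161.Defs372 Crest.Agent.R161.Hull374
  Crest.Agent.R161.Dual374 Crest.Agent.R161.Ifc372 Crest.Agent.R161.Flip228
  Crest.Agent.R161.BdI228 Crest.Agent.R161.Bd228 Crest.Agent.R161.BdDisc228

theorem Lin_smul (V : Finset P2) (g : P2 → ℝ) (l : ℝ) (ω : Cfg) :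
    Lin V (fun v => l * g v) ω = l * Lin V g ω := by
  unfold Lin
  rw [Finset.mul_sum]
  exact Finset.sum_congr rfl fun v _ => by ring

/-- one scale -/
theorem layer_scale {c : ℝ} (hc : 1 ≤ c) {Ca : ℝ} {sA : ℕ}
    (hA : ∀ s : ℕ, sA ≤ s → ∀ F : Finset P2, Dom F → ∀ b : P2,
      Disjoint (ball b s) F → ∀ (V : Finset P2) (g : P2 → ℝ), V ⊆ ball b (10 * s) →
        (∀ v ∈ V, |g v| ≤ ((10 : ℕ) : ℝ) / (s : ℝ) ^ 2) → E c F (fun ω => Lin V g ω ^ 2) ≤ Ca)
    (hCa : 0 ≤ Ca) {T sC : ℕ} {ε' : ℝ}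
    (hC : ∀ s : ℕ, sC ≤ s → ∀ F : Finset P2, Dom F → ∀ x : P2, (∃ y ∈ ball x s, y ∉ F) →
      Pr c F {ω | ¬ Good (ball x (T * s) : Set P2) (ball x s : Set P2) x ω} ≤ ε')
    {ρ C η δ : ℝ} (hρ : 0 < ρ) (hC0 : 0 < C) (hη : 0 < η) (hηρ : η ≤ ρ / 20) (hδ : 0 < δ)
    (hδη : δ * (sA + sC + 9) ≤ η) {D : Finset P2} (hD : Dom D)
    (hDR : ∀ f ∈ D, δ * ‖pc f‖ < ρ + η) (S : Finset P2) (a : P2 → ℝ)
    (ha : ∀ v ∈ S, |a v| ≤ δ ^ 2 * (C / η)) (ha2 : ∀ v ∈ S, a v ≠ 0 → ρ - 2 * η ≤ δ * ‖pc v‖)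
    (hε' : 0 ≤ ε') :
    E c D (fun ω => |∑ v ∈ S, (ω.1 v : ℝ) * a v|) ≤
      Real.sqrt (320 * ρ * (2 * (6 * T : ℕ) + 1) ^ 2 * (C ^ 2 * Ca) * η) +
      Real.sqrt ((320 * ρ) ^ 2 * (C ^ 2 * Ca) * ε') := by
  classical
  -- the scale
  set s : ℕ := ⌈η / δ⌉₊ with hs
  have hq1 : (sA + sC + 9 : ℝ) ≤ η / δ := by
    rw [le_div_iff₀ hδ]; linarith
  have hs1 : η / δ ≤ s := Nat.le_ceil _
  have hs2 : (s : ℝ) < η / δ + 1 := Nat.ceil_lt_add_one (by positivity)
  have hs3 : (sA + sC + 9 : ℝ) ≤ s := hq1.trans hs1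
  have hs4 : sA + sC + 9 ≤ s := by exact_mod_cast hs3
  have hsA : sA ≤ s := by omega
  have hsC : sC ≤ 6 * s := by omega
  have hs9 : 9 ≤ s := by omega
  have hspos : (0 : ℝ) < s := by
    have : (9 : ℝ) ≤ s := by exact_mod_cast hs9
    linarith
  have hds1 : η ≤ δ * s := by
    rw [div_le_iff₀ hδ] at hs1; linarith
  have hds2 : δ * s ≤ 2 * η := by
    have h1 : (1 : ℝ) ≤ η / δ := by
      have : (0 : ℝ) ≤ sA + sC := by positivity
      linarith
    have h2 : (s : ℝ) ≤ 2 * (η / δ) := by linarith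
    calc δ * s ≤ δ * (2 * (η / δ)) := mul_le_mul_of_nonneg_left h2 hδ.le
      _ = 2 * η := by field_simp
  -- relevant vertices
  set T' := Sr D S a with hT'
  have hlay : ∀ v ∈ T', ρ - 2 * η ≤ δ * ‖pc v‖ ∧ δ * ‖pc v‖ ≤ ρ + η := by
    intro v hv
    rw [hT', mem_Sr] at hv
    exact ⟨ha2 v hv.1 hv.2.2, (hDR v hv.2.1).le⟩
  have hout : ∀ v ∈ T', (∃ b : P2, Disjoint (ball b s) D ∧
      ∀ w ∈ cellV s (cellOf s v), w ∈ ball b (10 * s)) ∧
      (∃ y ∈ ball (xa s (cellOf s v)) (6 * s), y ∉ D) := by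
    intro v hv
    obtain ⟨h1, h2⟩ := hlay v hv
    refine exists_outer (R := (ρ + η) / δ) ?_ ?_ ?_ hs9 ?_
    · intro f hf
      rw [lt_div_iff₀ hδ]
      have := hDR f hf
      linarith
    · by_contra hcon
      push Not at hcon
      nlinarith
    · rw [le_div_iff₀ hδ]; linarith
    · have h3 : (ρ + η) / δ - ‖pc v‖ ≤ 3 * (η / δ) := by
        have h4 : (ρ - 2 * η) / δ ≤ ‖pc v‖ := by
          rw [div_le_iff₀ hδ]; linarith
        have h5 : (ρ + η) / δ - (ρ - 2 * η) / δ = 3 * (η / δ) := by ring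
        linarith
      linarith
  set I := T'.image (cellOf s) with hI
  have hcard : ((I.card : ℕ) : ℝ) ≤ 320 * ρ / η := card_cells hρ hη hηρ hδ hds1 hds2 hlay
  -- second moments of the cells
  set M2 : ℝ := (C * η) ^ 2 * Ca with hM2
  have hM20 : 0 ≤ M2 := by positivity
  have hsecond : ∀ q ∈ I, E c D (fun ω => Lin (cellV s q) (gr D S a) ω ^ 2) ≤ M2 := by
    intro q hq
    rw [hI, Finset.mem_image] at hq
    obtain ⟨v, hv, rfl⟩ := hq
    obtain ⟨⟨b, hb1, hb2⟩, _⟩ := hout v hv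
    have h1 := hA s hsA D hD b hb1 (cellV s (cellOf s v)) (fun w => (C * η)⁻¹ * gr D S a w)
      (fun w hw => hb2 w hw) (by
        intro w _
        unfold gr
        split_ifs with h
        · have h2 := ha w (mem_Sr.1 h).1
          rw [abs_mul, abs_of_nonneg (by positivity : (0 : ℝ) ≤ (C * η)⁻¹)]
          push_cast
          rw [le_div_iff₀ (by positivity)]
          have h3 : (δ * s) ^ 2 ≤ (2 * η) ^ 2 := pow_le_pow_left₀ (by positivity) hds2 2
          calc (C * η)⁻¹ * |a w| * (s : ℝ) ^ 2 ≤ (C * η)⁻¹ * (δ ^ 2 * (C / η)) * (s : ℝ) ^ 2 := by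
                gcongr
            _ = (δ * s) ^ 2 / η ^ 2 := by field_simp
            _ ≤ (2 * η) ^ 2 / η ^ 2 := by gcongr
            _ = 4 := by field_simp; norm_num
            _ ≤ 10 := by norm_num
        · rw [mul_zero, abs_zero]; positivity)
    have h2 : E c D (fun ω => Lin (cellV s (cellOf s v)) (gr D S a) ω ^ 2) =
        (C * η) ^ 2 * E c D (fun ω => Lin (cellV s (cellOf s v))
          (fun w => (C * η)⁻¹ * gr D S a w) ω ^ 2) := by
      rw [← E_smul]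
      congr 1
      funext ω
      rw [Lin_smul]
      field_simp
    rw [h2, hM2]
    exact mul_le_mul_of_nonneg_left h1 (by positivity)
  -- good events
  have hgood : ∀ q ∈ I, Pr c D {ω | ¬ Good (ball (xa s q) (T * (6 * s)) : Set P2)
      (ball (xa s q) (6 * s) : Set P2) (xa s q) ω} ≤ ε' := by
    intro q hq
    rw [hI, Finset.mem_image] at hq
    obtain ⟨v, hv, rfl⟩ := hq
    exact hC (6 * s) hsC D hD _ (hout v hv).2
  have hmain := cells_L1 hc D (s := s) (m := 6 * s) (M := T * (6 * s)) (Q := 6 * T) (by omega)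
    (by omega) (le_of_eq (by ring)) I (gr D S a) M2 ε' hM20 hsecond hgood
  have heq : E c D (fun ω => |∑ v ∈ S, (ω.1 v : ℝ) * a v|) =
      E c D (fun ω => |∑ q ∈ I, Lin (cellV s q) (gr D S a) ω|) :=
    E_congr fun ω hω => by rw [sum_cells (by omega : 1 ≤ s) a hω]
  rw [heq]
  refine hmain.trans (add_le_add ?_ ?_)
  · apply Real.sqrt_le_sqrt
    calc (I.card : ℝ) * (2 * ((6 * T : ℕ) : ℝ) + 1) ^ 2 * M2
        ≤ (320 * ρ / η) * (2 * ((6 * T : ℕ) : ℝ) + 1) ^ 2 * M2 := by gcongr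
      _ = 320 * ρ * (2 * ((6 * T : ℕ) : ℝ) + 1) ^ 2 * (C ^ 2 * Ca) * η := by
        rw [hM2]; field_simp
  · have h1 : (I.card : ℝ) * Real.sqrt (M2 * ε') ≤ (320 * ρ / η) * Real.sqrt (M2 * ε') := by
      gcongr
    refine h1.trans (le_of_eq ?_)
    rw [← Real.sqrt_sq (by positivity : (0 : ℝ) ≤ 320 * ρ / η), ← Real.sqrt_mul (by positivity)]
    congr 1
    rw [hM2]
    field_simp

/-- **(H) boundary regularity in `L¹`.** -/
theorem layer_L1 {c : ℝ} (hc : 1 ≤ c) (hA : HA c) (hC : HC c) {ρ C ε : ℝ} (hρ : 0 < ρ)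
    (hC0 : 0 < C) (hε : 0 < ε) :
    ∃ η0 : ℝ, 0 < η0 ∧ ∀ η : ℝ, 0 < η → η < η0 → ∃ δ0 : ℝ, 0 < δ0 ∧ ∀ δ : ℝ, 0 < δ → δ < δ0 →
      ∀ D : Finset P2, Dom D → (∀ f ∈ D, δ * ‖pc f‖ < ρ + η) → ∀ (S : Finset P2) (a : P2 → ℝ),
        (∀ v ∈ S, |a v| ≤ δ ^ 2 * (C / η)) →
        (∀ v ∈ S, a v ≠ 0 → ρ - 2 * η ≤ δ * ‖pc v‖) →
        E c D (fun ω => |∑ v ∈ S, (ω.1 v : ℝ) * a v|) ≤ ε := by
  obtain ⟨Ca, sA, hA'⟩ := hA 10
  have hA'' : ∀ s : ℕ, sA ≤ s → ∀ F : Finset P2, Dom F → ∀ b : P2,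
      Disjoint (ball b s) F → ∀ (V : Finset P2) (g : P2 → ℝ), V ⊆ ball b (10 * s) →
        (∀ v ∈ V, |g v| ≤ ((10 : ℕ) : ℝ) / (s : ℝ) ^ 2) →
          E c F (fun ω => Lin V g ω ^ 2) ≤ max Ca 0 :=
    fun s hs F hF b hb V g hV hg => (hA' s hs F hF b hb V g hV hg).trans (le_max_left _ _)
  set B : ℝ := C ^ 2 * max Ca 0 with hB
  have hB0 : 0 ≤ B := by positivity
  set ε' : ℝ := (ε / 2) ^ 2 / ((320 * ρ) ^ 2 * B + 1) with hε'
  have hε'0 : 0 < ε' := by positivity
  obtain ⟨T, sC, hC'⟩ := hC ε' hε'0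
  set A2 : ℝ := 320 * ρ * (2 * (6 * T : ℕ) + 1) ^ 2 * B with hA2
  have hA20 : 0 ≤ A2 := by positivity
  refine ⟨min (ρ / 20) ((ε / 2) ^ 2 / (A2 + 1)), by positivity, fun η hη hη0 => ?_⟩
  have hη1 : η ≤ ρ / 20 := (hη0.trans_le (min_le_left _ _)).le
  have hη2 : η ≤ (ε / 2) ^ 2 / (A2 + 1) := (hη0.trans_le (min_le_right _ _)).le
  refine ⟨η / (sA + sC + 9), by positivity, fun δ hδ hδ0 D hD hDR S a ha ha2 => ?_⟩
  have hδη : δ * (sA + sC + 9) ≤ η := by
    rw [lt_div_iff₀ (by positivity)] at hδ0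
    exact hδ0.le
  refine (layer_scale hc hA'' (le_max_right _ _) hC' hρ hC0 hη hη1 hδ hδη hD hDR S a ha ha2
    hε'0.le).trans ?_
  have h1 : Real.sqrt (320 * ρ * (2 * (6 * T : ℕ) + 1) ^ 2 * B * η) ≤ ε / 2 := by
    apply Real.sqrt_le_iff.2 ⟨by positivity, ?_⟩
    rw [← hA2]
    rw [le_div_iff₀ (by positivity)] at hη2
    nlinarith
  have h2 : Real.sqrt ((320 * ρ) ^ 2 * B * ε') ≤ ε / 2 := by
    apply Real.sqrt_le_iff.2 ⟨by positivity, ?_⟩
    have h3 : ε' * ((320 * ρ) ^ 2 * B + 1) = (ε / 2) ^ 2 := by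
      rw [hε']; field_simp
    nlinarith
  rw [← hB]
  linarith

end Crest.Agent.R161.BdFin228
end
end

-- ▼ part R161/BdCor_228
section

/-!
# Row 161, block H: boundary regularity in the notation of the assembly (helper228)

`bdReg`: `E_D |X_e| ≤ ε` for `|e| ≤ C/η` living outside the disc of radius `ρ - 2η` and every
`Dom D ⊆ disc δ (ρ + η)`, all small mesh `δ`.
-/

set_option autoImplicit false

noncomputable section

namespace Crest.Agent.R161.BdCor228

open Finset Filter Topology Crest.Agent.R161.Geo729 Crest.Agent.R161.Defs372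
  Crest.Agent.R161.BdI228 Crest.Agent.R161.BdDisc228 Crest.Agent.R161.BdFin228
open Crest.ProbabilityR.AshkinTeller

theorem norm_pos_eq (δ : ℝ) (v : P2) : ‖pos δ v‖ = |δ| * ‖pc v‖ := by
  have h : pos δ v = (δ : ℂ) * pc v := by
    apply Complex.ext <;> simp [pos, pc]
  rw [h, norm_mul, Complex.norm_real, Real.norm_eq_abs]

theorem pc_lt_of_disc {δ r : ℝ} (hδ : 0 < δ) (hr : 0 < r) {f : P2}
    (hf : f ∈ Asm695.disc δ r) : δ * ‖pc f‖ < r := by
  unfold Asm695.disc at hf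
  rw [if_pos hr] at hf
  have h := Geo132.norm_of_face (div_pos hδ hr) hf
  rw [norm_pos_eq, abs_of_pos (div_pos hδ hr), div_mul_eq_mul_div, div_lt_one hr] at h
  exact h

/-- **(H)** in the notation of `Asm_695`. -/
theorem bdReg {c : ℝ} (hc : 1 ≤ c) (hA : HA c) (hC : HC c) {ρ C ε : ℝ} (hρ : 0 < ρ)
    (hC0 : 0 < C) (hε : 0 < ε) :
    ∃ η0 : ℝ, 0 < η0 ∧ ∀ η : ℝ, 0 < η → η < η0 → ∀ᶠ δ : ℝ in 𝓝[>] 0,
      ∀ D : Finset P2, Dom D → D ⊆ Asm695.disc δ (ρ + η) → ∀ (S : Finset P2) (e : ℂ → ℝ),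
        (∀ z, |e z| ≤ C / η) → (∀ z, e z ≠ 0 → ρ - 2 * η ≤ ‖z‖) →
        E c D (fun u => |Asm695.X δ S e u|) ≤ ε := by
  obtain ⟨η0, hη0, h⟩ := layer_L1 hc hA hC hρ hC0 hε
  refine ⟨η0, hη0, fun η hη hη1 => ?_⟩
  obtain ⟨δ0, hδ0, h⟩ := h η hη hη1
  have hev : ∀ᶠ δ : ℝ in 𝓝[>] 0, δ < δ0 :=
    nhdsWithin_le_nhds (Iio_mem_nhds hδ0)
  filter_upwards [hev, self_mem_nhdsWithin] with δ h1 h2 D hD hDd S e he1 he2
  have hδ : 0 < δ := h2
  refine h δ hδ h1 D hD (fun f hf => pc_lt_of_disc hδ (by linarith) (hDd hf)) S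
    (fun v => δ ^ 2 * e (pos δ v)) ?_ ?_
  · intro v _
    rw [abs_mul, abs_of_nonneg (sq_nonneg δ)]
    exact mul_le_mul_of_nonneg_left (he1 _) (sq_nonneg δ)
  · intro v _ hv
    have h3 : e (pos δ v) ≠ 0 := fun h0 => hv (by simp only [h0, mul_zero])
    have h4 := he2 _ h3
    rwa [norm_pos_eq, abs_of_pos hδ] at h4

end Crest.Agent.R161.BdCor228
end
end

-- ▼ part R161/HBd_228
section

/-!
# Row 161, block H: the literal input `HBd c` of the assembly (helper228)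

* `hBd` : `HA c → HC c → HBd c`
* `hBd_lemU` : `HA c → LemU c → HBd c`
-/

set_option autoImplicit false

noncomputable section

namespace Crest.Agent.R161.HBd228

open Finset Filter Topology Crest.Agent.R161.Geo729 Crest.Agent.R161.Defs372
  Crest.Agent.R161.BdI228 Crest.Agent.R161.BdCor228 Crest.Agent.R161.Ifc372

theorem hBd {c : ℝ} (hc : 1 ≤ c) (hA : HA c) (hC : HC c) : Asm695.HBd c := by
  intro ρ hρ C ε hC0 hε
  obtain ⟨η0, hη0, h⟩ := bdReg hc hA hC hρ hC0 hε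
  refine ⟨η0, hη0, fun η hη hη1 => ?_⟩
  have hev : ∀ᶠ δ : ℝ in 𝓝[>] (0 : ℝ), 0 < δ := self_mem_nhdsWithin
  filter_upwards [h η hη hη1, hev] with δ h1 hδ D hD _ hDd g hg1 hg2
  exact h1 D hD (hDd.trans (Asm695.disc_mono hδ (by linarith))) D g hg1
    fun z hz => (hg2 z hz).1

theorem hBd_lemU {c : ℝ} (hc : 1 ≤ c) (hA : HA c) (hU : LemU c) : Asm695.HBd c :=
  hBd hc hA (Arc389.hc_of_lemU hc hU)

end Crest.Agent.R161.HBd228
end
end

-- ▼ part R161/NuFKG_991
section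

/-!
# Row 161, leaf L1 (helper991): plus-cut percolation, finite volume → `nu P`, and FKG

* `tendsto_nu` : `Pr c F {plusMap ∈ A} → (nu P).real A` along domains for local `A`
* `fkgLoc_nu` : `FKGLoc (nu P)` from the finite-volume association of increasing local events
-/

set_option autoImplicit false

noncomputable section

namespace Crest.Agent.R161.Mod991

open Finset hiding box
open MeasureTheory Filter Topology
open Crest.Agent.R161.Geo729 Crest.Agent.R161.Defs372 Crest.Agent.R161.Ifc372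
open Crest.Agent.R161.Ring421

/-- event of the plus-cut percolation -/
def PEv (A : Set (Edge → Bool)) : Set Cfg := {ω | plusMap ω ∈ A}

open Classical in
/-- indicator of an event of the plus-cut percolation -/
def indE (A : Set (Edge → Bool)) (ω : Cfg) : ℝ := if ω ∈ PEv A then 1 else 0

theorem Pr_eq_indE (c : ℝ) (F : Finset P2) (A : Set (Edge → Bool)) :
    Pr c F (PEv A) = E c F (indE A) := rfl

theorem plusMap_congr {ω ω' : Cfg} {e : Edge} (h1 : ω.1 e.1 = ω'.1 e.1)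
    (h2 : ω.2.2 e = ω'.2.2 e) : plusMap ω e = plusMap ω' e := by
  unfold plusMap plusE
  have : src e = e.1 := rfl
  rw [this, h1, h2]

theorem loc_indE {S : Finset Edge} {A : Set (Edge → Bool)} (hA : LocOn S A) :
    Loc ((S.image Prod.fst : Finset P2) : Set P2) (indE A) := by
  intro ω ω' h
  have key : plusMap ω ∈ A ↔ plusMap ω' ∈ A := by
    refine hA _ _ fun e he => ?_
    have h1 : e.1 ∈ ((S.image Prod.fst : Finset P2) : Set P2) := by
      exact_mod_cast Finset.mem_image_of_mem _ he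
    obtain ⟨a, _, b⟩ := h e.1 h1
    exact plusMap_congr a (b e.2)
  unfold indE PEv
  by_cases h1 : plusMap ω ∈ A
  · exact (if_pos h1).trans (if_pos (key.1 h1)).symm
  · exact (if_neg h1).trans (if_neg fun h2 => h1 (key.2 h2)).symm

theorem indE_addH_four (A : Set (Edge → Bool)) (ω : Cfg) : indE A (addH 4 ω) = indE A ω := by
  have h := NuInv421.plusMap_addH_four 1 ω
  have key : plusMap (addH 4 ω) ∈ A ↔ plusMap ω ∈ A := by
    rw [← h]
    norm_num
  unfold indE PEv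
  by_cases h1 : plusMap ω ∈ A
  · exact (if_pos (key.2 h1)).trans (if_pos h1).symm
  · exact (if_neg fun h2 => h1 (key.1 h2)).trans (if_neg h1).symm

theorem integral_indE {P : Measure Cfg} {A : Set (Edge → Bool)} (hA : MeasurableSet A) :
    ∫ ω, indE A ω ∂(Psym P) = (nu P).real A := by
  classical
  have h1 : (indE A) = Set.indicator (plusMap ⁻¹' A) (fun _ => (1 : ℝ)) := by
    funext ω
    unfold indE PEv
    by_cases h : plusMap ω ∈ A
    · rw [Set.indicator_of_mem (show ω ∈ plusMap ⁻¹' A from h)]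
      exact if_pos h
    · rw [Set.indicator_of_notMem (show ω ∉ plusMap ⁻¹' A from h)]
      exact if_neg h
  rw [h1, integral_indicator (NuInv421.measurable_plusMap hA)]
  simp only [integral_const, smul_eq_mul, mul_one]
  unfold nu Measure.real
  rw [Measure.restrict_apply_univ, Measure.map_apply NuInv421.measurable_plusMap hA]

/-- **Finite volume → infinite volume** for the plus-cut percolation. -/
theorem tendsto_nu {c : ℝ} (hc : 1 ≤ c) {P : Measure Cfg} (hP : IsState c P) (hdel : Deloc c)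
    {A : Set (Edge → Bool)} (hA : LocEv A) {ε : ℝ} (hε : 0 < ε) :
    ∃ n : ℕ, ∀ F : Finset P2, Dom F → box n ⊆ F → |Pr c F (PEv A) - (nu P).real A| < ε := by
  obtain ⟨S, hS⟩ := hA
  obtain ⟨n, hn⟩ := tendsto_psym hc hP hdel (loc_indE hS) (indE_addH_four A) hε
  refine ⟨n, fun F hF hbox => ?_⟩
  have h := hn F hF hbox
  rw [integral_indE hS.measurableSet] at h
  rw [Pr_eq_indE]
  exact h

/-- association of increasing local plus-cut events in finite domains (from 729's `A1`) -/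
def AssocFin (c : ℝ) : Prop :=
  ∀ F : Finset P2, Dom F → ∀ A B : Set (Edge → Bool), LocEv A → LocEv B → IncEv A → IncEv B →
    Pr c F (PEv A) * Pr c F (PEv B) ≤ Pr c F (PEv (A ∩ B))

theorem LocEv.inter' {A B : Set (Edge → Bool)} (hA : LocEv A) (hB : LocEv B) :
    LocEv (A ∩ B) := by
  classical
  obtain ⟨S, hS⟩ := hA
  obtain ⟨T, hT⟩ := hB
  refine ⟨S ∪ T, fun z z' h => ?_⟩
  have h1 := hS z z' fun e he => h e (Finset.mem_union_left _ he)
  have h2 := hT z z' fun e he => h e (Finset.mem_union_right _ he)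
  simp only [Set.mem_inter_iff, h1, h2]

/-- **FKG for the plus-cut percolation** of the symmetrised plane state. -/
theorem fkgLoc_nu {c : ℝ} (hc : 1 ≤ c) {P : Measure Cfg} (hP : IsState c P) (hdel : Deloc c)
    (hass : AssocFin c) : FKGLoc (nu P) := by
  intro A B hA hB hA' hB'
  have hprob := hP.prob
  have hnu : IsProbabilityMeasure (nu P) := NuInv421.nu_prob
  have key : (nu P).real A * (nu P).real B ≤ (nu P).real (A ∩ B) := by
    refine le_of_forall_pos_le_add fun η hη => ?_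
    obtain ⟨n1, h1⟩ := tendsto_nu hc hP hdel hA (ε := η / 3) (by linarith)
    obtain ⟨n2, h2⟩ := tendsto_nu hc hP hdel hB (ε := η / 3) (by linarith)
    obtain ⟨n3, h3⟩ := tendsto_nu hc hP hdel (LocEv.inter' hA hB) (ε := η / 3) (by linarith)
    set F : Finset P2 := box (max n1 (max n2 n3)) with hF
    have hD : Dom F := Aut373.dom_box _
    have hbm : ∀ a b : ℕ, a ≤ b → box a ⊆ box b := by
      intro a b hab v hv
      rw [mem_box] at hv ⊢
      omega
    have k1 := h1 F hD (hbm _ _ (by omega))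
    have k2 := h2 F hD (hbm _ _ (by omega))
    have k3 := h3 F hD (hbm _ _ (by omega))
    have k4 := hass F hD A B hA hB hA' hB'
    rw [abs_lt] at k1 k2 k3
    have hA0 : 0 ≤ (nu P).real A := measureReal_nonneg
    have hB0 : 0 ≤ (nu P).real B := measureReal_nonneg
    have hA1 : (nu P).real A ≤ 1 := measureReal_le_one
    have hB1 : (nu P).real B ≤ 1 := measureReal_le_one
    have pA : 0 ≤ Pr c F (PEv A) := E_nonneg hc fun ω _ => by split_ifs <;> norm_num
    have pA1 : Pr c F (PEv A) ≤ 1 := by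
      rw [← E_const hc F 1]
      exact E_mono hc fun ω _ => by split_ifs <;> norm_num
    have e1 : (nu P).real B * ((nu P).real A - Pr c F (PEv A)) ≤ 1 * (η / 3) := by
      refine (mul_le_mul_of_nonneg_left (by linarith [k1.1] : _ ≤ η / 3) hB0).trans ?_
      exact mul_le_mul_of_nonneg_right hB1 (by linarith)
    have e2 : Pr c F (PEv A) * ((nu P).real B - Pr c F (PEv B)) ≤ 1 * (η / 3) := by
      refine (mul_le_mul_of_nonneg_left (by linarith [k2.1] : _ ≤ η / 3) pA).trans ?_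
      exact mul_le_mul_of_nonneg_right pA1 (by linarith)
    have e3 : (nu P).real A * (nu P).real B =
        (nu P).real B * ((nu P).real A - Pr c F (PEv A)) +
          Pr c F (PEv A) * ((nu P).real B - Pr c F (PEv B)) +
          Pr c F (PEv A) * Pr c F (PEv B) := by ring
    rw [e3]
    linarith [k3.2]
  have e : ∀ C : Set (Edge → Bool), nu P C = ENNReal.ofReal ((nu P).real C) := fun C => by
    rw [Measure.real, ENNReal.ofReal_toReal (measure_ne_top _ _)]
  rw [e A, e B, e (A ∩ B), ← ENNReal.ofReal_mul measureReal_nonneg]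
  exact ENNReal.ofReal_le_ofReal key

end Crest.Agent.R161.Mod991
end
end

-- ▼ part R161/Csq4_472

/-!
# Row 161, leaf L3 (helper472), part 4: literal input of the Tassion theorem

* `zlaw_map_aut`, `zInv_of_isState` : invariance of the law of the cut variables, from `IsState`;
* `sq_crossing` : `∃ c0 > 0, ∀ n ≥ 1, c0 ≤ (nu P).real {z | LRc z 0 n 0 n}` (the hypothesis `sq` of
  `tassion`, helper682), from `IsState c P`, `CondIndep c P`, `SwapInv P`, `1 ≤ c ≤ 2`.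
-/

set_option autoImplicit false

noncomputable section

namespace Crest.Agent.R161.Csq472

open MeasureTheory Finset
open Crest.Agent.R161.Geo729 Crest.Agent.R161.Defs372 Crest.Agent.R161.Dual374
open Crest.Agent.R161.Hull374 Crest.Agent.R161.Ifc372 Crest.Agent.R161.Aut373
open Crest.Agent.R161.NuInv421 Crest.Agent.R161.Ring421

variable {c : ℝ} {P : Measure Cfg}

open Classical in
theorem zlaw_aut_loc (hP : IsState c P) (σ : Aut) {A : Set (Edge → Bool)} (hA : LocEv A) :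
    (P.map fun ω : Cfg => zact σ ω.2.2).real A = (P.map fun ω : Cfg => ω.2.2).real A := by
  have := hP.prob
  have hmA := hA.measurableSet
  obtain ⟨S, hS⟩ := hA
  set f : Cfg → ℝ := fun ω => if ω.2.2 ∈ A then 1 else 0 with hf
  have hloc : Loc ((S.image Prod.fst : Finset P2) : Set P2) f := by
    intro ω ω' h
    have h1 : ω.2.2 ∈ A ↔ ω'.2.2 ∈ A := by
      refine hS _ _ fun e he => ?_
      exact (h e.1 (Finset.mem_coe.2 (Finset.mem_image_of_mem _ he))).2.2 e.2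
    simp only [hf, h1]
  have hn : Neut f := fun ω _ a _ => rfl
  have h1 := integral_aut hP σ hloc hn
  have hmz : Measurable (fun ω : Cfg => zact σ ω.2.2) := (measurable_zact σ).comp measurable_zc
  have e1 : (P.map fun ω : Cfg => zact σ ω.2.2).real A = ∫ ω, f (σ.cfg ω) ∂P := by
    unfold Measure.real
    rw [Measure.map_apply hmz hmA]
    have : (fun ω : Cfg => f (σ.cfg ω)) =
        ((fun ω : Cfg => zact σ ω.2.2) ⁻¹' A).indicator (fun _ => (1 : ℝ)) := by
      funext ω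
      simp only [hf, Set.indicator, Set.mem_preimage]
      rfl
    rw [this, integral_indicator (hmz hmA)]
    simp [Measure.real]
  have e2 : (P.map fun ω : Cfg => ω.2.2).real A = ∫ ω, f ω ∂P := by
    unfold Measure.real
    rw [Measure.map_apply measurable_zc hmA]
    have : f = ((fun ω : Cfg => ω.2.2) ⁻¹' A).indicator (fun _ => (1 : ℝ)) := by
      funext ω
      simp only [hf, Set.indicator, Set.mem_preimage]
    rw [this, integral_indicator (measurable_zc hmA)]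
    simp [Measure.real]
  rw [e1, e2, h1]

/-- Invariance of the law of the cut variables under lattice automorphisms. -/
theorem zlaw_map_aut (hP : IsState c P) (σ : Aut) :
    (P.map fun ω : Cfg => zact σ ω.2.2) = P.map fun ω : Cfg => ω.2.2 := by
  have := hP.prob
  have i1 : IsProbabilityMeasure (P.map fun ω : Cfg => zact σ ω.2.2) :=
    Measure.isProbabilityMeasure_map ((measurable_zact σ).comp measurable_zc).aemeasurable
  have i2 : IsProbabilityMeasure (P.map fun ω : Cfg => ω.2.2) :=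
    Measure.isProbabilityMeasure_map measurable_zc.aemeasurable
  exact ext_of_loc fun A hA => zlaw_aut_loc hP σ hA

/-- The state has the invariances required by `cross_half`. -/
theorem zInv_of_isState (hP : IsState c P) : ZInv P where
  tr := by
    have h := zlaw_map_aut hP (Aut.ofRefl (Sym597.Refl.diag 0))
    have e : (fun ω : Cfg => zact (Aut.ofRefl (Sym597.Refl.diag 0)) ω.2.2) =
        fun ω : Cfg => fun e => ω.2.2 (Csq472.tr e) := by
      funext ω e
      obtain ⟨⟨a, b⟩, s⟩ := e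
      cases s <;> simp [zact, Aut.ofRefl, Sym597.Refl.diag, Csq472.tr]
    rw [e] at h
    exact h
  trans := fun t => zlaw_map_aut hP (Aut.tr t)

/-- `RE`-crossings are crossings inside the rectangle (vertex form). -/
theorem LRc.toTas {x0 x1 y0 y1 : ℤ} {z : Edge → Bool} (hx : x0 ≤ x1)
    (h : LRc x0 x1 y0 y1 fun e => z e = true) : Tas682.LRc z x0 x1 y0 y1 := by
  obtain ⟨a, b, h1, h2, h3, h4, h5⟩ := h
  refine ⟨a, b, h1, h4, ⟨?_, ?_, h2, h3⟩, ?_⟩
  · omega
  · omega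
  · refine Relation.ReflTransGen.mono ?_ _ _ h5
    rintro u v ⟨e, ⟨he1, he2⟩, h⟩
    refine ⟨⟨e, he1, h⟩, ?_⟩
    obtain ⟨⟨p, q⟩, s⟩ := e
    rcases h with ⟨k1, k2⟩ | ⟨k1, k2⟩ <;> subst k1 k2 <;>
      rcases he2 with ⟨k1, k2, k3, k4, k5⟩ | ⟨k1, k2, k3, k4, k5⟩ <;>
      simp only at k1 k2 k3 k4 k5 <;> subst k1 <;>
      simp only [src_mk, tgt_h, tgt_v, Tas682.Rect, Set.mem_ofPred_eq] <;> omega

/-- **Square crossings, literal hypothesis `sq` of `tassion`.** -/
theorem sq_crossing (hc : 1 ≤ c) (hc2 : c ≤ 2) (hP : IsState c P) (hCI : CondIndep c P)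
    (hSw : SwapInv P) :
    ∃ c0 > (0 : ℝ), ∀ n : ℕ, 1 ≤ n → c0 ≤ (nu P).real {z | Tas682.LRc z 0 n 0 n} := by
  have := hP.prob
  refine ⟨1 / 4, by norm_num, fun n hn => ?_⟩
  have h := nu_cross_quarter hc hc2 hP.valid hCI hSw (zInv_of_isState hP) 0 0 n hn
  refine h.trans ?_
  refine ENNReal.toReal_mono (measure_ne_top _ _) (measure_mono ?_)
  intro z hz
  have h1 := LRc.toTas (by omega) hz
  obtain ⟨u, v, hu, hv, hoc⟩ := h1
  refine ⟨u, v, hu, by rw [hv]; ring, hoc.monoS ?_⟩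
  rintro ⟨p, q⟩ ⟨k1, k2, k3, k4⟩
  simp only at k1 k2 k3 k4
  simp only [Tas682.Rect, Set.mem_ofPred_eq]
  omega

end Crest.Agent.R161.Csq472
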