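import Mathlib.Analysis.SpecificLimits.Normed
import Mathlib.Topology.Algebra.InfiniteSum.NatInt
import Mathlib.Topology.Algebra.InfiniteSum.Real
import Mathlib.Tactic

/-!
# Row 161: symmetric log-concave laws on ℤ (helper760)

* `SLC p` : nonnegative, symmetric, `p (a-1) * p (b+1) ≤ p a * p b` for `a ≤ b`, sum `1`
* `SLC.second_moment` : `∑ k² p k ≤ 648 / p(0)²`
* `SLC.alternating` : `|∑ (-1)^k p k| ≤ p 0`
* `SLC.window` : `∑_{|k| ≤ L} p k ≤ (2L+1) p 0`
-/

set_option autoImplicit false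

noncomputable section

open Filter Topology

namespace Crest.Agent.R161.LC760

/-- symmetric log-concave probability on `ℤ` -/
structure SLC (p : ℤ → ℝ) : Prop where
  nonneg : ∀ k, 0 ≤ p k
  symm : ∀ k, p (-k) = p k
  lc : ∀ a b : ℤ, a ≤ b → p (a - 1) * p (b + 1) ≤ p a * p b
  sum : HasSum p 1

namespace SLC

variable {p : ℤ → ℝ}

lemma step (h : SLC p) {k : ℤ} (hk : 0 ≤ k) : p (k + 1) ≤ p k := by
  have h1 := h.lc (-k) k (by linarith)
  have h2 : p (-k - 1) = p (k + 1) := by rw [← h.symm (k + 1)]; congr 1; ring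
  rw [h2, h.symm k] at h1
  by_contra h3
  push Not at h3
  have := h.nonneg k
  nlinarith

lemma anti_nat (h : SLC p) : Antitone fun n : ℕ => p n := by
  refine antitone_nat_of_succ_le fun n => ?_
  have := h.step (k := (n : ℤ)) (by positivity)
  simpa using this

lemma le_zero (h : SLC p) (k : ℤ) : p k ≤ p 0 := by
  have h1 : ∀ n : ℕ, p n ≤ p 0 := fun n => by
    have := h.anti_nat (Nat.zero_le n)
    simpa using this
  rcases le_total 0 k with hk | hk
  · obtain ⟨n, rfl⟩ := Int.eq_ofNat_of_zero_le hk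
    exact h1 n
  · obtain ⟨n, hn⟩ := Int.eq_ofNat_of_zero_le (show 0 ≤ -k by linarith)
    rw [← h.symm k, hn]
    exact h1 n

lemma sum_nat_le (h : SLC p) (s : Finset ℤ) : ∑ k ∈ s, p k ≤ 1 := by
  rw [← h.sum.tsum_eq]
  exact h.sum.summable.sum_le_tsum s fun k _ => h.nonneg k

lemma sum_range_le (h : SLC p) (n : ℕ) : ∑ k ∈ Finset.range n, p k ≤ 1 := by
  have h1 := h.sum_nat_le ((Finset.range n).map Nat.castEmbedding)
  simpa [Finset.sum_map] using h1

/-- submultiplicativity -/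
lemma submul (h : SLC p) (i j : ℕ) : p 0 * p ((i + j : ℕ) : ℤ) ≤ p i * p j := by
  have key : ∀ i j : ℕ, i ≤ j → p 0 * p ((i + j : ℕ) : ℤ) ≤ p i * p j := by
    intro i
    induction i with
    | zero => intro j _; simp
    | succ i ih =>
      intro j hj
      have h1 := ih (j + 1) (by omega)
      have h2 := h.lc ((i : ℤ) + 1) j (by exact_mod_cast hj)
      have e1 : ((i + 1 + j : ℕ) : ℤ) = ((i + (j + 1) : ℕ) : ℤ) := by push_cast; ring
      have e2 : (i : ℤ) + 1 - 1 = i := by ring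
      rw [e1]
      rw [e2] at h2
      push_cast at h1 h2 ⊢
      exact h1.trans h2
  rcases le_total i j with hij | hij
  · exact key i j hij
  · have := key j i hij
    rw [add_comm j i] at this
    linarith

lemma zero_pos (h : SLC p) : 0 < p 0 := by
  by_contra h0
  push Not at h0
  have h1 : ∀ k, p k = 0 := fun k => le_antisymm ((h.le_zero k).trans h0) (h.nonneg k)
  have h2 : HasSum p 0 := by
    have : p = fun _ => 0 := funext h1
    rw [this]; exact hasSum_zero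
  have := h.sum.unique h2
  norm_num at this

lemma zero_le_one (h : SLC p) : p 0 ≤ 1 := by
  have := h.sum_nat_le {0}
  simpa using this

/-- the half-life -/
lemma half (h : SLC p) {K : ℕ} (hK : 2 / p 0 ≤ K) : p K ≤ p 0 / 2 := by
  by_contra h1
  push Not at h1
  have hm := h.zero_pos
  have h2 : ∀ k ∈ Finset.range (K + 1), p 0 / 2 ≤ p k := fun k hk => by
    have := h.anti_nat (show k ≤ K by have := Finset.mem_range.1 hk; omega)
    simp only at this
    linarith
  have h3 := Finset.card_nsmul_le_sum _ _ _ h2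
  have h4 := h.sum_range_le (K + 1)
  rw [Finset.card_range, nsmul_eq_mul] at h3
  have h5 : 2 ≤ K * p 0 := by rwa [div_le_iff₀ hm] at hK
  push_cast at h3
  nlinarith

lemma geom (h : SLC p) {K : ℕ} (hK : 2 / p 0 ≤ K) (n : ℕ) :
    p ((n * K : ℕ) : ℤ) ≤ p 0 / 2 ^ n := by
  have hm := h.zero_pos
  induction n with
  | zero => simp
  | succ n ih =>
    have h1 := h.submul (n * K) K
    have h2 := h.half hK
    have e : ((n + 1) * K : ℕ) = n * K + K := by ring
    rw [e]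
    have h3 : p ((n * K : ℕ) : ℤ) * p (K : ℤ) ≤ (p 0 / 2 ^ n) * (p 0 / 2) :=
      mul_le_mul ih h2 (h.nonneg _) (by positivity)
    have h4 : p 0 * p ((n * K + K : ℕ) : ℤ) ≤ p 0 * (p 0 / 2 ^ (n + 1)) := by
      refine (h1.trans h3).trans (le_of_eq ?_)
      rw [pow_succ]; field_simp
    exact le_of_mul_le_mul_left h4 hm

lemma sq_sum (N : ℕ) : ∑ n ∈ Finset.range N, ((n : ℝ) + 1) ^ 2 / 2 ^ n =
    12 - (2 * (N : ℝ) ^ 2 + 8 * N + 12) / 2 ^ N := by
  induction N with
  | zero => simp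
  | succ N ih =>
    rw [Finset.sum_range_succ, ih]
    push_cast
    rw [pow_succ]
    field_simp
    ring

lemma block_sum (h : SLC p) {K : ℕ} (hK : 2 / p 0 ≤ K) (N : ℕ) :
    ∑ k ∈ Finset.range (N * K), (k : ℝ) ^ 2 * p k ≤
      p 0 * (K : ℝ) ^ 3 * ∑ n ∈ Finset.range N, ((n : ℝ) + 1) ^ 2 / 2 ^ n := by
  have hm := h.zero_pos
  induction N with
  | zero => simp
  | succ N ih =>
    have e : (N + 1) * K = N * K + K := by ring
    rw [e, Finset.sum_range_add, Finset.sum_range_succ, mul_add]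
    refine add_le_add ih ?_
    have h1 : ∀ r ∈ Finset.range K, (((N * K + r : ℕ) : ℝ)) ^ 2 * p ((N * K + r : ℕ) : ℤ) ≤
        (((N : ℝ) + 1) * K) ^ 2 * (p 0 / 2 ^ N) := by
      intro r hr
      have hr' := Finset.mem_range.1 hr
      have h2 : p ((N * K + r : ℕ) : ℤ) ≤ p 0 / 2 ^ N :=
        (h.anti_nat (show N * K ≤ N * K + r by omega)).trans (h.geom hK N)
      have h3 : (((N * K + r : ℕ) : ℝ)) ≤ ((N : ℝ) + 1) * K := by
        have : N * K + r ≤ (N + 1) * K := by nlinarith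
        exact_mod_cast this
      exact mul_le_mul (pow_le_pow_left₀ (by positivity) h3 2) h2 (h.nonneg _) (by positivity)
    refine (Finset.sum_le_sum h1).trans (le_of_eq ?_)
    rw [Finset.sum_const, Finset.card_range, nsmul_eq_mul]
    ring

lemma nat_sum (h : SLC p) (n : ℕ) :
    ∑ k ∈ Finset.range n, (k : ℝ) ^ 2 * p k ≤ 324 / p 0 ^ 2 := by
  have hm := h.zero_pos
  have hm1 := h.zero_le_one
  obtain ⟨K, hK1, hK2⟩ : ∃ K : ℕ, 2 / p 0 ≤ K ∧ (K : ℝ) ≤ 3 / p 0 := by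
    refine ⟨⌈2 / p 0⌉₊, Nat.le_ceil _, ?_⟩
    have h1 := (Nat.ceil_lt_add_one (show 0 ≤ 2 / p 0 by positivity)).le
    have h2 : (1 : ℝ) ≤ 1 / p 0 := by rw [le_div_iff₀ hm]; linarith
    have h3 : 2 / p 0 + 1 / p 0 = 3 / p 0 := by ring
    linarith
  have hKpos : 0 < K := by
    have : 0 < 2 / p 0 := by positivity
    have : (0 : ℝ) < K := by linarith
    exact_mod_cast this
  have h1 : ∑ k ∈ Finset.range n, (k : ℝ) ^ 2 * p k ≤
      ∑ k ∈ Finset.range (n * K), (k : ℝ) ^ 2 * p k := by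
    refine Finset.sum_le_sum_of_subset_of_nonneg (Finset.range_mono ?_) fun k _ _ => ?_
    · nlinarith
    · exact mul_nonneg (by positivity) (h.nonneg _)
  have h2 := h.block_sum hK1 n
  have h3 : ∑ j ∈ Finset.range n, ((j : ℝ) + 1) ^ 2 / 2 ^ j ≤ 12 := by
    rw [sq_sum]
    have : 0 ≤ (2 * (n : ℝ) ^ 2 + 8 * n + 12) / 2 ^ n := by positivity
    linarith
  refine h1.trans (h2.trans ?_)
  calc p 0 * (K : ℝ) ^ 3 * ∑ j ∈ Finset.range n, ((j : ℝ) + 1) ^ 2 / 2 ^ j
      ≤ p 0 * (3 / p 0) ^ 3 * 12 := by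
        refine mul_le_mul ?_ h3 ?_ (by positivity)
        · exact mul_le_mul_of_nonneg_left (pow_le_pow_left₀ (by positivity) hK2 3) hm.le
        · exact Finset.sum_nonneg fun j _ => by positivity
    _ = 324 / p 0 ^ 2 := by field_simp; norm_num

/-- symmetric nonnegative function on `ℤ` with bounded partial sums on `ℕ` -/
lemma sym_sum (f : ℤ → ℝ) (hf : ∀ k, 0 ≤ f k) (hsym : ∀ k, f (-k) = f k) {C : ℝ}
    (hC : ∀ n : ℕ, ∑ k ∈ Finset.range n, f (k : ℤ) ≤ C) :
    Summable f ∧ ∑' k : ℤ, f k ≤ 2 * C := by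
  have hs : Summable fun n : ℕ => f (n : ℤ) := summable_of_sum_range_le (fun n => hf n) hC
  have ht : ∑' n : ℕ, f (n : ℤ) ≤ C := Real.tsum_le_of_sum_range_le (fun n => hf n) hC
  have hs2 : HasSum (fun n : ℕ => f (-(n : ℤ))) (∑' n : ℕ, f (n : ℤ)) := by
    have : (fun n : ℕ => f (-(n : ℤ))) = fun n : ℕ => f (n : ℤ) := funext fun n => hsym n
    rw [this]
    exact hs.hasSum
  have h1 : HasSum f (∑' n : ℕ, f (n : ℤ) + ∑' n : ℕ, f (n : ℤ) - f 0) :=
    HasSum.of_nat_of_neg (f := f) hs.hasSum hs2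
  refine ⟨h1.summable, ?_⟩
  rw [h1.tsum_eq]
  have := hf 0
  linarith

theorem second_moment (h : SLC p) : Summable (fun k : ℤ => (k : ℝ) ^ 2 * p k) ∧
    ∑' k : ℤ, (k : ℝ) ^ 2 * p k ≤ 648 / p 0 ^ 2 := by
  have h3 : 648 / p 0 ^ 2 = 2 * (324 / p 0 ^ 2) := by ring
  rw [h3]
  refine sym_sum (fun k : ℤ => (k : ℝ) ^ 2 * p k)
    (fun k => mul_nonneg (by positivity) (h.nonneg _)) (fun k => ?_) (fun n => ?_)
  · simp only [h.symm]; push_cast; ring
  · have := h.nat_sum n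
    simpa using this

theorem window (h : SLC p) (L : ℕ) (s : Finset ℤ) (hs : ∀ k ∈ s, |k| ≤ L) :
    ∑ k ∈ s, p k ≤ (2 * L + 1) * p 0 := by
  have h1 : s ⊆ Finset.Icc (-(L : ℤ)) L := fun k hk => by
    have := abs_le.1 (hs k hk)
    exact Finset.mem_Icc.2 this
  calc ∑ k ∈ s, p k ≤ ∑ k ∈ Finset.Icc (-(L : ℤ)) L, p k :=
        Finset.sum_le_sum_of_subset_of_nonneg h1 fun k _ _ => h.nonneg k
    _ ≤ ∑ k ∈ Finset.Icc (-(L : ℤ)) L, p 0 := Finset.sum_le_sum fun k _ => h.le_zero k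
    _ = (2 * L + 1) * p 0 := by
        rw [Finset.sum_const, Int.card_Icc, nsmul_eq_mul]
        congr 1
        have : ((L : ℤ) + 1 - -(L : ℤ)).toNat = 2 * L + 1 := by omega
        rw [this]; push_cast; ring



end SLC


end Crest.Agent.R161.LC760
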