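import Crest.Agent.R161.Dmp_341
import Crest.Agent.R161.Hull_374

/-!
# Row 161: exploration from outside a window (helper760)

* `RR B ω` : faces reached from outside the window `B` through non-cut edges.
* `DF B x ω : Finset P2` : the component of `x` in the complement of `RR B ω` (empty if `x ∈ RR B ω`).
* `DF_dom` : it is connected and simply connected; `DF_cutAt` : it is cut at a constant height.
* `DF_congr` : `{DF = D}` depends only on the cut variables off the interior edges of `D`.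
* `E_DF` : `E_F[1{DF = D} G(norm0 ω)] = P_F(DF = D) E_D[G ∘ norm0]`.
* `E_explore` : the sum over `D`.
-/

set_option autoImplicit false

noncomputable section

namespace Crest.Agent.R161.Exp760

open Finset Crest.Agent.R161.Geo729 Crest.Agent.R161.Defs372 Crest.Agent.R161.Dmp341
open Crest.Agent.R161.Hull374 Crest.Agent.R161.Dual374

/-- the edge is cut -/
def Zp (ω : Cfg) (e : Edge) : Prop := ω.2.2 e = true

/-- faces reached from outside `B` -/
def RR (B : Finset P2) (ω : Cfg) : Set P2 := Reach (Zp ω) ((↑B : Set P2)ᶜ)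

open Classical in
/-- the explored domain -/
def DF (B : Finset P2) (x : P2) (ω : Cfg) : Finset P2 :=
  B.filter fun f => x ∉ RR B ω ∧ Conn (RR B ω)ᶜ x f

lemma compl_sub_RR (B : Finset P2) (ω : Cfg) : ((↑B : Set P2)ᶜ) ⊆ RR B ω := subset_reach _ _

lemma RR_compl_sub (B : Finset P2) (ω : Cfg) : (RR B ω)ᶜ ⊆ (↑B : Set P2) := by
  intro f hf
  by_contra h
  exact hf (compl_sub_RR B ω h)

lemma coe_DF {B : Finset P2} {x : P2} {ω : Cfg} (hx : x ∉ RR B ω) :
    (↑(DF B x ω) : Set P2) = Comp (RR B ω)ᶜ x := by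
  ext f
  simp only [DF, coe_filter, Set.mem_ofPred_eq]
  constructor
  · rintro ⟨_, _, h⟩; exact h
  · intro h
    have h1 : f ∈ (RR B ω)ᶜ := comp_subset hx h
    exact ⟨RR_compl_sub B ω h1, hx, h⟩

lemma DF_eq_empty {B : Finset P2} {x : P2} {ω : Cfg} (hx : x ∈ RR B ω) : DF B x ω = ∅ := by
  simp [DF, hx]


lemma not_mem_RR {B : Finset P2} {x y : P2} {ω : Cfg} (h : y ∈ DF B x ω) : x ∉ RR B ω := by
  intro hx
  rw [DF_eq_empty hx] at h
  simp at h

lemma DF_sub (B : Finset P2) (x : P2) (ω : Cfg) : DF B x ω ⊆ B := by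
  classical
  intro f hf
  unfold DF at hf
  exact (Finset.mem_filter.1 hf).1

lemma mem_DF_not_RR {B : Finset P2} {x y : P2} {ω : Cfg} (h : y ∈ DF B x ω) : y ∉ RR B ω := by
  have hx := not_mem_RR h
  have h1 : y ∈ (↑(DF B x ω) : Set P2) := h
  rw [coe_DF hx] at h1
  exact comp_subset hx h1

/-- a connected set of non-reached faces containing `x` lies in the explored domain -/
lemma sub_DF {B : Finset P2} {x : P2} {ω : Cfg} {L : Set P2} (hL : IsConn L) (hx : x ∈ L)
    (h : ∀ f ∈ L, f ∉ RR B ω) : L ⊆ ↑(DF B x ω) := by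
  rw [coe_DF (h x hx)]
  intro f hf
  exact (hL x hx f hf).mono h

variable {B : Finset P2} {x : P2} {ω ω' : Cfg}

lemma RR_conn (hB : SC (↑B : Set P2)) : IsConn (RR B ω) := reach_isConn _ _ hB

lemma RR_compl_finite : (RR B ω)ᶜ.Finite := B.finite_toSet.subset (RR_compl_sub B ω)

lemma exists_not_mem (B : Finset P2) : ∃ a, a ∉ B := Infinite.exists_notMem_finset B

lemma DF_explore (hB : SC (↑B : Set P2)) (hx : x ∉ RR B ω)
    (hK : ∀ e, Zp ω e → ω.1 (src e) = ω.1 (tgt e)) :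
    (∀ e, Bd (↑(DF B x ω) : Set P2) e → Zp ω e) ∧
      (∀ e e', Bd (↑(DF B x ω) : Set P2) e → Bd (↑(DF B x ω) : Set P2) e' →
        ω.1 (src e) = ω.1 (src e')) ∧
      IsConn (↑(DF B x ω) : Set P2) ∧ SC (↑(DF B x ω) : Set P2) := by
  rw [coe_DF hx]
  obtain ⟨a, ha⟩ := exists_not_mem B
  exact explore (Zp ω) _ hB ⟨a, by simpa using ha⟩ x hx (Or.inr RR_compl_finite) ω.1 hK

lemma DF_dom (hB : SC (↑B : Set P2)) (hx : x ∉ RR B ω)  : Dom (DF B x ω) := by
  have h1 : IsConn (Comp (RR B ω)ᶜ x) := comp_isConn _ _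
  obtain ⟨a, ha⟩ := exists_not_mem B
  have h2 := (comp_compl_conn (RR B ω) (RR_conn hB)
    ⟨a, compl_sub_RR B ω (by simpa using ha)⟩ x hx).1
  refine ⟨?_, ?_⟩
  · rw [coe_DF hx]; exact h1
  · unfold SC; rw [coe_DF hx]; exact h2

lemma bd_iff_bdE {D : Finset P2} {e : Edge} : Bd (↑D : Set P2) e ↔ e ∈ bdE D := by
  rw [mem_bdE]
  unfold Bd
  simp only [mem_coe]
  tauto

/-- boundary edges of the explored domain are cut -/
lemma DF_bd_cut (hB : SC (↑B : Set P2)) (hx : x ∉ RR B ω) {e : Edge} (he : e ∈ bdE (DF B x ω)) :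
    ω.2.2 e = true := by
  rw [← bd_iff_bdE, coe_DF hx] at he
  have hDR : Comp (RR B ω)ᶜ x ⊆ (RR B ω)ᶜ := comp_subset hx
  obtain ⟨a, ha⟩ := exists_not_mem B
  have h2 := (comp_compl_conn (RR B ω) (RR_conn hB)
    ⟨a, compl_sub_RR B ω (by simpa using ha)⟩ x hx).2
  have h3 : Bd (RR B ω) e := by
    rcases he with ⟨h3, h4⟩ | ⟨h3, h4⟩
    · exact Or.inr ⟨hDR h3, h2 _ _ h3 (adj_fA_fB e) h4⟩
    · exact Or.inl ⟨h2 _ _ h4 (adj_fA_fB e).symm h3, hDR h4⟩
  exact reach_bd h3

/-- a boundary vertex is an endpoint of a boundary edge -/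
lemma exists_bdE_of_bdV {D : Finset P2} {v : P2} (hv : v ∈ bdV D) :
    ∃ e ∈ bdE D, src e = v ∨ tgt e = v := by
  obtain ⟨a, b⟩ := v
  rw [mem_bdV, mem_intVerts] at hv
  obtain ⟨⟨f, hf, hc⟩, hn⟩ := hv
  rw [isCorner_iff] at hc
  simp only [IntV, mem_coe] at hn
  by_contra hcon
  push Not at hcon
  have key : ∀ e : Edge, (src e = (a, b) ∨ tgt e = (a, b)) → (fA e ∈ D ↔ fB e ∈ D) := by
    intro e he
    by_contra h
    have := hcon e (mem_bdE.2 h)
    tauto
  have k1 := key ((a, b), false) (Or.inl rfl)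
  have k2 := key ((a, b), true) (Or.inl rfl)
  have k3 := key ((a - 1, b), false) (Or.inr (by simp))
  have k4 := key ((a, b - 1), true) (Or.inr (by simp))
  simp only [fA_mk, fB_h, fB_v] at k1 k2 k3 k4
  rcases hc with h | h | h | h <;> rw [h] at hf <;> simp only at hf <;> tauto


/-- the explored domain is cut at the height of any boundary vertex -/
lemma DF_cutAt (hB : SC (↑B : Set P2)) (hx : x ∉ RR B ω)
    (hK : ∀ e, Zp ω e → ω.1 (src e) = ω.1 (tgt e)) (hev : ∀ v, Even (ω.1 v)) {v : P2}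
    (hv : v ∈ bdV (DF B x ω)) : CutAt (DF B x ω) (ω.1 v) ω := by
  obtain ⟨h1, h2, -, -⟩ := DF_explore hB hx hK
  have hval : ∀ e e' : Edge, e ∈ bdE (DF B x ω) → e' ∈ bdE (DF B x ω) →
      ∀ u w, (src e = u ∨ tgt e = u) → (src e' = w ∨ tgt e' = w) → ω.1 u = ω.1 w := by
    intro e e' he he' u w hu hw
    have g1 := hK e (h1 e (bd_iff_bdE.2 he))
    have g2 := hK e' (h1 e' (bd_iff_bdE.2 he'))
    have g3 := h2 e e' (bd_iff_bdE.2 he) (bd_iff_bdE.2 he')
    have h4 : ω.1 u = ω.1 (src e) := by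
      rcases hu with rfl | rfl
      · rfl
      · exact g1.symm
    have h5 : ω.1 w = ω.1 (src e') := by
      rcases hw with rfl | rfl
      · rfl
      · exact g2.symm
    rw [h4, h5, g3]
  obtain ⟨e, he, hev'⟩ := exists_bdE_of_bdV hv
  refine ⟨hev v, fun e' he' => DF_bd_cut hB hx he', fun w hw => ?_⟩
  obtain ⟨e', he', hw'⟩ := exists_bdE_of_bdV hw
  exact hval e' e he' he w v hw' hev'

/-! ### locality of the exploration -/

lemma reach_congr {Z Z' : Edge → Prop} {A D : Set P2} (hAD : ∀ a ∈ A, a ∉ D)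
    (hb : ∀ e, Bd D e → Z e ∧ Z' e) (hag : ∀ e, fA e ∉ D → fB e ∉ D → (Z e ↔ Z' e)) :
    Reach Z A ⊆ Reach Z' A := by
  rintro f ⟨a, ha, hf⟩
  have key : ∀ g, Relation.ReflTransGen (DStep (fun e => ¬ Z e)) a g →
      (g ∉ D ∧ Relation.ReflTransGen (DStep (fun e => ¬ Z' e)) a g) := by
    intro g hg
    induction hg with
    | refl => exact ⟨hAD a ha, .refl⟩
    | @tail b1 c1 _ h2 ih =>
      obtain ⟨e, hze, hor⟩ := h2
      have hnb : ¬ Bd D e := fun h => hze (hb e h).1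
      unfold Bd at hnb
      have hc1 : c1 ∉ D ∧ (fA e ∉ D ∧ fB e ∉ D) := by
        rcases hor with ⟨h3, h4⟩ | ⟨h3, h4⟩
        · rw [h4]; rw [h3] at ih; tauto
        · rw [h4]; rw [h3] at ih; tauto
      refine ⟨hc1.1, ih.2.tail ⟨e, ?_, hor⟩⟩
      rwa [hag e hc1.2.1 hc1.2.2] at hze
  exact ⟨a, ha, (key f hf).2⟩

lemma DF_congr_aux (hB : SC (↑B : Set P2)) {D : Finset P2} (hD : DF B x ω = D) (hx : x ∈ D)
    (h : ∀ e, e ∉ intEdges D → ω.2.2 e = ω'.2.2 e) : DF B x ω' = D := by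
  subst hD
  have hxR : x ∉ RR B ω := mem_DF_not_RR hx
  have hcut : ∀ e, Bd (↑(DF B x ω) : Set P2) e → Zp ω e ∧ Zp ω' e := by
    intro e he
    rw [bd_iff_bdE] at he
    have h1 := DF_bd_cut hB hxR he
    refine ⟨h1, ?_⟩
    unfold Zp
    rw [← h e (not_intEdges_of_bdE he)]
    exact h1
  have hAD : ∀ a ∈ ((↑B : Set P2)ᶜ), a ∉ (↑(DF B x ω) : Set P2) := by
    intro a ha h1
    exact ha (DF_sub B x ω h1)
  have hag : ∀ e, fA e ∉ (↑(DF B x ω) : Set P2) → fB e ∉ (↑(DF B x ω) : Set P2) →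
      (Zp ω e ↔ Zp ω' e) := by
    intro e h1 h2
    unfold Zp
    rw [h e]
    rw [mem_intEdges]
    exact fun h3 => h1 h3.1
  have hR : RR B ω = RR B ω' := by
    refine Set.Subset.antisymm (reach_congr hAD hcut hag) ?_
    exact reach_congr hAD (fun e he => (hcut e he).symm) (fun e h1 h2 => (hag e h1 h2).symm)
  unfold DF
  rw [hR]

/-- `{DF = D}` depends only on the cut variables off the interior edges of `D`. -/
lemma DF_congr (hB : SC (↑B : Set P2)) {D : Finset P2} (hx : x ∈ D)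
    (h : ∀ e, e ∉ intEdges D → ω.2.2 e = ω'.2.2 e) : DF B x ω = D ↔ DF B x ω' = D :=
  ⟨fun h1 => DF_congr_aux hB h1 hx h, fun h1 => DF_congr_aux hB h1 hx fun e he => (h e he).symm⟩

/-- edges with both bordering faces outside `B` play no role -/
lemma RR_congr_B (h : ∀ e, (fA e ∈ B ∨ fB e ∈ B) → ω.2.2 e = ω'.2.2 e) : RR B ω = RR B ω' := by
  have key : ∀ ω ω' : Cfg, (∀ e, (fA e ∈ B ∨ fB e ∈ B) → ω.2.2 e = ω'.2.2 e) → RR B ω ⊆ RR B ω' := by
    rintro ω ω' h f ⟨a, ha, hf⟩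
    induction hf with
    | refl => exact ⟨a, ha, .refl⟩
    | @tail b1 c1 _ h2 ih =>
      by_cases hc : c1 ∈ B
      · obtain ⟨a', ha', h3⟩ := ih
        refine ⟨a', ha', h3.tail ?_⟩
        obtain ⟨e, hze, hor⟩ := h2
        refine ⟨e, ?_, hor⟩
        have h5 : ω.2.2 e = ω'.2.2 e := by
          apply h e
          rcases hor with ⟨_, h4⟩ | ⟨_, h4⟩
          · right; rwa [← h4]
          · left; rwa [← h4]
        show ¬ (ω'.2.2 e = true)
        rw [← h5]
        exact hze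
      · exact ⟨c1, by simpa using hc, .refl⟩
  exact Set.Subset.antisymm (key ω ω' h) (key ω' ω fun e he => (h e he).symm)

lemma DF_congr_B (h : ∀ e, (fA e ∈ B ∨ fB e ∈ B) → ω.2.2 e = ω'.2.2 e) :
    DF B x ω = DF B x ω' := by
  unfold DF
  rw [RR_congr_B h]


/-! ### finite-volume identity -/

/-- some boundary vertex of a finite nonempty face set -/
lemma exists_bdV {D : Finset P2} (h : D.Nonempty) : ∃ v, v ∈ bdV D := by
  obtain ⟨f, hf⟩ := h
  obtain ⟨j, -, hj⟩ := exists_exit D f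
  -- first exit
  classical
  have hex : ∃ j : ℕ, (f.1 + j + 1, f.2) ∉ D := ⟨j, hj⟩
  set n := Nat.find hex with hn
  have h1 : (f.1 + n + 1, f.2) ∉ D := Nat.find_spec hex
  have h2 : (f.1 + n, f.2) ∈ D := by
    rcases Nat.eq_zero_or_pos n with h0 | h0
    · rw [h0]; simpa using hf
    · have h3 := Nat.find_min hex (m := n - 1) (by omega)
      rw [not_not] at h3
      have : f.1 + ((n - 1 : ℕ) : ℤ) + 1 = f.1 + n := by omega
      rwa [this] at h3
  refine ⟨(f.1 + n + 1, f.2), mem_bdV.2 ⟨⟨_, h2, by simp [Geo729.IsCorner]⟩, ?_⟩⟩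
  rw [mem_intVerts]
  intro h3
  exact h1 h3.1


/-- `ins D q ω` agrees with `ω` shifted on the sites of `D` -/
lemma ins_agree {D : Finset P2} {q : ℤ} (hc : CutAt D q ω) {v : P2} (hv : v ∈ D) :
    (ins D q ω).1 v = ω.1 v + -q ∧ (ins D q ω).2.1 v = ω.2.1 v + -q ∧
      ∀ b, (ins D q ω).2.2 (v, b) = ω.2.2 (v, b) := by
  refine ⟨?_, ?_, fun b => ?_⟩
  · by_cases h : v ∈ intVerts D
    · simp only [ins, h, if_true]; ring
    · simp only [ins, h, if_false]
      rw [hc.ht v (mem_bdV.2 ⟨⟨v, hv, by simp [Geo729.IsCorner]⟩, h⟩)]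
      ring
  · simp only [ins, hv, if_true]; ring
  · by_cases h : (v, b) ∈ intEdges D
    · simp [ins, h]
    · simp only [ins, h, if_false]
      rw [hc.cut (v, b)]
      rw [mem_bdE]
      rw [mem_intEdges] at h
      simp only [fA_mk] at h ⊢
      tauto

/-- normalised observables see only the inside -/
lemma norm0_ins {α : Type*} {D : Finset P2} {q : ℤ} (hc : CutAt D q ω) {S : Set P2} {G : Cfg → α}
    (hG : Loc S G) (hS : S ⊆ ↑D) (h0 : ((0, 0) : P2) ∈ D) :
    G (norm0 (ins D q ω)) = G (norm0 ω) := by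
  have h1 := ins_agree hc h0
  refine hG _ _ fun v hv => ?_
  obtain ⟨h2, h3, h4⟩ := ins_agree hc (hS hv)
  refine ⟨?_, ?_, h4⟩
  · simp only [norm0, addH, h1.1, h2]; ring
  · simp only [norm0, addH, h1.1, h3]; ring

theorem edgeOk_of_mem {c : ℝ} {F : Finset P2} (hv : Valid F ω) (hw : wt c F ω ≠ 0)
    {e : Edge} (he : Zp ω e) : ω.1 (src e) = ω.1 (tgt e) := by
  by_cases h : e ∈ intEdges F
  · have h1 : ew c ω e ≠ 0 := fun h0 => hw (Finset.prod_eq_zero h h0)
    by_contra h2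
    apply h1
    unfold ew
    have h3 : ω.2.2 e = true := he
    simp [h3, h2]
  · have := not_int_of_not_intEdges h
    rw [hv.zero _ this.1, hv.zero _ this.2]

theorem E_congr' {c : ℝ} {F : Finset P2} {f g : Cfg → ℝ}
    (h : ∀ ω, Valid F ω → wt c F ω ≠ 0 → f ω = g ω) : E c F f = E c F g := by
  refine Finset.sum_congr rfl fun ω hω => ?_
  have hv := mem_conf.1 hω
  by_cases h0 : wt c F ω = 0
  · rw [pr_of_valid c hv, h0]; simp
  · rw [h ω hv h0]

theorem E_mono' {c : ℝ} (hc : 1 ≤ c) {F : Finset P2} {f g : Cfg → ℝ}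
    (h : ∀ ω, Valid F ω → wt c F ω ≠ 0 → f ω ≤ g ω) : E c F f ≤ E c F g := by
  refine Finset.sum_le_sum fun ω hω => ?_
  have hv := mem_conf.1 hω
  by_cases h0 : wt c F ω = 0
  · rw [pr_of_valid c hv, h0]; simp
  · exact mul_le_mul_of_nonneg_left (h ω hv h0) (pr_nonneg hc F ω)

open Classical in
/-- **Markov identity at the explored domain.** -/
theorem E_DF {c : ℝ} (hc : 1 ≤ c) {F B D : Finset P2} {x : P2} (hB : SC (↑B : Set P2))
    (hBF : B ⊆ F) (hx : x ∈ D) (h0 : ((0, 0) : P2) ∈ D) {S : Set P2} {G : Cfg → ℝ}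
    (hG : Loc S G) (hS : S ⊆ ↑D) :
    E c F (fun ω => if DF B x ω = D then G (norm0 ω) else 0) =
      Pr c F {ω | DF B x ω = D} * E c D (fun ω => G (norm0 ω)) := by
  by_cases hDB : D ⊆ B
  swap
  · have hne : ∀ ω, DF B x ω ≠ D := fun ω h => hDB (h ▸ DF_sub B x ω)
    have h1 : Pr c F {ω | DF B x ω = D} = 0 := by
      unfold Pr
      rw [E_congr (g := fun _ => 0) fun ω _ => by simp [hne ω]]
      simp [E]
    rw [h1, zero_mul]
    rw [E_congr (g := fun _ => 0) fun ω _ => by simp [hne ω]]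
    simp [E]
  have hDF : D ⊆ F := hDB.trans hBF
  obtain ⟨v0, hv0⟩ := exists_bdV ⟨x, hx⟩
  -- the possible values of the boundary height
  set Q : Finset ℤ := Finset.Icc (-(hb F)) (hb F) with hQ
  have hsplit : ∀ φ : Cfg → ℝ, E c F (fun ω => if DF B x ω = D then φ ω else 0) =
      ∑ q ∈ Q, E c F (fun ω => if CutAt D q ω then (if DF B x ω = D then φ ω else 0) else 0) := by
    intro φ
    rw [← E_sum]
    refine E_congr' fun ω hv hw => ?_
    by_cases hD : DF B x ω = D
    · simp only [hD, if_true]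
      have hxR : x ∉ RR B ω := mem_DF_not_RR (B := B) (x := x) (by rw [hD]; exact hx)
      have hcut : CutAt D (ω.1 v0) ω := by
        have := DF_cutAt hB hxR (fun e he => edgeOk_of_mem hv hw he) hv.even
          (v := v0) (by rw [hD]; exact hv0)
        rwa [hD] at this
      rw [Finset.sum_eq_single (ω.1 v0)]
      · rw [if_pos hcut]
      · intro q _ hq
        rw [if_neg]
        intro h
        exact hq (h.ht v0 hv0).symm
      · intro hn
        exact absurd (Finset.mem_Icc.2 (abs_le.1 (hv.abs_vert v0))) hn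
    · simp only [hD, if_false]
      simp
  have hOut : OutLoc D (fun ω => if DF B x ω = D then (1 : ℝ) else 0) := by
    intro ω ω' _ _ h3
    have := DF_congr hB hx h3
    by_cases h : DF B x ω = D
    · simp only [h, this.1 h, if_true]
    · have h' : ¬ DF B x ω' = D := fun h1 => h (this.2 h1)
      simp only [h, h', if_false]
  have hins : ∀ q ∈ Q, E c F (fun ω => if CutAt D q ω then
      (if DF B x ω = D then G (norm0 ω) else 0) else 0) =
      E c F (fun ω => if CutAt D q ω then (if DF B x ω = D then (1 : ℝ) else 0) else 0) *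
        E c D (fun ω => G (norm0 ω)) := by
    intro q _
    rw [← E_cut hc hDF q hOut]
    refine E_congr fun ω _ => ?_
    by_cases h1 : CutAt D q ω
    · rw [if_pos h1, if_pos h1, norm0_ins h1 hG hS h0]
      split_ifs <;> ring
    · rw [if_neg h1, if_neg h1]
  rw [hsplit (fun ω => G (norm0 ω)), Finset.sum_congr rfl hins, ← Finset.sum_mul,
    ← hsplit (fun _ => 1)]
  congr 1
  unfold Pr
  refine E_congr fun ω _ => ?_
  by_cases h : DF B x ω = D <;> simp [h]

/-- the possible values of the explored domain containing `L` -/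
def doms (B L : Finset P2) : Finset (Finset P2) := by
  classical exact B.powerset.filter fun D => L ⊆ D ∧ Dom D

lemma mem_doms {B L D : Finset P2} : D ∈ doms B L ↔ D ⊆ B ∧ L ⊆ D ∧ Dom D := by
  simp [doms]

open Classical in
/-- decomposition according to the explored domain -/
lemma sum_doms (hB : SC (↑B : Set P2)) {L : Finset P2} (hx : x ∈ L) (ω : Cfg) (a : ℝ) :
    (if L ⊆ DF B x ω then a else 0) = ∑ D ∈ doms B L, if DF B x ω = D then a else 0 := by
  by_cases h : L ⊆ DF B x ω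
  · rw [if_pos h, Finset.sum_eq_single (DF B x ω)]
    · simp
    · intro D _ hD; rw [if_neg]; exact fun h => hD h.symm
    · intro hn
      exact absurd (mem_doms.2 ⟨DF_sub B x ω, h, DF_dom hB (mem_DF_not_RR (h hx))⟩) hn
  · rw [if_neg h]
    symm
    refine Finset.sum_eq_zero fun D hD => ?_
    rw [if_neg]
    intro h1
    exact h (h1 ▸ (mem_doms.1 hD).2.1)

open Classical in
/-- **Exploration identity.** -/
theorem E_explore {c : ℝ} (hc : 1 ≤ c) {F B L : Finset P2} (hB : SC (↑B : Set P2))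
    (hBF : B ⊆ F) (h0 : ((0, 0) : P2) ∈ L) {G : Cfg → ℝ} (hG : Loc (↑L : Set P2) G) :
    E c F (fun ω => if L ⊆ DF B (0, 0) ω then G (norm0 ω) else 0) =
      ∑ D ∈ doms B L, Pr c F {ω | DF B (0, 0) ω = D} * E c D (fun ω => G (norm0 ω)) := by
  have h1 : ∀ ω, (if L ⊆ DF B (0, 0) ω then G (norm0 ω) else 0) =
      ∑ D ∈ doms B L, if DF B (0, 0) ω = D then G (norm0 ω) else 0 := fun ω => sum_doms hB h0 ω _
  rw [E_congr fun ω _ => h1 ω, E_sum]
  refine Finset.sum_congr rfl fun D hD => ?_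
  rw [mem_doms] at hD
  exact E_DF hc hB hBF (hD.2.1 h0) (hD.2.1 h0) hG (by exact_mod_cast hD.2.1)

end Crest.Agent.R161.Exp760
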