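import Crest.Agent.R161.Ann2_770
import Crest.Agent.R161.Dmp_341

-- ▼ part R161/Ann3_770
section

/-!
# Annulus partition functions (helper770, R161 block E: E2)

`zQ c A β Q` : partition function of the face set `A`, non-interior vertices of class `β v = true`
(the hole) at height `Q`, the other non-interior vertices at height `0`.
`zQ_neg`, `zQ_logConcave`, and the elementary consequences for symmetric log-concave sequences.
-/

set_option autoImplicit false

noncomputable section

namespace Crest.Agent.R161.Ann770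

open Finset Crest.Agent.R161.Geo729 Crest.Agent.R161.Defs372 Crest.Agent.R161.Hts375
open Crest.Agent.R161.Lsm375

/-! ### symmetric log-concave sequences -/

/-- symmetric log-concave nonnegative sequences on `ℤ`, in the multi-step form -/
structure SLC (a : ℤ → ℝ) : Prop where
  nonneg : ∀ k, 0 ≤ a k
  symm : ∀ k, a (-k) = a k
  lc : ∀ k l s : ℤ, 0 ≤ s → s ≤ l - k → a k * a l ≤ a (k + s) * a (l - s)

theorem SLC.anti {a : ℤ → ℝ} (h : SLC a) {k : ℤ} (hk : 0 ≤ k) : a (k + 1) ≤ a k := by
  have h1 := h.lc (-(k + 1)) (k + 1) 1 (by norm_num) (by linarith)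
  rw [h.symm, show -(k + 1) + 1 = -k by ring, show k + 1 - 1 = k by ring, h.symm] at h1
  exact abs_le_of_sq_le_sq' (by nlinarith [h1]) (h.nonneg k) |>.2

theorem SLC.geom {a : ℤ → ℝ} (h : SLC a) {ρ : ℝ} (hρ : 0 ≤ ρ) (h1 : a 1 ≤ ρ * a 0) (h0 : 0 < a 0)
    (n : ℕ) : a n ≤ a 0 * ρ ^ n := by
  induction n with
  | zero => simp
  | succ n ih =>
    have h2 := h.lc 0 (n + 1) 1 (by norm_num) (by simp)
    rw [zero_add, add_sub_cancel_right] at h2
    have h3 : a 0 * a (n + 1) ≤ a 0 * (a 0 * ρ ^ (n + 1)) := by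
      calc a 0 * a (n + 1) ≤ a 1 * a n := h2
        _ ≤ (ρ * a 0) * (a 0 * ρ ^ n) :=
            mul_le_mul h1 ih (h.nonneg _) (mul_nonneg hρ h0.le)
        _ = a 0 * (a 0 * ρ ^ (n + 1)) := by ring
    have h4 := le_of_mul_le_mul_left h3 h0
    exact_mod_cast h4

theorem SLC.sum_le {a : ℤ → ℝ} (h : SLC a) {ρ : ℝ} (hρ : 0 ≤ ρ) (hρ1 : ρ < 1) (h1 : a 1 ≤ ρ * a 0)
    (h0 : 0 < a 0) (n : ℕ) :
    (1 - ρ) * ∑ k ∈ Finset.Icc (-(n : ℤ)) n, a k ≤ (1 + ρ) * a 0 := by
  have key : ∀ n : ℕ, ∑ k ∈ Finset.Icc (-(n : ℤ)) n, a k =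
      a 0 + 2 * ∑ k ∈ Finset.range n, a (k + 1 : ℕ) := by
    intro n
    induction n with
    | zero => simp
    | succ n ih =>
      have e1 : Finset.Icc (-((n + 1 : ℕ) : ℤ)) ((n + 1 : ℕ) : ℤ) =
          insert (-((n + 1 : ℕ) : ℤ)) (insert ((n + 1 : ℕ) : ℤ) (Finset.Icc (-(n : ℤ)) n)) := by
        ext x
        simp only [Finset.mem_Icc, Finset.mem_insert, Nat.cast_add, Nat.cast_one]
        omega
      rw [e1, Finset.sum_insert, Finset.sum_insert, ih, Finset.sum_range_succ, h.symm]
      · ring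
      · simp
      · simp only [Finset.mem_insert, Finset.mem_Icc, Nat.cast_add, Nat.cast_one]
        omega
  rw [key]
  have h2 : ∑ k ∈ Finset.range n, a (k + 1 : ℕ) ≤ ∑ k ∈ Finset.range n, a 0 * ρ ^ (k + 1) :=
    Finset.sum_le_sum fun k _ => h.geom hρ h1 h0 (k + 1)
  have h3 : (1 - ρ) * ∑ k ∈ Finset.range n, a 0 * ρ ^ (k + 1) = a 0 * ρ * (1 - ρ ^ n) := by
    have h4 := mul_neg_geom_sum ρ n
    have h5 : ∑ k ∈ Finset.range n, a 0 * ρ ^ (k + 1) = a 0 * ρ * ∑ k ∈ Finset.range n, ρ ^ k := by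
      rw [Finset.mul_sum]
      exact Finset.sum_congr rfl fun k _ => by ring
    rw [h5, ← h4]
    ring
  have h6 : a 0 * ρ * (1 - ρ ^ n) ≤ a 0 * ρ := by
    have : 0 ≤ ρ ^ n := pow_nonneg hρ n
    nlinarith [mul_nonneg h0.le hρ, mul_nonneg (mul_nonneg h0.le hρ) this]
  have h7 : 0 ≤ 1 - ρ := by linarith
  nlinarith [mul_le_mul_of_nonneg_left h2 h7]

/-- If `a 0` is a small fraction of the total mass of a window then `a 1` is comparable to `a 0`. -/
theorem SLC.ratio {a : ℤ → ℝ} (h : SLC a) (h0 : 0 < a 0) {θ : ℝ} (hθ : 0 < θ) (n : ℕ)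
    (hle : a 0 ≤ θ * ∑ k ∈ Finset.Icc (-(n : ℤ)) n, a k) : (1 - θ) / (1 + θ) * a 0 ≤ a 1 := by
  by_contra hlt
  push Not at hlt
  -- choose `ρ = a 1 / a 0 < (1-θ)/(1+θ)`
  set ρ := a 1 / a 0 with hρ
  have hρ0 : 0 ≤ ρ := div_nonneg (h.nonneg 1) h0.le
  have h1 : a 1 ≤ ρ * a 0 := by rw [hρ]; field_simp; exact le_rfl
  have hρ2 : ρ < (1 - θ) / (1 + θ) := by
    rw [hρ, div_lt_iff₀ h0]; exact hlt
  have hp : 0 < 1 + θ := by linarith
  rw [lt_div_iff₀ hp] at hρ2
  have hρ1 : ρ < 1 := by nlinarith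
  have h2 := h.sum_le hρ0 hρ1 h1 h0 n
  have h3 : (1 - ρ) * a 0 ≤ θ * ((1 + ρ) * a 0) := by
    calc (1 - ρ) * a 0 ≤ (1 - ρ) * (θ * ∑ k ∈ Finset.Icc (-(n : ℤ)) n, a k) :=
          mul_le_mul_of_nonneg_left hle (by linarith)
      _ = θ * ((1 - ρ) * ∑ k ∈ Finset.Icc (-(n : ℤ)) n, a k) := by ring
      _ ≤ θ * ((1 + ρ) * a 0) := mul_le_mul_of_nonneg_left h2 hθ.le
  have h4 : (1 - ρ) ≤ θ * (1 + ρ) := by
    have : (1 - ρ) * a 0 ≤ (θ * (1 + ρ)) * a 0 := by linarith
    exact le_of_mul_le_mul_right this h0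
  nlinarith

/-- Parity: if `a 1 ≥ r a 0`, `r ≤ 1`, the even part of a window is at most `(1 + r)/r` times... we
state it as: `r * (even part) ≤ (1/2 + r) * (odd part)` for the window `[-(2n+1), 2n+1]`. -/
theorem SLC.parity {a : ℤ → ℝ} (h : SLC a) {r : ℝ} (hr0 : 0 ≤ r)
    (h1 : r * a 0 ≤ a 1) (n : ℕ) :
    r * (a 0 + 2 * ∑ k ∈ Finset.range n, a (2 * (k : ℤ) + 2)) ≤
      (1 / 2 + r) * (2 * ∑ k ∈ Finset.range (n + 1), a (2 * (k : ℤ) + 1)) := by
  have h2 : ∑ k ∈ Finset.range n, a (2 * (k : ℤ) + 2) ≤ ∑ k ∈ Finset.range n, a (2 * (k : ℤ) + 1) :=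
    Finset.sum_le_sum fun k _ => by
      have := h.anti (k := 2 * (k : ℤ) + 1) (by positivity)
      rwa [add_assoc, one_add_one_eq_two] at this
  have h3 : ∑ k ∈ Finset.range n, a (2 * (k : ℤ) + 1) ≤
      ∑ k ∈ Finset.range (n + 1), a (2 * (k : ℤ) + 1) := by
    rw [Finset.sum_range_succ]
    linarith [h.nonneg (2 * (n : ℤ) + 1)]
  have h4 : a 1 ≤ ∑ k ∈ Finset.range (n + 1), a (2 * (k : ℤ) + 1) := by
    have := Finset.single_le_sum (f := fun k : ℕ => a (2 * (k : ℤ) + 1)) (s := Finset.range (n + 1))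
      (fun k _ => h.nonneg _) (Finset.mem_range.2 (Nat.succ_pos n))
    simpa using this
  nlinarith [h.nonneg 1, h.nonneg 0]

/-! ### annulus partition functions -/

/-- partition function with the hole class at height `Q` -/
def zQ (c : ℝ) (A : Finset P2) (β : P2 → Bool) (Q : ℤ) : ℝ :=
  ZB c A (fun v => if β v then Q else 0)

theorem zQ_nonneg {c : ℝ} (hc : 1 ≤ c) (A : Finset P2) (β : P2 → Bool) (Q : ℤ) : 0 ≤ zQ c A β Q :=
  ZB_nonneg hc _ _

theorem zQ_zero (c : ℝ) (A : Finset P2) (β : P2 → Bool) : zQ c A β 0 = Z c A := by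
  unfold zQ
  simp only [ite_self]
  exact ZB_zero c A

theorem zQ_zero_pos {c : ℝ} (hc : 1 ≤ c) (A : Finset P2) (β : P2 → Bool) : 0 < zQ c A β 0 := by
  rw [zQ_zero]
  exact Z_pos hc A

theorem zQ_neg (c : ℝ) (A : Finset P2) (β : P2 → Bool) (Q : ℤ) : zQ c A β (-Q) = zQ c A β Q := by
  unfold zQ
  rw [← ZB_neg]
  congr 1
  funext v
  split_ifs <;> simp

theorem zQ_logConcave {c : ℝ} (hc : 1 ≤ c) (A : Finset P2) (β : P2 → Bool) {q₁ q₂ s : ℤ}
    (h1 : Even q₁) (h2 : Even q₂) (hs : Even s) (hs0 : 0 ≤ s) (hsq : s ≤ q₂ - q₁) :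
    zQ c A β q₁ * zQ c A β q₂ ≤ zQ c A β (q₁ + s) * zQ c A β (q₂ - s) := by
  classical
  -- a common box size
  set qf : ℤ → Bool → ℤ := fun Q x => if x then Q else 0 with hqf
  have hb : ∀ Q : ℤ, (fun v => if β v then Q else 0) = fun v => qf Q (β v) := fun Q => rfl
  set N : ℤ := hbB A (fun v => qf q₁ (β v)) + hbB A (fun v => qf q₂ (β v)) +
    hbB A (fun v => qf (q₁ + s) (β v)) + hbB A (fun v => qf (q₂ - s) (β v)) + |q₁| + |q₂| + |s| with hN
  have hh : ∀ b : P2 → ℤ, 0 ≤ hbB A b := fun b => by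
    unfold hbB
    have := bS_nonneg A b
    positivity
  have a1 := hh (fun v => qf q₁ (β v))
  have a2 := hh (fun v => qf q₂ (β v))
  have a3 := hh (fun v => qf (q₁ + s) (β v))
  have a4 := hh (fun v => qf (q₂ - s) (β v))
  have b1 := abs_nonneg q₁
  have b2 := abs_nonneg q₂
  have b3 := abs_nonneg s
  have key : ∀ Q : ℤ, Even Q → hbB A (fun v => qf Q (β v)) ≤ N → |Q| ≤ N →
      zQ c A β Q = pinZ ((geo A β).W (fun _ => c))
        (fun x => if x = Sum.inl (Sum.inr false) then 0 else -N)
        (fun x => if x = Sum.inl (Sum.inr false) then 0 else N)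
        {Sum.inl (Sum.inr true)} Q := by
    intro Q hQ hQN hQN'
    unfold zQ
    rw [hb, ZB_eq_geo A β c (qf Q) (fun x => by cases x <;> simp [hqf, hQ]) N hQN
      (fun x => by cases x <;> simp only [hqf]
                   · simpa using (abs_nonneg Q).trans hQN'
                   · simpa using hQN')]
    unfold gZ pinZ
    refine Finset.sum_congr ?_ fun _ _ => rfl
    ext h
    simp only [Finset.mem_filter, Finset.mem_Icc, Finset.mem_singleton, forall_eq, Bool.forall_bool]
    have hN0 : 0 ≤ N := (abs_nonneg Q).trans hQN'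
    constructor
    · rintro ⟨⟨h3, h4⟩, h5, h6⟩
      refine ⟨⟨fun x => ?_, fun x => ?_⟩, ?_⟩
      · by_cases hx : x = Sum.inl (Sum.inr false)
        · subst hx; simp [h5, hqf]
        · simp only [hx, if_false]; exact h3 x
      · by_cases hx : x = Sum.inl (Sum.inr false)
        · subst hx; simp [h5, hqf]
        · simp only [hx, if_false]; exact h4 x
      · simpa [hqf] using h6
    · rintro ⟨⟨h3, h4⟩, h5⟩
      refine ⟨⟨fun x => ?_, fun x => ?_⟩, ?_, ?_⟩
      · by_cases hx : x = Sum.inl (Sum.inr false)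
        · have := h3 x
          simp only [hx, if_true] at this
          rw [hx]
          exact le_trans (by linarith) this
        · have := h3 x
          simpa only [hx, if_false] using this
      · by_cases hx : x = Sum.inl (Sum.inr false)
        · have := h4 x
          simp only [hx, if_true] at this
          rw [hx]
          exact this.trans hN0
        · have := h4 x
          simpa only [hx, if_false] using this
      · have h6 := h3 (Sum.inl (Sum.inr false))
        have h7 := h4 (Sum.inl (Sum.inr false))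
        simp only [if_true] at h6 h7
        simp only [hqf, Bool.false_eq_true, if_false]
        exact le_antisymm h7 h6
      · simpa [hqf] using h5
  rw [key q₁ h1 (by linarith) (by linarith), key q₂ h2 (by linarith) (by linarith),
    key (q₁ + s) (h1.add hs) (by linarith) (by linarith [abs_add_le q₁ s]),
    key (q₂ - s) (h2.sub hs) (by linarith) (by linarith [abs_sub q₂ s])]
  exact pinZ_logConcave ((geo A β).lsm_W (fun _ => hc)) hs0 (fun a => (geo A β).W_shift _ hs a) _ _ _ hsq

/-- The sequence `k ↦ z_{2k}` is symmetric log-concave. -/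
theorem slc_zQ {c : ℝ} (hc : 1 ≤ c) (A : Finset P2) (β : P2 → Bool) :
    SLC (fun k => zQ c A β (2 * k)) where
  nonneg := fun k => zQ_nonneg hc _ _ _
  symm := fun k => by
    show zQ c A β (2 * -k) = zQ c A β (2 * k)
    rw [show 2 * -k = -(2 * k) by ring, zQ_neg]
  lc := fun k l s hs hsl => by
    have := zQ_logConcave hc A β (q₁ := 2 * k) (q₂ := 2 * l) (s := 2 * s)
      (even_two_mul k) (even_two_mul l) (even_two_mul s) (by linarith) (by linarith)
    rw [show 2 * k + 2 * s = 2 * (k + s) by ring, show 2 * l - 2 * s = 2 * (l - s) by ring] at this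
    exact this

end Crest.Agent.R161.Ann770
end
end

-- ▼ part R161/Fac_770

/-!
# One-cut factorisation (helper770, R161 block E: F1)

For `D ⊆ F` with no vertex touching both `D` and the complement of `F`:
`∑_{ω valid, cut at ∂D at height q} wt c F ω Φ = ∑_{α ∈ confB (F \ D) (q on the vertices touching D)}
∑_{β ∈ conf D} wt c (F\D) α * wt c D β * Φ (glue D q α β)`; hence
`Pr c F {CutAt D q} = Z c D * zQ c (F \ D) (touches D) q / Z c F`.
-/

set_option autoImplicit false

noncomputable section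

namespace Crest.Agent.R161.Ann770

open Finset Crest.Agent.R161.Geo729 Crest.Agent.R161.Defs372 Crest.Agent.R161.Dmp341

open Classical in
/-- the vertex touches `D` -/
def tch (D : Finset P2) (v : P2) : Bool := decide (∃ f ∈ D, Geo729.IsCorner v f)

theorem tch_iff {D : Finset P2} {v : P2} : tch D v = true ↔ ∃ f ∈ D, Geo729.IsCorner v f := by
  unfold tch; simp

/-- no vertex touches both `D` and the complement of `F` -/
def Sep (D F : Finset P2) : Prop := ∀ v, tch D v = true → v ∈ intVerts F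

/-- boundary heights of the outer part -/
def bD (D : Finset P2) (q : ℤ) (v : P2) : ℤ := if tch D v then q else 0

theorem Sep.sub {D F : Finset P2} (h : Sep D F) : D ⊆ F := by
  intro f hf
  have h1 := h (f.1, f.2) (tch_iff.2 ⟨f, hf, by simp [Geo729.IsCorner]⟩)
  exact corner_mem_of_int h1 (by simp [Geo729.IsCorner])

theorem not_tch_of_intVerts_sdiff {D F : Finset P2} {v : P2} (hv : v ∈ intVerts (F \ D)) :
    ¬ tch D v = true := by
  rw [tch_iff]
  rintro ⟨f, hf, hvf⟩
  exact (Finset.mem_sdiff.1 (corner_mem_of_int hv hvf)).2 hf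

theorem intVerts_sdiff_of {D F : Finset P2} {v : P2} (hv : v ∈ intVerts F) (ht : ¬ tch D v = true) :
    v ∈ intVerts (F \ D) := by
  rw [tch_iff] at ht
  push Not at ht
  rw [mem_intVerts, intV_iff] at hv ⊢
  intro f hf
  have h1 := hv f hf
  simp only [Finset.coe_sdiff, Set.mem_sdiff, Finset.mem_coe] at h1 ⊢
  exact ⟨h1, fun h2 => ht f h2 hf⟩

theorem tch_of_intVerts {D : Finset P2} {v : P2} (hv : v ∈ intVerts D) : tch D v = true :=
  tch_iff.2 ⟨v, corner_mem_of_int hv (by simp [Geo729.IsCorner]), by simp [Geo729.IsCorner]⟩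

theorem cutAt_confB {D F : Finset P2} {q : ℤ} (hq : Even q) {α : Cfg}
    (hα : ValidB (F \ D) (bD D q) α) : CutAt D q α where
  even := hq
  cut := fun e he => hα.cut e fun h => by
    rw [mem_intEdges, Finset.mem_sdiff, Finset.mem_sdiff] at h
    rw [mem_bdE] at he
    tauto
  ht := fun v hv => by
    have ht : tch D v = true := tch_iff.2 (mem_bdV.1 hv).1
    rw [hα.bdry v (fun h => not_tch_of_intVerts_sdiff h ht)]
    simp [bD, ht]

theorem valid_glue' {D F : Finset P2} {q : ℤ} (hsep : Sep D F) {α β : Cfg}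
    (hα : ValidB (F \ D) (bD D q) α) (hq : Even q) (hβ : Valid D β) : Valid F (glue D q α β) where
  zero := fun v hv => by
    have hv' : v ∉ intVerts D := fun h' => hv (intVerts_mono hsep.sub h')
    simp only [glue, hv', if_false]
    have ht : ¬ tch D v = true := fun h => hv (hsep v h)
    have hv'' : v ∉ intVerts (F \ D) := fun h => hv (intVerts_mono Finset.sdiff_subset h)
    rw [hα.bdry v hv'']
    simp [bD, ht]
  even := fun v => by
    by_cases hv : v ∈ intVerts D
    · simp only [glue, hv, if_true]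
      exact (hβ.even v).add hq
    · simp only [glue, hv, if_false]
      exact hα.even v
  off := fun f hf => by
    have hf' : f ∉ D := fun h' => hf (hsep.sub h')
    have hf'' : f ∉ F \ D := fun h => hf (Finset.mem_sdiff.1 h).1
    simp only [glue, hf', if_false]
    exact hα.off f hf''
  corner := fun f hf v hv => by
    by_cases hf' : f ∈ D
    · by_cases hv' : v ∈ intVerts D
      · simp only [glue, hv', hf', if_true]
        have := hβ.corner f hf' v hv
        rwa [add_sub_add_right_eq_sub]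
      · simp only [glue, hv', hf', if_true, if_false]
        have h1 := hβ.corner f hf' v hv
        rw [hβ.zero v hv'] at h1
        rw [(cutAt_confB hq hα).ht v (mem_bdV.2 ⟨⟨f, hf', hv⟩, hv'⟩),
          show q - (β.2.1 f + q) = 0 - β.2.1 f by ring]
        exact h1
    · have hv' : v ∉ intVerts D := fun h' => hf' (corner_mem_of_int h' hv)
      simp only [glue, hv', hf', if_false]
      exact hα.corner f (Finset.mem_sdiff.2 ⟨hf, hf'⟩) v hv
  cut := fun e he => by
    have he' : e ∉ intEdges D := fun h' => he (intEdges_mono hsep.sub h')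
    simp only [glue, he', if_false]
    exact hα.cut e fun h => he (intEdges_mono Finset.sdiff_subset h)

/-- the outer part of a configuration -/
def outP (D F : Finset P2) (q : ℤ) (ω : Cfg) : Cfg :=
  (fun v => if v ∈ intVerts (F \ D) then ω.1 v else bD D q v,
   fun f => if f ∈ F \ D then ω.2.1 f else 1,
   fun e => if e ∈ intEdges (F \ D) then ω.2.2 e else true)

theorem bD_even {D : Finset P2} {q : ℤ} (hq : Even q) (v : P2) : Even (bD D q v) := by
  unfold bD
  split_ifs
  · exact hq
  · exact Even.zero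

theorem validB_outP {D F : Finset P2} {q : ℤ} {ω : Cfg} (h : Valid F ω)
    (hc : CutAt D q ω) : ValidB (F \ D) (bD D q) (outP D F q ω) where
  bdry := fun v hv => by simp only [outP, hv, if_false]
  even := fun v => by
    by_cases hv : v ∈ intVerts (F \ D)
    · simp only [outP, hv, if_true]; exact h.even v
    · simp only [outP, hv, if_false]; exact bD_even hc.even v
  off := fun f hf => by simp only [outP, hf, if_false]
  corner := fun f hf v hv => by
    obtain ⟨hfF, hfD⟩ := Finset.mem_sdiff.1 hf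
    by_cases hv' : v ∈ intVerts (F \ D)
    · simp only [outP, hv', hf, if_true]
      exact h.corner f hfF v hv
    · simp only [outP, hv', hf, if_true, if_false]
      have h1 := h.corner f hfF v hv
      by_cases ht : tch D v = true
      · have hvD : v ∉ intVerts D := fun h' => hfD (corner_mem_of_int h' hv)
        rw [hc.ht v (mem_bdV.2 ⟨tch_iff.1 ht, hvD⟩)] at h1
        simpa [bD, ht] using h1
      · have hvF : v ∉ intVerts F := fun h' => hv' (intVerts_sdiff_of h' ht)
        rw [h.zero v hvF] at h1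
        simpa [bD, ht] using h1
  cut := fun e he => by simp only [outP, he, if_false]

theorem glue_outP {D F : Finset P2} {q : ℤ} {ω : Cfg} (h : Valid F ω)
    (hc : CutAt D q ω) : glue D q (outP D F q ω) (ins D q ω) = ω := by
  refine Prod.ext ?_ (Prod.ext ?_ ?_)
  · funext v
    by_cases hv : v ∈ intVerts D
    · simp [ins, glue, hv]
    · by_cases hv' : v ∈ intVerts (F \ D)
      · simp [glue, hv, outP, hv']
      · simp only [glue, hv, outP, hv', if_false]
        by_cases ht : tch D v = true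
        · rw [hc.ht v (mem_bdV.2 ⟨tch_iff.1 ht, hv⟩)]
          simp [bD, ht]
        · rw [h.zero v (fun h' => hv' (intVerts_sdiff_of h' ht))]
          simp [bD, ht]
  · funext f
    by_cases hf : f ∈ D
    · simp [ins, glue, hf]
    · by_cases hf' : f ∈ F
      · simp [glue, hf, outP, hf']
      · simp [glue, hf, outP, hf', h.off f hf']
  · funext e
    by_cases he : e ∈ intEdges D
    · simp [ins, glue, he]
    · by_cases he' : e ∈ intEdges (F \ D)
      · simp [glue, he, outP, he']
      · simp only [glue, he, outP, he', if_false]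
        by_cases heF : e ∈ intEdges F
        · have hb : e ∈ bdE D := by
            rw [mem_bdE]
            rw [mem_intEdges] at he he' heF
            simp only [Finset.mem_sdiff] at he'
            tauto
          rw [hc.cut e hb]
        · rw [h.cut e heF]

theorem outP_glue {D F : Finset P2} {q : ℤ} {α : Cfg} (β : Cfg)
    (hα : ValidB (F \ D) (bD D q) α) : outP D F q (glue D q α β) = α := by
  refine Prod.ext ?_ (Prod.ext ?_ ?_)
  · funext v
    by_cases hv : v ∈ intVerts (F \ D)
    · have hv' : v ∉ intVerts D := fun h => not_tch_of_intVerts_sdiff hv (tch_of_intVerts h)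
      simp [outP, glue, hv, hv']
    · simp only [outP, hv, if_false]
      exact (hα.bdry v hv).symm
  · funext f
    by_cases hf : f ∈ F \ D
    · have hf' : f ∉ D := (Finset.mem_sdiff.1 hf).2
      simp only [outP, hf, if_true, glue, hf', if_false]
    · simp only [outP, hf, if_false]
      exact (hα.off f hf).symm
  · funext e
    by_cases he : e ∈ intEdges (F \ D)
    · have he' : e ∉ intEdges D := by
        rw [mem_intEdges] at he ⊢
        simp only [Finset.mem_sdiff] at he
        tauto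
      simp only [outP, he, if_true, glue, he', if_false]
    · simp only [outP, he, if_false]
      exact (hα.cut e he).symm

theorem sum_cutConf' {M : Type*} [AddCommMonoid M] {F D : Finset P2} {q : ℤ} (hsep : Sep D F)
    (hq : Even q) (Φ : Cfg → M) :
    ∑ ω ∈ cutConf F D q, Φ ω = ∑ α ∈ confB (F \ D) (bD D q), ∑ β ∈ conf D, Φ (glue D q α β) := by
  rw [← Finset.sum_product']
  symm
  refine Finset.sum_nbij' (fun p => glue D q p.1 p.2) (fun ω => (outP D F q ω, ins D q ω))
    ?_ ?_ ?_ ?_ ?_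
  · rintro ⟨α, β⟩ h
    rw [Finset.mem_product, mem_confB, mem_conf] at h
    exact mem_cutConf.2 ⟨valid_glue' hsep h.1 hq h.2, cutAt_glue β (cutAt_confB hq h.1)⟩
  · intro ω h
    rw [mem_cutConf] at h
    rw [Finset.mem_product, mem_confB, mem_conf]
    exact ⟨validB_outP h.1 h.2, valid_ins hsep.sub h.1 h.2⟩
  · rintro ⟨α, β⟩ h
    rw [Finset.mem_product, mem_confB, mem_conf] at h
    refine Prod.ext ?_ ?_
    · exact outP_glue β h.1
    · exact ins_glue α h.2
  · intro ω h
    rw [mem_cutConf] at h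
    exact glue_outP h.1 h.2
  · rintro ⟨α, β⟩ _
    rfl

theorem wtOut_eq {c : ℝ} {F D : Finset P2} {q : ℤ} (hq : Even q) {α : Cfg}
    (hα : ValidB (F \ D) (bD D q) α) : wtOut c F D α = wt c (F \ D) α := by
  have hsub : intEdges (F \ D) ⊆ intEdges F \ intEdges D := by
    intro e he
    rw [Finset.mem_sdiff]
    refine ⟨intEdges_mono Finset.sdiff_subset he, ?_⟩
    rw [mem_intEdges] at he ⊢
    simp only [Finset.mem_sdiff] at he
    tauto
  unfold wtOut wt
  symm
  refine Finset.prod_subset hsub fun e he he' => ?_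
  rw [Finset.mem_sdiff] at he
  have hb : e ∈ bdE D := by
    rw [mem_bdE]
    rw [mem_intEdges] at he'
    rw [mem_intEdges, mem_intEdges] at he
    simp only [Finset.mem_sdiff] at he'
    tauto
  have hc := cutAt_confB hq hα
  have hs : src e ∈ bdV D := by
    rw [mem_bdV]
    refine ⟨?_, (not_int_of_not_intEdges he.2).1⟩
    rw [mem_bdE] at hb
    by_cases h1 : fA e ∈ D
    · exact ⟨_, h1, Dmp341.isCorner_src_fA e⟩
    · exact ⟨fB e, by tauto, Dmp341.isCorner_src_fB e⟩
  have ht : tgt e ∈ bdV D := by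
    rw [mem_bdV]
    refine ⟨?_, (not_int_of_not_intEdges he.2).2⟩
    rw [mem_bdE] at hb
    by_cases h1 : fA e ∈ D
    · exact ⟨_, h1, Dmp341.isCorner_tgt_fA e⟩
    · exact ⟨fB e, by tauto, Dmp341.isCorner_tgt_fB e⟩
  unfold ew
  rw [hc.cut e hb, hc.ht _ hs, hc.ht _ ht]
  simp

/-- **One-cut factorisation.** -/
theorem sum_cut_wt (c : ℝ) {F D : Finset P2} {q : ℤ} (hsep : Sep D F) (hq : Even q)
    (Φ : Cfg → ℝ) :
    ∑ ω ∈ cutConf F D q, wt c F ω * Φ ω =
      ∑ α ∈ confB (F \ D) (bD D q), ∑ β ∈ conf D,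
        wt c (F \ D) α * wt c D β * Φ (glue D q α β) := by
  rw [sum_cutConf' hsep hq]
  refine Finset.sum_congr rfl fun α hα => Finset.sum_congr rfl fun β hβ => ?_
  rw [mem_confB] at hα
  rw [mem_conf] at hβ
  rw [wt_glue hsep.sub (cutAt_confB hq hα) hβ, wtOut_eq hq hα]

theorem sum_cut_wt_one (c : ℝ) {F D : Finset P2} {q : ℤ} (hsep : Sep D F) (hq : Even q) :
    ∑ ω ∈ cutConf F D q, wt c F ω = zQ c (F \ D) (tch D) q * Z c D := by
  have h := sum_cut_wt c hsep hq (fun _ => 1)
  simp only [mul_one] at h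
  rw [h, ← Finset.sum_mul_sum]
  rfl

/-- **(F1)** -/
theorem pr_cutAt (c : ℝ) {F D : Finset P2} {q : ℤ} (hsep : Sep D F) (hq : Even q) :
    Pr c F {ω | CutAt D q ω} = zQ c (F \ D) (tch D) q * Z c D / Z c F := by
  classical
  rw [← sum_cut_wt_one c hsep hq]
  unfold Pr
  rw [E_eq_div]
  congr 1
  unfold cutConf
  rw [Finset.sum_filter]
  refine Finset.sum_congr rfl fun ω _ => ?_
  simp only [Set.mem_ofPred_eq]
  by_cases h : CutAt D q ω <;> simp [h]

end Crest.Agent.R161.Ann770
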