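import Crest.Agent.R161.ExInv_792
import Crest.Agent.R161.Csq2_472
import Crest.Agent.R161.Box_760
import Mathlib.Probability.ProductMeasure

/-!
# Row 161: the plane state as a measure on `Cfg` (helper760)

From a measure `P` on six-vertex configurations of the plane (R150), `Qb c P` is the law of
`(k, h, z)`: heights by the dictionary `khmap`, cut variables sampled independently given the heights.

* `noise c` : i.i.d. Bernoulli `(1/c)` variables; `zr` : rule for the cut variables
* `Qb c P := (P.prod (noise c)).map Phi`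
* `map_hts_Qb : (Qb c P).map hts = P.map khmap`, `map_fst_Qb`
* `integral_Qb_pattern` : `∫ g(k,h) 1{z = η on S} dQb = ∫ g(khmap w) ∏_{e ∈ S} pz dP`
* `condIndep_Qb`, `gvalid_Qb`, `map_trans_Qb`, `tinv_z_Qb`
-/

set_option autoImplicit false

noncomputable section

namespace Crest.Agent.R161.Qb760

open MeasureTheory
open Crest.Agent.R161.Geo729 Crest.Agent.R161.Defs372
open Crest.Agent.R150.Hgt989 (Conf relH Ice dx dy)
open Crest.Agent.R150.Pls989 (IsPlane)
open Crest.Agent.R161.ExInv792 (KH khmap hts measurable_khmap measurable_hts)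
open Crest.Agent.R161.Csq472 (pcut)

/-! ### noise -/

/-- Bernoulli law on `Bool` -/
def bern (p : ℝ) : Measure Bool :=
  ENNReal.ofReal p • Measure.dirac true + ENNReal.ofReal (1 - p) • Measure.dirac false

lemma bern_apply (p : ℝ) (t : Set Bool) : bern p t =
    ENNReal.ofReal p * t.indicator 1 true + ENNReal.ofReal (1 - p) * t.indicator 1 false := by
  unfold bern
  simp only [Measure.coe_add, Measure.coe_smul, Pi.add_apply, Pi.smul_apply, smul_eq_mul]
  rw [Measure.dirac_apply' _ t.toFinite.measurableSet, Measure.dirac_apply' _ t.toFinite.measurableSet]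

lemma isProb_bern {p : ℝ} (h0 : 0 ≤ p) (h1 : p ≤ 1) : IsProbabilityMeasure (bern p) := by
  constructor
  rw [bern_apply]
  simp only [Set.indicator_univ, Pi.one_apply, mul_one]
  rw [← ENNReal.ofReal_add h0 (by linarith), show p + (1 - p) = 1 by ring, ENNReal.ofReal_one]

/-- Bernoulli parameter `1/c`, clamped so that it is always a probability -/
def pp (c : ℝ) : ℝ := max 0 (min 1 (1 / c))

lemma pp_eq {c : ℝ} (hc : 1 ≤ c) : pp c = 1 / c := by
  unfold pp
  have h1 : 1 / c ≤ 1 := by rw [div_le_one (by linarith)]; exact hc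
  have h0 : 0 ≤ 1 / c := by positivity
  rw [min_eq_right h1, max_eq_right h0]

instance isProb_bern_pp (c : ℝ) : IsProbabilityMeasure (bern (pp c)) :=
  isProb_bern (le_max_left _ _) (max_le zero_le_one (min_le_left _ _))

/-- i.i.d. Bernoulli variables on the edges -/
def noise (c : ℝ) : Measure (Edge → Bool) := Measure.infinitePi fun _ : Edge => bern (pp c)

instance isProb_noise (c : ℝ) : IsProbabilityMeasure (noise c) := by
  unfold noise; infer_instance

/-- cut variables from the heights and the noise -/
def zr (p : KH) (b : Edge → Bool) (e : Edge) : Bool :=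
  if p.1 (src e) = p.1 (tgt e) then (if p.2 (fA e) = p.2 (fB e) then b e else true) else false

/-- the configuration -/
def Phi (x : Conf × (Edge → Bool)) : Cfg :=
  ((khmap x.1).1, (khmap x.1).2, zr (khmap x.1) x.2)

/-- the plane state on `Cfg` -/
def Qb (c : ℝ) (P : Measure Conf) : Measure Cfg := (P.prod (noise c)).map Phi


lemma measurable_zr (e : Edge) : Measurable fun x : KH × (Edge → Bool) => zr x.1 x.2 e := by
  let T : Type := (ℤ × ℤ) × (ℤ × ℤ) × Bool
  have h1 : Measurable fun t : T => (if t.1.1 = t.1.2 then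
      (if t.2.1.1 = t.2.1.2 then t.2.2 else true) else false : Bool) := measurable_of_countable _
  have h2 : Measurable fun x : KH × (Edge → Bool) =>
      (((x.1.1 (src e), x.1.1 (tgt e)), (x.1.2 (fA e), x.1.2 (fB e)), x.2 e) : T) := by
    have a1 : ∀ v : P2, Measurable fun x : KH × (Edge → Bool) => x.1.1 v := fun v =>
      (measurable_pi_apply v).comp (measurable_fst.comp measurable_fst)
    have a2 : ∀ v : P2, Measurable fun x : KH × (Edge → Bool) => x.1.2 v := fun v =>
      (measurable_pi_apply v).comp (measurable_snd.comp measurable_fst)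
    exact ((a1 _).prodMk (a1 _)).prodMk (((a2 _).prodMk (a2 _)).prodMk
      ((measurable_pi_apply e).comp measurable_snd))
  exact h1.comp h2

lemma measurable_Phi : Measurable Phi := by
  have h1 : Measurable fun x : Conf × (Edge → Bool) => khmap x.1 :=
    measurable_khmap.comp measurable_fst
  refine (measurable_fst.comp h1).prodMk ((measurable_snd.comp h1).prodMk ?_)
  refine measurable_pi_lambda _ fun e => ?_
  exact (measurable_zr e).comp (h1.prodMk measurable_snd)

instance isProb_Qb (c : ℝ) (P : Measure Conf) [IsProbabilityMeasure P] :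
    IsProbabilityMeasure (Qb c P) :=
  Measure.isProbabilityMeasure_map measurable_Phi.aemeasurable

/-- **height marginal** -/
theorem map_hts_Qb (c : ℝ) (P : Measure Conf) [IsProbabilityMeasure P] :
    (Qb c P).map hts = P.map khmap := by
  unfold Qb
  rw [Measure.map_map measurable_hts measurable_Phi]
  have : hts ∘ Phi = khmap ∘ Prod.fst := rfl
  rw [this, ← Measure.map_map measurable_khmap measurable_fst, Measure.map_fst_prod]
  simp

theorem map_fst_Qb (c : ℝ) (P : Measure Conf) [IsProbabilityMeasure P] :
    (Qb c P).map Prod.fst = P.map (fun w v => relH w (v.1 + v.2) (v.2 - v.1)) := by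
  have h : (Prod.fst : Cfg → (P2 → ℤ)) = Prod.fst ∘ hts := rfl
  rw [h, ← Measure.map_map measurable_fst measurable_hts, map_hts_Qb,
    Measure.map_map measurable_fst measurable_khmap]
  rfl

/-! ### the conditional law of the cut variables -/

/-- conditional probability of `z e = y` given the heights -/
def pz (c : ℝ) (p : KH) (e : Edge) (y : Bool) : ℝ :=
  if y = true then pcut c p e else 1 - pcut c p e

lemma pz_nonneg {c : ℝ} (hc : 1 ≤ c) (p : KH) (e : Edge) (y : Bool) : 0 ≤ pz c p e y := by
  unfold pz
  have h0 := Csq472.pcut_nonneg hc p e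
  have h1 := Csq472.pcut_le_one hc p e
  split_ifs <;> linarith

lemma pz_le_one {c : ℝ} (hc : 1 ≤ c) (p : KH) (e : Edge) (y : Bool) : pz c p e y ≤ 1 := by
  unfold pz
  have h0 := Csq472.pcut_nonneg hc p e
  have h1 := Csq472.pcut_le_one hc p e
  split_ifs <;> linarith

lemma bern_zr {c : ℝ} (hc : 1 ≤ c) (p : KH) (e : Edge) (y : Bool) :
    bern (pp c) {x | (if p.1 (src e) = p.1 (tgt e) then
      (if p.2 (fA e) = p.2 (fB e) then x else true) else false) = y} =
      ENNReal.ofReal (pz c p e y) := by
  rw [bern_apply, pp_eq hc]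
  have h1 : 0 ≤ 1 - 1 / c := by
    have : 1 / c ≤ 1 := by rw [div_le_one (by linarith)]; exact hc
    linarith
  have h0 : 0 ≤ 1 / c := by positivity
  have hs : ENNReal.ofReal (1 / c) + ENNReal.ofReal (1 - 1 / c) = 1 := by
    rw [← ENNReal.ofReal_add h0 h1, show 1 / c + (1 - 1 / c) = 1 by ring, ENNReal.ofReal_one]
  unfold pz pcut
  by_cases h2 : p.1 (src e) = p.1 (tgt e) <;> by_cases h3 : p.2 (fA e) = p.2 (fB e) <;>
    cases y <;> simp [h2, h3, Set.indicator] at hs ⊢
  all_goals exact hs

lemma noise_pattern {c : ℝ} (hc : 1 ≤ c) (p : KH) (S : Finset Edge) (η : Edge → Bool) :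
    (noise c).real {b | ∀ e ∈ S, zr p b e = η e} = ∏ e ∈ S, pz c p e (η e) := by
  have h1 : {b : Edge → Bool | ∀ e ∈ S, zr p b e = η e} = Set.pi (↑S) fun e =>
      {x | (if p.1 (src e) = p.1 (tgt e) then
      (if p.2 (fA e) = p.2 (fB e) then x else true) else false) = η e} := by
    ext b
    simp only [Set.mem_ofPred_eq, Set.mem_pi, Finset.mem_coe, zr]
  unfold Measure.real noise
  rw [h1, Measure.infinitePi_pi _ fun e _ => Set.Finite.measurableSet (Set.toFinite _)]
  rw [Finset.prod_congr rfl fun e _ => bern_zr hc p e (η e), ENNReal.toReal_prod]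
  exact Finset.prod_congr rfl fun e _ => ENNReal.toReal_ofReal (pz_nonneg hc p e _)

lemma measurableSet_pat (S : Finset Edge) (η : Edge → Bool) :
    MeasurableSet {ω : Cfg | ∀ e ∈ S, ω.2.2 e = η e} := by
  have : {ω : Cfg | ∀ e ∈ S, ω.2.2 e = η e} = ⋂ e ∈ S, (fun ω : Cfg => ω.2.2 e) ⁻¹' {η e} := by
    ext ω; simp
  rw [this]
  refine Finset.measurableSet_biInter _ fun e _ => ?_
  exact ((measurable_pi_apply e).comp (measurable_snd.comp measurable_snd))
    (measurableSet_singleton _)

open Classical in
/-- **the law of the cut variables given the heights** -/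
theorem integral_Qb_pattern {c : ℝ} (hc : 1 ≤ c) (P : Measure Conf) [IsProbabilityMeasure P]
    {g : KH → ℝ} (hg : Measurable g) (hi : Integrable (fun w => g (khmap w)) P)
    (S : Finset Edge) (η : Edge → Bool) :
    ∫ ω, (if ∀ e ∈ S, ω.2.2 e = η e then g (hts ω) else 0) ∂(Qb c P) =
      ∫ w, g (khmap w) * ∏ e ∈ S, pz c (khmap w) e (η e) ∂P := by
  unfold Qb
  have hm : Measurable fun ω : Cfg => (if ∀ e ∈ S, ω.2.2 e = η e then g (hts ω) else 0) :=
    Measurable.ite (measurableSet_pat S η) (hg.comp measurable_hts) measurable_const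
  rw [integral_map measurable_Phi.aemeasurable hm.aestronglyMeasurable]
  have hint : Integrable (fun x : Conf × (Edge → Bool) =>
      (if ∀ e ∈ S, (Phi x).2.2 e = η e then g (hts (Phi x)) else 0)) (P.prod (noise c)) := by
    have h1 : Integrable (fun x : Conf × (Edge → Bool) => g (khmap x.1)) (P.prod (noise c)) :=
      hi.comp_fst _
    refine h1.mono (hm.comp measurable_Phi).aestronglyMeasurable
      (Filter.Eventually.of_forall fun x => ?_)
    split_ifs
    · exact le_rfl
    · simp
  rw [integral_prod _ hint]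
  refine integral_congr_ae (Filter.Eventually.of_forall fun w => ?_)
  simp only
  have h2 : (fun b : Edge → Bool => (if ∀ e ∈ S, (Phi (w, b)).2.2 e = η e then
      g (hts (Phi (w, b))) else 0)) =
      {b : Edge → Bool | ∀ e ∈ S, zr (khmap w) b e = η e}.indicator fun _ => g (khmap w) := by
    funext b
    by_cases h : ∀ e ∈ S, zr (khmap w) b e = η e
    · rw [if_pos (by exact h), Set.indicator_of_mem (by exact h)]; rfl
    · rw [if_neg (by exact h), Set.indicator_of_notMem (by exact h)]
  rw [h2, integral_indicator_const, noise_pattern hc, smul_eq_mul, mul_comm]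
  have : {b : Edge → Bool | ∀ e ∈ S, zr (khmap w) b e = η e} =
      (fun b : Edge → Bool => Phi (w, b)) ⁻¹' {ω : Cfg | ∀ e ∈ S, ω.2.2 e = η e} := rfl
  rw [this]
  exact (measurable_Phi.comp measurable_prodMk_left) (measurableSet_pat S η)


theorem condIndep_Qb {c : ℝ} (hc : 1 ≤ c) (P : Measure Conf) [IsProbabilityMeasure P] :
    Csq472.CondIndep c (Qb c P) := by
  classical
  intro S η
  have h1 := integral_Qb_pattern hc P (g := fun _ => 1) measurable_const
    (integrable_const _) S η
  have h2 : ∫ ω, (if ∀ e ∈ S, ω.2.2 e = η e then (1 : ℝ) else 0) ∂(Qb c P) =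
      ((Qb c P) {ω | ∀ e ∈ S, ω.2.2 e = η e}).toReal := by
    have : (fun ω : Cfg => (if ∀ e ∈ S, ω.2.2 e = η e then (1 : ℝ) else 0)) =
        {ω : Cfg | ∀ e ∈ S, ω.2.2 e = η e}.indicator 1 := by
      funext ω
      by_cases h : ∀ e ∈ S, ω.2.2 e = η e
      · rw [if_pos h, Set.indicator_of_mem (by exact h)]; rfl
      · rw [if_neg h, Set.indicator_of_notMem (by exact h)]
    rw [this, integral_indicator_one (measurableSet_pat S η)]
    rfl
  rw [← h2, h1]
  simp only [one_mul]
  have h3 : ∫ ω, ∏ e ∈ S, (if η e = true then pcut c (Csq472.hts ω) e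
      else 1 - pcut c (Csq472.hts ω) e) ∂(Qb c P) =
      ∫ p : KH, ∏ e ∈ S, pz c p e (η e) ∂((Qb c P).map hts) := by
    refine (integral_map (f := fun p : KH => ∏ e ∈ S, pz c p e (η e))
      measurable_hts.aemeasurable ?_).symm
    refine (Finset.measurable_prod _ fun e _ => ?_).aestronglyMeasurable
    unfold pz
    by_cases h : η e = true
    · simp only [h, if_true]; exact Csq472.measurable_pcut c e
    · simp only [h]; exact measurable_const.sub (Csq472.measurable_pcut c e)
  rw [h3, map_hts_Qb, integral_map measurable_khmap.aemeasurable]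
  refine (Finset.measurable_prod _ fun e _ => ?_).aestronglyMeasurable
  unfold pz
  by_cases h : η e = true
  · simp only [h, if_true]; exact Csq472.measurable_pcut c e
  · simp only [h]; exact measurable_const.sub (Csq472.measurable_pcut c e)

/-! ### the general integral formula -/

open Classical in
/-- the cut variables with `T` the set of cut edges -/
def zT (T : Finset Edge) (e : Edge) : Bool := decide (e ∈ T)

/-- the configuration with given heights and cut set -/
def mk (p : KH) (T : Finset Edge) : Cfg := (p.1, p.2, zT T)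

open Classical in
lemma sum_pat {α : Type*} [AddCommMonoid α] (S : Finset Edge) (z : Edge → Bool) (f : Finset Edge → α) :
    ∑ T ∈ S.powerset, (if ∀ e ∈ S, z e = zT T e then f T else 0) = f (S.filter fun e => z e = true) := by
  rw [Finset.sum_eq_single (S.filter fun e => z e = true)]
  · rw [if_pos]
    intro e he
    unfold zT
    by_cases h : z e = true
    · simp [h, he]
    · simp [h]
  · intro T hT hne
    rw [if_neg]
    intro h
    apply hne
    ext e
    simp only [Finset.mem_filter]
    constructor
    · intro he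
      have heS := Finset.mem_powerset.1 hT he
      refine ⟨heS, ?_⟩
      rw [h e heS]
      simp [zT, he]
    · rintro ⟨heS, hz⟩
      rw [h e heS] at hz
      simpa [zT] using hz
  · intro h
    exact absurd (Finset.mem_powerset.2 (Finset.filter_subset _ _)) h

/-- the function depends only on the heights and on the cut variables in `S` -/
def DepZ {α : Type*} (S : Finset Edge) (F : Cfg → α) : Prop :=
  ∀ ω ω' : Cfg, hts ω = hts ω' → (∀ e ∈ S, ω.2.2 e = ω'.2.2 e) → F ω = F ω'

/-- conditional expectation given the heights -/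
def cexp (c : ℝ) (S : Finset Edge) (F : Cfg → ℝ) (p : KH) : ℝ :=
  ∑ T ∈ S.powerset, (∏ e ∈ S, pz c p e (zT T e)) * F (mk p T)

theorem integral_Qb {c : ℝ} (hc : 1 ≤ c) (P : Measure Conf) [IsProbabilityMeasure P]
    (S : Finset Edge) {F : Cfg → ℝ} (hF : Measurable F) (hS : DepZ S F)
    (hi : ∀ T ∈ S.powerset, Integrable (fun w => F (mk (khmap w) T)) P) :
    ∫ ω, F ω ∂(Qb c P) = ∫ w, cexp c S F (khmap w) ∂P := by
  classical
  have hmk : ∀ T : Finset Edge, Measurable fun p : KH => mk p T := fun T =>
    measurable_fst.prodMk (measurable_snd.prodMk measurable_const)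
  have h1 : ∀ ω : Cfg, F ω = ∑ T ∈ S.powerset,
      (if ∀ e ∈ S, ω.2.2 e = zT T e then F (mk (hts ω) T) else 0) := by
    intro ω
    rw [sum_pat S ω.2.2 fun T => F (mk (hts ω) T)]
    refine hS _ _ rfl fun e he => ?_
    simp only [mk, zT]
    by_cases h : ω.2.2 e = true
    · simp [h, he]
    · simp [h]
  have h2 : ∀ T ∈ S.powerset, Integrable (fun ω : Cfg =>
      (if ∀ e ∈ S, ω.2.2 e = zT T e then F (mk (hts ω) T) else 0)) (Qb c P) := by
    intro T hT
    have h3 : Integrable (fun ω : Cfg => F (mk (hts ω) T)) (Qb c P) := by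
      have h4 : Integrable (fun p : KH => F (mk p T)) ((Qb c P).map hts) := by
        rw [map_hts_Qb]
        exact (integrable_map_measure (f := khmap) (g := fun p : KH => F (mk p T))
          (hF.comp (hmk T)).aestronglyMeasurable measurable_khmap.aemeasurable).2 (hi T hT)
      exact h4.comp_measurable measurable_hts
    have h5 := h3.indicator (measurableSet_pat S (zT T))
    refine h5.congr (Filter.Eventually.of_forall fun ω => ?_)
    by_cases h : ∀ e ∈ S, ω.2.2 e = zT T e
    · simp only [if_pos h]; rw [Set.indicator_of_mem (by exact h)]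
    · simp only [if_neg h]; rw [Set.indicator_of_notMem (by exact h)]
  rw [integral_congr_ae (Filter.Eventually.of_forall h1), integral_finsetSum _ h2]
  unfold cexp
  rw [integral_finsetSum]
  · refine Finset.sum_congr rfl fun T hT => ?_
    rw [integral_Qb_pattern hc P (g := fun p => F (mk p T)) (hF.comp (hmk T)) (hi T hT)]
    exact integral_congr_ae (Filter.Eventually.of_forall fun w => mul_comm _ _)
  · intro T hT
    have h6 : Measurable fun w : Conf => ∏ e ∈ S, pz c (khmap w) e (zT T e) := by
      refine Finset.measurable_prod _ fun e _ => ?_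
      unfold pz
      have h7 := (Csq472.measurable_pcut c e).comp measurable_khmap
      by_cases h : zT T e = true
      · simp only [h, if_true]; exact h7
      · simp only [h]; exact measurable_const.sub h7
    refine (hi T hT).bdd_mul h6.aestronglyMeasurable (c := 1)
      (Filter.Eventually.of_forall fun w => ?_)
    rw [Real.norm_of_nonneg (Finset.prod_nonneg fun e _ => pz_nonneg hc _ _ _)]
    exact Finset.prod_le_one (fun e _ => pz_nonneg hc _ _ _) fun e _ => pz_le_one hc _ _ _

/-! ### validity -/

lemma relH_parity (w : Conf) (p q : ℤ) : Even (relH w p q - (p + q)) := by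
  have h1 : ∀ q : ℤ, Even (relH w p q - relH w p 0 - q) := by
    intro q
    induction q using Int.induction_on with
    | zero => simp
    | succ q ih =>
      rw [Crest.Agent.R150.Hgt989.relH_succ_snd]
      unfold Crest.Agent.R150.Hgt989.dy
      split_ifs
      · convert ih using 1; ring
      · have : relH w p q + -1 - relH w p 0 - (q + 1) = (relH w p q - relH w p 0 - q) - 2 := by ring
        rw [this]
        exact ih.sub even_two
    | pred q ih =>
      have h2 := Crest.Agent.R150.Hgt989.relH_succ_snd w p (-(q : ℤ) - 1)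
      rw [sub_add_cancel] at h2
      rw [h2] at ih
      unfold Crest.Agent.R150.Hgt989.dy at ih
      split_ifs at ih
      · convert ih using 1; ring
      · have : relH w p (-(q : ℤ) - 1) - relH w p 0 - (-q - 1) =
            (relH w p (-(q : ℤ) - 1) + -1 - relH w p 0 - -q) + 2 := by ring
        rw [this]
        exact ih.add even_two
  have h3 : ∀ p : ℤ, Even (relH w p 0 - p) := by
    intro p
    have hs : ∀ p : ℤ, relH w (p + 1) 0 = relH w p 0 + dx w (p + 1, 0) := by
      intro p
      unfold relH
      rw [Crest.Agent.R150.Hgt989.signedSum_succ (fun i => dx w (i, 0)) 1 (p + 1)]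
      simp [Crest.Agent.R150.Hgt989.signedSum_self]
    induction p using Int.induction_on with
    | zero => simp
    | succ p ih =>
      rw [hs]
      unfold Crest.Agent.R150.Hgt989.dx
      split_ifs
      · have : relH w p 0 + -1 - (p + 1) = (relH w p 0 - p) - 2 := by ring
        rw [this]
        exact ih.sub even_two
      · convert ih using 1; ring
    | pred p ih =>
      have h2 := hs (-(p : ℤ) - 1)
      rw [sub_add_cancel] at h2
      rw [h2] at ih
      unfold Crest.Agent.R150.Hgt989.dx at ih
      split_ifs at ih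
      · have : relH w (-(p : ℤ) - 1) 0 - (-p - 1) =
            (relH w (-(p : ℤ) - 1) 0 + -1 - -p) + 2 := by ring
        rw [this]
        exact ih.add even_two
      · convert ih using 1; ring
  have h4 := (h1 q).add (h3 p)
  have h5 : relH w p q - (p + q) = relH w p q - relH w p 0 - q + (relH w p 0 - p) := by ring
  rw [h5]
  exact h4

lemma abs_relH_fst {w : Conf} (h : Ice w) (p q : ℤ) : |relH w (p + 1) q - relH w p q| = 1 := by
  rw [Crest.Agent.R150.Hgt989.relH_succ_fst h, add_sub_cancel_left]
  exact Crest.Agent.R150.Hgt989.abs_dx _ _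

lemma abs_relH_snd (w : Conf) (p q : ℤ) : |relH w p (q + 1) - relH w p q| = 1 := by
  rw [Crest.Agent.R150.Hgt989.relH_succ_snd, add_sub_cancel_left]
  exact Crest.Agent.R150.Hgt989.abs_dy _ _

/-- corner condition for the heights -/
lemma corner_khmap {w : Conf} (h : Ice w) (f v : P2) (hc : Geo729.IsCorner v f) :
    |(khmap w).1 v - (khmap w).2 f| = 1 := by
  obtain ⟨a, b⟩ := f
  simp only [khmap]
  rcases hc with rfl | rfl | rfl | rfl <;> simp only
  · rw [abs_sub_comm]
    exact abs_relH_fst h (a + b) (b - a)
  · have := abs_relH_snd w (a + b + 1) (b - a - 1)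
    rw [abs_sub_comm, sub_add_cancel] at this
    rw [show a + 1 + b = a + b + 1 by ring, show b - (a + 1) = b - a - 1 by ring]
    exact this
  · have := abs_relH_snd w (a + b + 1) (b - a)
    rw [show a + (b + 1) = a + b + 1 by ring, show b + 1 - a = b - a + 1 by ring]
    exact this
  · have := abs_relH_fst h (a + b + 1) (b - a)
    rw [show a + 1 + (b + 1) = a + b + 1 + 1 by ring, show b + 1 - (a + 1) = b - a by ring]
    exact this

lemma gvalid_Phi {x : Conf × (Edge → Bool)} (h : Ice x.1) : GValid (Phi x) where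
  zero := by simp [Phi, khmap]
  even v := by
    have h1 := relH_parity x.1 (v.1 + v.2) (v.2 - v.1)
    have h2 : v.1 + v.2 + (v.2 - v.1) = 2 * v.2 := by ring
    rw [h2] at h1
    have h3 : (Phi x).1 v = (relH x.1 (v.1 + v.2) (v.2 - v.1) - 2 * v.2) + 2 * v.2 := by
      simp [Phi, khmap]
    rw [h3]
    exact h1.add (even_two_mul _)
  corner f v hv := corner_khmap h f v hv
  edge e := by
    have h1 : (Phi x).2.2 e = zr (khmap x.1) x.2 e := rfl
    have hk : (Phi x).1 = (khmap x.1).1 := rfl
    have hh : (Phi x).2.1 = (khmap x.1).2 := rfl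
    rw [EdgeOk, h1, hk, hh]
    unfold zr
    by_cases h2 : (khmap x.1).1 (src e) = (khmap x.1).1 (tgt e)
    · by_cases h3 : (khmap x.1).2 (fA e) = (khmap x.1).2 (fB e)
      · exact ⟨fun _ => h2, fun _ => h3⟩
      · simp [h2, h3]
    · simp only [h2, if_false]
      refine ⟨fun h4 => by simp at h4, fun _ => ?_⟩
      obtain ⟨g1, g2, g3, g4⟩ := Csq472.isCorner_edge e
      have c1 := corner_khmap h _ _ g1
      have c2 := corner_khmap h _ _ g2
      have c3 := corner_khmap h _ _ g3
      have c4 := corner_khmap h _ _ g4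
      rw [abs_eq (by norm_num)] at c1 c2 c3 c4
      omega

theorem gvalid_Qb (c : ℝ) {P : Measure Conf} [IsProbabilityMeasure P] (hi : ∀ᵐ w ∂P, Ice w) :
    ∀ᵐ ω ∂(Qb c P), GValid ω := by
  have h1 : ∀ᵐ x ∂(P.prod (noise c)), Ice x.1 :=
    Measure.quasiMeasurePreserving_fst.ae hi
  refine (ae_map_iff measurable_Phi.aemeasurable ?_).2 (h1.mono fun x hx => gvalid_Phi hx)
  -- measurability of the set of valid configurations
  have e1 : {ω : Cfg | GValid ω} = {ω : Cfg | ω.1 (0, 0) = 0} ∩ (⋂ v, {ω : Cfg | Even (ω.1 v)}) ∩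
      (⋂ f, ⋂ v, {ω : Cfg | Geo729.IsCorner v f → |ω.1 v - ω.2.1 f| = 1}) ∩
      (⋂ e, {ω : Cfg | EdgeOk ω e}) := by
    ext ω
    simp only [Set.mem_ofPred_eq, Set.mem_inter_iff, Set.mem_iInter]
    exact ⟨fun h => ⟨⟨⟨h.zero, h.even⟩, fun f v => h.corner f v⟩, h.edge⟩,
      fun h => ⟨h.1.1.1, h.1.1.2, fun f v => h.1.2 f v, h.2⟩⟩
  rw [e1]
  have m1 : ∀ v : P2, Measurable fun ω : Cfg => ω.1 v := fun v =>
    (measurable_pi_apply v).comp measurable_fst
  have m2 : ∀ v : P2, Measurable fun ω : Cfg => ω.2.1 v := fun v =>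
    (measurable_pi_apply v).comp (measurable_fst.comp measurable_snd)
  have m3 : ∀ v : Edge, Measurable fun ω : Cfg => ω.2.2 v := fun v =>
    (measurable_pi_apply v).comp (measurable_snd.comp measurable_snd)
  refine (((?_ : MeasurableSet _).inter ?_).inter ?_).inter ?_
  · exact m1 _ (measurableSet_singleton 0)
  · exact MeasurableSet.iInter fun v => m1 v (MeasurableSet.of_discrete (s := {x : ℤ | Even x}))
  · refine MeasurableSet.iInter fun f => MeasurableSet.iInter fun v => ?_
    exact ((m1 v).prodMk (m2 f))
      (MeasurableSet.of_discrete (s := {x : ℤ × ℤ | Geo729.IsCorner v f → |x.1 - x.2| = 1}))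
  · refine MeasurableSet.iInter fun e => ?_
    exact (((m1 (src e)).prodMk (m1 (tgt e))).prodMk (((m2 (fA e)).prodMk (m2 (fB e))).prodMk (m3 e)))
      (MeasurableSet.of_discrete (s := {x : (ℤ × ℤ) × (ℤ × ℤ) × Bool |
        (x.2.2 = true → x.1.1 = x.1.2) ∧ (x.2.2 = false → x.2.1.1 = x.2.1.2)}))

end Crest.Agent.R161.Qb760
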