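import Crest.Agent.R161.SwT_597
import Crest.Agent.R161.Qb_760
import Crest.Agent.R161.Iso_760
import Crest.Agent.R161.NoInf_123
import Crest.Agent.R161.InsQ_863
import Crest.Agent.R161.QbT_760
import Crest.Agent.R161.ZCv_760
import Crest.Agent.R161.BK2_123

-- ▼ part R161/Dic_760
section

/-!
# Row 161: dictionary between six-vertex and Ashkin–Teller coordinates (helper760)

* `H6 κ` : six-vertex height function of Ashkin–Teller heights; `H6_vert`, `H6_face`, `cover`
* `dx_cf`, `dy_cf`, `ice_cf'`, `relH_cf`, `cf_relH`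
* `CV κ` : corner condition in the whole plane; `stp_H6`
* `cv_glue`, `valid_ins'`
* `e6` : six-vertex vertex of an edge; `wf c κ e` : weight; `wf_eq`
-/

set_option autoImplicit false

noncomputable section

namespace Crest.Agent.R161.Mkv760

open MeasureTheory
open Crest.Agent.R161.Geo729 Crest.Agent.R161.Defs372 Crest.Agent.R161.Dmp341
open Crest.Agent.R150.Hgt989 (Conf relH Ice dx dy relH_succ_snd relH_succ_fst relH_zero)
open Crest.Agent.R150.Pls989 (IsPlane)
open Crest.Agent.R161.ExInv792 (KH khmap hts measurable_khmap measurable_hts)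
open Crest.Agent.R161.SwT597 (Stp cf NC)
open Crest.Agent.R161.Qb760

/-! ### coordinates -/

/-- six-vertex height function of Ashkin–Teller heights -/
def H6 (κ : KH) (x : ℤ × ℤ) : ℤ :=
  if (x.1 + x.2) % 2 = 0 then κ.1 ((x.1 - x.2) / 2, (x.1 + x.2) / 2)
  else κ.2 ((x.1 - x.2 - 1) / 2, (x.1 + x.2 - 1) / 2)

/-- six-vertex face of a vertex -/
def v6 (v : P2) : ℤ × ℤ := (v.1 + v.2, v.2 - v.1)
/-- six-vertex face of a face -/
def f6 (f : P2) : ℤ × ℤ := (f.1 + f.2 + 1, f.2 - f.1)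

lemma H6_vert (κ : KH) (v : P2) : H6 κ (v6 v) = κ.1 v := by
  obtain ⟨a, b⟩ := v
  unfold H6 v6
  simp only
  have h1 : (a + b + (b - a)) % 2 = 0 := by omega
  rw [if_pos h1, show (a + b - (b - a)) / 2 = a by omega, show (a + b + (b - a)) / 2 = b by omega]

lemma H6_face (κ : KH) (f : P2) : H6 κ (f6 f) = κ.2 f := by
  obtain ⟨a, b⟩ := f
  unfold H6 f6
  simp only
  have h1 : ¬ (a + b + 1 + (b - a)) % 2 = 0 := by omega
  rw [if_neg h1, show (a + b + 1 - (b - a) - 1) / 2 = a by omega,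
    show (a + b + 1 + (b - a) - 1) / 2 = b by omega]

lemma cover (x : ℤ × ℤ) : (∃ v : P2, x = v6 v) ∨ (∃ f : P2, x = f6 f) := by
  obtain ⟨p, q⟩ := x
  unfold v6 f6
  by_cases h : (p + q) % 2 = 0
  · left
    refine ⟨((p - q) / 2, (p + q) / 2), ?_⟩
    ext
    · simp only; omega
    · simp only; omega
  · right
    refine ⟨((p - q - 1) / 2, (p + q - 1) / 2), ?_⟩
    ext
    · simp only; omega
    · simp only; omega

lemma H6_khmap (w : Conf) : H6 (khmap w) = fun x => relH w x.1 x.2 := by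
  funext x
  rcases cover x with ⟨v, rfl⟩ | ⟨f, rfl⟩
  · rw [H6_vert]; rfl
  · rw [H6_face]; rfl

/-! ### arrows of a height function -/

lemma dx_cf {H : ℤ × ℤ → ℤ} (h : Stp H) (p q : ℤ) :
    dx (cf H) (p, q) = H (p, q) - H (p - 1, q) := by
  have h1 := (h (p - 1) q).1
  rw [sub_add_cancel] at h1
  unfold dx cf
  simp only [decide_eq_true_eq]
  split_ifs with h2
  · exact h2.symm
  · rcases (abs_eq (by norm_num)).1 h1 with h3 | h3
    · exact h3.symm
    · exact absurd h3 h2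

lemma dy_cf {H : ℤ × ℤ → ℤ} (h : Stp H) (p q : ℤ) :
    dy (cf H) (p, q) = H (p, q) - H (p, q - 1) := by
  have h1 := (h p (q - 1)).2
  rw [sub_add_cancel] at h1
  unfold dy cf
  simp only [decide_eq_true_eq]
  split_ifs with h2
  · exact h2.symm
  · rcases (abs_eq (by norm_num)).1 h1 with h3 | h3
    · exact absurd h3 h2
    · exact h3.symm

lemma ice_cf' {H : ℤ × ℤ → ℤ} (h : Stp H) : Ice (cf H) := by
  intro p q
  rw [dx_cf h, dy_cf h, dy_cf h, dx_cf h]
  simp only [add_sub_cancel_right]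
  ring

lemma relH_cf {H : ℤ × ℤ → ℤ} (h : Stp H) (p q : ℤ) :
    relH (cf H) p q = H (p, q) - H (0, 0) := by
  have hp : ∀ p : ℤ, relH (cf H) p 0 = H (p, 0) - H (0, 0) := by
    intro p
    induction p using Int.induction_on with
    | zero => simp
    | succ p ih =>
      rw [relH_succ_fst (ice_cf' h), ih, dx_cf h, add_sub_cancel_right]
      ring
    | pred p ih =>
      have h1 := relH_succ_fst (ice_cf' h) (-(p : ℤ) - 1) 0
      rw [sub_add_cancel, ih, dx_cf h] at h1
      linarith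
  induction q using Int.induction_on with
  | zero => exact hp p
  | succ q ih =>
    rw [relH_succ_snd, ih, dy_cf h, add_sub_cancel_right]
    ring
  | pred q ih =>
    have h1 := relH_succ_snd (cf H) p (-(q : ℤ) - 1)
    rw [sub_add_cancel, ih, dy_cf h] at h1
    linarith

lemma cf_relH {w : Conf} (h : Ice w) : cf (fun x => relH w x.1 x.2) = w := by
  funext v
  obtain ⟨p, q⟩ := v
  have h1 := relH_succ_snd w p (q - 1)
  have h2 := relH_succ_fst h (p - 1) q
  rw [sub_add_cancel] at h1 h2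
  unfold cf
  simp only [h1, add_sub_cancel_left]
  have h3 : relH w p (q - 1) + dy w (p, q) - relH w (p - 1) q = dx w (p, q) := by
    rw [← h1, h2]; ring
  rw [h3]
  unfold dx dy
  ext
  · by_cases h4 : (w (p, q)).1 = true
    · simp [h4]
    · simp [h4]
  · by_cases h4 : (w (p, q)).2 = true
    · simp [h4]
    · simp [h4]

/-! ### corner condition in the plane -/

/-- even vertex heights, corner condition everywhere -/
structure CV (κ : KH) : Prop where
  ev : ∀ v, Even (κ.1 v)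
  corner : ∀ f v, Geo729.IsCorner v f → |κ.1 v - κ.2 f| = 1

lemma stp_H6 {κ : KH} (h : CV κ) : Stp (H6 κ) := by
  intro p q
  rcases cover (p, q) with ⟨v, hv⟩ | ⟨f, hf⟩
  · obtain ⟨a, b⟩ := v
    have e0 := hv
    unfold v6 at e0
    simp only [Prod.mk.injEq] at e0
    have e1 : (p + 1, q) = f6 (a, b) := by unfold f6; ext <;> simp only <;> omega
    have e2 : (p, q + 1) = f6 (a - 1, b) := by unfold f6; ext <;> simp only <;> omega
    rw [hv, e1, e2, H6_vert, H6_face, H6_face]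
    constructor
    · rw [abs_sub_comm]; exact h.corner _ _ (by simp [Geo729.IsCorner])
    · rw [abs_sub_comm]; exact h.corner _ _ (by simp [Geo729.IsCorner])
  · obtain ⟨a, b⟩ := f
    have e0 := hf
    unfold f6 at e0
    simp only [Prod.mk.injEq] at e0
    have e1 : (p + 1, q) = v6 (a + 1, b + 1) := by unfold v6; ext <;> simp only <;> omega
    have e2 : (p, q + 1) = v6 (a, b + 1) := by unfold v6; ext <;> simp only <;> omega
    rw [hf, e1, e2, H6_vert, H6_face, H6_vert]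
    constructor
    · exact h.corner _ _ (by simp [Geo729.IsCorner])
    · exact h.corner _ _ (by simp [Geo729.IsCorner])

lemma cv_khmap {w : Conf} (h : Ice w) : CV (khmap w) where
  ev v := (gvalid_Phi (x := (w, fun _ => true)) h).even v
  corner f v hv := corner_khmap h f v hv

lemma cv_of_stp {κ : KH} (h : CV κ) : Ice (cf (H6 κ)) := ice_cf' (stp_H6 h)


lemma cv_glue {D : Finset P2} {q : ℤ} {ω β : Cfg} (h : CV (hts ω)) (hc : CutAt D q ω)
    (hβ : Valid D β) : CV (hts (glue D q ω β)) where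
  ev v := by
    show Even ((glue D q ω β).1 v)
    by_cases hv : v ∈ intVerts D
    · simp only [glue, hv, if_true]; exact (hβ.even v).add hc.even
    · simp only [glue, hv, if_false]; exact h.ev v
  corner f v hv := by
    show |(glue D q ω β).1 v - (glue D q ω β).2.1 f| = 1
    by_cases hf' : f ∈ D
    · by_cases hv' : v ∈ intVerts D
      · simp only [glue, hv', hf', if_true]
        have := hβ.corner f hf' v hv
        rwa [add_sub_add_right_eq_sub]
      · simp only [glue, hv', hf', if_true, if_false]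
        have h1 := hβ.corner f hf' v hv
        rw [hβ.zero v hv'] at h1
        rw [hc.ht v (mem_bdV.2 ⟨⟨f, hf', hv⟩, hv'⟩), show q - (β.2.1 f + q) = 0 - β.2.1 f by ring]
        exact h1
    · have hv' : v ∉ intVerts D := fun h' => hf' (corner_mem_of_int h' hv)
      simp only [glue, hv', hf', if_false]
      exact h.corner f v hv

lemma valid_ins' {D : Finset P2} {q : ℤ} {ω : Cfg} (h : CV (hts ω)) (hc : CutAt D q ω) :
    Valid D (ins D q ω) where
  zero := fun v hv => by simp [ins, hv]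
  even := fun v => by
    by_cases hv : v ∈ intVerts D
    · simp only [ins, hv, if_true]
      exact (h.ev v).sub hc.even
    · simp [ins, hv]
  off := fun f hf => by simp [ins, hf]
  corner := fun f hf v hv => by
    have h1 : |ω.1 v - ω.2.1 f| = 1 := h.corner f v hv
    by_cases hv' : v ∈ intVerts D
    · simp only [ins, hv', hf, if_true]
      rwa [sub_sub_sub_cancel_right]
    · simp only [ins, hv', hf, if_true, if_false]
      rw [hc.ht v (mem_bdV.2 ⟨⟨f, hf, hv⟩, hv'⟩)] at h1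
      rw [zero_sub, neg_sub]
      exact h1
  cut := fun e he => by simp [ins, he]

/-! ### weights -/

/-- six-vertex vertex of an edge -/
def e6 (e : Edge) : ℤ × ℤ :=
  if e.2 then (e.1.1 + e.1.2 + 1, e.1.2 - e.1.1 + 1) else (e.1.1 + e.1.2 + 1, e.1.2 - e.1.1)

lemma e6_inj {e e' : Edge} (h : e6 e = e6 e') : e = e' := by
  obtain ⟨⟨a, b⟩, s⟩ := e
  obtain ⟨⟨a', b'⟩, s'⟩ := e'
  cases s <;> cases s' <;> simp [e6, Prod.mk.injEq] at h ⊢ <;> omega

lemma e6_surj (x : ℤ × ℤ) : ∃ e, e6 e = x := by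
  obtain ⟨p, q⟩ := x
  by_cases h : (p + q) % 2 = 0
  · refine ⟨(((p - q) / 2, (p + q - 2) / 2), true), ?_⟩
    simp only [e6, if_true]
    ext
    · simp only; omega
    · simp only; omega
  · refine ⟨(((p - q - 1) / 2, (p + q - 1) / 2), false), ?_⟩
    simp only [e6]
    ext
    · simp; omega
    · simp; omega

/-- six-vertex weight of an edge -/
def wf (c : ℝ) (κ : KH) (e : Edge) : ℝ :=
  if κ.1 (src e) = κ.1 (tgt e) ∧ κ.2 (fA e) = κ.2 (fB e) then c else 1

lemma wf_pos {c : ℝ} (hc : 1 ≤ c) (κ : KH) (e : Edge) : 0 < wf c κ e := by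
  unfold wf; split_ifs <;> linarith

/-- weight of the vertex `x` seen from the arrows -/
def w6 (c : ℝ) (H : ℤ × ℤ → ℤ) (x : ℤ × ℤ) : ℝ :=
  if (cf H (x.1 - 1, x.2)).1 ≠ (cf H x).1 then c else 1

/-- the four faces around `e6 e` -/
lemma e6_faces (κ : KH) (e : Edge) :
    (H6 κ ((e6 e).1, (e6 e).2) = (if e.2 then κ.1 (tgt e) else κ.2 (fA e))) ∧
    (H6 κ ((e6 e).1 - 1, (e6 e).2 - 1) = (if e.2 then κ.1 (src e) else κ.2 (fB e))) ∧
    (H6 κ ((e6 e).1, (e6 e).2 - 1) = (if e.2 then κ.2 (fA e) else κ.1 (tgt e))) ∧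
    (H6 κ ((e6 e).1 - 1, (e6 e).2) = (if e.2 then κ.2 (fB e) else κ.1 (src e))) := by
  obtain ⟨⟨a, b⟩, s⟩ := e
  cases s
  · simp only [e6, fA_mk, fB_h, src_mk, tgt_h, Bool.false_eq_true, if_false]
    refine ⟨?_, ?_, ?_, ?_⟩
    · rw [← H6_face κ (a, b)]; rfl
    · rw [← H6_face κ (a, b - 1)]; unfold f6; congr 1; ext <;> simp only <;> ring
    · rw [← H6_vert κ (a + 1, b)]; unfold v6; congr 1; ext <;> simp only <;> ring
    · rw [← H6_vert κ (a, b)]; unfold v6; congr 1; ext <;> simp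
  · simp only [e6, fA_mk, fB_v, src_mk, tgt_v, if_true]
    refine ⟨?_, ?_, ?_, ?_⟩
    · rw [← H6_vert κ (a, b + 1)]; unfold v6; congr 1; ext <;> simp only <;> ring
    · rw [← H6_vert κ (a, b)]; unfold v6; congr 1; ext <;> simp only <;> ring
    · rw [← H6_face κ (a, b)]; unfold f6; congr 1; ext <;> simp only <;> ring
    · rw [← H6_face κ (a - 1, b)]; unfold f6; congr 1; ext <;> simp only <;> ring

lemma wf_eq {c : ℝ} {κ : KH} (h : CV κ) (e : Edge) : wf c κ e = w6 c (H6 κ) (e6 e) := by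
  obtain ⟨g1, g2, g3, g4⟩ := Csq472.isCorner_edge e
  have c1 := h.corner _ _ g1
  have c2 := h.corner _ _ g2
  have c3 := h.corner _ _ g3
  have c4 := h.corner _ _ g4
  obtain ⟨h1, h2, h3, h4⟩ := e6_faces κ e
  unfold wf w6 cf
  have h1' : H6 κ (e6 e) = (if e.2 then κ.1 (tgt e) else κ.2 (fA e)) := h1
  simp only [h1', h2, h3, h4]
  rw [abs_eq (by norm_num)] at c1 c2 c3 c4
  have key : (κ.1 (src e) = κ.1 (tgt e) ∧ κ.2 (fA e) = κ.2 (fB e)) ↔
      (decide ((if e.2 then κ.2 (fB e) else κ.1 (src e)) -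
        (if e.2 then κ.1 (src e) else κ.2 (fB e)) = 1) ≠
       decide ((if e.2 then κ.1 (tgt e) else κ.2 (fA e)) -
        (if e.2 then κ.2 (fA e) else κ.1 (tgt e)) = 1)) := by
    rw [ne_eq, decide_eq_decide]
    cases e.2 <;> simp only [Bool.false_eq_true, if_false, if_true] <;> omega
  by_cases hk : (κ.1 (src e) = κ.1 (tgt e) ∧ κ.2 (fA e) = κ.2 (fB e))
  · rw [if_pos hk, if_pos (key.1 hk)]
  · rw [if_neg hk, if_neg fun h' => hk (key.2 h')]

end Crest.Agent.R161.Mkv760
end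
end

-- ▼ part R161/Rep_760
section

/-!
# Row 161: finite patterns of the six-vertex plane state (helper760)

* `AgR R w w'` : agreement on the window; `rp R w` : chosen ice representative of the pattern of `w`
* `Rp R : Finset Conf` : the representatives
* `integral_rep` : `∫ f dP = Σ_{w ∈ Rp R} P{pattern of w} f w` for `f` depending on the window
* `nc_swap` : `c^NC(H') ∏_S wf κ = c^NC(H) ∏_S wf κ'`
* `pz_wf`, `prod_pz`
-/

set_option autoImplicit false

noncomputable section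

namespace Crest.Agent.R161.Mkv760

open MeasureTheory
open Crest.Agent.R161.Geo729 Crest.Agent.R161.Defs372 Crest.Agent.R161.Dmp341
open Crest.Agent.R150.Hgt989 (Conf relH Ice dx dy relH_succ_snd relH_succ_fst relH_zero relH_congr)
open Crest.Agent.R150.Pls989 (IsPlane)
open Crest.Agent.R161.ExInv792 (KH khmap hts measurable_khmap measurable_hts)
open Crest.Agent.R161.SwT597 (Stp cf NC ind)
open Crest.Agent.R161.Qb760 Crest.Agent.R161.Box760

/-- six-vertex window -/
abbrev bx (R : ℕ) : Finset (ℤ × ℤ) := Crest.Agent.R150.Hgt989.box R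

lemma mem_bx {R : ℕ} {v : ℤ × ℤ} : v ∈ bx R ↔ |v.1| ≤ R ∧ |v.2| ≤ R :=
  Crest.Agent.R150.Hgt989.mem_box

/-- agreement on the window -/
def AgR (R : ℕ) (w w' : Conf) : Prop := ∀ v ∈ bx R, w v = w' v

lemma AgR.symm {R : ℕ} {w w' : Conf} (h : AgR R w w') : AgR R w' w := fun v hv => (h v hv).symm
lemma AgR.trans {R : ℕ} {w w' w'' : Conf} (h : AgR R w w') (h' : AgR R w' w'') : AgR R w w'' :=
  fun v hv => (h v hv).trans (h' v hv)

lemma AgR.relH {R : ℕ} {w w' : Conf} (h : AgR R w w') {x : ℤ × ℤ} (hx : x ∈ bx R) :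
    relH w x.1 x.2 = relH w' x.1 x.2 := by
  rw [mem_bx] at hx
  exact relH_congr h hx.1 hx.2

open Classical in
/-- chosen ice configuration with the given pattern -/
def rpat (R : ℕ) (η : bx R → Bool × Bool) : Conf :=
  if h : ∃ w : Conf, Ice w ∧ ∀ v : bx R, w v = η v then h.choose else fun _ => (true, true)

/-- representative -/
def rp (R : ℕ) (w : Conf) : Conf := rpat R fun v => w v

lemma rp_spec {R : ℕ} {w : Conf} (h : Ice w) : Ice (rp R w) ∧ AgR R (rp R w) w := by
  have hex : ∃ w' : Conf, Ice w' ∧ ∀ v : bx R, w' v = w v := ⟨w, h, fun _ => rfl⟩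
  have h1 : rp R w = hex.choose := by unfold rp rpat; rw [dif_pos hex]
  rw [h1]
  exact ⟨hex.choose_spec.1, fun v hv => hex.choose_spec.2 ⟨v, hv⟩⟩

lemma rp_congr {R : ℕ} {w w' : Conf} (h : AgR R w w') : rp R w = rp R w' := by
  unfold rp
  congr 1
  funext v
  exact h v v.2

open Classical in
/-- the representatives -/
def Rp (R : ℕ) : Finset Conf :=
  ((Finset.univ : Finset (bx R → Bool × Bool)).image (rpat R)).filter fun w => Ice w ∧ rp R w = w

lemma mem_Rp {R : ℕ} {w : Conf} : w ∈ Rp R ↔ Ice w ∧ rp R w = w := by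
  classical
  unfold Rp
  rw [Finset.mem_filter]
  refine ⟨fun h => h.2, fun h => ⟨?_, h⟩⟩
  rw [← h.2]
  exact Finset.mem_image_of_mem _ (Finset.mem_univ _)

lemma rp_mem {R : ℕ} {w : Conf} (h : Ice w) : rp R w ∈ Rp R :=
  mem_Rp.2 ⟨(rp_spec h).1, rp_congr (rp_spec h).2⟩

lemma eq_of_AgR {R : ℕ} {w w' : Conf} (hw : w ∈ Rp R) (h : AgR R w' w) : w = rp R w' := by
  rw [rp_congr h, (mem_Rp.1 hw).2]

/-- the cylinder of `w` -/
def cy (R : ℕ) (w : Conf) : Set Conf := {w' | AgR R w' w}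

lemma measurableSet_cy (R : ℕ) (w : Conf) : MeasurableSet (cy R w) := by
  have : cy R w = ⋂ v ∈ bx R, (fun w' : Conf => w' v) ⁻¹' {w v} := by
    ext w'
    simp [cy, AgR]
  rw [this]
  exact Finset.measurableSet_biInter _ fun v _ => measurable_pi_apply v (measurableSet_singleton _)

lemma cy_congr {R : ℕ} {w w' : Conf} (h : AgR R w w') : cy R w = cy R w' := by
  ext w''
  exact ⟨fun h1 => AgR.trans h1 h, fun h1 => AgR.trans h1 h.symm⟩

theorem integral_rep {P : Measure Conf} [IsProbabilityMeasure P] (hi : ∀ᵐ w ∂P, Ice w) {R : ℕ}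
    {f : Conf → ℝ} (hf : ∀ w w', AgR R w w' → f w = f w') :
    ∫ w, f w ∂P = ∑ w ∈ Rp R, P.real (cy R w) * f w := by
  classical
  have h1 : ∀ᵐ w' ∂P, f w' = ∑ w ∈ Rp R, (cy R w).indicator (fun _ => f w) w' := by
    filter_upwards [hi] with w' hw'
    rw [Finset.sum_eq_single (rp R w')]
    · rw [Set.indicator_of_mem (show w' ∈ cy R (rp R w') from (rp_spec hw').2.symm)]
      exact hf _ _ (rp_spec hw').2.symm
    · intro w hw hne
      rw [Set.indicator_of_notMem]
      intro h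
      exact hne (eq_of_AgR hw h)
    · intro h
      exact absurd (rp_mem hw') h
  rw [integral_congr_ae h1, integral_finsetSum]
  · refine Finset.sum_congr rfl fun w _ => ?_
    rw [integral_indicator_const _ (measurableSet_cy R w), smul_eq_mul]
  · intro w _
    exact (integrable_const _).indicator (measurableSet_cy R w)

/-- **ratio form of the Gibbs property** -/
theorem cy_swap {c : ℝ} {P : Measure Conf} (hP : IsPlane c P) {R : ℕ} (hR : 1 ≤ R)
    {H H' : ℤ × ℤ → ℤ} (hs : Stp H) (hs' : Stp H') (hH : ∀ v, v ∉ bx (R - 1) → H' v = H v) :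
    P.real (cy R (cf H)) * c ^ NC R H' = P.real (cy R (cf H')) * c ^ NC R H := by
  have h := SwT597.plane_swap hP hR hs hs' hH (F := fun _ => 1)
    (Crest.Agent.R150.Hgt989.Loc.const 1)
  have h1 : ∀ H : ℤ × ℤ → ℤ, ∫ ω, ind R H ω * (fun _ : Conf => (1 : ℝ)) ω ∂P =
      P.real (cy R (cf H)) := by
    intro H
    rw [← integral_indicator_one (measurableSet_cy R (cf H))]
    refine integral_congr_ae (Filter.Eventually.of_forall fun w => ?_)
    simp only [mul_one]
    unfold ind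
    by_cases hw : ∀ v ∈ Crest.Agent.R150.Hgt989.box R, w v = cf H v
    · rw [if_pos hw, Set.indicator_of_mem (by exact hw)]; rfl
    · rw [if_neg hw, Set.indicator_of_notMem (by exact hw)]
  rw [← h1 H, ← h1 H']
  exact h

/-! ### weights -/

/-- vertices of the window seen by `NC` -/
def VR (R : ℕ) : Finset (ℤ × ℤ) := (bx R).filter fun v => (v.1 - 1, v.2) ∈ bx R

lemma pow_NC (c : ℝ) (R : ℕ) (H : ℤ × ℤ → ℤ) : c ^ NC R H = ∏ x ∈ VR R, w6 c H x := by
  classical
  unfold NC w6 VR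
  rw [Finset.prod_ite, Finset.prod_const_one, mul_one, Finset.prod_const]
  congr 2
  ext x
  simp only [Finset.mem_filter]
  tauto

/-- the relevant edges -/
abbrev SS (n : ℕ) : Finset Edge := intEdges (Defs372.box (n + 1))

/-- size of the window -/
abbrev RW (n : ℕ) : ℕ := 2 * n + 8

lemma mem_SS {n : ℕ} {e : Edge} (h : fA e ∈ Defs372.box n ∨ fB e ∈ Defs372.box n) : e ∈ SS n := by
  obtain ⟨⟨a, b⟩, s⟩ := e
  rw [mem_intEdges]
  simp only [Box760.mem_box] at h ⊢
  cases s <;> simp only [fA_mk, fB_h, fB_v] at h ⊢ <;> push_cast <;> omega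

lemma SS_bd {n : ℕ} {e : Edge} (h : e ∈ SS n) : |e.1.1| ≤ n + 1 ∧ |e.1.2| ≤ n + 1 := by
  have h1 := (mem_intEdges.1 h).1
  rw [Box760.mem_box] at h1
  push_cast at h1
  unfold fA at h1
  constructor <;> rw [abs_le] <;> omega

lemma e6_mem {n : ℕ} {e : Edge} (h : e ∈ SS n) : e6 e ∈ VR (RW n) := by
  have h1 := SS_bd h
  rw [abs_le, abs_le] at h1
  obtain ⟨⟨a, b⟩, s⟩ := e
  simp only [VR, Finset.mem_filter, mem_bx, abs_le]
  simp only at h1
  cases s <;> simp only [e6, Bool.false_eq_true, if_false, if_true] <;> push_cast <;> omega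

/-- `κ` and `κ'` agree off the inside of `D` -/
structure OffD (D : Finset P2) (κ κ' : KH) : Prop where
  v : ∀ v, v ∉ intVerts D → κ'.1 v = κ.1 v
  f : ∀ f, f ∉ D → κ'.2 f = κ.2 f

lemma OffD.bx {n : ℕ} {D : Finset P2} {κ κ' : KH} (h : OffD D κ κ') (hD : D ⊆ Defs372.box n)
    {x : ℤ × ℤ} (hx : x ∉ bx (RW n - 1)) : H6 κ' x = H6 κ x := by
  have hx' : ¬ (|x.1| ≤ 2 * n + 7 ∧ |x.2| ≤ 2 * n + 7) := by
    intro h1
    apply hx
    rw [mem_bx]
    have : ((RW n - 1 : ℕ) : ℤ) = 2 * n + 7 := by simp only [RW]; omega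
    rw [this]
    exact h1
  rcases cover x with ⟨v, rfl⟩ | ⟨f, rfl⟩
  · rw [H6_vert, H6_vert]
    refine h.v v fun hv => hx' ?_
    have h1 := hD (corner_mem_of_int hv (f := v) (by simp [Geo729.IsCorner]))
    rw [Box760.mem_box] at h1
    unfold v6
    simp only [abs_le]
    omega
  · rw [H6_face, H6_face]
    refine h.f f fun hv => hx' ?_
    have h1 := hD hv
    rw [Box760.mem_box] at h1
    unfold f6
    simp only [abs_le]
    omega

lemma OffD.wf {n : ℕ} {D : Finset P2} {κ κ' : KH} (h : OffD D κ κ') (hD : D ⊆ Defs372.box n)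
    (c : ℝ) {e : Edge} (he : e ∉ SS n) : wf c κ' e = wf c κ e := by
  have hA : fA e ∉ D := fun h1 => he (mem_SS (Or.inl (hD h1)))
  have hB : fB e ∉ D := fun h1 => he (mem_SS (Or.inr (hD h1)))
  have hs : src e ∉ intVerts D := fun h1 => hA (corner_mem_of_int h1 (isCorner_src_fA e))
  have ht : tgt e ∉ intVerts D := fun h1 => hA (corner_mem_of_int h1 (isCorner_tgt_fA e))
  unfold Mkv760.wf
  rw [h.v _ hs, h.v _ ht, h.f _ hA, h.f _ hB]

theorem nc_swap {n : ℕ} {D : Finset P2} {κ κ' : KH} (h : OffD D κ κ') (hD : D ⊆ Defs372.box n)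
    (hκ : CV κ) (hκ' : CV κ') (c : ℝ) :
    c ^ NC (RW n) (H6 κ') * ∏ e ∈ SS n, wf c κ e = c ^ NC (RW n) (H6 κ) * ∏ e ∈ SS n, wf c κ' e := by
  classical
  have hsub : (SS n).image e6 ⊆ VR (RW n) := by
    intro x hx
    obtain ⟨e, he, rfl⟩ := Finset.mem_image.1 hx
    exact e6_mem he
  have him : ∀ κ : KH, CV κ → ∏ e ∈ SS n, wf c κ e = ∏ x ∈ (SS n).image e6, w6 c (H6 κ) x := by
    intro κ hκ
    rw [Finset.prod_image fun e _ e' _ h => e6_inj h]
    exact Finset.prod_congr rfl fun e _ => wf_eq hκ e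
  rw [pow_NC, pow_NC, him κ hκ, him κ' hκ', ← Finset.prod_sdiff hsub, ← Finset.prod_sdiff hsub]
  have hout : ∏ x ∈ VR (RW n) \ (SS n).image e6, w6 c (H6 κ') x =
      ∏ x ∈ VR (RW n) \ (SS n).image e6, w6 c (H6 κ) x := by
    refine Finset.prod_congr rfl fun x hx => ?_
    obtain ⟨e, rfl⟩ := e6_surj x
    have he : e ∉ SS n := fun h1 => (Finset.mem_sdiff.1 hx).2 (Finset.mem_image_of_mem _ h1)
    rw [← wf_eq hκ', ← wf_eq hκ, h.wf hD c he]
  rw [hout]
  ring

lemma pz_wf {c : ℝ} (hc : 1 ≤ c) {κ : KH} (h : CV κ) (ω : Cfg) (hω : hts ω = κ) (e : Edge) :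
    pz c κ e (ω.2.2 e) * wf c κ e = ew c ω e := by
  subst hω
  obtain ⟨g1, g2, g3, g4⟩ := Csq472.isCorner_edge e
  have c1 := h.corner _ _ g1
  have c2 := h.corner _ _ g2
  have c3 := h.corner _ _ g3
  have c4 := h.corner _ _ g4
  rw [abs_eq (by norm_num)] at c1 c2 c3 c4
  have hk : (hts ω).1 = ω.1 := rfl
  have hh : (hts ω).2 = ω.2.1 := rfl
  rw [hk, hh] at c1 c2 c3 c4
  have hc0 : c ≠ 0 := by positivity
  unfold pz Csq472.pcut wf ew
  rw [hk, hh]
  by_cases h1 : ω.1 (src e) = ω.1 (tgt e) <;> by_cases h2 : ω.2.1 (fA e) = ω.2.1 (fB e) <;>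
    cases h3 : ω.2.2 e <;> simp [h1, h2]
  · field_simp
  · field_simp
  · omega

lemma prod_pz {c : ℝ} (hc : 1 ≤ c) {κ : KH} (h : CV κ) (n : ℕ) (T : Finset Edge) :
    (∏ e ∈ SS n, pz c κ e (zT T e)) * ∏ e ∈ SS n, wf c κ e =
      wt c (Defs372.box (n + 1)) (Qb760.mk κ T) := by
  rw [← Finset.prod_mul_distrib]
  exact Finset.prod_congr rfl fun e _ => pz_wf hc h (Qb760.mk κ T) rfl e

end Crest.Agent.R161.Mkv760
end
end

-- ▼ part R161/Mkv_760
section

/-!
# Row 161: Markov property of the plane state at the explored domains (helper760)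

`qmarkov_Qb : 1 ≤ c → IsPlane c P → QMarkov c (Qb c P)`.
-/

set_option autoImplicit false

noncomputable section

namespace Crest.Agent.R161.Mkv760

open MeasureTheory
open Crest.Agent.R161.Geo729 Crest.Agent.R161.Defs372 Crest.Agent.R161.Dmp341
open Crest.Agent.R150.Hgt989 (Conf relH Ice dx dy relH_succ_snd relH_succ_fst relH_zero relH_congr)
open Crest.Agent.R150.Pls989 (IsPlane)
open Crest.Agent.R161.ExInv792 (KH khmap hts measurable_khmap measurable_hts)
open Crest.Agent.R161.SwT597 (Stp cf NC ind)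
open Crest.Agent.R161.Qb760 Crest.Agent.R161.Box760 Crest.Agent.R161.Exp760
open Crest.Agent.R161.Iso760

/-- the finite window -/
abbrev FF (n : ℕ) : Finset P2 := Defs372.box (n + 1)

/-- configuration of the plane from arrows and cut set -/
def om (w : Conf) (T : Finset Edge) : Cfg := Qb760.mk (khmap w) T

section

variable (c : ℝ) (n : ℕ) (D : Finset P2) (v0 : P2)

/-- replace the inside of `D` by `β` -/
def nw (X : Conf × Finset Edge) (β : Cfg) : Cfg := glue D ((om X.1 X.2).1 v0) (om X.1 X.2) β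

open Classical in
/-- the new pair -/
def Ψ (X : Conf × Finset Edge) (β : Cfg) : Conf × Finset Edge :=
  (rp (RW n) (cf (H6 (hts (nw D v0 X β)))), (SS n).filter fun e => (nw D v0 X β).2.2 e = true)

/-- inside configuration -/
def inn (X : Conf × Finset Edge) : Cfg := ins D ((om X.1 X.2).1 v0) (om X.1 X.2)

/-- good pairs -/
structure Gd (X : Conf × Finset Edge) : Prop where
  rep : X.1 ∈ Rp (RW n)
  sub : X.2 ⊆ SS n
  df : DF (Defs372.box n) (0, 0) (om X.1 X.2) = D
  wt : wt c (FF n) (om X.1 X.2) ≠ 0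

/-- good inside configurations -/
structure GI (β : Cfg) : Prop where
  val : Valid D β
  wt : wt c D β ≠ 0

variable {c n D v0}

lemma Gd.ice {X : Conf × Finset Edge} (h : Gd c n D X) : Ice X.1 := (mem_Rp.1 h.rep).1

lemma Gd.cv {X : Conf × Finset Edge} (h : Gd c n D X) : CV (hts (om X.1 X.2)) := cv_khmap h.ice

lemma Gd.cut (h0 : ((0, 0) : P2) ∈ D) (hv0 : v0 ∈ bdV D) {X : Conf × Finset Edge}
    (h : Gd c n D X) : CutAt D ((om X.1 X.2).1 v0) (om X.1 X.2) := by
  have hx : ((0, 0) : P2) ∉ RR (Defs372.box n) (om X.1 X.2) :=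
    mem_DF_not_RR (x := (0, 0)) (by rw [h.df]; exact h0)
  have hK : ∀ e, Zp (om X.1 X.2) e → (om X.1 X.2).1 (src e) = (om X.1 X.2).1 (tgt e) := by
    intro e he
    have heT : e ∈ X.2 := by
      have h1 : zT X.2 e = true := he
      simpa [zT] using h1
    have h1 : ew c (om X.1 X.2) e ≠ 0 := fun h2 => h.wt (Finset.prod_eq_zero (h.sub heT) h2)
    by_contra h2
    apply h1
    unfold ew
    have h3 : (om X.1 X.2).2.2 e = true := he
    simp [h3, h2]
  have := DF_cutAt (box_sc n) hx hK h.cv.ev (v := v0) (by rw [h.df]; exact hv0)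
  rwa [h.df] at this

/-- window membership of six-vertex faces -/
lemma v6_mem {v : P2} (h : |v.1| ≤ n + 2) (h' : |v.2| ≤ n + 2) : v6 v ∈ bx (RW n) := by
  rw [mem_bx]
  unfold v6
  rw [abs_le] at h h'
  simp only [abs_le, RW]
  push_cast
  omega

lemma f6_mem {v : P2} (h : |v.1| ≤ n + 2) (h' : |v.2| ≤ n + 2) : f6 v ∈ bx (RW n) := by
  rw [mem_bx]
  unfold f6
  rw [abs_le] at h h'
  simp only [abs_le, RW]
  push_cast
  omega

/-- heights of the new pair in the window -/
lemma hts_Ψ {X : Conf × Finset Edge} {β : Cfg} (hcv : CV (hts (nw D v0 X β))) {x : ℤ × ℤ}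
    (hx : x ∈ bx (RW n)) :
    H6 (khmap (Ψ n D v0 X β).1) x = H6 (hts (nw D v0 X β)) x - (nw D v0 X β).1 (0, 0) := by
  have h1 : AgR (RW n) (Ψ n D v0 X β).1 (cf (H6 (hts (nw D v0 X β)))) :=
    (rp_spec (cv_of_stp hcv)).2
  have h2 := h1.relH hx
  have h3 : H6 (khmap (Ψ n D v0 X β).1) x = relH (Ψ n D v0 X β).1 x.1 x.2 := by
    rw [H6_khmap]
  rw [h3, h2, relH_cf (stp_H6 hcv)]
  have h0 : H6 (hts (nw D v0 X β)) (0, 0) = (nw D v0 X β).1 (0, 0) := by
    have := H6_vert (hts (nw D v0 X β)) (0, 0)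
    simpa [v6, hts] using this
  rw [h0]

lemma k_Ψ {X : Conf × Finset Edge} {β : Cfg} (hcv : CV (hts (nw D v0 X β))) {v : P2}
    (hv : v6 v ∈ bx (RW n)) :
    (khmap (Ψ n D v0 X β).1).1 v = (nw D v0 X β).1 v - (nw D v0 X β).1 (0, 0) := by
  have := hts_Ψ hcv hv
  rw [H6_vert, H6_vert] at this
  exact this

lemma h_Ψ {X : Conf × Finset Edge} {β : Cfg} (hcv : CV (hts (nw D v0 X β))) {v : P2}
    (hv : f6 v ∈ bx (RW n)) :
    (khmap (Ψ n D v0 X β).1).2 v = (nw D v0 X β).2.1 v - (nw D v0 X β).1 (0, 0) := by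
  have := hts_Ψ hcv hv
  rw [H6_face, H6_face] at this
  exact this

lemma z_Ψ {X : Conf × Finset Edge} {β : Cfg} {e : Edge} (he : e ∈ SS n) :
    (om (Ψ n D v0 X β).1 (Ψ n D v0 X β).2).2.2 e = (nw D v0 X β).2.2 e := by
  classical
  show zT (Ψ n D v0 X β).2 e = _
  unfold zT Ψ
  simp only [Finset.mem_filter, he, true_and]
  cases (nw D v0 X β).2.2 e <;> simp

lemma z_Ψ' {X : Conf × Finset Edge} {β : Cfg} {e : Edge} (he : e ∉ SS n) :
    (om (Ψ n D v0 X β).1 (Ψ n D v0 X β).2).2.2 e = false := by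
  classical
  show zT (Ψ n D v0 X β).2 e = _
  unfold zT Ψ
  simp [he]

/-- edges of the window only see sites of the window -/
lemma sites_SS {e : Edge} (he : e ∈ SS n) :
    v6 (src e) ∈ bx (RW n) ∧ v6 (tgt e) ∈ bx (RW n) ∧ f6 (fA e) ∈ bx (RW n) ∧
      f6 (fB e) ∈ bx (RW n) := by
  have h := SS_bd he
  rw [abs_le, abs_le] at h
  obtain ⟨⟨a, b⟩, s⟩ := e
  simp only at h
  refine ⟨v6_mem ?_ ?_, v6_mem ?_ ?_, f6_mem ?_ ?_, f6_mem ?_ ?_⟩ <;> rw [abs_le] <;> cases s <;>
    simp only [src_mk, tgt_h, tgt_v, fA_mk, fB_h, fB_v] <;> omega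

lemma wf_Ψ {X : Conf × Finset Edge} {β : Cfg} (hcv : CV (hts (nw D v0 X β))) {e : Edge}
    (he : e ∈ SS n) : wf c (khmap (Ψ n D v0 X β).1) e = wf c (hts (nw D v0 X β)) e := by
  obtain ⟨h1, h2, h3, h4⟩ := sites_SS he
  unfold wf
  rw [k_Ψ hcv h1, k_Ψ hcv h2, h_Ψ hcv h3, h_Ψ hcv h4]
  simp only [sub_left_inj]
  rfl

lemma wt_Ψ {X : Conf × Finset Edge} {β : Cfg} (hcv : CV (hts (nw D v0 X β))) :
    wt c (FF n) (om (Ψ n D v0 X β).1 (Ψ n D v0 X β).2) = wt c (FF n) (nw D v0 X β) := by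
  unfold wt
  refine Finset.prod_congr rfl fun e he => ?_
  obtain ⟨h1, h2, h3, h4⟩ := sites_SS he
  unfold ew
  rw [z_Ψ he]
  have e1 : (om (Ψ n D v0 X β).1 (Ψ n D v0 X β).2).1 = (khmap (Ψ n D v0 X β).1).1 := rfl
  have e2 : (om (Ψ n D v0 X β).1 (Ψ n D v0 X β).2).2.1 = (khmap (Ψ n D v0 X β).1).2 := rfl
  rw [e1, e2, k_Ψ hcv h1, k_Ψ hcv h2, h_Ψ hcv h3, h_Ψ hcv h4]
  simp only [sub_left_inj]

lemma D_sub_FF (hDn : D ⊆ Defs372.box n) : D ⊆ FF n := hDn.trans (box_mono (Nat.le_succ n))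

/-- inside sites of `D` are in the window -/
lemma D_site (hDn : D ⊆ Defs372.box n) {v : P2} (hv : v ∈ D) : v6 v ∈ bx (RW n) ∧ f6 v ∈ bx (RW n) := by
  have h := hDn hv
  rw [Box760.mem_box] at h
  constructor
  · exact v6_mem (by rw [abs_le]; omega) (by rw [abs_le]; omega)
  · exact f6_mem (by rw [abs_le]; omega) (by rw [abs_le]; omega)

lemma intV_mem_D {v : P2} (hv : v ∈ intVerts D) : v ∈ D :=
  corner_mem_of_int hv (f := v) (by simp [Geo729.IsCorner])

/-- a boundary vertex of `D` is in the window -/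
lemma bdV_site (hDn : D ⊆ Defs372.box n) {v : P2} (hv : v ∈ bdV D) : v6 v ∈ bx (RW n) := by
  obtain ⟨⟨f, hf, hc⟩, -⟩ := mem_bdV.1 hv
  have h := hDn hf
  rw [Box760.mem_box] at h
  obtain ⟨a, b⟩ := f
  simp only at h
  rcases hc with rfl | rfl | rfl | rfl <;>
  · refine v6_mem ?_ ?_ <;> simp only [abs_le] <;> omega

set_option linter.unusedSectionVars false
variable (h0 : ((0, 0) : P2) ∈ D) (hDn : D ⊆ Defs372.box n) (hv0 : v0 ∈ bdV D)
include h0 hDn hv0

lemma cv_nw {X : Conf × Finset Edge} (hX : Gd c n D X) {β : Cfg} (hβ : GI c D β) :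
    CV (hts (nw D v0 X β)) := by
  have := cv_glue hX.cv (hX.cut h0 hv0) hβ.val
  exact this

lemma wt_nw {X : Conf × Finset Edge} (hX : Gd c n D X) {β : Cfg} (hβ : GI c D β) :
    wt c (FF n) (nw D v0 X β) = wtOut c (FF n) D (om X.1 X.2) * wt c D β :=
  wt_glue (D_sub_FF hDn) (hX.cut h0 hv0) hβ.val

lemma wt_om {X : Conf × Finset Edge} (hX : Gd c n D X) :
    wt c (FF n) (om X.1 X.2) = wtOut c (FF n) D (om X.1 X.2) * wt c D (inn D v0 X) := by
  have h1 := wt_glue (c := c) (D_sub_FF hDn) (hX.cut h0 hv0)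
    (valid_ins' hX.cv (hX.cut h0 hv0))
  rw [glue_ins] at h1
  exact h1

lemma gi_inn {X : Conf × Finset Edge} (hX : Gd c n D X) : GI c D (inn D v0 X) where
  val := valid_ins' hX.cv (hX.cut h0 hv0)
  wt := fun h => hX.wt (by rw [wt_om h0 hDn hv0 hX, h, mul_zero])

/-- the new pair is good -/
lemma gd_Ψ {X : Conf × Finset Edge} (hX : Gd c n D X) {β : Cfg} (hβ : GI c D β) :
    Gd c n D (Ψ n D v0 X β) where
  rep := rp_mem (cv_of_stp (cv_nw h0 hDn hv0 hX hβ))
  sub := by
    classical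
    exact Finset.filter_subset _ _
  df := by
    have h1 := (DF_congr (B := Defs372.box n) (x := (0, 0)) (ω := om X.1 X.2)
      (ω' := om (Ψ n D v0 X β).1 (Ψ n D v0 X β).2) (box_sc n) h0 ?_).1 hX.df
    · exact h1
    · intro e he
      by_cases heS : e ∈ SS n
      · rw [z_Ψ heS]
        simp only [nw, glue, he, if_false]
      · rw [z_Ψ' heS]
        show zT X.2 e = false
        have : e ∉ X.2 := fun h => heS (hX.sub h)
        simp [zT, this]
  wt := by
    rw [wt_Ψ (cv_nw h0 hDn hv0 hX hβ), wt_nw h0 hDn hv0 hX hβ]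
    refine mul_ne_zero (fun h => hX.wt ?_) hβ.wt
    rw [wt_om h0 hDn hv0 hX, h, zero_mul]

/-- the inside of the new pair -/
lemma inn_Ψ {X : Conf × Finset Edge} (hX : Gd c n D X) {β : Cfg} (hβ : GI c D β) :
    inn D v0 (Ψ n D v0 X β) = β := by
  have hcv := cv_nw h0 hDn hv0 hX hβ
  have hv0' : v0 ∉ intVerts D := (mem_bdV.1 hv0).2
  have hq : (om (Ψ n D v0 X β).1 (Ψ n D v0 X β).2).1 v0 =
      (om X.1 X.2).1 v0 - (nw D v0 X β).1 (0, 0) := by
    have h1 := k_Ψ (n := n) hcv (bdV_site hDn hv0)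
    have h2 : (nw D v0 X β).1 v0 = (om X.1 X.2).1 v0 := by simp [nw, glue, hv0']
    rw [h2] at h1
    exact h1
  unfold inn
  rw [hq]
  refine Prod.ext ?_ (Prod.ext ?_ ?_)
  · funext v
    by_cases hv : v ∈ intVerts D
    · simp only [ins, hv, if_true]
      have h1 := k_Ψ (n := n) hcv (D_site hDn (intV_mem_D hv)).1
      have h2 : (nw D v0 X β).1 v = β.1 v + (om X.1 X.2).1 v0 := by simp [nw, glue, hv]
      have h3 : (om (Ψ n D v0 X β).1 (Ψ n D v0 X β).2).1 v = (khmap (Ψ n D v0 X β).1).1 v := rfl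
      rw [h3, h1, h2]
      ring
    · simp only [ins, hv, if_false]
      exact (hβ.val.zero v hv).symm
  · funext f
    by_cases hf : f ∈ D
    · simp only [ins, hf, if_true]
      have h1 := h_Ψ (n := n) hcv (D_site hDn hf).2
      have h2 : (nw D v0 X β).2.1 f = β.2.1 f + (om X.1 X.2).1 v0 := by simp [nw, glue, hf]
      have h3 : (om (Ψ n D v0 X β).1 (Ψ n D v0 X β).2).2.1 f = (khmap (Ψ n D v0 X β).1).2 f := rfl
      rw [h3, h1, h2]
      ring
    · simp only [ins, hf, if_false]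
      exact (hβ.val.off f hf).symm
  · funext e
    by_cases he : e ∈ intEdges D
    · simp only [ins, he, if_true]
      rw [z_Ψ (intEdges_mono (D_sub_FF hDn) he)]
      simp [nw, glue, he]
    · simp only [ins, he, if_false]
      exact (hβ.val.cut e he).symm

/-- the map is an involution -/
lemma Ψ_Ψ {X : Conf × Finset Edge} (hX : Gd c n D X) {β : Cfg} (hβ : GI c D β) :
    Ψ n D v0 (Ψ n D v0 X β) (inn D v0 X) = X := by
  classical
  have hcv := cv_nw h0 hDn hv0 hX hβ
  have hX' := gd_Ψ h0 hDn hv0 hX hβ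
  have hI := gi_inn h0 hDn hv0 hX
  have hcv2 := cv_nw h0 hDn hv0 hX' hI
  have hv0' : v0 ∉ intVerts D := (mem_bdV.1 hv0).2
  set a := (nw D v0 X β).1 (0, 0) with ha
  have hq : (om (Ψ n D v0 X β).1 (Ψ n D v0 X β).2).1 v0 = (om X.1 X.2).1 v0 - a := by
    have h1 := k_Ψ (n := n) hcv (bdV_site hDn hv0)
    have h2 : (nw D v0 X β).1 v0 = (om X.1 X.2).1 v0 := by simp [nw, glue, hv0']
    rw [h2] at h1
    exact h1
  -- heights of the second configuration in the window
  have hH : ∀ x ∈ bx (RW n), H6 (hts (nw D v0 (Ψ n D v0 X β) (inn D v0 X))) x =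
      H6 (khmap X.1) x - a := by
    intro x hx
    rcases cover x with ⟨v, rfl⟩ | ⟨f, rfl⟩
    · rw [H6_vert, H6_vert]
      show (nw D v0 (Ψ n D v0 X β) (inn D v0 X)).1 v = _
      by_cases hv : v ∈ intVerts D
      · simp only [nw, glue, hv, if_true, hq, inn, ins]
        show (om X.1 X.2).1 v - _ + _ = _
        have : (om X.1 X.2).1 v = (khmap X.1).1 v := rfl
        rw [this]
        ring
      · simp only [nw, glue, hv, if_false]
        have h1 := k_Ψ (n := n) hcv hx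
        have h2 : (nw D v0 X β).1 v = (om X.1 X.2).1 v := by simp [nw, glue, hv]
        rw [h2] at h1
        exact h1
    · rw [H6_face, H6_face]
      show (nw D v0 (Ψ n D v0 X β) (inn D v0 X)).2.1 f = _
      by_cases hf : f ∈ D
      · simp only [nw, glue, hf, if_true, hq, inn, ins]
        show (om X.1 X.2).2.1 f - _ + _ = _
        have : (om X.1 X.2).2.1 f = (khmap X.1).2 f := rfl
        rw [this]
        ring
      · simp only [nw, glue, hf, if_false]
        have h1 := h_Ψ (n := n) hcv hx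
        have h2 : (nw D v0 X β).2.1 f = (om X.1 X.2).2.1 f := by simp [nw, glue, hf]
        rw [h2] at h1
        exact h1
  have hoff1 : OffD D (khmap (Ψ n D v0 X β).1) (hts (nw D v0 (Ψ n D v0 X β) (inn D v0 X))) :=
    ⟨fun v hv => by
      show (nw D v0 (Ψ n D v0 X β) (inn D v0 X)).1 v = _
      simp only [nw, glue, hv, if_false]; rfl,
     fun f hf => by
      show (nw D v0 (Ψ n D v0 X β) (inn D v0 X)).2.1 f = _
      simp only [nw, glue, hf, if_false]; rfl⟩
  have hoff2 : OffD D (khmap X.1) (hts (nw D v0 X β)) :=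
    ⟨fun v hv => by
      show (nw D v0 X β).1 v = _
      simp only [nw, glue, hv, if_false]; rfl,
     fun f hf => by
      show (nw D v0 X β).2.1 f = _
      simp only [nw, glue, hf, if_false]; rfl⟩
  have hag : AgR (RW n) (cf (H6 (hts (nw D v0 (Ψ n D v0 X β) (inn D v0 X))))) X.1 := by
    intro r hr
    have hcfX : X.1 = cf (H6 (khmap X.1)) := by rw [H6_khmap, cf_relH hX.ice]
    by_cases hin : -((RW n : ℕ) : ℤ) < r.1 ∧ -((RW n : ℕ) : ℤ) < r.2
    · rw [mem_bx, abs_le, abs_le] at hr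
      have m1 : r ∈ bx (RW n) := by rw [mem_bx, abs_le, abs_le]; exact hr
      have m2 : (r.1, r.2 - 1) ∈ bx (RW n) := by
        rw [mem_bx, abs_le, abs_le]; simp only; omega
      have m3 : (r.1 - 1, r.2) ∈ bx (RW n) := by
        rw [mem_bx, abs_le, abs_le]; simp only; omega
      conv_rhs => rw [hcfX]
      unfold cf
      rw [hH r m1, hH _ m2, hH _ m3]
      simp only [sub_sub_sub_cancel_right]
    · -- boundary of the window: nothing changes
      have hout : ∀ x : ℤ × ℤ, (x.1 ≤ -((RW n : ℕ) : ℤ) ∨ x.2 ≤ -((RW n : ℕ) : ℤ)) →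
          x ∉ bx (RW n - 1) := by
        intro x hx h
        rw [mem_bx, abs_le, abs_le] at h
        have : ((RW n - 1 : ℕ) : ℤ) = (RW n : ℕ) - 1 := by simp only [RW]; omega
        rw [this] at h
        omega
      have hr1 : r ∉ bx (RW n - 1) := hout r (by omega)
      have hr2 : (r.1, r.2 - 1) ∉ bx (RW n - 1) := hout _ (by simp only; omega)
      have hr3 : (r.1 - 1, r.2) ∉ bx (RW n - 1) := hout _ (by simp only; omega)
      have h1 : cf (H6 (hts (nw D v0 (Ψ n D v0 X β) (inn D v0 X)))) r =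
          cf (H6 (khmap (Ψ n D v0 X β).1)) r := by
        unfold cf
        rw [hoff1.bx hDn hr1, hoff1.bx hDn hr2, hoff1.bx hDn hr3]
      have h2 : cf (H6 (khmap (Ψ n D v0 X β).1)) r = (Ψ n D v0 X β).1 r := by
        rw [H6_khmap, cf_relH hX'.ice]
      have h3 : (Ψ n D v0 X β).1 r = cf (H6 (hts (nw D v0 X β))) r :=
        (rp_spec (cv_of_stp hcv)).2 r hr
      have h4 : cf (H6 (hts (nw D v0 X β))) r = cf (H6 (khmap X.1)) r := by
        unfold cf
        rw [hoff2.bx hDn hr1, hoff2.bx hDn hr2, hoff2.bx hDn hr3]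
      rw [h1, h2, h3, h4, ← hcfX]
  refine Prod.ext ?_ ?_
  · show rp (RW n) (cf (H6 (hts (nw D v0 (Ψ n D v0 X β) (inn D v0 X))))) = X.1
    rw [rp_congr hag, (mem_Rp.1 hX.rep).2]
  · show (SS n).filter (fun e => (nw D v0 (Ψ n D v0 X β) (inn D v0 X)).2.2 e = true) = X.2
    ext e
    rw [Finset.mem_filter]
    have hz : ∀ e ∈ SS n, (nw D v0 (Ψ n D v0 X β) (inn D v0 X)).2.2 e = (om X.1 X.2).2.2 e := by
      intro e he
      by_cases heD : e ∈ intEdges D
      · simp [nw, glue, heD, inn, ins]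
      · simp only [nw, glue, heD, if_false]
        rw [z_Ψ he]
        simp [nw, glue, heD]
    constructor
    · rintro ⟨he, h1⟩
      rw [hz e he] at h1
      have h2 : zT X.2 e = true := h1
      simpa [zT] using h2
    · intro he
      refine ⟨hX.sub he, ?_⟩
      rw [hz e (hX.sub he)]
      show zT X.2 e = true
      simp [zT, he]

end

end Crest.Agent.R161.Mkv760
end
end

-- ▼ part R161/Mkv2_760
section

/-!
# Row 161: Markov property of the plane state, conclusion (helper760)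

`qmarkov_Qb : 1 ≤ c → IsPlane c P → QMarkov c (Qb c P)`.
-/

set_option autoImplicit false

noncomputable section

namespace Crest.Agent.R161.Mkv760

open MeasureTheory
open Crest.Agent.R161.Geo729 Crest.Agent.R161.Defs372 Crest.Agent.R161.Dmp341
open Crest.Agent.R150.Hgt989 (Conf relH Ice dx dy relH_succ_snd relH_succ_fst relH_zero relH_congr)
open Crest.Agent.R150.Pls989 (IsPlane)
open Crest.Agent.R161.ExInv792 (KH khmap hts measurable_khmap measurable_hts)
open Crest.Agent.R161.SwT597 (Stp cf NC ind)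
open Crest.Agent.R161.Qb760 Crest.Agent.R161.Box760 Crest.Agent.R161.Exp760
open Crest.Agent.R161.Iso760

/-- mass of a pair -/
def Ma (c : ℝ) (P : Measure Conf) (n : ℕ) (X : Conf × Finset Edge) : ℝ :=
  P.real (cy (RW n) X.1) * ∏ e ∈ SS n, pz c (khmap X.1) e (zT X.2 e)

variable {c : ℝ} {P : Measure Conf} {n : ℕ} {D : Finset P2} {v0 : P2}

lemma offD_nw (X : Conf × Finset Edge) (β : Cfg) : OffD D (khmap X.1) (hts (nw D v0 X β)) :=
  ⟨fun v hv => by
    show (nw D v0 X β).1 v = _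
    simp only [nw, glue, hv, if_false]; rfl,
   fun f hf => by
    show (nw D v0 X β).2.1 f = _
    simp only [nw, glue, hf, if_false]; rfl⟩

/-- **weight relation** -/
theorem ma_Ψ (hc : 1 ≤ c) (hP : IsPlane c P) (h0 : ((0, 0) : P2) ∈ D)
    (hDn : D ⊆ Defs372.box n) (hv0 : v0 ∈ bdV D) {X : Conf × Finset Edge} (hX : Gd c n D X)
    {β : Cfg} (hβ : GI c D β) :
    Ma c P n (Ψ n D v0 X β) * wt c D (inn D v0 X) = Ma c P n X * wt c D β := by
  have hcv := cv_nw h0 hDn hv0 hX hβ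
  have hX' := gd_Ψ h0 hDn hv0 hX hβ
  have hoff := offD_nw (D := D) (v0 := v0) X β
  have hκ : CV (khmap X.1) := cv_khmap hX.ice
  have h1 := cy_swap (c := c) hP (R := RW n) (by simp only [RW]; omega) (stp_H6 hκ)
    (stp_H6 hcv) fun x hx => hoff.bx hDn hx
  rw [show cf (H6 (khmap X.1)) = X.1 by rw [H6_khmap, cf_relH hX.ice],
    cy_congr (rp_spec (R := RW n) (cv_of_stp hcv)).2.symm] at h1
  have h2 := nc_swap (n := n) hoff hDn hκ hcv c
  have h3 := prod_pz hc hκ n X.2
  have h4 := prod_pz hc (cv_khmap hX'.ice) n (Ψ n D v0 X β).2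
  have h5 : wt c (FF n) (Qb760.mk (khmap X.1) X.2) =
      wtOut c (FF n) D (om X.1 X.2) * wt c D (inn D v0 X) := wt_om h0 hDn hv0 hX
  have h6 : wt c (FF n) (Qb760.mk (khmap (Ψ n D v0 X β).1) (Ψ n D v0 X β).2) =
      wtOut c (FF n) D (om X.1 X.2) * wt c D β :=
    (wt_Ψ hcv).trans (wt_nw h0 hDn hv0 hX hβ)
  have h7 : ∏ e ∈ SS n, wf c (khmap (Ψ n D v0 X β).1) e =
      ∏ e ∈ SS n, wf c (hts (nw D v0 X β)) e := Finset.prod_congr rfl fun e he => wf_Ψ hcv he
  rw [h5] at h3
  rw [h6, h7] at h4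
  have hV : 0 < ∏ e ∈ SS n, wf c (khmap X.1) e := Finset.prod_pos fun e _ => wf_pos hc _ _
  have hV' : 0 < ∏ e ∈ SS n, wf c (hts (nw D v0 X β)) e := Finset.prod_pos fun e _ => wf_pos hc _ _
  have hN : 0 < c ^ NC (RW n) (H6 (khmap X.1)) := pow_pos (by linarith) _
  have h8 : P.real (cy (RW n) (Ψ n D v0 X β).1) = P.real (cy (RW n)
      (rp (RW n) (cf (H6 (hts (nw D v0 X β)))))) := rfl
  unfold Ma
  rw [h8]
  generalize P.real (cy (RW n) (rp (RW n) (cf (H6 (hts (nw D v0 X β)))))) = A' at *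
  generalize P.real (cy (RW n) X.1) = A at *
  generalize ∏ e ∈ SS n, wf c (khmap X.1) e = V at *
  generalize ∏ e ∈ SS n, wf c (hts (nw D v0 X β)) e = V' at *
  generalize c ^ NC (RW n) (H6 (khmap X.1)) = N at *
  generalize c ^ NC (RW n) (H6 (hts (nw D v0 X β))) = N' at *
  generalize ∏ e ∈ SS n, pz c (khmap X.1) e (zT X.2 e) = p1 at *
  generalize ∏ e ∈ SS n, pz c (khmap (Ψ n D v0 X β).1) e (zT (Ψ n D v0 X β).2 e) = p2 at *
  generalize wt c D (inn D v0 X) = I at *
  generalize wt c D β = B at *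
  generalize wtOut c (FF n) D (om X.1 X.2) = O at *
  have hne : V * V' * N ≠ 0 := by positivity
  apply mul_right_cancel₀ hne
  calc A' * p2 * I * (V * V' * N) = (A' * N) * (p2 * V') * V * I := by ring
    _ = (A * N') * (O * B) * V * I := by rw [← h1, h4]
    _ = A * (O * B) * I * (N' * V) := by ring
    _ = A * (O * B) * I * (N * V') := by rw [h2]
    _ = A * (O * I) * B * (V' * N) := by ring
    _ = A * (p1 * V) * B * (V' * N) := by rw [h3]
    _ = A * p1 * B * (V * V' * N) := by ring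

open Classical in
/-- the good pairs -/
def YY (c : ℝ) (n : ℕ) (D : Finset P2) : Finset (Conf × Finset Edge) :=
  ((Rp (RW n)) ×ˢ (SS n).powerset).filter (Gd c n D)

lemma mem_YY {X : Conf × Finset Edge} : X ∈ YY c n D ↔ Gd c n D X := by
  classical
  unfold YY
  rw [Finset.mem_filter, Finset.mem_product, Finset.mem_powerset]
  exact ⟨fun h => h.2, fun h => ⟨⟨h.rep, h.sub⟩, h⟩⟩

open Classical in
/-- the good inside configurations -/
def CC (c : ℝ) (D : Finset P2) : Finset Cfg := (conf D).filter fun β => wt c D β ≠ 0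

lemma mem_CC {β : Cfg} : β ∈ CC c D ↔ GI c D β := by
  classical
  unfold CC
  rw [Finset.mem_filter, mem_conf]
  exact ⟨fun h => ⟨h.1, h.2⟩, fun h => ⟨h.val, h.wt⟩⟩

lemma sum_CC (g : Cfg → ℝ) : ∑ β ∈ CC c D, wt c D β * g β = ∑ β ∈ conf D, wt c D β * g β := by
  classical
  unfold CC
  rw [Finset.sum_filter]
  refine Finset.sum_congr rfl fun β _ => ?_
  split_ifs with h
  · rfl
  · rw [not_not] at h
    rw [h, zero_mul]

/-- **double counting** -/
theorem double_count (hc : 1 ≤ c) (hP : IsPlane c P) (h0 : ((0, 0) : P2) ∈ D)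
    (hDn : D ⊆ Defs372.box n) (hv0 : v0 ∈ bdV D) (g : Cfg → ℝ) :
    (∑ X ∈ YY c n D, Ma c P n X * g (inn D v0 X)) * Z c D =
      (∑ X ∈ YY c n D, Ma c P n X) * ∑ β ∈ conf D, wt c D β * g β := by
  classical
  have hZ : Z c D = ∑ β ∈ CC c D, wt c D β * 1 := by
    rw [sum_CC fun _ => 1]
    unfold Z
    simp only [mul_one]
  rw [hZ, ← sum_CC g, Finset.sum_mul_sum, Finset.sum_mul_sum, ← Finset.sum_product',
    ← Finset.sum_product']
  refine Finset.sum_nbij' (fun x => (Ψ n D v0 x.1 x.2, inn D v0 x.1))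
    (fun x => (Ψ n D v0 x.1 x.2, inn D v0 x.1)) ?_ ?_ ?_ ?_ ?_
  · rintro ⟨X, β⟩ hx
    rw [Finset.mem_product, mem_YY, mem_CC] at hx
    rw [Finset.mem_product, mem_YY, mem_CC]
    exact ⟨gd_Ψ h0 hDn hv0 hx.1 hx.2, gi_inn h0 hDn hv0 hx.1⟩
  · rintro ⟨X, β⟩ hx
    rw [Finset.mem_product, mem_YY, mem_CC] at hx
    rw [Finset.mem_product, mem_YY, mem_CC]
    exact ⟨gd_Ψ h0 hDn hv0 hx.1 hx.2, gi_inn h0 hDn hv0 hx.1⟩
  · rintro ⟨X, β⟩ hx
    rw [Finset.mem_product, mem_YY, mem_CC] at hx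
    simp only
    rw [Ψ_Ψ h0 hDn hv0 hx.1 hx.2, inn_Ψ h0 hDn hv0 hx.1 hx.2]
  · rintro ⟨X, β⟩ hx
    rw [Finset.mem_product, mem_YY, mem_CC] at hx
    simp only
    rw [Ψ_Ψ h0 hDn hv0 hx.1 hx.2, inn_Ψ h0 hDn hv0 hx.1 hx.2]
  · rintro ⟨X, β⟩ hx
    rw [Finset.mem_product, mem_YY, mem_CC] at hx
    simp only
    have := ma_Ψ hc hP h0 hDn hv0 hx.1 hx.2
    calc Ma c P n X * g (inn D v0 X) * (wt c D β * 1)
        = (Ma c P n X * wt c D β) * g (inn D v0 X) := by ring
      _ = (Ma c P n (Ψ n D v0 X β) * wt c D (inn D v0 X)) * g (inn D v0 X) := by rw [this]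
      _ = _ := by ring

open Classical in
/-- the integrand -/
def FI (n : ℕ) (D : Finset P2) (G : Cfg → ℝ) (ω : Cfg) : ℝ :=
  if DF (Defs372.box n) (0, 0) ω = D then G (norm0 ω) else 0

lemma FI_good (h0 : ((0, 0) : P2) ∈ D) (hv0 : v0 ∈ bdV D) {G : Cfg → ℝ}
    (hG : Loc (↑D : Set P2) G) {X : Conf × Finset Edge} (hg : Gd c n D X) :
    FI n D G (om X.1 X.2) = G (norm0 (inn D v0 X)) := by
  unfold FI
  rw [if_pos hg.df]
  exact (norm0_ins (hg.cut h0 hv0) hG (by exact subset_rfl) h0).symm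

lemma FI_bad (hc : 1 ≤ c) (P : Measure Conf) {G : Cfg → ℝ} {X : Conf × Finset Edge}
    (h1 : X.1 ∈ Rp (RW n)) (h2 : X.2 ⊆ SS n) (hg : ¬ Gd c n D X) :
    Ma c P n X * FI n D G (om X.1 X.2) = 0 := by
  by_cases hdf : DF (Defs372.box n) (0, 0) (om X.1 X.2) = D
  · have hwt : wt c (FF n) (om X.1 X.2) = 0 := by
      by_contra hne
      exact hg ⟨h1, h2, hdf, hne⟩
    have hice : Ice X.1 := (mem_Rp.1 h1).1
    have h3 := prod_pz hc (cv_khmap hice) n X.2
    have h4 : wt c (Defs372.box (n + 1)) (Qb760.mk (khmap X.1) X.2) = 0 := hwt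
    rw [h4] at h3
    have hV : 0 < ∏ e ∈ SS n, wf c (khmap X.1) e := Finset.prod_pos fun e _ => wf_pos hc _ _
    have h5 : ∏ e ∈ SS n, pz c (khmap X.1) e (zT X.2 e) = 0 := by
      rcases mul_eq_zero.1 h3 with h | h
      · exact h
      · exact absurd h hV.ne'
    unfold Ma
    rw [h5, mul_zero, zero_mul]
  · unfold FI
    rw [if_neg hdf, mul_zero]

/-- the integral as a finite sum -/
theorem integral_FI (hc : 1 ≤ c) (hP : IsPlane c P) (hD : Dom D) (h0 : ((0, 0) : P2) ∈ D)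
    (hDn : D ⊆ Defs372.box n) (hv0 : v0 ∈ bdV D) {G : Cfg → ℝ} (hG : Loc (↑D : Set P2) G) :
    ∫ ω, FI n D G ω ∂(Qb c P) = ∑ X ∈ YY c n D, Ma c P n X * G (norm0 (inn D v0 X)) := by
  classical
  have := hP.prob
  have hFeq : ∀ ω, FI n D G ω = iD (Defs372.box n) D ω.2.2 * G (norm0 ω) := by
    intro ω
    unfold FI
    rw [iD_eq]
    split_ifs <;> ring
  have hGn := loc_norm0 hG (by exact h0)
  have hmeas : Measurable (FI n D G) := by
    rw [funext hFeq]
    exact (Loc.measurable (L := (tE (Defs372.box n)).image Prod.fst)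
      (loc_of_z (tE (Defs372.box n)) (iD_loc (Defs372.box n) D))).mul (Loc.measurable hGn)
  have hdep : DepZ (SS n) (FI n D G) := by
    intro ω ω' h1 h2
    have hk : ω.1 = ω'.1 := by
      have : (hts ω).1 = (hts ω').1 := by rw [h1]
      exact this
    have hh : ω.2.1 = ω'.2.1 := by
      have : (hts ω).2 = (hts ω').2 := by rw [h1]
      exact this
    have hdf : DF (Defs372.box n) (0, 0) ω = DF (Defs372.box n) (0, 0) ω' :=
      DF_congr_B fun e he => h2 e (mem_SS he)
    have hGG : G (norm0 ω) = G (norm0 ω') := by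
      refine hGn _ _ fun v hv => ⟨congrFun hk v, congrFun hh v, fun b => ?_⟩
      exact h2 _ (mem_SS (Or.inl (by simpa using hDn hv)))
    unfold FI
    rw [hdf, hGG]
  obtain ⟨M, hM0, hM⟩ := bdd_norm0 hD.conn h0 hG
  have hint : ∀ T ∈ (SS n).powerset, Integrable (fun w => FI n D G (Qb760.mk (khmap w) T)) P := by
    intro T _
    have hmk : Measurable fun p : KH => Qb760.mk p T :=
      measurable_fst.prodMk (measurable_snd.prodMk measurable_const)
    refine Integrable.of_bound ((hmeas.comp hmk).comp measurable_khmap).aestronglyMeasurable M ?_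
    filter_upwards [hP.ice] with w hw
    unfold FI
    split_ifs
    · exact hM _ fun f _ v hv => (cv_khmap hw).corner f v hv
    · simpa using hM0
  rw [integral_Qb hc P (SS n) hmeas hdep hint]
  -- dependence on the window
  have hwin : ∀ w w' : Conf, AgR (RW n) w w' →
      cexp c (SS n) (FI n D G) (khmap w) = cexp c (SS n) (FI n D G) (khmap w') := by
    intro w w' h
    have hkv : ∀ v, v6 v ∈ bx (RW n) → (khmap w).1 v = (khmap w').1 v := by
      intro v hv
      rw [← H6_vert (khmap w) v, ← H6_vert (khmap w') v, H6_khmap, H6_khmap]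
      exact h.relH hv
    have hkf : ∀ v, f6 v ∈ bx (RW n) → (khmap w).2 v = (khmap w').2 v := by
      intro v hv
      rw [← H6_face (khmap w) v, ← H6_face (khmap w') v, H6_khmap, H6_khmap]
      exact h.relH hv
    unfold cexp
    refine Finset.sum_congr rfl fun T _ => ?_
    congr 1
    · refine Finset.prod_congr rfl fun e he => ?_
      obtain ⟨h1, h2, h3, h4⟩ := sites_SS he
      unfold pz Csq472.pcut
      rw [hkv _ h1, hkv _ h2, hkf _ h3, hkf _ h4]
    · have hdf : DF (Defs372.box n) (0, 0) (Qb760.mk (khmap w) T) =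
          DF (Defs372.box n) (0, 0) (Qb760.mk (khmap w') T) := DF_congr_B fun e _ => rfl
      have hGG : G (norm0 (Qb760.mk (khmap w) T)) = G (norm0 (Qb760.mk (khmap w') T)) := by
        refine hGn _ _ fun v hv => ⟨?_, ?_, fun b => rfl⟩
        · exact hkv v (D_site hDn hv).1
        · exact hkf v (D_site hDn hv).2
      unfold FI
      rw [hdf, hGG]
  rw [integral_rep hP.ice hwin]
  -- the sum over pairs
  have h1 : ∑ w ∈ Rp (RW n), P.real (cy (RW n) w) * cexp c (SS n) (FI n D G) (khmap w) =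
      ∑ X ∈ (Rp (RW n)) ×ˢ (SS n).powerset, Ma c P n X * FI n D G (om X.1 X.2) := by
    rw [Finset.sum_product]
    refine Finset.sum_congr rfl fun w _ => ?_
    unfold cexp
    rw [Finset.mul_sum]
    refine Finset.sum_congr rfl fun T _ => ?_
    unfold Ma om
    ring
  rw [h1]
  unfold YY
  rw [Finset.sum_filter]
  refine Finset.sum_congr rfl fun X hX => ?_
  rw [Finset.mem_product, Finset.mem_powerset] at hX
  by_cases hg : Gd c n D X
  · rw [if_pos hg, FI_good h0 hv0 hG hg]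
  · rw [if_neg hg, FI_bad hc P hX.1 hX.2 hg]

/-- **Markov property of the plane state at the explored domains.** -/
theorem qmarkov_Qb (hc : 1 ≤ c) (hP : IsPlane c P) : QMarkov c (Qb c P) := by
  classical
  intro n D hD h0 hDn G hG
  have := hP.prob
  obtain ⟨v0, hv0⟩ := exists_bdV ⟨_, h0⟩
  have h1 := integral_FI hc hP hD h0 hDn hv0 hG
  have h2 := integral_FI hc hP hD h0 hDn hv0 (G := fun _ => 1) (fun _ _ _ => rfl)
  have h3 := double_count hc hP h0 hDn hv0 fun β => G (norm0 β)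
  have h4 : ∫ ω, FI n D (fun _ => 1) ω ∂(Qb c P) =
      (Qb c P).real {ω | DF (Defs372.box n) (0, 0) ω = D} := by
    rw [← integral_iD]
    refine integral_congr_ae (Filter.Eventually.of_forall fun ω => ?_)
    simp only [FI]
    rw [iD_eq]
  have h5 : ∫ ω, (if DF (Defs372.box n) (0, 0) ω = D then G (norm0 ω) else 0) ∂(Qb c P) =
      ∫ ω, FI n D G ω ∂(Qb c P) := rfl
  rw [h5, h1, ← h4, h2, E_eq_div]
  simp only [mul_one]
  have hZ := (Z_pos hc D).ne'
  rw [← mul_div_assoc, eq_div_iff hZ]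
  exact h3

end Crest.Agent.R161.Mkv760
end
end

-- ▼ part R161/NoInfQ_123
section

/-!
Row 161 (helper123): no infinite dual cluster for `Qb c P`.
-/

set_option autoImplicit false

namespace Crest.Agent.R161.Flat123

open Filter Topology MeasureTheory
open Crest.Agent.R150.Hgt989 Crest.Agent.R161.Defs372

theorem no_inf_Qb {c : ℝ} (hc : 1 < c) {P : Measure Conf} (h : Lk159.PlaneIn c P) (r : ℕ) :
    Tendsto (fun n => BK123.th ((Qb760.Qb c P).map fun ω : Cfg => ω.2.2) 1 r n) atTop (𝓝 0) := by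
  have := h.plane.prob
  exact no_inf hc.le h (Qb760.map_hts_Qb c P) (Qb760.gvalid_Qb c h.plane.ice)
    (Qb760.tinv_Qb h.plane) (InsQ863.ins_Qb hc h.plane) r

end Crest.Agent.R161.Flat123
end

-- ▼ part R161/Fin_760

/-!
# Row 161: the plane state is the limit of the zero boundary condition laws (helper760)

* `qsur_of_th` : no infinite cluster of non-cut edges implies `QSur`
* `isState_Qb` : `1 ≤ c → IsPlane c P → DomMono c → (no infinite cluster) → IsState c (Qb c P)`
-/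

set_option autoImplicit false

noncomputable section

namespace Crest.Agent.R161.Fin760

open MeasureTheory Filter Topology
open Crest.Agent.R161.Geo729 Crest.Agent.R161.Defs372 Crest.Agent.R161.Dual374
open Crest.Agent.R161.Hull374 Crest.Agent.R161.Exp760 Crest.Agent.R161.Iso760
open Crest.Agent.R161.BK123 Crest.Agent.R161.Qb760 Crest.Agent.R161.ZCv760
open Crest.Agent.R150.Pls989 (IsPlane)
open Crest.Agent.R150.Hgt989 (Conf)

lemma box_sub_Bx {m : ℕ} {f : P2} (h : f ∈ Defs372.box m) : f ∈ Bx 0 m := by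
  rw [Box760.mem_box] at h
  simp only [mem_Bx, abs_le, Prod.fst_zero, Prod.snd_zero, sub_zero]
  omega

lemma not_Bx_of {n : ℕ} {f : P2} (h : f ∉ Defs372.box (n + 1)) : f ∉ Bx 0 n := by
  intro h1
  apply h
  rw [Box760.mem_box]
  simp only [mem_Bx, abs_le, Prod.fst_zero, Prod.snd_zero, sub_zero] at h1
  push_cast
  omega

/-- a reached face of the box is joined to the boundary of the larger box -/
lemma kc_of_reach {m n : ℕ} (hmn : m ≤ n) {ω : Cfg} {f : P2} (hf : f ∈ Defs372.box m)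
    (hR : f ∈ RR (Defs372.box (n + 1)) ω) : Kc 1 ω.2.2 (Bx 0 n) (Bx 0 m) (Bd 0 n) := by
  obtain ⟨a, ha, hp⟩ := hR
  have ha' : a ∉ Defs372.box (n + 1) := by simpa using ha
  have hcn : Cn ω.2.2 Set.univ a f := by
    refine ⟨trivial, ?_⟩
    clear hf
    induction hp with
    | refl => exact .refl
    | @tail b1 c1 _ h2 ih =>
      refine ih.tail ⟨trivial, trivial, ?_⟩
      obtain ⟨e, he, hor⟩ := h2
      refine ⟨e, ?_, ?_⟩
      · unfold Zp at he
        simpa using he
      · rcases hor with ⟨h3, h4⟩ | ⟨h3, h4⟩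
        · exact Or.inl ⟨h3.symm, h4.symm⟩
        · exact Or.inr ⟨h4.symm, h3.symm⟩
  have hfm := box_sub_Bx hf
  obtain ⟨s, hs, hc⟩ := exit_bd (x := 0) (m := n) hcn.symm (Bx_mono hmn hfm)
    (Or.inl (not_Bx_of ha'))
  rw [Kc_one]
  exact ⟨f, hfm, s, hs, hc.mono Set.inter_subset_right⟩

theorem qsur_of_th {Q : Measure Cfg} [IsProbabilityMeasure Q]
    (h : ∀ r, Tendsto (fun n => th (Q.map fun ω : Cfg => ω.2.2) 1 r n) atTop (𝓝 0)) : QSur Q := by
  intro m ε hε
  have hz : Measurable fun ω : Cfg => ω.2.2 := measurable_snd.comp measurable_snd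
  obtain ⟨n, hn⟩ := ((h m).eventually (gt_mem_nhds hε)).exists_forall_of_atTop
  refine ⟨max m n + 1, (le_max_left _ _).trans (Nat.le_succ _), ?_⟩
  refine lt_of_le_of_lt ?_ (hn (max m n) (le_max_right _ _))
  unfold th
  have hmeas : MeasurableSet {z : ZC | Kc 1 z (Bx 0 (max m n)) (Bx 0 m) (Bd 0 (max m n))} :=
    (Kc_dep 1 (x := 0) (n := max m n) (Bx 0 m) (Bd 0 (max m n))).measurableSet
  unfold Measure.real
  rw [Measure.map_apply hz hmeas]
  refine ENNReal.toReal_mono (measure_ne_top _ _) (measure_mono ?_)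
  rintro ω ⟨f, hf, hR⟩
  exact kc_of_reach (le_max_left _ _) hf hR

/-- **The plane state is the limit of the zero boundary condition laws.** -/
theorem isState_Qb {c : ℝ} (hc : 1 ≤ c) {P : Measure Conf} (hP : IsPlane c P) (hM : DomMono c)
    (h : ∀ r, Tendsto (fun n => th ((Qb c P).map fun ω : Cfg => ω.2.2) 1 r n) atTop (𝓝 0)) :
    IsState c (Qb c P) := by
  have := hP.prob
  exact isState_of hc (zconv_of_domMono hc hM) (gvalid_Qb c hP.ice) (Mkv760.qmarkov_Qb hc hP)
    (qsur_of_th h)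

end Crest.Agent.R161.Fin760
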