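import Crest.Agent.R161.Green1_722
import Crest.Agent.R135.EarnPot
import Crest.Agent.R097.LapChain

/-!
# R161 (S0242): Laplacian and logarithmic potentials in `ℂ` (helper722), part 2

Transfer of the planar potential theory of `R135`/`R097` from `EuclideanSpace ℝ (Fin 2)` to `ℂ`.
-/

set_option autoImplicit false

open MeasureTheory Metric Set Filter Topology Laplacian InnerProductSpace
open scoped ComplexConjugate ContDiff

namespace Crest.Agent.R161.Green722

noncomputable section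

local notation "E2" => EuclideanSpace ℝ (Fin 2)

/-- the isometry `ℂ ≃ E2` -/
def eC : ℂ ≃ₗᵢ[ℝ] E2 := Complex.orthonormalBasisOneI.repr

theorem lap_comp_eC (f : E2 → ℝ) (z : ℂ) : (Δ (fun y : ℂ => f (eC y))) z = (Δ f) (eC z) := by
  have h1 := congrFun (laplacian_eq_iteratedFDeriv_orthonormalBasis (fun y => f (eC y))
    Complex.orthonormalBasisOneI) z
  have h2 := congrFun (laplacian_eq_iteratedFDeriv_orthonormalBasis f
    (Complex.orthonormalBasisOneI.map eC)) (eC z)
  rw [h1, h2]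
  refine Finset.sum_congr rfl fun i _ => ?_
  have h3 := ContinuousLinearEquiv.iteratedFDerivWithin_comp_right (𝕜 := ℝ)
    (eC.toContinuousLinearEquiv) f uniqueDiffOn_univ (x := z) (mem_univ _) 2
  rw [preimage_univ, iteratedFDerivWithin_univ, iteratedFDerivWithin_univ] at h3
  have h4 : (fun y => f (eC y)) = f ∘ (eC.toContinuousLinearEquiv : ℂ → E2) := rfl
  rw [h4, h3, ContinuousMultilinearMap.compContinuousLinearMap_apply]
  congr 1
  funext j
  fin_cases j <;> simp

theorem lap_eC (F : ℂ → ℝ) (z : ℂ) : (Δ F) z = (Δ (fun y : E2 => F (eC.symm y))) (eC z) := by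
  rw [← lap_comp_eC]
  simp

theorem mp_eC : MeasurePreserving (eC : ℂ → E2) := eC.measurePreserving


theorem integral_eC (F : E2 → ℝ) : ∫ z : ℂ, F (eC z) = ∫ x, F x :=
  mp_eC.integral_comp eC.toHomeomorph.measurableEmbedding F

theorem c0_eq : Crest.Agent.R135.Reg.c0 = 2 * Real.pi := by
  unfold Crest.Agent.R135.Reg.c0
  have h1 := integral_fun_norm_addHaar (volume : Measure E2) (fun t : ℝ => 2 / (t ^ 2 + 1) ^ 2)
  rw [h1]
  have h2 : ∫ y in Ioi (0 : ℝ), y ^ (Module.finrank ℝ E2 - 1) • (2 / (y ^ 2 + 1) ^ 2) = 1 := by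
    have h3 : ∀ y ∈ Ici (0 : ℝ), HasDerivAt (fun y : ℝ => -(y ^ 2 + 1)⁻¹)
        (y ^ (Module.finrank ℝ E2 - 1) • (2 / (y ^ 2 + 1) ^ 2)) y := by
      intro y _
      have h4 : y ^ 2 + 1 ≠ 0 := by positivity
      have h5 := (((hasDerivAt_pow 2 y).add_const 1).inv h4).neg
      refine h5.congr_deriv ?_
      simp only [finrank_euclideanSpace, Fintype.card_fin, smul_eq_mul]
      field_simp
      norm_num
      ring
    have h6 : Tendsto (fun y : ℝ => -(y ^ 2 + 1)⁻¹) atTop (𝓝 (-0)) := by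
      refine Tendsto.neg ?_
      exact (tendsto_atTop_add_const_right _ _ (tendsto_pow_atTop two_ne_zero)).inv_tendsto_atTop
    have h7 := integral_Ioi_of_hasDerivAt_of_nonneg' (a := (0 : ℝ)) h3 (fun y hy => by
      have : 0 < y := hy
      positivity) h6
    rw [h7]
    norm_num
  rw [h2]
  have h8 : (volume : Measure E2).real (ball 0 1) = Real.pi := by
    rw [Measure.real, EuclideanSpace.volume_ball_fin_two]
    simp [Real.pi_pos.le]
  rw [h8]
  simp [finrank_euclideanSpace]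

/-- continuity of the Laplacian of smooth functions -/
theorem continuous_lapC {f : ℂ → ℝ} (hf : ContDiff ℝ 2 f) : Continuous (Δ f) := by
  have h1 : ContDiff ℝ 2 (fun y : E2 => f (eC.symm y)) :=
    hf.comp eC.symm.toContinuousLinearEquiv.contDiff
  have h2 : Continuous (Δ (fun y : E2 => f (eC.symm y))) := by
    have := Crest.Agent.R097.Hm.continuousOn_lap isOpen_univ h1.contDiffOn
    rwa [← continuousOn_univ]
  have h3 : (Δ f) = fun z => (Δ (fun y : E2 => f (eC.symm y))) (eC z) := funext fun z => lap_eC f z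
  rw [h3]
  exact h2.comp eC.continuous

theorem lapC_eq_zero {f : ℂ → ℝ} {z : ℂ} (hz : z ∉ tsupport f) : (Δ f) z = 0 := by
  have h1 : f =ᶠ[𝓝 z] fun _ => (0 : ℝ) := by
    filter_upwards [(isClosed_tsupport f).isOpen_compl.mem_nhds hz] with y hy
    exact image_eq_zero_of_notMem_tsupport hy
  rw [(laplacian_congr_nhds h1).eq_of_nhds]
  have : (Δ (fun _ : ℂ => (0 : ℝ))) = fun _ => 0 := laplacian_const
  rw [this]

theorem tsupport_lapC (f : ℂ → ℝ) : tsupport (Δ f) ⊆ tsupport f := by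
  refine closure_minimal (fun z hz => ?_) (isClosed_tsupport f)
  by_contra h
  exact hz (lapC_eq_zero h)

theorem hasCompactSupport_lapC {f : ℂ → ℝ} (hc : HasCompactSupport f) :
    HasCompactSupport (Δ f) :=
  HasCompactSupport.of_support_subset_isCompact hc
    ((subset_tsupport _).trans (tsupport_lapC f))

/-- Green's identity in `ℂ` -/
theorem green_onC {U : Set ℂ} (hU : IsOpen U) {v : ℂ → ℝ} (hv : ContDiffOn ℝ 2 v U)
    {φ : ℂ → ℝ} (hφ : ContDiff ℝ ∞ φ) (hc : HasCompactSupport φ) (hs : tsupport φ ⊆ U) :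
    ∫ z, v z * (Δ φ) z = ∫ z, (Δ v) z * φ z := by
  have h0 : IsOpen ((fun y : E2 => (eC.symm y : ℂ)) ⁻¹' U) := hU.preimage eC.symm.continuous
  have h1 : ContDiffOn ℝ 2 (fun y : E2 => v (eC.symm y)) ((fun y : E2 => (eC.symm y : ℂ)) ⁻¹' U) :=
    hv.comp eC.symm.toContinuousLinearEquiv.contDiff.contDiffOn (fun y hy => hy)
  have h2 : ContDiff ℝ ∞ (fun y : E2 => φ (eC.symm y)) :=
    hφ.comp eC.symm.toContinuousLinearEquiv.contDiff
  have h3 : HasCompactSupport (fun y : E2 => φ (eC.symm y)) :=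
    hc.comp_homeomorph eC.symm.toHomeomorph
  have h4 : tsupport (fun y : E2 => φ (eC.symm y)) ⊆ (fun y : E2 => (eC.symm y : ℂ)) ⁻¹' U := by
    have h5 : tsupport (fun y : E2 => φ (eC.symm y)) =
        (fun y : E2 => (eC.symm y : ℂ)) ⁻¹' tsupport φ :=
      tsupport_comp_eq_preimage φ eC.symm.toHomeomorph
    rw [h5]
    exact preimage_mono hs
  have h6 := Crest.Agent.R097.Hm.green_on h0 h1 h2 h3 h4
  have h7 := integral_eC (fun y : E2 => v (eC.symm y) * (Δ (fun y : E2 => φ (eC.symm y))) y)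
  have h8 := integral_eC (fun y : E2 => (Δ (fun y : E2 => v (eC.symm y))) y * φ (eC.symm y))
  simp only [LinearIsometryEquiv.symm_apply_apply, ← lap_eC] at h7 h8
  rw [h7, h6, ← h8]

/-- logarithmic potential, normalised so that `Δ (LP f) = f` -/
def LP (f : ℂ → ℝ) (z : ℂ) : ℝ := (1 / (2 * Real.pi)) * ∫ w, Real.log ‖z - w‖ * f w

theorem LP_eq (f : ℂ → ℝ) (z : ℂ) :
    LP f z = Crest.Agent.R135.Earn.lp (fun y : E2 => f (eC.symm y)) (eC z) := by
  rw [Crest.Agent.R135.Earn.lp_swap, c0_eq]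
  unfold LP
  rw [one_div]
  congr 1
  rw [← integral_eC]
  congr 1
  funext w
  rw [Crest.Agent.R135.Earn.Lk_zero_eq, LinearIsometryEquiv.symm_apply_apply, ← map_sub,
    LinearIsometryEquiv.norm_map, norm_sub_rev]

theorem LP_eq' (f : ℂ → ℝ) :
    LP f = fun z => Crest.Agent.R135.Earn.lp (fun y : E2 => f (eC.symm y)) (eC z) :=
  funext fun z => LP_eq f z

theorem contDiff_pull {f : ℂ → ℝ} (hf : ContDiff ℝ ∞ f) :
    ContDiff ℝ ∞ (fun y : E2 => f (eC.symm y)) :=
  hf.comp eC.symm.toContinuousLinearEquiv.contDiff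

theorem hasCompactSupport_pull {f : ℂ → ℝ} (hc : HasCompactSupport f) :
    HasCompactSupport (fun y : E2 => f (eC.symm y)) :=
  hc.comp_homeomorph eC.symm.toHomeomorph

theorem contDiff_LP {f : ℂ → ℝ} (hf : ContDiff ℝ ∞ f) (hc : HasCompactSupport f) :
    ContDiff ℝ ∞ (LP f) := by
  rw [LP_eq']
  exact (Crest.Agent.R135.Earn.contDiff_lp (contDiff_pull hf) (hasCompactSupport_pull hc)).comp
    eC.toContinuousLinearEquiv.contDiff

theorem lap_LP {f : ℂ → ℝ} (hf : ContDiff ℝ ∞ f) (hc : HasCompactSupport f) (z : ℂ) :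
    (Δ (LP f)) z = f z := by
  rw [LP_eq', lap_comp_eC, Crest.Agent.R135.Earn.lap_lp (contDiff_pull hf)
    (hasCompactSupport_pull hc)]
  simp

theorem LP_lap {f : ℂ → ℝ} (hf : ContDiff ℝ ∞ f) (hc : HasCompactSupport f) (z : ℂ) :
    LP (Δ f) z = f z := by
  rw [LP_eq]
  have h1 : (fun y : E2 => (Δ f) (eC.symm y)) = Δ (fun y : E2 => f (eC.symm y)) := by
    funext y
    rw [lap_eC]
    simp
  rw [h1, Crest.Agent.R135.Earn.lp_lap (contDiff_pull hf) (hasCompactSupport_pull hc)]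
  simp


end

end Crest.Agent.R161.Green722
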