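import Crest.Agent.R161.Mono_375
import Crest.Agent.R161.Ht_132
import Crest.Agent.R161.Abs_375
import Crest.Agent.R161.H3_689
import Crest.Agent.R161.Asm_695

-- ▼ part R161/Brs_375
section

/-!
# Bridge between `Defs372` and the abstract height systems (helper375)

For finite face sets `F ⊆ F'` (no topology): `GG F'` is the geometry of `F'` on finite types, and
`E c F` is the `S`-average in `GG F'` with couplings `cF` (`c` on `intEdges F`, `1` elsewhere) and
pins `pinF` (zero on the non-interior vertices of `F`).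
-/

set_option autoImplicit false
set_option linter.unusedSectionVars false
set_option linter.unusedVariables false

open Finset
open Crest.Agent.R161.Geo729 Crest.Agent.R161.Defs372 Crest.Agent.R161.Ht132
open Crest.Agent.R161.Lsm375 Crest.Agent.R161.Gks375 Crest.Agent.R161.Hts375
open Crest.Agent.R161.Abs375 Crest.Agent.R161.Pol375 Crest.Agent.R161.Mono375

namespace Crest.Agent.R161.Brs375

noncomputable section

/-- vertices touching `F` -/
def crn (F : Finset P2) : Finset P2 :=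
  F.biUnion fun f => {(f.1, f.2), (f.1 + 1, f.2), (f.1, f.2 + 1), (f.1 + 1, f.2 + 1)}

lemma mem_crn {F : Finset P2} {v : P2} : v ∈ crn F ↔ ∃ f ∈ F, Geo729.IsCorner v f := by
  simp [crn, Geo729.IsCorner]

lemma crn_of {F : Finset P2} {v f : P2} (hf : f ∈ F) (h : Geo729.IsCorner v f) : v ∈ crn F :=
  mem_crn.2 ⟨f, hf, h⟩

/-- the geometry of `F` on finite types -/
def GG (F : Finset P2) : Geo (crn F) F (intEdges F) where
  inc v f := Geo729.IsCorner v.1 f.1
  v₁ e := ⟨src e.1, crn_of (mem_intEdges.1 e.2).1 (isCorner_src_fA e.1)⟩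
  v₂ e := ⟨tgt e.1, crn_of (mem_intEdges.1 e.2).1 (isCorner_tgt_fA e.1)⟩
  f₁ e := ⟨fA e.1, (mem_intEdges.1 e.2).1⟩
  f₂ e := ⟨fB e.1, (mem_intEdges.1 e.2).2⟩
  inc₁₁ e := isCorner_src_fA e.1
  inc₁₂ e := isCorner_src_fB e.1
  inc₂₁ e := isCorner_tgt_fA e.1
  inc₂₂ e := isCorner_tgt_fB e.1

variable {F F' : Finset P2}

/-- couplings of `F` inside `F'` -/
def cF (F F' : Finset P2) (c : ℝ) (e : intEdges F') : ℝ := if e.1 ∈ intEdges F then c else 1

open Classical in
/-- pins of `F` inside `F'` -/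
def pinF (F F' : Finset P2) (a : (crn F') ⊕ F' → ℤ) : ℝ :=
  if 0 ≤ a ∧ ∀ v : crn F', v.1 ∉ intVerts F → a (.inl v) = 0 then 1 else 0

/-- extension of a height function of `GG F'` to a pair on `P2` with the values outside `F`
canonical -/
def ext (F F' : Finset P2) (h : (crn F') ⊕ F' → ℤ) : Pr2 :=
  (fun v => if hv : v ∈ crn F' then h (.inl ⟨v, hv⟩) else 0,
   fun f => if hf : f ∈ F' then (if f ∈ F then h (.inr ⟨f, hf⟩) else 1) else 1)

/-- restriction of a pair, with signs on the faces of `F' \ F` -/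
def res (F F' : Finset P2) (p : Pr2) (s : F' → ℤˣ) : (crn F') ⊕ F' → ℤ
  | .inl v => p.1 v.1
  | .inr f => if f.1 ∈ F then p.2 f.1 else ((s f : ℤˣ) : ℤ)

lemma not_intV_of_corner {v f : P2} (hf : f ∉ F) (h : Geo729.IsCorner v f) : v ∉ intVerts F := by
  rw [mem_intVerts, intV_iff]
  exact fun h' => hf (h' f h)

lemma src_not {e : Edge} (he : e ∉ intEdges F) : src e ∉ intVerts F ∧ tgt e ∉ intVerts F := by
  rw [mem_intEdges, not_and_or] at he
  rcases he with h | h
  · exact ⟨not_intV_of_corner h (isCorner_src_fA e), not_intV_of_corner h (isCorner_tgt_fA e)⟩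
  · exact ⟨not_intV_of_corner h (isCorner_src_fB e), not_intV_of_corner h (isCorner_tgt_fB e)⟩

lemma intEdges_mono (h : F ⊆ F') : intEdges F ⊆ intEdges F' := fun e he => by
  rw [mem_intEdges] at he ⊢
  exact ⟨h he.1, h he.2⟩

lemma intVerts_crn (h : F ⊆ F') {v : P2} (hv : v ∈ intVerts F) : v ∈ crn F' := by
  have hvF : v ∈ F := (Finset.mem_filter.1 hv).1
  exact crn_of (h hvF) (Or.inl rfl)

/-- pinned valid height functions -/
def PV (F F' : Finset P2) (h : (crn F') ⊕ F' → ℤ) : Prop :=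
  (GG F').Valid h ∧ ∀ v : crn F', v.1 ∉ intVerts F → h (.inl v) = 0

lemma valid2_ext (hF : F ⊆ F') {h : (crn F') ⊕ F' → ℤ} (hh : PV F F' h) :
    Valid2 F (ext F F' h) where
  zero := fun v hv => by
    unfold ext
    simp only
    split_ifs with h1
    · exact hh.2 ⟨v, h1⟩ hv
    · rfl
  even := fun v => by
    unfold ext
    simp only
    split_ifs with h1
    · exact hh.1.1 ⟨v, h1⟩
    · exact Even.zero
  off := fun f hf => by
    unfold ext
    simp only [hf, if_false]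
    split_ifs <;> rfl
  corner := fun f hf v hv => by
    unfold ext
    simp only [hF hf, hf, dif_pos, if_pos, crn_of (hF hf) hv]
    exact hh.1.2.2 ⟨v, crn_of (hF hf) hv⟩ ⟨f, hF hf⟩ hv

lemma pv_res (hF : F ⊆ F') {p : Pr2} (hp : Valid2 F p) (s : F' → ℤˣ) : PV F F' (res F F' p s) := by
  refine ⟨⟨fun v => hp.even v.1, fun f => ?_, fun v f hvf => ?_⟩, fun v hv => hp.zero v.1 hv⟩
  · show Odd (if f.1 ∈ F then p.2 f.1 else ((s f : ℤˣ) : ℤ))
    split_ifs with h1
    · have h2 := hp.even f.1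
      have h3 := hp.corner f.1 h1 f.1 (Or.inl rfl)
      obtain ⟨r, hr⟩ := h2
      rw [abs_eq (by norm_num)] at h3
      rcases h3 with h3 | h3
      · exact ⟨r - 1 + (r - r), by omega⟩
      · exact ⟨r, by omega⟩
    · rcases Int.units_eq_one_or (s f) with h | h <;> rw [h] <;> decide
  · show |p.1 v.1 - (if f.1 ∈ F then p.2 f.1 else ((s f : ℤˣ) : ℤ))| = 1
    split_ifs with h1
    · exact hp.corner f.1 h1 v.1 hvf
    · rw [hp.zero v.1 (not_intV_of_corner h1 hvf)]
      rcases Int.units_eq_one_or (s f) with h | h <;> rw [h] <;> decide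

lemma ext_res {p : Pr2} (hF : F ⊆ F') (hp : Valid2 F p) (s : F' → ℤˣ) :
    ext F F' (res F F' p s) = p := by
  refine Prod.ext (funext fun v => ?_) (funext fun f => ?_)
  · show (if hv : v ∈ crn F' then p.1 v else 0) = p.1 v
    split_ifs with h1
    · rfl
    · exact (hp.zero v fun h => h1 (intVerts_crn hF h)).symm
  · show (if hf : f ∈ F' then (if f ∈ F then (if f ∈ F then p.2 f else ((s ⟨f, hf⟩ : ℤˣ) : ℤ)) else 1)
      else 1) = p.2 f
    by_cases h1 : f ∈ F
    · rw [dif_pos (hF h1), if_pos h1, if_pos h1]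
    · rw [hp.off f h1]
      split_ifs <;> rfl

/-- sign of a `±1` integer -/
def sg (a : ℤ) : ℤˣ := if a = 1 then 1 else -1

lemma face_pm {h : (crn F') ⊕ F' → ℤ} (hh : PV F F' h) {f : F'} (hf : f.1 ∉ F) :
    ((sg (h (.inr f)) : ℤˣ) : ℤ) = h (.inr f) := by
  have h1 := hh.1.2.2 ⟨f.1, crn_of f.2 (Or.inl rfl)⟩ f (Or.inl rfl)
  rw [hh.2 _ (not_intV_of_corner hf (Or.inl rfl)), abs_eq (by norm_num)] at h1
  unfold sg
  rcases h1 with h1 | h1
  · have h2 : h (.inr f) = -1 := by omega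
    rw [h2]; decide
  · have h2 : h (.inr f) = 1 := by omega
    rw [h2]; decide

/-- signs of the faces outside `F` (`1` inside) -/
def sgn (F F' : Finset P2) (h : (crn F') ⊕ F' → ℤ) : F' → ℤˣ :=
  fun f => if f.1 ∈ F then 1 else sg (h (.inr f))

lemma res_ext (hF : F ⊆ F') {h : (crn F') ⊕ F' → ℤ} (hh : PV F F' h) :
    res F F' (ext F F' h) (sgn F F' h) = h := by
  funext x
  rcases x with v | f
  · show (if hv : v.1 ∈ crn F' then h (.inl ⟨v.1, hv⟩) else 0) = h (.inl v)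
    rw [dif_pos v.2]
  · show (if f.1 ∈ F then (if hf : f.1 ∈ F' then (if f.1 ∈ F then h (.inr ⟨f.1, hf⟩) else 1) else 1)
      else ((sgn F F' h f : ℤˣ) : ℤ)) = h (.inr f)
    by_cases h1 : f.1 ∈ F
    · rw [if_pos h1, dif_pos f.2, if_pos h1]
    · rw [if_neg h1]
      unfold sgn
      rw [if_neg h1]
      exact face_pm hh h1

/-- weight of a pinned height function -/
lemma W_res (hF : F ⊆ F') (c : ℝ) {h : (crn F') ⊕ F' → ℤ} (hh : PV F F' h) :
    (GG F').W (cF F F' c) h = wt6 c F (ext F F' h) := by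
  classical
  unfold Geo.W
  rw [if_pos hh.1]
  have hw : wt6 c F (ext F F' h) = ∏ e ∈ intEdges F', (if e ∈ intEdges F then
      w6 c (ext F F' h) e else 1) := by
    unfold wt6
    rw [← Finset.prod_subset (intEdges_mono hF) (f := fun e => if e ∈ intEdges F then
      w6 c (ext F F' h) e else 1) (fun e _ he => if_neg he)]
    exact Finset.prod_congr rfl fun e he => (if_pos he).symm
  rw [hw, ← Finset.prod_attach (intEdges F'), Finset.univ_eq_attach]
  refine Finset.prod_congr rfl fun e _ => ?_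
  unfold Geo.wp cF
  by_cases he : e.1 ∈ intEdges F
  · rw [if_pos he, if_pos he]
    unfold w6 Geo.Flat
    have h1 := (mem_intEdges.1 he)
    have e1 : (ext F F' h).1 (src e.1) = h (.inl ((GG F').v₁ e)) := dif_pos _
    have e2 : (ext F F' h).1 (tgt e.1) = h (.inl ((GG F').v₂ e)) := dif_pos _
    have e3 : (ext F F' h).2 (fA e.1) = h (.inr ((GG F').f₁ e)) :=
      (dif_pos (hF h1.1)).trans (if_pos h1.1)
    have e4 : (ext F F' h).2 (fB e.1) = h (.inr ((GG F').f₂ e)) :=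
      (dif_pos (hF h1.2)).trans (if_pos h1.2)
    rw [e1, e2, e3, e4]
    split_ifs <;> rfl
  · rw [if_neg he, if_neg he]
    split_ifs <;> rfl

/-- signs which are `1` on `F` -/
def SG (F F' : Finset P2) : Finset (F' → ℤˣ) :=
  Finset.univ.filter fun s => ∀ f : F', f.1 ∈ F → s f = 1

lemma SG_card_pos (F F' : Finset P2) : 0 < ((SG F F').card : ℝ) := by
  have : (1 : F' → ℤˣ) ∈ SG F F' := by simp [SG]
  exact_mod_cast Finset.card_pos.2 ⟨_, this⟩

lemma hb_mono (hF : F ⊆ F') : hb F ≤ hb F' := by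
  unfold hb
  have := Finset.card_le_card hF
  linarith

lemma one_le_hb (F : Finset P2) : 1 ≤ hb F := by
  unfold hb; linarith [Int.natCast_nonneg F.card]

lemma res_box (hF : F ⊆ F') {p : Pr2} (hp : Valid2 F p) (s : F' → ℤˣ) {M : ℤ} (hM : hb F' ≤ M) :
    res F F' p s ∈ Finset.Icc (-(fun _ => M : (crn F') ⊕ F' → ℤ)) (fun _ => M) := by
  have hv := valid_mk hp (Finset.empty_subset _)
  have hM' : hb F ≤ M := (hb_mono hF).trans hM
  have key : ∀ x, |res F F' p s x| ≤ M := by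
    intro x
    rcases x with v | f
    · exact (hv.abs_vert v.1).trans hM'
    · show |(if f.1 ∈ F then p.2 f.1 else ((s f : ℤˣ) : ℤ))| ≤ M
      split_ifs with h1
      · exact (hv.abs_face f.1).trans hM'
      · have := one_le_hb F'
        rcases Int.units_eq_one_or (s f) with h | h <;> rw [h] <;> simp <;> linarith
  rw [Finset.mem_Icc]
  exact ⟨fun x => (abs_le.1 (key x)).1, fun x => (abs_le.1 (key x)).2⟩

/-- **Bridge, unnormalised.** -/
theorem S_eq (hF : F ⊆ F') (c : ℝ) {M : ℤ} (hM : hb F' ≤ M) (Φ : Pr2 → ℝ) :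
    S (GG F') (cF F F' c) (pinF F F') (fun _ => M) (fun h => Φ (ext F F' h)) =
      (SG F F').card * ∑ p ∈ conf2 F, wt6 c F p * Φ p := by
  classical
  have e1 : ((SG F F').card : ℝ) * ∑ p ∈ conf2 F, wt6 c F p * Φ p =
      ∑ q ∈ conf2 F ×ˢ SG F F', wt6 c F q.1 * Φ q.1 := by
    rw [Finset.sum_product]
    simp only [Finset.sum_const, nsmul_eq_mul]
    rw [Finset.mul_sum]
  rw [e1]
  unfold S
  have e2 : ∑ h ∈ Finset.Icc (-(fun _ => M : (crn F') ⊕ F' → ℤ)) (fun _ => M),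
      (GG F').W (cF F F' c) h * pinF F F' (ab h) * Φ (ext F F' h) =
      ∑ h ∈ (Finset.Icc (-(fun _ => M : (crn F') ⊕ F' → ℤ)) (fun _ => M)).filter (PV F F'),
        wt6 c F (ext F F' h) * Φ (ext F F' h) := by
    rw [Finset.sum_filter]
    refine Finset.sum_congr rfl fun h _ => ?_
    by_cases hh : PV F F' h
    · rw [if_pos hh, W_res hF c hh]
      unfold pinF
      rw [if_pos, mul_one]
      refine ⟨fun x => abs_nonneg _, fun v hv => ?_⟩
      simp [ab, hh.2 v hv]
    · rw [if_neg hh]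
      by_cases h1 : (GG F').Valid h
      · have h2 : ¬ (0 ≤ ab h ∧ ∀ v : crn F', v.1 ∉ intVerts F → ab h (.inl v) = 0) := by
          intro h3
          exact hh ⟨h1, fun v hv => abs_eq_zero.1 (h3.2 v hv)⟩
        unfold pinF
        rw [if_neg h2]; ring
      · unfold Geo.W
        rw [if_neg h1]; ring
  rw [e2]
  symm
  refine Finset.sum_nbij' (fun q => res F F' q.1 q.2) (fun h => (ext F F' h, sgn F F' h))
    ?_ ?_ ?_ ?_ ?_
  · rintro ⟨p, s⟩ hq
    rw [Finset.mem_product, mem_conf2] at hq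
    rw [Finset.mem_filter]
    exact ⟨res_box hF hq.1 s hM, pv_res hF hq.1 s⟩
  · intro h hh
    rw [Finset.mem_filter] at hh
    rw [Finset.mem_product, mem_conf2]
    refine ⟨valid2_ext hF hh.2, ?_⟩
    simp only [SG, Finset.mem_filter, Finset.mem_univ, true_and]
    intro f hf
    unfold sgn
    rw [if_pos hf]
  · rintro ⟨p, s⟩ hq
    rw [Finset.mem_product, mem_conf2] at hq
    simp only [SG, Finset.mem_filter, Finset.mem_univ, true_and] at hq
    refine Prod.ext (ext_res hF hq.1 s) ?_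
    funext f
    show (if f.1 ∈ F then 1 else sg (if f.1 ∈ F then p.2 f.1 else ((s f : ℤˣ) : ℤ))) = s f
    by_cases h1 : f.1 ∈ F
    · rw [if_pos h1, hq.2 f h1]
    · rw [if_neg h1, if_neg h1]
      rcases Int.units_eq_one_or (s f) with h | h <;> rw [h] <;> decide
  · intro h hh
    rw [Finset.mem_filter] at hh
    exact res_ext hF hh.2
  · rintro ⟨p, s⟩ hq
    rw [Finset.mem_product, mem_conf2] at hq
    simp only
    rw [ext_res hF hq.1 s]

/-- **Bridge**: `E c F` as an `S`-average in the geometry of `F' ⊇ F`. -/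
theorem E_bridge (hF : F ⊆ F') {c : ℝ} {M : ℤ} (hM : hb F' ≤ M) (Φ : Pr2 → ℝ) :
    E c F (fun ω => Φ (ω.1, ω.2.1)) =
      S (GG F') (cF F F' c) (pinF F F') (fun _ => M) (fun h => Φ (ext F F' h)) /
      S (GG F') (cF F F' c) (pinF F F') (fun _ => M) (fun _ => 1) := by
  have h1 := S_eq hF c hM (fun _ => 1)
  rw [S_eq hF c hM Φ, h1, E_eq6]
  unfold Z6
  simp only [mul_one]
  rw [mul_div_mul_left _ _ (SG_card_pos F F').ne']

end

end Crest.Agent.R161.Brs375
end

-- ▼ part R161/H1_689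
section

/-!
# Convex-order monotonicity of cluster sign averages (helper689, R161 STEP 7/8)

For clusters of signs (`Abs375.av i j C`, the uniform law on sign configurations constant on the
constraints of `C`) and weights `w̃, w` we compare `av i j C (Φ (∑ σ_x w̃_x))` with
`av i j D (Φ (∑ σ_x w_x))` for `C ⊆ D`.

* `av_le_av` : general vector valued statement;
* `av_convex` : `Φ` convex, `|w̃ x| ≤ w x`;
* `av_cos_sub` : `|av D cos - av C cos| ≤ (av D sq - av C sq) / 2`.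
-/

set_option autoImplicit false
set_option linter.unusedSectionVars false
set_option linter.unusedVariables false

open Finset
open Crest.Agent.R161.Abs375

namespace Crest.Agent.R161.H689

/-! ### label level -/

section label
variable {κ E : Type*} [Fintype κ] [DecidableEq κ] [AddCommGroup E] [Module ℝ E]

/-- flipping one label -/
def flip (c : κ) (s : κ → ℤˣ) : κ → ℤˣ := Function.update s c (-(s c))

lemma flip_flip (c : κ) (s : κ → ℤˣ) : flip c (flip c s) = s := by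
  unfold flip
  funext x
  by_cases h : x = c
  · subst h; simp
  · simp [h]

/-- `flip c` as an equivalence -/
def flipE (c : κ) : (κ → ℤˣ) ≃ (κ → ℤˣ) where
  toFun := flip c
  invFun := flip c
  left_inv := flip_flip c
  right_inv := flip_flip c

lemma sum_flip (c : κ) (F : (κ → ℤˣ) → ℝ) : ∑ s, F (flip c s) = ∑ s, F s :=
  Fintype.sum_equiv (flipE c) _ _ fun _ => rfl

lemma sgn_smul_case (u : ℤˣ) (x : E) :
    (((u : ℤ) : ℝ) • x = x ∧ (((-u : ℤˣ) : ℤ) : ℝ) • x = -x) ∨
      (((u : ℤ) : ℝ) • x = -x ∧ (((-u : ℤˣ) : ℤ) : ℝ) • x = x) := by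
  rcases Int.units_eq_one_or u with h | h
  · left; subst h; simp
  · right; subst h; simp

/-- **Label level comparison.** -/
theorem sum_label_le (Φ : E → ℝ) (a b : κ → E)
    (h : ∀ c (R : E), Φ (R + b c) + Φ (R - b c) ≤ Φ (R + a c) + Φ (R - a c)) :
    ∑ s : κ → ℤˣ, Φ (∑ c, ((s c : ℤ) : ℝ) • b c) ≤
      ∑ s : κ → ℤˣ, Φ (∑ c, ((s c : ℤ) : ℝ) • a c) := by
  classical
  -- mixed sums
  set m : Finset κ → κ → E := fun T c => if c ∈ T then a c else b c with hm
  have key : ∀ T : Finset κ, ∑ s : κ → ℤˣ, Φ (∑ c, ((s c : ℤ) : ℝ) • b c) ≤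
      ∑ s : κ → ℤˣ, Φ (∑ c, ((s c : ℤ) : ℝ) • m T c) := by
    intro T
    induction T using Finset.induction_on with
    | empty => simp [hm]
    | insert c T hc ih =>
      refine ih.trans ?_
      -- the common rest
      set R : (κ → ℤˣ) → E := fun s => ∑ d ∈ univ.erase c, ((s d : ℤ) : ℝ) • m T d with hR
      have hRflip : ∀ s, R (flip c s) = R s := by
        intro s
        refine Finset.sum_congr rfl fun d hd => ?_
        have hdc : d ≠ c := Finset.ne_of_mem_erase hd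
        simp [flip, hdc]
      have e1 : ∀ s : κ → ℤˣ, ∑ d, ((s d : ℤ) : ℝ) • m T d = R s + ((s c : ℤ) : ℝ) • b c := by
        intro s
        rw [← Finset.add_sum_erase univ _ (Finset.mem_univ c), add_comm]
        simp [hm, hc, hR]
      have e2 : ∀ s : κ → ℤˣ, ∑ d, ((s d : ℤ) : ℝ) • m (insert c T) d =
          R s + ((s c : ℤ) : ℝ) • a c := by
        intro s
        rw [← Finset.add_sum_erase univ _ (Finset.mem_univ c), add_comm]
        congr 1
        · refine Finset.sum_congr rfl fun d hd => ?_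
          have hdc : d ≠ c := Finset.ne_of_mem_erase hd
          simp [hm, hdc]
        · simp [hm]
      have d1 : ∑ s : κ → ℤˣ, Φ (∑ d, ((s d : ℤ) : ℝ) • m T d) =
          ∑ s : κ → ℤˣ, Φ (∑ d, ((flip c s d : ℤ) : ℝ) • m T d) :=
        (sum_flip c fun s => Φ (∑ d, ((s d : ℤ) : ℝ) • m T d)).symm
      have d2 : ∑ s : κ → ℤˣ, Φ (∑ d, ((s d : ℤ) : ℝ) • m (insert c T) d) =
          ∑ s : κ → ℤˣ, Φ (∑ d, ((flip c s d : ℤ) : ℝ) • m (insert c T) d) :=
        (sum_flip c fun s => Φ (∑ d, ((s d : ℤ) : ℝ) • m (insert c T) d)).symm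
      have hsum : ∑ s : κ → ℤˣ, (Φ (∑ d, ((s d : ℤ) : ℝ) • m T d) +
            Φ (∑ d, ((flip c s d : ℤ) : ℝ) • m T d)) ≤
          ∑ s : κ → ℤˣ, (Φ (∑ d, ((s d : ℤ) : ℝ) • m (insert c T) d) +
            Φ (∑ d, ((flip c s d : ℤ) : ℝ) • m (insert c T) d)) := by
        refine Finset.sum_le_sum fun s _ => ?_
        rw [e1, e1, e2, e2, hRflip]
        have hf : flip c s c = -(s c) := by simp [flip]
        rw [hf]
        have hh := h c (R s)
        rcases sgn_smul_case (s c) (b c) with ⟨h1, h2⟩ | ⟨h1, h2⟩ <;>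
        rcases sgn_smul_case (s c) (a c) with ⟨h3, h4⟩ | ⟨h3, h4⟩ <;>
        rw [h1, h2, h3, h4] <;> simp only [← sub_eq_add_neg] <;> linarith
      rw [Finset.sum_add_distrib, Finset.sum_add_distrib, ← d1, ← d2] at hsum
      linarith
  have := key univ
  simpa [hm] using this

end label

/-! ### cluster level -/

section cluster
variable {S κ E : Type*} [Fintype S] [DecidableEq S] [DecidableEq κ] [AddCommGroup E] [Module ℝ E]

/-- relation generated by the constraints -/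
def rel (i j : κ → S) (C : Finset κ) (x y : S) : Prop := ∃ k ∈ C, i k = x ∧ j k = y

/-- labels: the clusters -/
abbrev Lab (i j : κ → S) (C : Finset κ) : Type _ := Quot (rel i j C)

noncomputable instance labFintype (i j : κ → S) (C : Finset κ) : Fintype (Quot (rel i j C)) :=
  Fintype.ofFinite _


open Classical in
/-- sums over compatible sign configurations as sums over cluster labels -/
lemma aC_eq_label (i j : κ → S) (C : Finset κ) (f : (S → ℤˣ) → ℝ) :
    aC i j C f = ∑ s : Lab i j C → ℤˣ, f (fun x => s (Quot.mk _ x)) := by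
  unfold aC
  have h1 : ∀ σ : S → ℤˣ, ic i j C σ * f σ = if (∀ k ∈ C, σ (i k) = σ (j k)) then f σ else 0 := by
    intro σ
    rw [ic_eq]
    split_ifs <;> simp
  rw [Finset.sum_congr rfl fun σ _ => h1 σ, ← Finset.sum_filter]
  symm
  refine Finset.sum_bij' (fun s _ => fun x => s (Quot.mk _ x))
    (fun σ hσ => fun q => Quot.lift σ (by
      rintro x y ⟨k, hk, rfl, rfl⟩
      exact (Finset.mem_filter.1 hσ).2 k hk) q) ?_ ?_ ?_ ?_ ?_
  · intro s _
    rw [Finset.mem_filter]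
    refine ⟨Finset.mem_univ _, fun k hk => ?_⟩
    have : (Quot.mk (rel i j C) (i k)) = Quot.mk _ (j k) := Quot.sound ⟨k, hk, rfl, rfl⟩
    simp only [this]
  · intro σ _; exact Finset.mem_univ _
  · intro s _
    funext q
    induction q using Quot.ind
    rfl
  · intro σ _; rfl
  · intro s _; rfl

open Classical in
/-- linear statistics in terms of labels -/
lemma sum_label (i j : κ → S) (C : Finset κ) (w : S → E) (s : Lab i j C → ℤˣ) :
    ∑ x, ((s (Quot.mk _ x) : ℤ) : ℝ) • w x =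
      ∑ q, ((s q : ℤ) : ℝ) • ∑ x with Quot.mk (rel i j C) x = q, w x := by
  simp only [Finset.smul_sum]
  rw [← Finset.sum_fiberwise (s := (univ : Finset S)) (g := fun x => Quot.mk (rel i j C) x)]
  refine Finset.sum_congr rfl fun q _ => Finset.sum_congr rfl fun x hx => ?_
  rw [(Finset.mem_filter.1 hx).2]

/-- **General comparison of cluster sign averages.** -/
theorem av_le_av (i j : κ → S) {C D : Finset κ} (hCD : C ⊆ D) (Φ : E → ℝ) (w' w : S → E)
    (h : ∀ (σ : S → ℤˣ) (Q : Finset S) (R : E),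
      Φ (R + ∑ x ∈ Q, ((σ x : ℤ) : ℝ) • w' x) + Φ (R - ∑ x ∈ Q, ((σ x : ℤ) : ℝ) • w' x) ≤
        Φ (R + ∑ x ∈ Q, w x) + Φ (R - ∑ x ∈ Q, w x)) :
    av i j C (fun σ => Φ (∑ x, ((σ x : ℤ) : ℝ) • w' x)) ≤
      av i j D (fun σ => Φ (∑ x, ((σ x : ℤ) : ℝ) • w x)) := by
  classical
  unfold av
  rw [div_le_div_iff₀ (nC_pos i j C) (nC_pos i j D)]
  -- inner inequality for fixed `σ`
  have inner : ∀ σ : S → ℤˣ,
      aC i j D (fun ρ => Φ (∑ x, (((σ x * ρ x : ℤˣ) : ℤ) : ℝ) • w' x)) ≤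
        aC i j D (fun ρ => Φ (∑ x, ((ρ x : ℤ) : ℝ) • w x)) := by
    intro σ
    rw [aC_eq_label, aC_eq_label]
    have e1 : ∀ s : Lab i j D → ℤˣ,
        ∑ x, (((σ x * s (Quot.mk _ x) : ℤˣ) : ℤ) : ℝ) • w' x =
          ∑ q, ((s q : ℤ) : ℝ) • ∑ x with Quot.mk (rel i j D) x = q, ((σ x : ℤ) : ℝ) • w' x := by
      intro s
      rw [← sum_label i j D (fun x => ((σ x : ℤ) : ℝ) • w' x) s]
      refine Finset.sum_congr rfl fun x _ => ?_
      rw [smul_smul]
      congr 1
      push_cast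
      ring
    have e2 : ∀ s : Lab i j D → ℤˣ, ∑ x, ((s (Quot.mk _ x) : ℤ) : ℝ) • w x =
          ∑ q, ((s q : ℤ) : ℝ) • ∑ x with Quot.mk (rel i j D) x = q, w x :=
      fun s => sum_label i j D w s
    simp only [e1, e2]
    exact sum_label_le Φ _ _ fun q R => h σ _ R
  -- averaging over `S_D ⊆ S_C`
  have hshift : ∀ ρ : S → ℤˣ, ic i j D ρ ≠ 0 → ∀ F : (S → ℤˣ) → ℝ,
      ∑ σ : S → ℤˣ, ic i j C σ * F σ = ∑ σ : S → ℤˣ, ic i j C σ * F (fun x => σ x * ρ x) := by
    intro ρ hρ F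
    have hρ' : ∀ k ∈ D, ρ (i k) = ρ (j k) := by
      rw [ic_eq] at hρ
      by_contra hcon
      rw [if_neg hcon] at hρ
      exact hρ rfl
    rw [← Fintype.sum_equiv (Equiv.mulRight ρ) (fun σ => ic i j C (σ * ρ) * F (σ * ρ))
      (fun σ => ic i j C σ * F σ) (fun σ => rfl)]
    refine Finset.sum_congr rfl fun σ _ => ?_
    have : ic i j C (σ * ρ) = ic i j C σ := by
      rw [ic_eq, ic_eq]
      have : (∀ k ∈ C, (σ * ρ) (i k) = (σ * ρ) (j k)) ↔ ∀ k ∈ C, σ (i k) = σ (j k) := by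
        refine forall₂_congr fun k hk => ?_
        simp only [Pi.mul_apply, hρ' k (hCD hk)]
        exact mul_left_inj _
      simp only [this]
    rw [this]
    rfl
  set F : (S → ℤˣ) → ℝ := fun σ => Φ (∑ x, ((σ x : ℤ) : ℝ) • w' x) with hF
  calc aC i j C F * nC i j D = ∑ ρ : S → ℤˣ, ic i j D ρ * aC i j C F := by
        unfold nC; rw [← Finset.sum_mul]; ring
    _ = ∑ ρ : S → ℤˣ, ic i j D ρ * ∑ σ : S → ℤˣ, ic i j C σ * F (fun x => σ x * ρ x) := by
        refine Finset.sum_congr rfl fun ρ _ => ?_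
        by_cases hρ : ic i j D ρ = 0
        · rw [hρ, zero_mul, zero_mul]
        · unfold aC; rw [hshift ρ hρ F]
    _ = ∑ σ : S → ℤˣ, ic i j C σ * aC i j D (fun ρ => F (fun x => σ x * ρ x)) := by
        unfold aC
        simp only [Finset.mul_sum]
        rw [Finset.sum_comm]
        exact Finset.sum_congr rfl fun σ _ => Finset.sum_congr rfl fun ρ _ => by ring
    _ ≤ ∑ σ : S → ℤˣ, ic i j C σ * aC i j D (fun ρ => Φ (∑ x, ((ρ x : ℤ) : ℝ) • w x)) :=
        Finset.sum_le_sum fun σ _ => mul_le_mul_of_nonneg_left (inner σ) (ic_nonneg i j C σ)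
    _ = aC i j D (fun ρ => Φ (∑ x, ((ρ x : ℤ) : ℝ) • w x)) * nC i j C := by
        unfold nC; rw [← Finset.sum_mul]; ring

end cluster

/-! ### real valued applications -/

section apps
variable {S κ : Type*} [Fintype S] [DecidableEq S] [DecidableEq κ]

lemma convex_symm_mono {Φ : ℝ → ℝ} (hΦ : ConvexOn ℝ Set.univ Φ) {R b a : ℝ} (h : |b| ≤ a) :
    Φ (R + b) + Φ (R - b) ≤ Φ (R + a) + Φ (R - a) := by
  have ha : 0 ≤ a := (abs_nonneg b).trans h
  rcases eq_or_lt_of_le ha with h0 | h0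
  · have : b = 0 := by rw [← h0] at h; exact abs_eq_zero.1 (le_antisymm h (abs_nonneg b))
    rw [this, ← h0]
  obtain ⟨h1, h2⟩ := abs_le.1 h
  have hθ : 0 ≤ (a + b) / (2 * a) := div_nonneg (by linarith) (by linarith)
  have hθ' : 0 ≤ (a - b) / (2 * a) := div_nonneg (by linarith) (by linarith)
  have hs : (a + b) / (2 * a) + (a - b) / (2 * a) = 1 := by field_simp; ring
  have k1 := hΦ.2 (Set.mem_univ (R + a)) (Set.mem_univ (R - a)) hθ hθ' hs
  have k2 := hΦ.2 (Set.mem_univ (R + a)) (Set.mem_univ (R - a)) hθ' hθ (by linarith)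
  simp only [smul_eq_mul] at k1 k2
  have e1 : (a + b) / (2 * a) * (R + a) + (a - b) / (2 * a) * (R - a) = R + b := by
    field_simp; ring
  have e2 : (a - b) / (2 * a) * (R + a) + (a + b) / (2 * a) * (R - a) = R - b := by
    field_simp; ring
  rw [e1] at k1
  rw [e2] at k2
  have : (a + b) / (2 * a) * Φ (R + a) + (a - b) / (2 * a) * Φ (R - a) +
      ((a - b) / (2 * a) * Φ (R + a) + (a + b) / (2 * a) * Φ (R - a)) =
      Φ (R + a) + Φ (R - a) := by
    calc _ = ((a + b) / (2 * a) + (a - b) / (2 * a)) * (Φ (R + a) + Φ (R - a)) := by ring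
      _ = _ := by rw [hs, one_mul]
  linarith

lemma abs_sgn (u : ℤˣ) : |((u : ℤ) : ℝ)| = 1 := by
  rcases Int.units_eq_one_or u with h | h <;> subst h <;> simp

/-- **Convex order**: for convex `Φ`, `|w' x| ≤ w x` and `C ⊆ D`,
`E_C Φ(∑ σ_x w'_x) ≤ E_D Φ(∑ σ_x w_x)`. -/
theorem av_convex (i j : κ → S) {C D : Finset κ} (hCD : C ⊆ D) {Φ : ℝ → ℝ}
    (hΦ : ConvexOn ℝ Set.univ Φ) {w' w : S → ℝ} (hw : ∀ x, |w' x| ≤ w x) :
    av i j C (fun σ => Φ (∑ x, ((σ x : ℤ) : ℝ) * w' x)) ≤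
      av i j D (fun σ => Φ (∑ x, ((σ x : ℤ) : ℝ) * w x)) := by
  have := av_le_av (E := ℝ) i j hCD Φ w' w fun σ Q R => by
    refine convex_symm_mono hΦ ?_
    calc |∑ x ∈ Q, ((σ x : ℤ) : ℝ) • w' x| ≤ ∑ x ∈ Q, |((σ x : ℤ) : ℝ) • w' x| :=
          Finset.abs_sum_le_sum_abs _ _
      _ ≤ ∑ x ∈ Q, w x := Finset.sum_le_sum fun x _ => by
          rw [smul_eq_mul, abs_mul, abs_sgn, one_mul]; exact hw x
  simpa only [smul_eq_mul] using this





end apps

end Crest.Agent.R161.H689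
end

-- ▼ part R161/Sand_375

/-!
# Sandwich, Mono2, CvxMono (helper375)

The correlation inequalities of `Mono_375` in the language of `Defs372`, for arbitrary finite
`F ⊆ F'` (no topology).
-/

set_option autoImplicit false
set_option linter.unusedSectionVars false
set_option linter.unusedVariables false

open Finset
open Crest.Agent.R161.Geo729 Crest.Agent.R161.Defs372 Crest.Agent.R161.Ht132
open Crest.Agent.R161.Lsm375 Crest.Agent.R161.Gks375 Crest.Agent.R161.Hts375
open Crest.Agent.R161.Pol375 Crest.Agent.R161.Mono375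
open Crest.Agent.R161.Brs375

namespace Crest.Agent.R161.Sand375

noncomputable section

variable {F F' : Finset P2}

/-- the vertex heights of a height function of `GG F'` -/
def kx (F' : Finset P2) (h : (crn F') ⊕ F' → ℤ) : P2 → ℤ :=
  fun v => if hv : v ∈ crn F' then h (.inl ⟨v, hv⟩) else 0

lemma ext_fst (F F' : Finset P2) (h : (crn F') ⊕ F' → ℤ) : (ext F F' h).1 = kx F' h := rfl

lemma intVerts_mono (h : F ⊆ F') : intVerts F ⊆ intVerts F' := fun v hv => by
  rw [mem_intVerts] at hv ⊢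
  exact ⟨h hv.1, h hv.2.1, h hv.2.2.1, h hv.2.2.2⟩

lemma pinF_nonneg (F F' : Finset P2) (a : (crn F') ⊕ F' → ℤ) : 0 ≤ pinF F F' a := by
  unfold pinF; split_ifs <;> norm_num

/-- pins of nested domains -/
lemma dom_pinF {F₁ F₂ F' : Finset P2} (h : F₁ ⊆ F₂) : Abs375.Dom (pinF F₁ F') (pinF F₂ F') := by
  classical
  refine ⟨pinF_nonneg _ _, pinF_nonneg _ _, fun a b => ?_⟩
  by_cases ha : 0 ≤ a ∧ ∀ v : crn F', v.1 ∉ intVerts F₁ → a (.inl v) = 0
  · by_cases hb : 0 ≤ b ∧ ∀ v : crn F', v.1 ∉ intVerts F₂ → b (.inl v) = 0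
    · have h1 : pinF F₁ F' (a ⊓ b) = 1 := by
        unfold pinF
        refine if_pos ⟨le_inf ha.1 hb.1, fun v hv => ?_⟩
        have : 0 ≤ b (.inl v) := hb.1 _
        simp [ha.2 v hv, this]
      have h2 : pinF F₂ F' (a ⊔ b) = 1 := by
        unfold pinF
        refine if_pos ⟨le_sup_of_le_left ha.1, fun v hv => ?_⟩
        simp [ha.2 v (fun h' => hv (intVerts_mono h h')), hb.2 v hv]
      have h3 : pinF F₁ F' a = 1 := by unfold pinF; exact if_pos ha
      have h4 : pinF F₂ F' b = 1 := by unfold pinF; exact if_pos hb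
      rw [h1, h2, h3, h4]
    · have : pinF F₂ F' b = 0 := by unfold pinF; exact if_neg hb
      rw [this, mul_zero]
      exact mul_nonneg (pinF_nonneg _ _ _) (pinF_nonneg _ _ _)
  · have : pinF F₁ F' a = 0 := by unfold pinF; exact if_neg ha
    rw [this, zero_mul]
    exact mul_nonneg (pinF_nonneg _ _ _) (pinF_nonneg _ _ _)

lemma lsm_pinF (F F' : Finset P2) : LSM (pinF F F') := by
  have h := dom_pinF (F₁ := F) (F₂ := F) (F' := F') (Finset.Subset.refl F)
  exact ⟨h.1, h.2.2⟩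

lemma cF_one_le {c : ℝ} (hc : 1 ≤ c) (F F' : Finset P2) (e : intEdges F') : 1 ≤ cF F F' c e := by
  unfold cF; split_ifs
  · exact hc
  · exact le_rfl

lemma cF_mono {c : ℝ} (hc : 1 ≤ c) {F₁ F₂ : Finset P2} (h : F₁ ⊆ F₂) (F' : Finset P2)
    (e : intEdges F') : cF F₁ F' c e ≤ cF F₂ F' c e := by
  unfold cF
  by_cases h1 : e.1 ∈ intEdges F₁
  · rw [if_pos h1, if_pos (intEdges_mono h h1)]
  · rw [if_neg h1]
    split_ifs
    · exact hc
    · exact le_rfl

/-- box constant -/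
lemma hb_nonneg (F : Finset P2) : (0 : (crn F) ⊕ F → ℤ) ≤ fun _ => hb F :=
  fun _ => (zero_le_one.trans (one_le_hb F))

lemma S_one_pos (hF : F ⊆ F') {c : ℝ} (hc : 1 ≤ c) :
    0 < S (GG F') (cF F F' c) (pinF F F') (fun _ => hb F') (fun _ => 1) := by
  have h1 := S_eq hF c (le_refl (hb F')) (fun _ => 1)
  rw [h1]
  refine mul_pos (SG_card_pos F F') ?_
  have : 0 < Z6 c F := by rw [← Z_eq]; exact Z_pos hc F
  simpa [Z6] using this

/-- **Domain monotonicity**, general form with three nested face sets. -/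
theorem E_le_gen {F₁ F₂ F' : Finset P2} (h12 : F₁ ⊆ F₂) (h2 : F₂ ⊆ F') {c : ℝ} (hc : 1 ≤ c)
    (Φ : (P2 → ℤ) → ℝ) (hΦ : IncAv (GG F') (fun h => Φ (kx F' h))) :
    E c F₁ (fun ω => Φ ω.1) ≤ E c F₂ (fun ω => Φ ω.1) := by
  have e1 := E_bridge (F := F₁) (F' := F') (h12.trans h2) (c := c) (le_refl (hb F'))
    (fun p => Φ p.1)
  have e2 := E_bridge (F := F₂) (F' := F') h2 (c := c) (le_refl (hb F')) (fun p => Φ p.1)
  simp only [ext_fst] at e1 e2
  rw [e1, e2, div_le_div_iff₀ (S_one_pos (h12.trans h2) hc) (S_one_pos h2 hc)]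
  have key := mono_heights (GG F') (c := cF F₂ F' c) (c' := cF F₁ F' c)
    (cF_one_le hc F₁ F') (cF_mono hc h12 F') (dom_pinF (F' := F') h12) (by
      intro e he a ha
      have h3 : e.1 ∉ intEdges F₁ := by
        intro h4
        apply he
        unfold cF
        rw [if_pos h4, if_pos (intEdges_mono h12 h4)]
      have h5 : 0 ≤ a ∧ ∀ v : crn F', v.1 ∉ intVerts F₁ → a (.inl v) = 0 := by
        by_contra h
        exact ha (by unfold pinF; exact if_neg h)
      exact ⟨h5.2 _ (src_not h3).1, h5.2 _ (src_not h3).2⟩)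
    (fun _ => hb F') (hb_nonneg F') hΦ
  linarith [key]

/-- **Domain monotonicity.** -/
theorem E_le (hF : F ⊆ F') {c : ℝ} (hc : 1 ≤ c)
    (Φ : (P2 → ℤ) → ℝ) (hΦ : IncAv (GG F') (fun h => Φ (kx F' h))) :
    E c F (fun ω => Φ ω.1) ≤ E c F' (fun ω => Φ ω.1) :=
  E_le_gen hF (Finset.Subset.refl F') hc Φ hΦ


/-- comparison of two functions in the same domain through the conditional averages -/
theorem E_le_same (F : Finset P2) {c : ℝ} (hc : 1 ≤ c) (Φ Ψ : (P2 → ℤ) → ℝ)
    (h : ∀ x : ((crn F) ⊕ F → ℤ) × Finset (intEdges F), 0 ≤ x.1 →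
      Abs375.av (Abs375.ii (GG F)) (Abs375.jj (GG F)) (Abs375.Cset (GG F) ∅ x)
        (fun σ => Φ (kx F (sm σ x.1))) ≤
      Abs375.av (Abs375.ii (GG F)) (Abs375.jj (GG F)) (Abs375.Cset (GG F) ∅ x)
        (fun σ => Ψ (kx F (sm σ x.1)))) :
    E c F (fun ω => Φ ω.1) ≤ E c F (fun ω => Ψ ω.1) := by
  have e1 := E_bridge (F := F) (F' := F) (Finset.Subset.refl F) (c := c) (le_refl (hb F))
    (fun p => Φ p.1)
  have e2 := E_bridge (F := F) (F' := F) (Finset.Subset.refl F) (c := c) (le_refl (hb F))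
    (fun p => Ψ p.1)
  simp only [ext_fst] at e1 e2
  have hp := S_one_pos (F := F) (F' := F) (Finset.Subset.refl F) hc
  rw [e1, e2]
  refine div_le_div_of_nonneg_right ?_ hp.le
  have hc1 := cF_one_le hc F F
  have p1 := polar (GG F) hc1 (pinF F F) (fun _ => hb F) (hb_nonneg F) (fun h => Φ (kx F h))
  have p2 := polar (GG F) hc1 (pinF F F) (fun _ => hb F) (hb_nonneg F) (fun h => Ψ (kx F h))
  have hR := Abs375.lsm_R (GG F) hc1 ∅ (lsm_pinF F F)
  have q := prod_pos hc1
  refine le_of_mul_le_mul_left ?_ q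
  unfold S
  rw [p1, p2]
  refine Finset.sum_le_sum fun x hx => mul_le_mul_of_nonneg_left ?_ (hR.1 x)
  simp only [Finset.mem_product, Finset.mem_Icc] at hx
  exact h x hx.1.1

/-! ### linear functionals -/

/-- coefficients on the sites -/
def fc (F' S : Finset P2) (a : P2 → ℝ) : (crn F') ⊕ F' → ℝ
  | .inl v => if v.1 ∈ S then a v.1 else 0
  | .inr _ => 0

lemma lin_kx (F' S : Finset P2) (a : P2 → ℝ) (h : (crn F') ⊕ F' → ℤ) :
    ∑ v ∈ S, (kx F' h v : ℝ) * a v = ∑ x, fc F' S a x * (h x : ℝ) := by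
  classical
  rw [Fintype.sum_sum_type]
  simp only [fc, zero_mul, Finset.sum_const_zero, add_zero]
  have h1 : ∑ v ∈ S, (kx F' h v : ℝ) * a v = ∑ v ∈ crn F', if v ∈ S then (kx F' h v : ℝ) * a v else 0 := by
    rw [← Finset.sum_filter, Finset.filter_mem_eq_inter, Finset.inter_comm]
    refine (Finset.sum_subset Finset.inter_subset_left fun v hv hv' => ?_).symm
    have : v ∉ crn F' := fun h => hv' (Finset.mem_inter.2 ⟨hv, h⟩)
    unfold kx
    rw [dif_neg this]
    simp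
  rw [h1, ← Finset.sum_attach (crn F')]
  refine Finset.sum_congr rfl fun v _ => ?_
  unfold kx
  rw [dif_pos v.2]
  split_ifs
  · ring
  · ring

lemma fc_abs (F' S : Finset P2) (a : P2 → ℝ) (x : (crn F') ⊕ F') :
    |fc F' S a x| = fc F' S (fun v => |a v|) x := by
  rcases x with v | f
  · simp only [fc]; split_ifs
    · rfl
    · exact abs_zero
  · exact abs_zero

lemma fc_nonneg (F' S : Finset P2) {a : P2 → ℝ} (ha : ∀ v, 0 ≤ a v) (x : (crn F') ⊕ F') :
    0 ≤ fc F' S a x := by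
  rcases x with v | f
  · simp only [fc]; split_ifs
    · exact ha _
    · exact le_rfl
  · exact le_rfl

/-- convex functions of nonnegative linear forms, no topology -/
theorem E_convex_le (hF : F ⊆ F') {c : ℝ} (hc : 1 ≤ c) (S : Finset P2) {b : P2 → ℝ}
    (hb : ∀ v, 0 ≤ b v) {φ : ℝ → ℝ} (hφ : ConvexOn ℝ Set.univ φ) :
    E c F (fun u => φ (∑ v ∈ S, (u.1 v : ℝ) * b v)) ≤
      E c F' (fun u => φ (∑ v ∈ S, (u.1 v : ℝ) * b v)) := by
  refine E_le hF hc (fun k => φ (∑ v ∈ S, (k v : ℝ) * b v)) ?_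
  simp only [lin_kx]
  exact IncAv.of_fl _ (Fl.convex hφ (fc_nonneg F' S hb))

/-- convex functions of linear forms with `|a| ≤ b`, same domain -/
theorem E_convex_same (F : Finset P2) {c : ℝ} (hc : 1 ≤ c) (S : Finset P2) {a b : P2 → ℝ}
    (hab : ∀ v, |a v| ≤ b v) {φ : ℝ → ℝ} (hφ : ConvexOn ℝ Set.univ φ) :
    E c F (fun u => φ (∑ v ∈ S, (u.1 v : ℝ) * a v)) ≤
      E c F (fun u => φ (∑ v ∈ S, (u.1 v : ℝ) * b v)) := by
  classical
  refine E_le_same F hc (fun k => φ (∑ v ∈ S, (k v : ℝ) * a v))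
    (fun k => φ (∑ v ∈ S, (k v : ℝ) * b v)) fun x hx => ?_
  simp only [lin_kx]
  have key := H689.av_convex (Abs375.ii (GG F)) (Abs375.jj (GG F))
    (Finset.Subset.refl (Abs375.Cset (GG F) ∅ x)) hφ
    (w' := fun y => fc F S a y * (x.1 y : ℝ)) (w := fun y => fc F S b y * (x.1 y : ℝ)) (fun y => by
      have h0 : (0 : ℝ) ≤ (x.1 y : ℝ) := by exact_mod_cast hx y
      rw [abs_mul, abs_of_nonneg h0]
      refine mul_le_mul_of_nonneg_right ?_ h0
      rcases y with v | f
      · simp only [fc]; split_ifs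
        · exact hab _
        · simp
      · simp [fc])
  have e : ∀ (f : (crn F) ⊕ F → ℝ) (σ : (crn F) ⊕ F → ℤˣ),
      ∑ y, f y * ((sm σ x.1 y : ℤ) : ℝ) = ∑ y, ((σ y : ℤ) : ℝ) * (f y * (x.1 y : ℝ)) := by
    intro f σ
    refine Finset.sum_congr rfl fun y _ => ?_
    unfold sm
    push_cast
    ring
  simp only [e]
  exact key

/-- `H689.CvxMono`, no topology -/
theorem cvx (hF : F ⊆ F') {c : ℝ} (hc : 1 ≤ c) (S : Finset P2) {a b : P2 → ℝ}
    (hab : ∀ v, |a v| ≤ b v) {φ : ℝ → ℝ} (hφ : ConvexOn ℝ Set.univ φ) :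
    E c F (fun u => φ (∑ v ∈ S, (u.1 v : ℝ) * a v)) ≤
      E c F' (fun u => φ (∑ v ∈ S, (u.1 v : ℝ) * b v)) :=
  (E_convex_same F hc S hab hφ).trans
    (E_convex_le hF hc S (fun v => (abs_nonneg _).trans (hab v)) hφ)

/-- cosine sandwich with constant `1/2`, no topology -/
theorem cos_sandwich (hF : F ⊆ F') {c : ℝ} (hc : 1 ≤ c) (S : Finset P2) (a : P2 → ℝ) :
    |E c F' (fun u => Real.cos (∑ v ∈ S, (u.1 v : ℝ) * a v)) -
        E c F (fun u => Real.cos (∑ v ∈ S, (u.1 v : ℝ) * a v))| ≤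
      (1 / 2) * (E c F' (fun u => (∑ v ∈ S, (u.1 v : ℝ) * |a v|) ^ 2) -
        E c F (fun u => (∑ v ∈ S, (u.1 v : ℝ) * |a v|) ^ 2)) := by
  have key : ∀ ε : ℝ, |ε| ≤ 1 →
      E c F (fun u => (1 / 2) * (∑ v ∈ S, (u.1 v : ℝ) * |a v|) ^ 2 +
        ε * Real.cos (∑ v ∈ S, (u.1 v : ℝ) * a v)) ≤
      E c F' (fun u => (1 / 2) * (∑ v ∈ S, (u.1 v : ℝ) * |a v|) ^ 2 +
        ε * Real.cos (∑ v ∈ S, (u.1 v : ℝ) * a v)) := by
    intro ε hε
    refine E_le hF hc (fun k => (1 / 2) * (∑ v ∈ S, (k v : ℝ) * |a v|) ^ 2 +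
        ε * Real.cos (∑ v ∈ S, (k v : ℝ) * a v)) ?_
    simp only [lin_kx]
    have := Fl.cos (fc F' S a) hε
    simp only [fc_abs] at this
    exact IncAv.of_fl _ this
  have k1 := key 1 (by simp)
  have k2 := key (-1) (by simp)
  rw [E_add, E_add, E_smul, E_smul, E_smul, E_smul] at k1 k2
  rw [abs_le]
  constructor <;> linarith

/-- two-point monotonicity, no topology -/
theorem two_point (hF : F ⊆ F') {c : ℝ} (hc : 1 ≤ c) (v w : P2) :
    E c F (fun u => (u.1 v : ℝ) * u.1 w) ≤ E c F' (fun u => (u.1 v : ℝ) * u.1 w) := by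
  refine E_le hF hc (fun k => (k v : ℝ) * k w) (IncAv.of_mpos _ ?_)
  have h1 : ∀ v : P2, MPos (fun h : (crn F') ⊕ F' → ℤ => ((kx F' h v : ℤ) : ℝ)) := by
    intro v
    unfold kx
    by_cases hv : v ∈ crn F'
    · simp only [dif_pos hv]
      exact MPos.site _
    · simp only [dif_neg hv, Int.cast_zero]
      exact MPos.zero
  exact (h1 v).mul (h1 w)


/-! ### literal interface forms -/

theorem sandwich {c : ℝ} (hc : 1 ≤ c) : Asm695.Sandwich c := by
  intro D₁ D₂ _ _ h S a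
  have k := cos_sandwich h hc S a
  unfold Asm695.Lin
  refine k.trans ?_
  have := (abs_nonneg _).trans k
  linarith

theorem mono2 {c : ℝ} (hc : 1 ≤ c) : Asm695.Mono2 c := fun _ _ _ _ h v w => two_point h hc v w

theorem cvxMono {c : ℝ} (hc : 1 ≤ c) : H689.CvxMono c :=
  fun _ _ _ _ h S _ _ hab _ hφ => cvx h hc S hab hφ

end

end Crest.Agent.R161.Sand375
private theorem rz_b134ae7e65 : type_of% @_root_.Crest.Agent.R161.Sand375.fc.eq_1 := @_root_.Crest.Agent.R161.Sand375.fc.eq_1 -- L176
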