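import Crest.Agent.R161.Mono_375
import Crest.Agent.R161.Ann2_770
import Crest.Agent.R161.Ht_132
import Crest.Agent.R161.Asm_695
import Crest.Agent.R161.Dloc_132
import Crest.Agent.R161.ExInv_792
import Crest.Agent.R161.Csq2_472
import Crest.Agent.R161.H3_689
import Crest.Agent.R161.Rect_597
import Crest.Agent.R161.Aut_373
import Mathlib.Analysis.Calculus.BumpFunction.FiniteDimension
import Crest.Agent.R161.Asm2_695
import Crest.Agent.R161.Sand_375

-- ▼ part R161/Brg_722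
section

/-!
# Bridge `Defs_372` ↔ `Mono_375` (helper722, R161)

For finite face sets `F ⊆ B` (no topology) the measure `E c F` is represented on the geometry of `B`
with couplings `cF c F e = c` on `intEdges F`, `1` otherwise, and pins `UF F B` (zero heights off
`intVerts F`): `rep`, `E_rep`.

Consequences for `1 ≤ c`, `F ⊆ B`:
* `E_mono_inc`, `E_mono_MP`, `E_mono_FL` : `E c F Ψ ≤ E c B Ψ` for increasing-positive (`MP`) or
  flip-monotone (`FL`) functions of the heights;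
* `E_fkg` : `E Φ · E Ψ ≤ E (Φ Ψ)` for `MP` functions;
* `mono0` : `Pr c B {k v = 0} ≤ Pr c F {k v = 0}`;
* `E_abs_mono` : nondecreasing functions of `|k|`;
* `E_convex_mono`, `E_cos_mono`, `E_two_mono`, `E_two_nonneg`, `E_prod_mono`.
-/

set_option autoImplicit false
set_option linter.unusedSectionVars false
set_option linter.unusedVariables false

noncomputable section

namespace Crest.Agent.R161.Brg722

open Finset Crest.Agent.R161.Geo729 Crest.Agent.R161.Defs372 Crest.Agent.R161.Ht132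
  Crest.Agent.R161.Lsm375 Crest.Agent.R161.Gks375 Crest.Agent.R161.Hts375
  Crest.Agent.R161.Abs375 Crest.Agent.R161.Pol375 Crest.Agent.R161.Mono375

/-- one boundary class -/
def be : P2 → Unit := fun _ => ()

/-- sites of the geometry of `B` -/
abbrev Sit (B : Finset P2) : Type := (↥(intVerts B) ⊕ Unit) ⊕ ↥B

/-- the geometry of `B` -/
abbrev gg (B : Finset P2) : Geo (↥(intVerts B) ⊕ Unit) ↥B ↥(intEdges B) := Ann770.geo B be

/-- vertex heights -/
def kk (B : Finset P2) (h : Sit B → ℤ) : P2 → ℤ := fun v => h (Sum.inl (Ann770.vm B be v))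

/-- face heights -/
def hh (B : Finset P2) (h : Sit B → ℤ) : P2 → ℤ :=
  fun f => if hf : f ∈ B then h (Sum.inr ⟨f, hf⟩) else 1

/-- couplings of `F` -/
def cF (c : ℝ) (F : Finset P2) (e : Edge) : ℝ := if e ∈ intEdges F then c else 1

open Classical in
/-- pins of `F` -/
def UF (F B : Finset P2) (a : Sit B → ℤ) : ℝ :=
  if 0 ≤ a ∧ ∀ v, v ∉ intVerts F → kk B a v = 0 then 1 else 0

theorem kk_ab (B : Finset P2) (h : Sit B → ℤ) (v : P2) : kk B (ab h) v = |kk B h v| := rfl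

theorem kk_mem {B : Finset P2} (h : Sit B → ℤ) {v : P2} (hv : v ∈ intVerts B) :
    kk B h v = h (Sum.inl (Sum.inl ⟨v, hv⟩)) := by
  unfold kk; rw [Ann770.vm_of_mem B be hv]

theorem kk_not_mem {B : Finset P2} (h : Sit B → ℤ) {v : P2} (hv : v ∉ intVerts B) :
    kk B h v = h (Sum.inl (Sum.inr ())) := by
  unfold kk; rw [Ann770.vm_of_not_mem B be hv]

theorem hh_mem {B : Finset P2} (h : Sit B → ℤ) {f : P2} (hf : f ∈ B) :
    hh B h f = h (Sum.inr ⟨f, hf⟩) := dif_pos hf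


open Classical in
theorem UF_ab_eq {F B : Finset P2} (h : Sit B → ℤ) :
    UF F B (ab h) = if (∀ v, v ∉ intVerts F → kk B h v = 0) then 1 else 0 := by
  unfold UF
  have h0 : (0 : Sit B → ℤ) ≤ ab h := fun x => abs_nonneg _
  have : (0 ≤ ab h ∧ ∀ v, v ∉ intVerts F → kk B (ab h) v = 0) ↔
      ∀ v, v ∉ intVerts F → kk B h v = 0 := by
    constructor
    · rintro ⟨_, h1⟩ v hv
      have := h1 v hv
      rw [kk_ab, abs_eq_zero] at this
      exact this
    · intro h1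
      exact ⟨h0, fun v hv => by rw [kk_ab, h1 v hv, abs_zero]⟩
  by_cases h1 : ∀ v, v ∉ intVerts F → kk B h v = 0
  · rw [if_pos h1, if_pos (this.2 h1)]
  · rw [if_neg h1, if_neg (fun h2 => h1 (this.1 h2))]

theorem intVerts_mono {F B : Finset P2} (h : F ⊆ B) : intVerts F ⊆ intVerts B := by
  intro v hv
  rw [mem_intVerts, intV_iff] at hv ⊢
  exact fun f hf => h (hv f hf)

theorem intEdges_mono {F B : Finset P2} (h : F ⊆ B) : intEdges F ⊆ intEdges B := by
  intro v hv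
  rw [mem_intEdges] at hv ⊢
  exact ⟨h hv.1, h hv.2⟩

theorem not_intVerts_of_corner {F : Finset P2} {v f : P2} (hf : f ∉ F) (hv : IsCorner v f) :
    v ∉ intVerts F := by
  intro h
  rw [mem_intVerts, intV_iff] at h
  exact hf (h f hv)

theorem not_intVerts_of_edge {F : Finset P2} {e : Edge} (he : e ∉ intEdges F) :
    src e ∉ intVerts F ∧ tgt e ∉ intVerts F := by
  rw [mem_intEdges] at he
  constructor
  · intro h
    rw [mem_intVerts, intV_iff] at h
    exact he ⟨h _ (isCorner_src_fA e), h _ (isCorner_src_fB e)⟩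
  · intro h
    rw [mem_intVerts, intV_iff] at h
    exact he ⟨h _ (isCorner_tgt_fA e), h _ (isCorner_tgt_fB e)⟩

/-! ### representation -/

section rep
variable {c : ℝ} {F B : Finset P2}

/-- abstract heights of a pair, free signs `s` on the faces of `B \ F` -/
def lft (F B : Finset P2) (p : Pr2) (s : ↥(B \ F) → ℤˣ) : Sit B → ℤ :=
  Sum.elim (Sum.elim (fun v => p.1 v.1) (fun _ => 0))
    (fun f => if hf : f.1 ∈ F then p.2 f.1 else ((s ⟨f.1, Finset.mem_sdiff.2 ⟨f.2, hf⟩⟩ : ℤˣ) : ℤ))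

/-- inverse of `lft` -/
def dwn (F B : Finset P2) (h : Sit B → ℤ) : Pr2 × (↥(B \ F) → ℤˣ) :=
  ((kk B h, fun f => if f ∈ F then hh B h f else 1),
    fun f => if hh B h f.1 = 1 then 1 else -1)

theorem kk_lft (hFB : F ⊆ B) {p : Pr2} (hp : Valid2 F p) (s : ↥(B \ F) → ℤˣ) :
    kk B (lft F B p s) = p.1 := by
  funext v
  by_cases hv : v ∈ intVerts B
  · rw [kk_mem _ hv]; rfl
  · rw [kk_not_mem _ hv, hp.zero v (fun h => hv (intVerts_mono hFB h))]; rfl

theorem hh_lft_mem (hFB : F ⊆ B) (p : Pr2) (s : ↥(B \ F) → ℤˣ) {f : P2} (hf : f ∈ F) :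
    hh B (lft F B p s) f = p.2 f := by
  rw [hh_mem _ (hFB hf)]
  show (if hf : f ∈ F then p.2 f else _) = _
  rw [dif_pos hf]

theorem hh_lft_not_mem (p : Pr2) (s : ↥(B \ F) → ℤˣ) {f : P2} (hf : f ∉ F) (hB : f ∈ B) :
    hh B (lft F B p s) f = ((s ⟨f, Finset.mem_sdiff.2 ⟨hB, hf⟩⟩ : ℤˣ) : ℤ) := by
  rw [hh_mem _ hB]
  show (if hf : f ∈ F then p.2 f else _) = _
  rw [dif_neg hf]

theorem unit_abs (u : ℤˣ) : |(u : ℤ)| = 1 := by
  rcases Int.units_eq_one_or u with h | h <;> subst h <;> simp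

theorem unit_odd (u : ℤˣ) : Odd (u : ℤ) := by
  rcases Int.units_eq_one_or u with h | h <;> subst h <;> simp

theorem odd_face {p : Pr2} (hp : Valid2 F p) {f : P2} (hf : f ∈ F) : Odd (p.2 f) := by
  have h1 := hp.corner f hf f (Or.inl rfl)
  obtain ⟨r, hr⟩ := hp.even f
  rcases abs_eq (by norm_num : (0 : ℤ) ≤ 1) |>.1 h1 with h1 | h1
  · exact ⟨r - 1, by omega⟩
  · exact ⟨r, by omega⟩

theorem valid_lft (hFB : F ⊆ B) {p : Pr2} (hp : Valid2 F p) (s : ↥(B \ F) → ℤˣ) :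
    (gg B).Valid (lft F B p s) := by
  refine ⟨?_, ?_, ?_⟩
  · rintro (v | v)
    · exact hp.even _
    · show Even (0 : ℤ)
      exact ⟨0, rfl⟩
  · intro f
    show Odd (if hf : f.1 ∈ F then p.2 f.1 else _)
    split_ifs with hf
    · exact odd_face hp hf
    · exact unit_odd _
  · rintro v f ⟨u, hu, rfl⟩
    have h1 : lft F B p s (Sum.inl (Ann770.vm B be u)) = p.1 u := congrFun (kk_lft hFB hp s) u
    rw [h1]
    show |p.1 u - (if hf : f.1 ∈ F then p.2 f.1 else _)| = 1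
    split_ifs with hf
    · exact hp.corner f.1 hf u hu
    · rw [hp.zero u (not_intVerts_of_corner hf hu), zero_sub, abs_neg]
      exact unit_abs _

theorem two_le_hb (F : Finset P2) : 2 ≤ hb F := by
  have : (0 : ℤ) ≤ (F.card : ℤ) := Int.natCast_nonneg _
  unfold hb; linarith

theorem valid_cfg {p : Pr2} (hp : Valid2 F p) : Valid F (p.1, p.2, fun _ => true) :=
  ⟨hp.zero, hp.even, hp.off, hp.corner, fun _ _ => rfl⟩

theorem abs_lft {p : Pr2} (hp : Valid2 F p) (s : ↥(B \ F) → ℤˣ) (x : Sit B) :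
    |lft F B p s x| ≤ hb F := by
  rcases x with (v | v) | f
  · exact (valid_cfg hp).abs_vert v.1
  · show |(0 : ℤ)| ≤ hb F
    rw [abs_zero]
    exact le_trans (by norm_num) (two_le_hb F)
  · show |(if hf : f.1 ∈ F then p.2 f.1 else _)| ≤ hb F
    split_ifs with hf
    · exact (valid_cfg hp).abs_face f.1
    · rw [unit_abs]
      exact le_trans (by norm_num) (two_le_hb F)

theorem dwn_lft (hFB : F ⊆ B) {p : Pr2} (hp : Valid2 F p) (s : ↥(B \ F) → ℤˣ) :
    dwn F B (lft F B p s) = (p, s) := by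
  unfold dwn
  refine Prod.ext (Prod.ext (kk_lft hFB hp s) ?_) ?_
  · funext f
    show (if f ∈ F then hh B (lft F B p s) f else 1) = p.2 f
    split_ifs with hf
    · exact hh_lft_mem hFB p s hf
    · exact (hp.off f hf).symm
  · funext f
    have hf := Finset.mem_sdiff.1 f.2
    show (if hh B (lft F B p s) f.1 = 1 then (1 : ℤˣ) else -1) = s f
    rw [hh_lft_not_mem p s hf.2 hf.1]
    rcases Int.units_eq_one_or (s ⟨f.1, Finset.mem_sdiff.2 ⟨hf.1, hf.2⟩⟩) with h | h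
    · rw [h, if_pos (by norm_num)]
    · rw [h, if_neg (by norm_num)]

theorem exists_not_intVerts (B : Finset P2) : ∃ v, v ∉ intVerts B :=
  Infinite.exists_notMem_finset (intVerts B)

theorem lft_dwn (hFB : F ⊆ B) {h : Sit B → ℤ} (hv : (gg B).Valid h)
    (hpin : ∀ v, v ∉ intVerts F → kk B h v = 0) :
    lft F B (dwn F B h).1 (dwn F B h).2 = h := by
  funext x
  rcases x with (v | v) | f
  · show kk B h v.1 = _
    rw [kk_mem h v.2]
  · obtain ⟨u, hu⟩ := exists_not_intVerts B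
    have h1 := hpin u (fun h => hu (intVerts_mono hFB h))
    rw [kk_not_mem h hu] at h1
    show (0 : ℤ) = _
    rw [← h1]
  · show (if hf : f.1 ∈ F then (if f.1 ∈ F then hh B h f.1 else 1)
      else (((if hh B h f.1 = 1 then 1 else -1 : ℤˣ)) : ℤ)) = _
    have h2 : hh B h f.1 = h (Sum.inr f) := hh_mem h f.2
    split_ifs with hf h3
    · exact h2
    · rw [← h2, h3]; rfl
    · have h4 : |h (Sum.inl (Ann770.vm B be f.1)) - h (Sum.inr f)| = 1 :=
        hv.2.2 _ f ⟨f.1, Or.inl rfl, rfl⟩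
      have h5 : h (Sum.inl (Ann770.vm B be f.1)) = 0 :=
        hpin f.1 (not_intVerts_of_corner hf (Or.inl rfl))
      rw [h5, zero_sub, abs_neg, ← h2] at h4
      rcases abs_eq (by norm_num : (0 : ℤ) ≤ 1) |>.1 h4 with h6 | h6
      · exact absurd h6 h3
      · rw [← h2, h6]; rfl

theorem valid_dwn (hFB : F ⊆ B) {h : Sit B → ℤ} (hv : (gg B).Valid h)
    (hpin : ∀ v, v ∉ intVerts F → kk B h v = 0) : Valid2 F (dwn F B h).1 where
  zero := hpin
  even := fun v => hv.1 _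
  off := fun f hf => if_neg hf
  corner := fun f hf v hvf => by
    show |kk B h v - (if f ∈ F then hh B h f else 1)| = 1
    rw [if_pos hf, hh_mem h (hFB hf)]
    exact hv.2.2 _ ⟨f, hFB hf⟩ ⟨v, hvf, rfl⟩

theorem prod_wp (hFB : F ⊆ B) {p : Pr2} (hp : Valid2 F p) (s : ↥(B \ F) → ℤˣ) :
    ∏ e, (gg B).wp (fun e => cF c F e.1) (lft F B p s) e = wt6 c F p := by
  classical
  have h1 : ∀ e : ↥(intEdges B), (gg B).wp (fun e => cF c F e.1) (lft F B p s) e =
      if e.1 ∈ intEdges F then w6 c p e.1 else 1 := by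
    intro e
    have e1 : lft F B p s (Sum.inl (Ann770.vm B be (src e.1))) = p.1 (src e.1) :=
      congrFun (kk_lft hFB hp s) _
    have e2 : lft F B p s (Sum.inl (Ann770.vm B be (tgt e.1))) = p.1 (tgt e.1) :=
      congrFun (kk_lft hFB hp s) _
    unfold Geo.wp cF
    beta_reduce
    by_cases he : e.1 ∈ intEdges F
    · rw [if_pos he, if_pos he]
      have hA := (mem_intEdges.1 he).1
      have hB := (mem_intEdges.1 he).2
      have e3 : lft F B p s (Sum.inr ⟨fA e.1, (mem_intEdges.1 e.2).1⟩) = p.2 (fA e.1) := by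
        rw [← hh_lft_mem hFB p s hA, hh_mem _ (hFB hA)]
      have e4 : lft F B p s (Sum.inr ⟨fB e.1, (mem_intEdges.1 e.2).2⟩) = p.2 (fB e.1) := by
        rw [← hh_lft_mem hFB p s hB, hh_mem _ (hFB hB)]
      have hfl : (gg B).Flat (lft F B p s) e ↔
          p.1 (src e.1) = p.1 (tgt e.1) ∧ p.2 (fA e.1) = p.2 (fB e.1) := by
        unfold Geo.Flat
        show lft F B p s (Sum.inl (Ann770.vm B be (src e.1))) =
          lft F B p s (Sum.inl (Ann770.vm B be (tgt e.1))) ∧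
          lft F B p s (Sum.inr ⟨fA e.1, (mem_intEdges.1 e.2).1⟩) =
          lft F B p s (Sum.inr ⟨fB e.1, (mem_intEdges.1 e.2).2⟩) ↔ _
        rw [e1, e2, e3, e4]
      unfold w6
      by_cases hq : p.1 (src e.1) = p.1 (tgt e.1) ∧ p.2 (fA e.1) = p.2 (fB e.1)
      · rw [if_pos hq, if_pos (hfl.2 hq)]
      · rw [if_neg hq, if_neg (fun h => hq (hfl.1 h))]
    · rw [if_neg he, if_neg he]
      split_ifs <;> rfl
  rw [Finset.prod_congr rfl fun e _ => h1 e]
  rw [Finset.prod_coe_sort (intEdges B) (fun e => if e ∈ intEdges F then w6 c p e else 1)]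
  unfold wt6
  rw [← Finset.prod_subset (intEdges_mono hFB)]
  · exact Finset.prod_congr rfl fun e he => if_pos he
  · intro e _ he
    exact if_neg he

/-- **Representation** of the sums over `conf2 F` on the geometry of `B ⊇ F`. -/
theorem rep (hFB : F ⊆ B) (Φ : Pr2 → ℝ)
    (hΦ : ∀ p q : Pr2, p.1 = q.1 → (∀ f ∈ F, p.2 f = q.2 f) → Φ p = Φ q)
    {N : ℤ} (hN : hb F ≤ N) :
    S (gg B) (fun e => cF c F e.1) (UF F B) (fun _ => N) (fun h => Φ (kk B h, hh B h)) =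
      2 ^ (B \ F).card * ∑ p ∈ conf2 F, wt6 c F p * Φ p := by
  classical
  have hcard : (2 : ℝ) ^ (B \ F).card = ((univ : Finset (↥(B \ F) → ℤˣ)).card : ℝ) := by
    rw [Finset.card_univ, Fintype.card_fun, Fintype.card_units_int, Fintype.card_coe]
    push_cast; rfl
  have hR : (2 : ℝ) ^ (B \ F).card * ∑ p ∈ conf2 F, wt6 c F p * Φ p =
      ∑ q ∈ conf2 F ×ˢ (univ : Finset (↥(B \ F) → ℤˣ)), wt6 c F q.1 * Φ q.1 := by
    rw [Finset.sum_product, Finset.mul_sum]
    refine Finset.sum_congr rfl fun p _ => ?_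
    simp only
    rw [Finset.sum_const, nsmul_eq_mul, hcard]
  rw [hR]
  unfold S
  have hL : ∀ h : Sit B → ℤ, (gg B).W (fun e => cF c F e.1) h * UF F B (ab h) * Φ (kk B h, hh B h) =
      if ((gg B).Valid h ∧ ∀ v, v ∉ intVerts F → kk B h v = 0) then
        (∏ e, (gg B).wp (fun e => cF c F e.1) h e) * Φ (kk B h, hh B h) else 0 := by
    intro h
    rw [UF_ab_eq]
    unfold Geo.W
    by_cases h1 : (gg B).Valid h
    · by_cases h2 : ∀ v, v ∉ intVerts F → kk B h v = 0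
      · rw [if_pos h1, if_pos h2, if_pos ⟨h1, h2⟩, mul_one]
      · rw [if_neg h2, mul_zero, zero_mul, if_neg (fun h3 => h2 h3.2)]
    · rw [if_neg h1, zero_mul, zero_mul, if_neg (fun h3 => h1 h3.1)]
  rw [Finset.sum_congr rfl fun h _ => hL h, ← Finset.sum_filter]
  symm
  refine Finset.sum_bij' (fun q _ => lft F B q.1 q.2) (fun h _ => dwn F B h) ?_ ?_ ?_ ?_ ?_
  · rintro ⟨p, s⟩ hq
    have hp := mem_conf2.1 (Finset.mem_product.1 hq).1
    rw [Finset.mem_filter, Finset.mem_Icc]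
    refine ⟨⟨fun x => ?_, fun x => ?_⟩, valid_lft hFB hp s, fun v hv => ?_⟩
    · exact (abs_le.1 ((abs_lft hp s x).trans hN)).1
    · exact (abs_le.1 ((abs_lft hp s x).trans hN)).2
    · show kk B (lft F B p s) v = 0
      rw [kk_lft hFB hp s]
      exact hp.zero v hv
  · intro h hh'
    rw [Finset.mem_filter] at hh'
    exact Finset.mem_product.2 ⟨mem_conf2.2 (valid_dwn hFB hh'.2.1 hh'.2.2), Finset.mem_univ _⟩
  · rintro ⟨p, s⟩ hq
    exact dwn_lft hFB (mem_conf2.1 (Finset.mem_product.1 hq).1) s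
  · intro h hh'
    rw [Finset.mem_filter] at hh'
    exact lft_dwn hFB hh'.2.1 hh'.2.2
  · rintro ⟨p, s⟩ hq
    have hp := mem_conf2.1 (Finset.mem_product.1 hq).1
    show wt6 c F p * Φ p = _
    rw [prod_wp hFB hp s]
    congr 1
    exact hΦ _ _ (kk_lft hFB hp s).symm fun f hf => (hh_lft_mem hFB p s hf).symm

theorem rep_one (hFB : F ⊆ B) {N : ℤ} (hN : hb F ≤ N) :
    S (gg B) (fun e => cF c F e.1) (UF F B) (fun _ => N) (fun _ => 1) =
      2 ^ (B \ F).card * Z6 c F := by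
  have := rep (c := c) hFB (fun _ => 1) (fun _ _ _ _ => rfl) hN
  simpa [Z6] using this

theorem E_rep (hFB : F ⊆ B) (Φ : Pr2 → ℝ)
    (hΦ : ∀ p q : Pr2, p.1 = q.1 → (∀ f ∈ F, p.2 f = q.2 f) → Φ p = Φ q)
    {N : ℤ} (hN : hb F ≤ N) :
    E c F (fun ω => Φ (ω.1, ω.2.1)) =
      S (gg B) (fun e => cF c F e.1) (UF F B) (fun _ => N) (fun h => Φ (kk B h, hh B h)) /
        S (gg B) (fun e => cF c F e.1) (UF F B) (fun _ => N) (fun _ => 1) := by
  rw [E_eq6, rep hFB Φ hΦ hN, rep_one hFB hN, mul_div_mul_left _ _ (by positivity)]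

end rep

/-! ### domination -/

section dom
variable {c : ℝ} {F B : Finset P2}

theorem UF_nonneg (F B : Finset P2) (a : Sit B → ℤ) : 0 ≤ UF F B a := by
  unfold UF; split_ifs <;> norm_num

theorem UF_ne_zero {a : Sit B → ℤ} (h : UF F B a ≠ 0) :
    0 ≤ a ∧ ∀ v, v ∉ intVerts F → kk B a v = 0 := by
  unfold UF at h
  by_contra hcon
  rw [if_neg hcon] at h
  exact h rfl

theorem UF_of {a : Sit B → ℤ} (h : 0 ≤ a ∧ ∀ v, v ∉ intVerts F → kk B a v = 0) :
    UF F B a = 1 := by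
  unfold UF; rw [if_pos h]

theorem dom_UF {F' : Finset P2} (hFF : F ⊆ F') : Dom (UF F B) (UF F' B) := by
  refine ⟨UF_nonneg F B, UF_nonneg F' B, fun a b => ?_⟩
  by_cases ha : UF F B a = 0
  · rw [ha, zero_mul]; exact mul_nonneg (UF_nonneg _ _ _) (UF_nonneg _ _ _)
  by_cases hb : UF F' B b = 0
  · rw [hb, mul_zero]; exact mul_nonneg (UF_nonneg _ _ _) (UF_nonneg _ _ _)
  obtain ⟨a0, a1⟩ := UF_ne_zero ha
  obtain ⟨b0, b1⟩ := UF_ne_zero hb
  rw [UF_of ⟨a0, a1⟩, UF_of ⟨b0, b1⟩, UF_of, UF_of]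
  · refine ⟨le_sup_of_le_left a0, fun v hv => ?_⟩
    show max (kk B a v) (kk B b v) = 0
    rw [a1 v (fun h => hv (intVerts_mono hFF h)), b1 v hv, max_self]
  · refine ⟨le_inf a0 b0, fun v hv => ?_⟩
    show min (kk B a v) (kk B b v) = 0
    rw [a1 v hv]
    exact min_eq_left (b0 _)

theorem cF_one_le (hc : 1 ≤ c) (F : Finset P2) (e : Edge) : 1 ≤ cF c F e := by
  unfold cF; split_ifs
  · exact hc
  · exact le_rfl

theorem cF_mono (hc : 1 ≤ c) {F F' : Finset P2} (h : F ⊆ F') (e : Edge) : cF c F e ≤ cF c F' e := by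
  unfold cF
  by_cases h1 : e ∈ intEdges F
  · rw [if_pos h1, if_pos (intEdges_mono h h1)]
  · rw [if_neg h1]; split_ifs
    · exact hc
    · exact le_rfl

theorem Z6_pos (hc : 1 ≤ c) (F : Finset P2) : 0 < Z6 c F := by
  rw [← Z_eq]; exact Z_pos hc F

theorem S_one_pos (hc : 1 ≤ c) (hFB : F ⊆ B) {N : ℤ} (hN : hb F ≤ N) :
    0 < S (gg B) (fun e => cF c F e.1) (UF F B) (fun _ => N) (fun _ => 1) := by
  rw [rep_one hFB hN]
  exact mul_pos (by positivity) (Z6_pos hc F)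

/-- **Domain monotonicity**, general form: `F ⊆ F' ⊆ B`. -/
theorem E_mono_inc (hc : 1 ≤ c) {F' : Finset P2} (hFF : F ⊆ F') (hF'B : F' ⊆ B) (Φ : Pr2 → ℝ)
    (hΦ : ∀ p q : Pr2, p.1 = q.1 → (∀ f ∈ F, p.2 f = q.2 f) → Φ p = Φ q)
    (hinc : IncAv (gg B) (fun h => Φ (kk B h, hh B h))) :
    E c F (fun ω => Φ (ω.1, ω.2.1)) ≤ E c F' (fun ω => Φ (ω.1, ω.2.1)) := by
  set N : ℤ := max (hb F) (hb F') with hN
  have h1 : hb F ≤ N := le_max_left _ _
  have h2 : hb F' ≤ N := le_max_right _ _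
  have hN0 : 0 ≤ N := le_trans (by linarith [two_le_hb F]) h1
  have hΦ' : ∀ p q : Pr2, p.1 = q.1 → (∀ f ∈ F', p.2 f = q.2 f) → Φ p = Φ q :=
    fun p q h3 h4 => hΦ p q h3 fun f hf => h4 f (hFF hf)
  rw [E_rep (hFF.trans hF'B) Φ hΦ h1, E_rep hF'B Φ hΦ' h2,
    div_le_div_iff₀ (S_one_pos hc (hFF.trans hF'B) h1) (S_one_pos hc hF'B h2)]
  have key := mono_heights (gg B) (c := fun e => cF c F' e.1) (c' := fun e => cF c F e.1)
    (fun e => cF_one_le hc F e.1) (fun e => cF_mono hc hFF e.1) (dom_UF (B := B) hFF)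
    (fun e he a ha => by
      obtain ⟨a0, a1⟩ := UF_ne_zero ha
      have he' : e.1 ∉ intEdges F := by
        intro h
        apply he
        show cF c F e.1 = cF c F' e.1
        unfold cF
        rw [if_pos h, if_pos (intEdges_mono hFF h)]
      obtain ⟨n1, n2⟩ := not_intVerts_of_edge he'
      exact ⟨a1 _ n1, a1 _ n2⟩) (fun _ => N) (fun _ => hN0) hinc
  linarith

end dom

/-! ### classes of height functions -/

/-- increasing-positive functions of the heights -/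
def MP (Ψ : Pr2 → ℝ) : Prop :=
  ∀ B : Finset P2, MPos (fun h : Sit B → ℤ => Ψ (kk B h, hh B h))

/-- flip-monotone functions of the heights -/
def FL (Ψ : Pr2 → ℝ) : Prop :=
  ∀ B : Finset P2, Fl (fun h : Sit B → ℤ => Ψ (kk B h, hh B h))

/-- functions of the heights at vertices and at the faces of `F` -/
def DepH (F : Finset P2) (Φ : Pr2 → ℝ) : Prop :=
  ∀ p q : Pr2, p.1 = q.1 → (∀ f ∈ F, p.2 f = q.2 f) → Φ p = Φ q

theorem depH_k (F : Finset P2) (Ψ : (P2 → ℤ) → ℝ) : DepH F (fun p => Ψ p.1) :=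
  fun p q h _ => congrArg Ψ h

section classes

theorem MP.const {r : ℝ} (hr : 0 ≤ r) : MP (fun _ => r) := fun B => MPos.const hr

theorem MP.add {Φ Ψ : Pr2 → ℝ} (h : MP Φ) (k : MP Ψ) : MP (fun p => Φ p + Ψ p) :=
  fun B => (h B).add (k B)

theorem MP.mul {Φ Ψ : Pr2 → ℝ} (h : MP Φ) (k : MP Ψ) : MP (fun p => Φ p * Ψ p) :=
  fun B => (h B).mul (k B)

theorem MP.smul {Φ : Pr2 → ℝ} (h : MP Φ) {r : ℝ} (hr : 0 ≤ r) : MP (fun p => r * Φ p) :=
  fun B => (h B).smul hr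

theorem MP.sum {κ : Type*} (s : Finset κ) {f : κ → Pr2 → ℝ} (hf : ∀ k ∈ s, MP (f k)) :
    MP (fun p => ∑ k ∈ s, f k p) :=
  fun B => MPos.sum s fun k hk => hf k hk B

theorem MP.prod {κ : Type*} (s : Finset κ) {f : κ → Pr2 → ℝ} (hf : ∀ k ∈ s, MP (f k)) :
    MP (fun p => ∏ k ∈ s, f k p) :=
  fun B => MPos.prod s fun k hk => hf k hk B

theorem MP.pow {Φ : Pr2 → ℝ} (h : MP Φ) (n : ℕ) : MP (fun p => Φ p ^ n) :=
  fun B => (h B).pow n

theorem MP.k (v : P2) : MP (fun p => (p.1 v : ℝ)) :=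
  fun B => MPos.site (Sum.inl (Ann770.vm B be v))

theorem MP.h (f : P2) : MP (fun p => (p.2 f : ℝ)) := by
  intro B
  by_cases hf : f ∈ B
  · refine (MPos.site (Sum.inr ⟨f, hf⟩)).congr fun h => ?_
    show ((hh B h f : ℤ) : ℝ) = _
    rw [hh_mem h hf]
  · refine (MPos.one).congr fun h => ?_
    show ((hh B h f : ℤ) : ℝ) = _
    unfold hh
    rw [dif_neg hf]; norm_num



theorem hh_ab (B : Finset P2) (h : Sit B → ℤ) (f : P2) : hh B (ab h) f = |hh B h f| := by
  unfold hh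
  by_cases hf : f ∈ B
  · rw [dif_pos hf, dif_pos hf]; rfl
  · rw [dif_neg hf, dif_neg hf]; rfl

theorem kk_mono (B : Finset P2) {a b : Sit B → ℤ} (h : a ≤ b) : kk B a ≤ kk B b :=
  fun v => h _

theorem hh_mono (B : Finset P2) {a b : Sit B → ℤ} (h : a ≤ b) : hh B a ≤ hh B b := by
  intro f
  unfold hh
  split_ifs with hf
  · exact h _
  · exact le_rfl

theorem hh_nonneg (B : Finset P2) {a : Sit B → ℤ} (h : 0 ≤ a) : 0 ≤ hh B a := by
  intro f
  unfold hh
  split_ifs with hf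
  · exact h _
  · simp

/-- nonnegative nondecreasing functions of `|k|, |h|` -/
theorem MP.abs {g : Pr2 → ℝ} (h0 : ∀ p, 0 ≤ p → 0 ≤ g p)
    (h1 : ∀ p q : Pr2, 0 ≤ p → p ≤ q → g p ≤ g q) :
    MP (fun p => g (fun v => |p.1 v|, fun f => |p.2 f|)) := by
  intro B
  have := MPos.abs (S := Sit B) (g := fun a => g (kk B a, hh B a))
    (fun a ha => h0 _ ⟨fun v => ha _, hh_nonneg B ha⟩)
    (fun a b ha hab => h1 _ _ ⟨fun v => ha _, hh_nonneg B ha⟩ ⟨kk_mono B hab, hh_mono B hab⟩)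
  refine this.congr fun h => ?_
  have e2 : hh B (ab h) = fun f => |hh B h f| := funext fun f => hh_ab B h f
  show g (fun v => |kk B h v|, fun f => |hh B h f|) = g (kk B (ab h), hh B (ab h))
  rw [e2]
  rfl

/-- linear forms of the vertex heights on the geometry of `B` -/
theorem lin_sites (B : Finset P2) (s : Finset P2) (w : P2 → ℝ) (h : Sit B → ℤ) :
    ∑ v ∈ s, w v * (kk B h v : ℝ) =
      ∑ x : Sit B, (∑ v ∈ s with (Sum.inl (Ann770.vm B be v) : Sit B) = x, w v) * (h x : ℝ) := by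
  rw [← Finset.sum_fiberwise (s := s) (g := fun v => (Sum.inl (Ann770.vm B be v) : Sit B))]
  refine Finset.sum_congr rfl fun x _ => ?_
  rw [Finset.sum_mul]
  refine Finset.sum_congr rfl fun v hv => ?_
  have := (Finset.mem_filter.1 hv).2
  show w v * (h (Sum.inl (Ann770.vm B be v)) : ℝ) = _
  rw [this]

/-- convex functions of nonnegative linear forms of `k` -/
theorem FL.convex {φ : ℝ → ℝ} (hφ : ConvexOn ℝ Set.univ φ) (s : Finset P2) {w : P2 → ℝ}
    (hw : ∀ v ∈ s, 0 ≤ w v) : FL (fun p => φ (∑ v ∈ s, w v * (p.1 v : ℝ))) := by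
  intro B
  have := Fl.convex (S := Sit B) hφ
    (f := fun x => ∑ v ∈ s with (Sum.inl (Ann770.vm B be v) : Sit B) = x, w v)
    (fun x => Finset.sum_nonneg fun v hv => hw v (Finset.mem_filter.1 hv).1)
  have e : (fun h : Sit B → ℤ => φ (∑ v ∈ s, w v * (((kk B h, hh B h) : Pr2).1 v : ℝ))) =
      fun h : Sit B → ℤ => φ (∑ x : Sit B,
        (∑ v ∈ s with (Sum.inl (Ann770.vm B be v) : Sit B) = x, w v) * (h x : ℝ)) := by
    funext h
    rw [← lin_sites B s w h]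
  rw [e]
  exact this

end classes

/-! ### consequences -/

section conseq
variable {c : ℝ} {F B : Finset P2}

theorem E_mono_MP (hc : 1 ≤ c) (hFB : F ⊆ B) {Ψ : Pr2 → ℝ} (hΨ : DepH F Ψ) (h : MP Ψ) :
    E c F (fun ω => Ψ (ω.1, ω.2.1)) ≤ E c B (fun ω => Ψ (ω.1, ω.2.1)) :=
  E_mono_inc hc hFB (Finset.Subset.refl B) Ψ hΨ (IncAv.of_mpos _ (h B))

theorem E_mono_FL (hc : 1 ≤ c) (hFB : F ⊆ B) {Ψ : Pr2 → ℝ} (hΨ : DepH F Ψ) (h : FL Ψ) :
    E c F (fun ω => Ψ (ω.1, ω.2.1)) ≤ E c B (fun ω => Ψ (ω.1, ω.2.1)) :=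
  E_mono_inc hc hFB (Finset.Subset.refl B) Ψ hΨ (IncAv.of_fl _ (h B))





/-- **Two-point functions** are nonnegative and increase with the domain. -/
theorem E_two_mono (hc : 1 ≤ c) (hFB : F ⊆ B) (x y : P2) :
    E c F (fun ω => (ω.1 x : ℝ) * ω.1 y) ≤ E c B (fun ω => (ω.1 x : ℝ) * ω.1 y) :=
  E_mono_MP hc hFB (Ψ := fun p => (p.1 x : ℝ) * p.1 y)
    (depH_k F (fun k => (k x : ℝ) * k y)) ((MP.k x).mul (MP.k y))


/-- **Convex order**: convex functions of nonnegative linear forms. -/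
theorem E_convex_mono (hc : 1 ≤ c) (hFB : F ⊆ B) {φ : ℝ → ℝ} (hφ : ConvexOn ℝ Set.univ φ)
    (s : Finset P2) {w : P2 → ℝ} (hw : ∀ v ∈ s, 0 ≤ w v) :
    E c F (fun ω => φ (∑ v ∈ s, w v * (ω.1 v : ℝ))) ≤
      E c B (fun ω => φ (∑ v ∈ s, w v * (ω.1 v : ℝ))) :=
  E_mono_FL hc hFB (Ψ := fun p => φ (∑ v ∈ s, w v * (p.1 v : ℝ)))
    (depH_k F (fun k => φ (∑ v ∈ s, w v * (k v : ℝ)))) (FL.convex hφ s hw)

open Classical in
/-- coefficients on the interior sites of `B` -/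
def co (B s : Finset P2) (w : P2 → ℝ) : Sit B → ℝ :=
  Sum.elim (Sum.elim (fun v => if v.1 ∈ s then w v.1 else 0) (fun _ => 0)) (fun _ => 0)

theorem sum_co (B s : Finset P2) (w : P2 → ℝ) (h : Sit B → ℤ) :
    ∑ x : Sit B, co B s w x * (h x : ℝ) = ∑ v ∈ s ∩ intVerts B, w v * (kk B h v : ℝ) := by
  classical
  rw [Fintype.sum_sum_type, Fintype.sum_sum_type]
  have e1 : ∑ x : Unit, co B s w (Sum.inl (Sum.inr x)) * (h (Sum.inl (Sum.inr x)) : ℝ) = 0 :=
    Finset.sum_eq_zero fun x _ => by simp [co]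
  have e2 : ∑ x : ↥B, co B s w (Sum.inr x) * (h (Sum.inr x) : ℝ) = 0 :=
    Finset.sum_eq_zero fun x _ => by simp [co]
  rw [e1, e2, add_zero, add_zero]
  have e3 : ∀ x : ↥(intVerts B), co B s w (Sum.inl (Sum.inl x)) * (h (Sum.inl (Sum.inl x)) : ℝ) =
      (fun v => if v ∈ s then w v * (kk B h v : ℝ) else 0) x.1 := by
    intro x
    show (if x.1 ∈ s then w x.1 else 0) * (h (Sum.inl (Sum.inl x)) : ℝ) =
      if x.1 ∈ s then w x.1 * (kk B h x.1 : ℝ) else 0
    rw [kk_mem h x.2]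
    split_ifs
    · rfl
    · ring
  rw [Finset.sum_congr rfl fun x _ => e3 x,
    Finset.sum_coe_sort (intVerts B) (fun v => if v ∈ s then w v * (kk B h v : ℝ) else 0),
    ← Finset.sum_filter]
  refine Finset.sum_congr ?_ fun _ _ => rfl
  ext v
  rw [Finset.mem_filter, Finset.mem_inter, and_comm]

theorem abs_co (B s : Finset P2) (w : P2 → ℝ) (x : Sit B) :
    |co B s w x| = co B s (fun v => |w v|) x := by
  classical
  rcases x with (v | v) | f
  · show |(if v.1 ∈ s then w v.1 else 0)| = if v.1 ∈ s then |w v.1| else 0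
    split_ifs <;> simp
  · show |(0 : ℝ)| = 0
    simp
  · show |(0 : ℝ)| = 0
    simp

theorem sum_valid {G : Finset P2} (hG : G ⊆ B) {ω : Cfg} (h : Valid G ω) (s : Finset P2)
    (w : P2 → ℝ) : ∑ v ∈ s ∩ intVerts B, w v * (ω.1 v : ℝ) = ∑ v ∈ s, w v * (ω.1 v : ℝ) := by
  refine Finset.sum_subset Finset.inter_subset_left fun v hv hv' => ?_
  have : v ∉ intVerts G := fun h' => hv' (Finset.mem_inter.2 ⟨hv, intVerts_mono hG h'⟩)
  rw [h.zero v this]; simp

/-- one-sided cosine comparison -/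
theorem E_cos_aux (hc : 1 ≤ c) (hFB : F ⊆ B) {ε : ℝ} (hε : |ε| ≤ 1) (s : Finset P2) (w : P2 → ℝ) :
    E c F (fun ω => (1 / 2) * (∑ v ∈ s, |w v| * (ω.1 v : ℝ)) ^ 2 +
        ε * Real.cos (∑ v ∈ s, w v * (ω.1 v : ℝ))) ≤
      E c B (fun ω => (1 / 2) * (∑ v ∈ s, |w v| * (ω.1 v : ℝ)) ^ 2 +
        ε * Real.cos (∑ v ∈ s, w v * (ω.1 v : ℝ))) := by
  have hfl := Fl.cos (S := Sit B) (co B s w) hε
  have e : (fun h : Sit B → ℤ => (1 / 2) * (∑ x, |co B s w x| * (h x : ℝ)) ^ 2 +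
      ε * Real.cos (∑ x, co B s w x * (h x : ℝ))) =
      fun h : Sit B → ℤ => (1 / 2) * (∑ v ∈ s ∩ intVerts B, |w v| * (kk B h v : ℝ)) ^ 2 +
      ε * Real.cos (∑ v ∈ s ∩ intVerts B, w v * (kk B h v : ℝ)) := by
    funext h
    rw [sum_co]
    simp only [abs_co]
    rw [sum_co]
  rw [e] at hfl
  have key := E_mono_inc (c := c) hc hFB (Finset.Subset.refl B)
    (fun p : Pr2 => (1 / 2) * (∑ v ∈ s ∩ intVerts B, |w v| * (p.1 v : ℝ)) ^ 2 +
      ε * Real.cos (∑ v ∈ s ∩ intVerts B, w v * (p.1 v : ℝ)))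
    (depH_k F (fun k => (1 / 2) * (∑ v ∈ s ∩ intVerts B, |w v| * (k v : ℝ)) ^ 2 +
      ε * Real.cos (∑ v ∈ s ∩ intVerts B, w v * (k v : ℝ))))
    (IncAv.of_fl _ hfl)
  have c1 := E_congr (c := c) (F := F)
    (f := fun ω => (1 / 2) * (∑ v ∈ s ∩ intVerts B, |w v| * (ω.1 v : ℝ)) ^ 2 +
      ε * Real.cos (∑ v ∈ s ∩ intVerts B, w v * (ω.1 v : ℝ)))
    (g := fun ω => (1 / 2) * (∑ v ∈ s, |w v| * (ω.1 v : ℝ)) ^ 2 +
      ε * Real.cos (∑ v ∈ s, w v * (ω.1 v : ℝ)))
    (fun ω hω => by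
      show (1 / 2) * (∑ v ∈ s ∩ intVerts B, |w v| * (ω.1 v : ℝ)) ^ 2 +
        ε * Real.cos (∑ v ∈ s ∩ intVerts B, w v * (ω.1 v : ℝ)) = _
      rw [sum_valid hFB hω s w, sum_valid hFB hω s (fun v => |w v|)])
  have c2 := E_congr (c := c) (F := B)
    (f := fun ω => (1 / 2) * (∑ v ∈ s ∩ intVerts B, |w v| * (ω.1 v : ℝ)) ^ 2 +
      ε * Real.cos (∑ v ∈ s ∩ intVerts B, w v * (ω.1 v : ℝ)))
    (g := fun ω => (1 / 2) * (∑ v ∈ s, |w v| * (ω.1 v : ℝ)) ^ 2 +
      ε * Real.cos (∑ v ∈ s, w v * (ω.1 v : ℝ)))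
    (fun ω hω => by
      show (1 / 2) * (∑ v ∈ s ∩ intVerts B, |w v| * (ω.1 v : ℝ)) ^ 2 +
        ε * Real.cos (∑ v ∈ s ∩ intVerts B, w v * (ω.1 v : ℝ)) = _
      rw [sum_valid (Finset.Subset.refl B) hω s w,
        sum_valid (Finset.Subset.refl B) hω s (fun v => |w v|)])
  rw [← c1, ← c2]
  exact key

/-- **Cosine comparison**: `|E_B cos X - E_F cos X| ≤ ½ (E_B X_{|w|}² - E_F X_{|w|}²)`. -/
theorem E_cos_mono (hc : 1 ≤ c) (hFB : F ⊆ B) (s : Finset P2) (w : P2 → ℝ) :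
    |E c B (fun ω => Real.cos (∑ v ∈ s, w v * (ω.1 v : ℝ))) -
        E c F (fun ω => Real.cos (∑ v ∈ s, w v * (ω.1 v : ℝ)))| ≤
      (1 / 2) * (E c B (fun ω => (∑ v ∈ s, |w v| * (ω.1 v : ℝ)) ^ 2) -
        E c F (fun ω => (∑ v ∈ s, |w v| * (ω.1 v : ℝ)) ^ 2)) := by
  have h1 := E_cos_aux hc hFB (ε := 1) (by norm_num) s w
  have h2 := E_cos_aux hc hFB (ε := -1) (by norm_num) s w
  rw [E_add, E_add, E_smul, E_smul, E_smul, E_smul] at h1 h2
  rw [abs_le]
  constructor <;> linarith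


end conseq

end Crest.Agent.R161.Brg722
end
end

-- ▼ part R161/Brg2_722
section

/-!
# `Sandwich c` and `Mono2 c` of `Asm_695` (helper722, R161)
-/

set_option autoImplicit false

noncomputable section

namespace Crest.Agent.R161.Brg722

open Finset Crest.Agent.R161.Geo729 Crest.Agent.R161.Defs372

/-- **Sandwich** inequality of `Asm_695`. -/
theorem sandwich {c : ℝ} (hc : 1 ≤ c) : Asm695.Sandwich c := by
  intro D₁ D₂ _ _ h S a
  have h1 := E_cos_mono hc h S a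
  have h2 : E c D₁ (fun ω => (∑ v ∈ S, |a v| * (ω.1 v : ℝ)) ^ 2) ≤
      E c D₂ (fun ω => (∑ v ∈ S, |a v| * (ω.1 v : ℝ)) ^ 2) :=
    E_convex_mono hc h (φ := fun x => x ^ 2) (even_two.convexOn_pow) S
      (w := fun v => |a v|) (fun v _ => abs_nonneg _)
  have e : ∀ (b : P2 → ℝ) (u : Cfg), Asm695.Lin S b u = ∑ v ∈ S, b v * (u.1 v : ℝ) := fun b u =>
    Finset.sum_congr rfl fun v _ => mul_comm _ _
  simp only [e]
  linarith

/-- **Mono2** of `Asm_695`. -/
theorem mono2 {c : ℝ} (hc : 1 ≤ c) : Asm695.Mono2 c :=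
  fun _ _ _ _ h v w => E_two_mono hc h v w

end Crest.Agent.R161.Brg722
end
end

-- ▼ part R161/Dloc2_132
section

/-!
Row 161 (helper132): delocalisation, with `Mono2` discharged by helper722's bridge.
-/

set_option autoImplicit false

noncomputable section

namespace Crest.Agent.R161.Dloc132

open Filter Topology MeasureTheory
open Crest.Agent.R161.Geo729 Crest.Agent.R161.Defs372 Crest.Agent.R161.Ifc372



theorem deloc_box' {c : ℝ} (hc : 1 ≤ c) {P : Measure Cfg} (hP : IsState c P)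
    (hG : PlaneGauss c P) {ε : ℝ} (hε : 0 < ε) :
    ∃ n : ℕ, ∀ F : Finset P2, Dom F → Defs372.box n ⊆ F → ∀ b : ℤ,
      Pr c F {ω | ω.1 (0, 0) = b} < ε :=
  deloc_box hc hP hG (Brg722.mono2 hc) hε

end Crest.Agent.R161.Dloc132
end
end

-- ▼ part R161/ExInv2_792
section

/-!
# Row 161: `SwapInv` for the concrete plane state (helper792)

`swapInv_of` : a measure on `Cfg` whose `(k, h)`-marginal is the law of the heights of the plane
state of row 150 satisfies helper472's `SwapInv`.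
-/

set_option autoImplicit false

noncomputable section

namespace Crest.Agent.R161.ExInv792

open MeasureTheory
open Crest.Agent.R161.Geo729 Crest.Agent.R161.Defs372
open Crest.Agent.R150.Hgt989 Crest.Agent.R150.Pls989

theorem swapInv_of_exch {Q : Measure Cfg} (hE : (Q.map hts).map exch = Q.map hts) :
    Csq472.SwapInv Q := by
  unfold Csq472.SwapInv
  rw [Measure.map_map measurable_exch measurable_hts] at hE
  exact hE

/-- **`SwapInv`** of the plane state -/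
theorem swapInv_of {c : ℝ} {P : Measure Conf} (hP : IsPlane c P) {Q : Measure Cfg}
    (hQ : Q.map hts = P.map khmap) : Csq472.SwapInv Q :=
  swapInv_of_exch (map_exch_of hP hQ)

end Crest.Agent.R161.ExInv792
end
end

-- ▼ part R161/H4_689
section

/-!
# Comparison of a zero boundary domain with the plane state (helper689, R161 STEP 7/8)

`plane_bound` : for `D ⊆ ball 0 n`, `Φ ≥ 0` even convex and a neutral functional `X_{a+b}`, `a` inside
`ball 0 n`, `b` outside `ball 0 (2n)`: `q * E_D Φ(X_a') ≤ ∫ Φ(X_{a+b}) dP`.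
-/

set_option autoImplicit false

noncomputable section

namespace Crest.Agent.R161.H689

open Finset MeasureTheory Crest.Agent.R161.Geo729 Crest.Agent.R161.Defs372 Crest.Agent.R161.Dmp341
  Crest.Agent.R161.Flip228 Crest.Agent.R161.Hull374 Crest.Agent.R161.Dual374
  Crest.Agent.R161.Ifc372

theorem ball_eq_rect (x : P2) (n : ℕ) :
    ball x n = Rect597.rect (x.1 - n) (x.1 + n - 1) (x.2 - n) (x.2 + n - 1) := rfl

theorem dom_ball (x : P2) (n : ℕ) : Dom (ball x n) := by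
  rw [ball_eq_rect]; exact Rect597.dom_rect _ _ _ _

theorem mem_ball {x f : P2} {n : ℕ} : f ∈ ball x n ↔
    (x.1 - n ≤ f.1 ∧ f.1 ≤ x.1 + n - 1) ∧ (x.2 - n ≤ f.2 ∧ f.2 ≤ x.2 + n - 1) := by
  unfold ball
  rw [Finset.mem_product, Finset.mem_Icc, Finset.mem_Icc]

theorem self_mem_ball {x : P2} {n : ℕ} (hn : 1 ≤ n) : x ∈ ball x n := by
  rw [mem_ball]
  omega

theorem reach_symm {Z : Edge → Prop} {B : Set P2} {f a : P2}
    (h : Relation.ReflTransGen (DStep (fun e => ¬ Z e)) a f) (hf : f ∈ B) : a ∈ Reach Z B := by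
  refine ⟨f, hf, ?_⟩
  clear hf
  induction h with
  | refl => exact .refl
  | tail _ h2 ih => exact Relation.ReflTransGen.head h2.symm ih

/-- a plus-cut circuit separates -/
theorem sep_of_circ {x : P2} {n m : ℕ} {ω : Cfg} (h : Circ (plusE ω) x n m) :
    Sep (ball x m) (ball x n) ω := by
  intro y hy hyR
  obtain ⟨a, ha, hpath⟩ := hyR
  have hpath' : Relation.ReflTransGen (DStep (fun e => ¬ plusE ω e)) a y := by
    refine Relation.ReflTransGen.mono (fun f g hfg => ?_) _ _ hpath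
    obtain ⟨e, he, hfg⟩ := hfg
    exact ⟨e, fun h' => he h'.1, hfg⟩
  have := h (reach_symm hpath' (B := (ball x n : Set P2)) hy)
  exact ha this

theorem L_norm0 (S : Finset P2) (a : P2 → ℝ) (ha : ∑ v ∈ S, a v = 0) (ω : Cfg) :
    L S a (norm0 ω) = L S a ω := by
  unfold L
  have : ∀ v ∈ S, ((norm0 ω).1 v : ℝ) * a v = (ω.1 v : ℝ) * a v - (ω.1 (0, 0) : ℝ) * a v := by
    intro v _
    have : (norm0 ω).1 v = ω.1 v + -ω.1 (0, 0) := rfl
    rw [this]
    push_cast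
    ring
  rw [Finset.sum_congr rfl this, Finset.sum_sub_distrib, ← Finset.mul_sum, ha, mul_zero, sub_zero]

theorem loc_L (S : Finset P2) (a : P2 → ℝ) (g : ℝ → ℝ) :
    Loc (S : Set P2) (fun ω => g (L S a ω)) := by
  intro ω ω' h
  have : L S a ω = L S a ω' := by
    unfold L
    exact Finset.sum_congr rfl fun v hv => by rw [(h v hv).1]
  simp only [this]

/-- **Comparison with the plane state.** -/
theorem plane_bound {c : ℝ} (hc : 1 ≤ c) (hM : CvxMono c) (hC : UnifCirc c) {P : Measure Cfg}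
    (hP : IsState c P) :
    ∃ (q : ℝ) (n0 : ℕ), 0 < q ∧ 1 ≤ n0 ∧ ∀ n : ℕ, n0 ≤ n → ∀ D : Finset P2, Dom D →
      D ⊆ ball (0, 0) n → ∀ (S : Finset P2) (a' a b : P2 → ℝ), (∀ v, |a' v| ≤ a v) →
      (∀ v, v ∉ intVerts (ball (0, 0) n) → a v = 0) →
      (∀ v ∈ intVerts (ball (0, 0) (2 * n)), b v = 0) → ∑ v ∈ S, (a v + b v) = 0 →
      ∀ Φ : ℝ → ℝ, ConvexOn ℝ Set.univ Φ → (∀ x, Φ (-x) = Φ x) → (∀ x, 0 ≤ Φ x) →
      q * E c D (fun u => Φ (L S a' u)) ≤ ∫ ω, Φ (L S (fun v => a v + b v) ω) ∂P := by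
  classical
  obtain ⟨q, n0, Lc, hq, _, hCirc⟩ := hC
  refine ⟨q, max n0 1, hq, le_max_right _ _, fun n hn D hD hDn S a' a b haa ha hb hsum Φ hΦ hev
    hΦ0 => ?_⟩
  have hn0 : n0 ≤ n := (le_max_left _ _).trans hn
  have hn1 : 1 ≤ n := (le_max_right _ _).trans hn
  refine le_of_forall_pos_le_add fun ε hε => ?_
  obtain ⟨N, hN⟩ := hP.lim S (fun ω => Φ (L S (fun v => a v + b v) ω))
    (loc_L S _ Φ) ε hε
  set F : Finset P2 := Defs372.box (max N (2 * n)) with hF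
  have hFD : Dom F := Rect597.dom_box _
  have hNF : Defs372.box N ⊆ F := by
    rw [hF, ← ball_zero, ← ball_zero]
    intro f hf
    rw [mem_ball] at hf ⊢
    have : (N : ℤ) ≤ (max N (2 * n) : ℕ) := by exact_mod_cast le_max_left _ _
    omega
  have h2nF : ball (0, 0) (2 * n) ⊆ F := by
    rw [hF, ← ball_zero]
    intro f hf
    rw [mem_ball] at hf ⊢
    have : ((2 * n : ℕ) : ℤ) ≤ (max N (2 * n) : ℕ) := by exact_mod_cast le_max_right _ _
    omega
  have h1 := hN F hFD hNF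
  have h2 : E c F (fun ω => Φ (L S (fun v => a v + b v) (norm0 ω))) =
      E c F (fun ω => Φ (L S (fun v => a v + b v) ω)) :=
    E_congr fun ω _ => by rw [L_norm0 S _ hsum]
  rw [h2] at h1
  -- circuits
  have h3 := (hCirc F hFD (0, 0) n hn0 (fun _ => 1) (fun _ => zero_le_one)
    (fun _ _ _ _ => rfl)).1
  rw [E_const hc, mul_one] at h3
  have h4 : q ≤ E c F (fun ω => if Sep (ball (0, 0) (2 * n)) (ball (0, 0) n) ω then 1 else 0) := by
    refine h3.trans (E_mono hc fun ω _ => ?_)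
    rw [one_mul]
    unfold indP
    split_ifs with h5 h6
    · exact le_rfl
    · exact absurd (sep_of_circ h5) h6
    · exact zero_le_one
    · exact le_rfl
  have h5 := symm_le hc hM (F := F) (U := ball (0, 0) (2 * n)) (B := ball (0, 0) n) (D := D) h2nF
    (dom_ball _ _).sc (x := (0, 0)) (self_mem_ball hn1) (dom_ball _ _).conn hD hDn S haa ha hb hΦ hev
  have h6 : E c F (fun ω => if Sep (ball (0, 0) (2 * n)) (ball (0, 0) n) ω then
      Φ (L S (fun v => a v + b v) ω) else 0) ≤ E c F (fun ω => Φ (L S (fun v => a v + b v) ω)) := by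
    refine E_mono hc fun ω _ => ?_
    split_ifs
    · exact le_rfl
    · exact hΦ0 _
  have h7 : 0 ≤ E c D (fun u => Φ (L S a' u)) := E_nonneg hc fun _ _ => hΦ0 _
  have h8 := mul_le_mul_of_nonneg_right h4 h7
  have h9 := (abs_lt.1 h1).2
  linarith

end Crest.Agent.R161.H689
end
end

-- ▼ part R161/H5a_689
section

/-!
# Second moments versus characteristic functions (helper689, R161 doc 973 (6)): real analysis

`PhiS s x = x² - (2/s²)(1 - cos (s x))` is nonnegative, even and convex.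
-/

set_option autoImplicit false

noncomputable section

namespace Crest.Agent.R161.H689

open Finset MeasureTheory Filter Topology Crest.Agent.R161.Geo729 Crest.Agent.R161.Defs372
  Crest.Agent.R161.Ifc372

/-- `x² - (2/s²)(1 - cos (s x))` -/
def PhiS (s x : ℝ) : ℝ := x ^ 2 - 2 / s ^ 2 * (1 - Real.cos (s * x))

theorem PhiS_even (s x : ℝ) : PhiS s (-x) = PhiS s x := by
  unfold PhiS
  rw [mul_neg, Real.cos_neg]
  ring

theorem PhiS_nonneg {s : ℝ} (hs : 0 < s) (x : ℝ) : 0 ≤ PhiS s x := by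
  unfold PhiS
  have h1 := Real.one_sub_sq_div_two_le_cos (x := s * x)
  have h2 : 1 - Real.cos (s * x) ≤ (s * x) ^ 2 / 2 := by linarith
  have h3 : 2 / s ^ 2 * (1 - Real.cos (s * x)) ≤ 2 / s ^ 2 * ((s * x) ^ 2 / 2) :=
    mul_le_mul_of_nonneg_left h2 (by positivity)
  have h4 : 2 / s ^ 2 * ((s * x) ^ 2 / 2) = x ^ 2 := by field_simp
  linarith

theorem convex_aux : ConvexOn ℝ Set.univ (fun y : ℝ => y ^ 2 + 2 * Real.cos y) := by
  have hd : ∀ y : ℝ, HasDerivAt (fun y : ℝ => y ^ 2 + 2 * Real.cos y) (2 * y - 2 * Real.sin y) y := by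
    intro y
    have h1 := (hasDerivAt_pow 2 y).add ((Real.hasDerivAt_cos y).const_mul 2)
    have e : 2 * y - 2 * Real.sin y = (2 : ℕ) * y ^ (2 - 1) + 2 * -Real.sin y := by
      norm_num
      ring
    rw [e]
    exact h1
  have hd2 : ∀ y : ℝ, HasDerivAt (fun y : ℝ => 2 * y - 2 * Real.sin y) (2 - 2 * Real.cos y) y := by
    intro y
    have h1 := ((hasDerivAt_id y).const_mul 2).sub ((Real.hasDerivAt_sin y).const_mul 2)
    have e : 2 - 2 * Real.cos y = 2 * 1 - 2 * Real.cos y := by ring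
    rw [e]
    exact h1
  have e1 : deriv (fun y : ℝ => y ^ 2 + 2 * Real.cos y) = fun y => 2 * y - 2 * Real.sin y :=
    funext fun y => (hd y).deriv
  refine convexOn_univ_of_deriv2_nonneg (fun y => (hd y).differentiableAt) ?_ ?_
  · rw [e1]; exact fun y => (hd2 y).differentiableAt
  · intro y
    rw [Function.iterate_succ_apply, Function.iterate_one, e1, (hd2 y).deriv]
    linarith [Real.cos_le_one y]

theorem PhiS_convex {s : ℝ} (hs : 0 < s) : ConvexOn ℝ Set.univ (PhiS s) := by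
  refine ⟨convex_univ, fun x _ y _ a b ha hb hab => ?_⟩
  have h := convex_aux.2 (Set.mem_univ (s * x)) (Set.mem_univ (s * y)) ha hb hab
  simp only [smul_eq_mul] at h ⊢
  have e : ∀ z : ℝ, PhiS s z = (1 / s ^ 2) * ((s * z) ^ 2 + 2 * Real.cos (s * z)) - 2 / s ^ 2 := by
    intro z
    unfold PhiS
    field_simp
    ring
  rw [e, e, e]
  have e2 : s * (a * x + b * y) = a * (s * x) + b * (s * y) := by ring
  rw [e2]
  have h2 := mul_le_mul_of_nonneg_left h (by positivity : (0 : ℝ) ≤ 1 / s ^ 2)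
  have e3 : a * ((1 / s ^ 2) * ((s * x) ^ 2 + 2 * Real.cos (s * x)) - 2 / s ^ 2) +
      b * ((1 / s ^ 2) * ((s * y) ^ 2 + 2 * Real.cos (s * y)) - 2 / s ^ 2) =
      (1 / s ^ 2) * (a * ((s * x) ^ 2 + 2 * Real.cos (s * x)) +
        b * ((s * y) ^ 2 + 2 * Real.cos (s * y))) - (a + b) * (2 / s ^ 2) := by ring
  rw [e3, hab]
  linarith

theorem abs_cos_sub_cos_le' (a b : ℝ) : |Real.cos a - Real.cos b| ≤ |a + b| * |a - b| / 2 := by
  rw [Real.cos_sub_cos, abs_mul, abs_mul]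
  have h1 : |Real.sin ((a + b) / 2)| ≤ |(a + b) / 2| := Real.abs_sin_le_abs
  have h2 : |Real.sin ((a - b) / 2)| ≤ |(a - b) / 2| := Real.abs_sin_le_abs
  have h3 : |(a + b) / 2| = |a + b| / 2 := by rw [abs_div, abs_of_pos (by norm_num : (0:ℝ) < 2)]
  have h4 : |(a - b) / 2| = |a - b| / 2 := by rw [abs_div, abs_of_pos (by norm_num : (0:ℝ) < 2)]
  rw [h3] at h1
  rw [h4] at h2
  have h5 : |(-2 : ℝ)| = 2 := by norm_num
  rw [h5]
  calc 2 * |Real.sin ((a + b) / 2)| * |Real.sin ((a - b) / 2)|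
      ≤ 2 * (|a + b| / 2) * (|a - b| / 2) := by
        refine mul_le_mul (mul_le_mul_of_nonneg_left h1 (by norm_num)) h2 (abs_nonneg _)
          (by positivity)
    _ = _ := by ring

/-- stability of `PhiS` -/
theorem PhiS_stab {s : ℝ} (hs : 0 < s) (y d : ℝ) {η : ℝ} (hη : 0 < η) :
    PhiS s (y + d) ≤ PhiS s y + 2 * η * y ^ 2 + (2 / η + 2) * d ^ 2 := by
  have h1 := abs_cos_sub_cos_le' (s * (y + d)) (s * y)
  have e1 : |s * (y + d) + s * y| = s * |2 * y + d| := by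
    rw [show s * (y + d) + s * y = s * (2 * y + d) by ring, abs_mul, abs_of_pos hs]
  have e2 : |s * (y + d) - s * y| = s * |d| := by
    rw [show s * (y + d) - s * y = s * d by ring, abs_mul, abs_of_pos hs]
  rw [e1, e2] at h1
  have h2 : Real.cos (s * (y + d)) - Real.cos (s * y) ≤ s * |2 * y + d| * (s * |d|) / 2 :=
    (le_abs_self _).trans h1
  have h3 : 2 / s ^ 2 * (Real.cos (s * (y + d)) - Real.cos (s * y)) ≤ |2 * y + d| * |d| := by
    have := mul_le_mul_of_nonneg_left h2 (by positivity : (0 : ℝ) ≤ 2 / s ^ 2)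
    refine this.trans (le_of_eq ?_)
    field_simp
  have h4 : |2 * y + d| ≤ 2 * |y| + |d| := by
    refine (abs_add_le _ _).trans ?_
    rw [abs_mul, abs_of_pos (by norm_num : (0 : ℝ) < 2)]
  have h5 : (y + d) ^ 2 - y ^ 2 ≤ |2 * y + d| * |d| := by
    rw [← abs_mul]
    refine (le_abs_self _).trans (le_of_eq ?_)
    congr 1
    ring
  have h6 : |2 * y + d| * |d| ≤ (2 * |y| + |d|) * |d| :=
    mul_le_mul_of_nonneg_right h4 (abs_nonneg _)
  have h7 : 2 * |y| * |d| ≤ η * y ^ 2 + (1 / η) * d ^ 2 := by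
    have h8 : 0 ≤ (Real.sqrt η * |y| - |d| / Real.sqrt η) ^ 2 := sq_nonneg _
    have h9 : (Real.sqrt η * |y| - |d| / Real.sqrt η) ^ 2 =
        η * y ^ 2 + (1 / η) * d ^ 2 - 2 * |y| * |d| := by
      have hsq : Real.sqrt η ^ 2 = η := Real.sq_sqrt hη.le
      have hne : Real.sqrt η ≠ 0 := (Real.sqrt_pos.2 hη).ne'
      have e3 : (Real.sqrt η * |y| - |d| / Real.sqrt η) ^ 2 =
          Real.sqrt η ^ 2 * |y| ^ 2 + |d| ^ 2 / Real.sqrt η ^ 2 - 2 * |y| * |d| := by
        field_simp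
        ring
      rw [e3, hsq, sq_abs, sq_abs]
      ring
    linarith
  have h10 : |d| * |d| = d ^ 2 := by rw [← sq, sq_abs]
  have h11 : (2 * |y| + |d|) * |d| ≤ η * y ^ 2 + (1 / η + 1) * d ^ 2 := by
    nlinarith
  unfold PhiS
  have e4 : (2 / η + 2) * d ^ 2 = 2 * ((1 / η + 1) * d ^ 2) := by ring
  rw [e4]
  nlinarith

theorem one_sub_exp_ge {t : ℝ} (ht : 0 ≤ t) : t - t ^ 2 / 2 ≤ 1 - Real.exp (-t) := by
  have h1 := Real.quadratic_le_exp_of_nonneg ht
  have hpos : 0 < 1 + t + t ^ 2 / 2 := by positivity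
  have h2 : Real.exp (-t) ≤ 1 / (1 + t + t ^ 2 / 2) := by
    rw [Real.exp_neg, ← one_div]
    exact one_div_le_one_div_of_le hpos h1
  have h3 : 1 / (1 + t + t ^ 2 / 2) ≤ 1 - t + t ^ 2 / 2 := by
    rw [div_le_iff₀ hpos]
    nlinarith [pow_nonneg ht 4]
  linarith

/-- the Gaussian value of `E PhiS` is at most `s² v² / 4` -/
theorem gauss_PhiS_le {s v : ℝ} (hs : 0 < s) (hv : 0 ≤ v) :
    v - 2 / s ^ 2 * (1 - Real.exp (-(s ^ 2 * v / 2))) ≤ s ^ 2 * v ^ 2 / 4 := by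
  have h1 := one_sub_exp_ge (t := s ^ 2 * v / 2) (by positivity)
  have h2 := mul_le_mul_of_nonneg_left h1 (by positivity : (0 : ℝ) ≤ 2 / s ^ 2)
  have h3 : 2 / s ^ 2 * (s ^ 2 * v / 2 - (s ^ 2 * v / 2) ^ 2 / 2) = v - s ^ 2 * v ^ 2 / 4 := by
    field_simp
    ring
  linarith

/-- linear growth of the second moments of the heights in the plane state -/
def VLin (P : Measure Cfg) : Prop :=
  ∃ C : ℝ, ∀ v : P2, ∫ ω, (ω.1 v : ℝ) ^ 2 ∂P ≤ C * (1 + |(v.1 : ℝ)| + |(v.2 : ℝ)|)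

/-- second moment of a linear functional with small coefficients -/
theorem integral_sq_L_le {c : ℝ} {P : Measure Cfg} (hP : IsState c P) {C : ℝ}
    (hC : ∀ v : P2, ∫ ω, (ω.1 v : ℝ) ^ 2 ∂P ≤ C * (1 + |(v.1 : ℝ)| + |(v.2 : ℝ)|))
    (S : Finset P2) (ε : P2 → ℝ) {κ Λ : ℝ} (hκ : ∀ v ∈ S, |ε v| ≤ κ)
    (hΛ : ∀ v ∈ S, |(v.1 : ℝ)| + |(v.2 : ℝ)| ≤ Λ) :
    ∫ ω, (L S ε ω) ^ 2 ∂P ≤ (S.card : ℝ) ^ 2 * κ ^ 2 * (|C| * (1 + Λ)) := by
  have hint : ∀ v : P2, Integrable (fun ω : Cfg => (ω.1 v : ℝ) ^ 2) P := fun v =>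
    Aut373.loc_integrable hP (S := {v}) (f := fun ω : Cfg => (ω.1 v : ℝ) ^ 2)
      (fun ω ω' h => by
        have : ω.1 v = ω'.1 v := (h v (by simp)).1
        simp only [this])
  have hint2 : Integrable (fun ω : Cfg => (L S ε ω) ^ 2) P :=
    Aut373.loc_integrable hP (S := S) (f := fun ω : Cfg => (L S ε ω) ^ 2)
      (loc_L S ε fun t => t ^ 2)
  have h1 : ∀ ω : Cfg, (L S ε ω) ^ 2 ≤ (S.card : ℝ) * κ ^ 2 * ∑ v ∈ S, (ω.1 v : ℝ) ^ 2 := by
    intro ω
    have h2 : (L S ε ω) ^ 2 ≤ (S.card : ℝ) * ∑ v ∈ S, ((ω.1 v : ℝ) * ε v) ^ 2 := by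
      unfold L
      exact sq_sum_le_card_mul_sum_sq
    refine h2.trans ?_
    rw [mul_assoc]
    refine mul_le_mul_of_nonneg_left ?_ (Nat.cast_nonneg _)
    rw [Finset.mul_sum]
    refine Finset.sum_le_sum fun v hv => ?_
    have h3 : (ε v) ^ 2 ≤ κ ^ 2 := by
      rw [← sq_abs]
      exact pow_le_pow_left₀ (abs_nonneg _) (hκ v hv) 2
    nlinarith [sq_nonneg (ω.1 v : ℝ)]
  have h4 : ∫ ω, (L S ε ω) ^ 2 ∂P ≤ ∫ ω, (S.card : ℝ) * κ ^ 2 * ∑ v ∈ S, (ω.1 v : ℝ) ^ 2 ∂P :=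
    integral_mono hint2 ((integrable_finsetSum _ fun v _ => hint v).const_mul _) h1
  rw [integral_const_mul, integral_finsetSum _ fun v _ => hint v] at h4
  refine h4.trans ?_
  have h5 : ∑ v ∈ S, ∫ ω, (ω.1 v : ℝ) ^ 2 ∂P ≤ ∑ v ∈ S, |C| * (1 + Λ) := by
    refine Finset.sum_le_sum fun v hv => (hC v).trans ?_
    refine (mul_le_mul_of_nonneg_right (le_abs_self C) (by positivity)).trans ?_
    refine mul_le_mul_of_nonneg_left ?_ (abs_nonneg _)
    have := hΛ v hv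
    linarith
  rw [Finset.sum_const, nsmul_eq_mul] at h5
  have h6 : (0 : ℝ) ≤ (S.card : ℝ) * κ ^ 2 := by positivity
  have h7 := mul_le_mul_of_nonneg_left h5 h6
  refine h7.trans (le_of_eq ?_)
  ring

end Crest.Agent.R161.H689
end
end

-- ▼ part R161/H5_689
section

/-!
# Uniform second moment control in subdomains of a disc (helper689, R161 doc 973 (6))

`disc_ui` : for a test function `ψ` there is `C` such that for every `s > 0`, eventually as `δ → 0+`,
for every `Dom D ⊆ disc δ ρ`, `E_D [X_ψ² - (2/s²)(1 - cos (s X_ψ))] ≤ C s²`.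
-/

set_option autoImplicit false

noncomputable section

namespace Crest.Agent.R161.H689

open Finset MeasureTheory Filter Topology Crest.Agent.R161.Geo729 Crest.Agent.R161.Defs372
  Crest.Agent.R161.Ifc372
open Crest.ProbabilityR.AshkinTeller
open scoped ContDiff

theorem ptC_eq_pos (δ : ℝ) (v : P2) : ptC δ v = pos δ v := rfl

theorem ptC_re (δ : ℝ) (v : P2) : (ptC δ v).re = δ * v.1 := by
  simp [ptC]

theorem ptC_im (δ : ℝ) (v : P2) : (ptC δ v).im = δ * v.2 := by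
  simp [ptC]

theorem abs_fst_lt {δ R : ℝ} (hδ : 0 < δ) {v : P2} (h : ‖ptC δ v‖ < R) : |(v.1 : ℝ)| < R / δ := by
  have h1 := Complex.abs_re_le_norm (ptC δ v)
  rw [ptC_re, abs_mul, abs_of_pos hδ] at h1
  rw [lt_div_iff₀ hδ, mul_comm]
  exact h1.trans_lt h

theorem abs_snd_lt {δ R : ℝ} (hδ : 0 < δ) {v : P2} (h : ‖ptC δ v‖ < R) : |(v.2 : ℝ)| < R / δ := by
  have h1 := Complex.abs_im_le_norm (ptC δ v)
  rw [ptC_im, abs_mul, abs_of_pos hδ] at h1
  rw [lt_div_iff₀ hδ, mul_comm]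
  exact h1.trans_lt h

/-- smooth nonnegative majorant supported in a ball -/
theorem exists_maj {φ : ℂ → ℝ} (hφ : ContDiff ℝ ∞ φ) (hc : HasCompactSupport φ) (ρ : ℝ) :
    ∃ (ψ : ℂ → ℝ) (R : ℝ), ρ ≤ R ∧ 1 ≤ R ∧ Test ψ ∧ (∀ z, |φ z| ≤ ψ z) ∧
      (∀ z, ψ z ≠ 0 → ‖z‖ < R) := by
  obtain ⟨A, hA⟩ := hφ.continuous.bounded_above_of_compact_support hc
  obtain ⟨r, hr⟩ := hc.isCompact.isBounded.subset_closedBall (0 : ℂ)
  set r1 : ℝ := max r 1 with hr1
  have h1 : 0 < r1 := lt_of_lt_of_le one_pos (le_max_right _ _)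
  let B : ContDiffBump (0 : ℂ) := ⟨r1, r1 + 1, h1, by linarith⟩
  refine ⟨fun z => |A| * B z, max ρ (r1 + 1), le_max_left _ _,
    (by linarith : (1 : ℝ) ≤ r1 + 1).trans (le_max_right _ _), ⟨?_, ?_⟩, ?_, ?_⟩
  · exact contDiff_const.mul B.contDiff
  · exact B.hasCompactSupport.mul_left
  · intro z
    by_cases hz : ‖z‖ ≤ r1
    · have hB : B z = 1 := B.one_of_mem_closedBall (by
        rw [Metric.mem_closedBall, dist_zero_right]; exact hz)
      simp only
      rw [hB, mul_one]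
      have := hA z
      rw [Real.norm_eq_abs] at this
      exact this.trans (le_abs_self A)
    · have : φ z = 0 := by
        by_contra h0
        have h2 := hr (subset_tsupport φ h0)
        rw [Metric.mem_closedBall, dist_zero_right] at h2
        exact hz (h2.trans (le_max_left _ _))
      rw [this, abs_zero]
      exact mul_nonneg (abs_nonneg _) B.nonneg
  · intro z hz
    have hB : B z ≠ 0 := fun h => hz (by simp only; rw [h, mul_zero])
    have h2 : z ∈ Function.support (B : ℂ → ℝ) := hB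
    rw [B.support_eq, Metric.mem_ball, dist_zero_right] at h2
    exact h2.trans_le (le_max_right _ _)

theorem ball_card (x : P2) (n : ℕ) : (ball x n).card = (2 * n) ^ 2 := by
  unfold ball
  rw [Finset.card_product, Int.card_Icc, Int.card_Icc, sq]
  congr 1 <;> omega

/-- the smeared height as a finite sum -/
theorem X_eq_L {δ : ℝ} {f : ℂ → ℝ} {S : Finset P2} (hS : ∀ v : P2, f (ptC δ v) ≠ 0 → v ∈ S)
    (u : Cfg) : Ifc372.X δ f u = L S (fun v => δ ^ 2 * f (ptC δ v)) u := by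
  unfold Ifc372.X L
  rw [tsum_eq_sum (s := S), Finset.mul_sum]
  · exact Finset.sum_congr rfl fun v _ => by ring
  · intro v hv
    have : f (ptC δ v) = 0 := by
      by_contra h
      exact hv (hS v h)
    rw [this, mul_zero]

theorem mem_intVerts_ball {n : ℕ} {v : P2} (h1 : -(n : ℤ) + 1 ≤ v.1) (h2 : v.1 ≤ n - 1)
    (h3 : -(n : ℤ) + 1 ≤ v.2) (h4 : v.2 ≤ n - 1) : v ∈ intVerts (ball (0, 0) n) := by
  rw [mem_intVerts]
  refine ⟨?_, ?_, ?_, ?_⟩ <;> simp only [Finset.mem_coe, mem_ball] <;> omega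

theorem co1 {δ R r x : ℝ} (hδ : 0 < δ) (hr : r * δ = R) (h : |δ * x - 6 * R| < R) :
    5 * r < x ∧ x < 7 * r := by
  have e : δ * x - 6 * R = δ * (x - 6 * r) := by rw [← hr]; ring
  rw [e, abs_mul, abs_of_pos hδ, ← hr, mul_comm r δ] at h
  have h2 := lt_of_mul_lt_mul_left h hδ.le
  rw [abs_lt] at h2
  constructor <;> linarith [h2.1, h2.2]

theorem co2 {δ R r x : ℝ} (hδ : 0 < δ) (hr : r * δ = R) (h : |δ * x| < R) : |x| < r := by
  rw [abs_mul, abs_of_pos hδ, ← hr, mul_comm r δ] at h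
  exact lt_of_mul_lt_mul_left h hδ.le

theorem co3 {δ R r M : ℝ} (hδ : 0 < δ) (hr : r * δ = R) (h1 : 6 * r ≤ M) (h2 : M < 6 * r + 1) :
    |δ * M - 6 * R| ≤ δ := by
  have e : δ * M - 6 * R = δ * (M - 6 * r) := by rw [← hr]; ring
  rw [e, abs_mul, abs_of_pos hδ]
  have h3 : |M - 6 * r| ≤ 1 := by rw [abs_le]; constructor <;> linarith
  calc δ * |M - 6 * r| ≤ δ * 1 := mul_le_mul_of_nonneg_left h3 hδ.le
    _ = δ := mul_one _

theorem co4 {r N : ℝ} (hr : 8 < r) (h0 : 0 ≤ N) (h : N < 9 * r + 1) : (2 * N) ^ 2 ≤ 400 * r ^ 2 := by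
  have h1 : 2 * N ≤ 20 * r := by linarith
  calc (2 * N) ^ 2 ≤ (20 * r) ^ 2 := pow_le_pow_left₀ (by positivity) h1 2
    _ = 400 * r ^ 2 := by ring

theorem co5 {δ R r K C card : ℝ} (hδ : 0 < δ) (hδ1 : δ < 1) (hR : 0 < R) (hr0 : 0 < r)
    (hr : r * δ = R) (hC : 0 ≤ C) (h0 : 0 ≤ card) (hcard : card ≤ 400 * r ^ 2) :
    card ^ 2 * (K * δ ^ 3) ^ 2 * (C * (1 + 40 * r)) ≤
      160000 * R ^ 4 * K ^ 2 * (C * (1 + 40 * R)) * δ := by
  have h1 : card ^ 2 ≤ (400 * r ^ 2) ^ 2 := pow_le_pow_left₀ h0 hcard 2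
  have h2 : card ^ 2 * (K * δ ^ 3) ^ 2 * (C * (1 + 40 * r)) ≤
      (400 * r ^ 2) ^ 2 * (K * δ ^ 3) ^ 2 * (C * (1 + 40 * r)) := by
    have : 0 ≤ C * (1 + 40 * r) := by positivity
    exact mul_le_mul_of_nonneg_right (mul_le_mul_of_nonneg_right h1 (sq_nonneg _)) this
  refine h2.trans ?_
  have e1 : (400 * r ^ 2) ^ 2 * (K * δ ^ 3) ^ 2 * (C * (1 + 40 * r)) =
      160000 * (r * δ) ^ 4 * K ^ 2 * (C * (δ + 40 * (r * δ))) * δ := by ring
  rw [e1, hr]
  have h3 : δ + 40 * R ≤ 1 + 40 * R := by linarith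
  have h4 : C * (δ + 40 * R) ≤ C * (1 + 40 * R) := mul_le_mul_of_nonneg_left h3 hC
  have h5 : (0 : ℝ) ≤ 160000 * R ^ 4 * K ^ 2 := by positivity
  exact mul_le_mul_of_nonneg_right (mul_le_mul_of_nonneg_left h4 h5) hδ.le

set_option maxHeartbeats 2000000 in
/-- **Uniform second moment control.** -/
theorem disc_ui {c : ℝ} (hc : 1 ≤ c) (hM : CvxMono c) (hC : UnifCirc c) {P : Measure Cfg}
    (hP : IsState c P) (hG : PlaneGauss c P) (hV : VLin P) {ρ : ℝ} (hρ : 0 < ρ) {φ : ℂ → ℝ}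
    (hφ : ContDiff ℝ ∞ φ) (hφc : HasCompactSupport φ) :
    ∃ C : ℝ, 0 ≤ C ∧ ∀ s : ℝ, 0 < s → ∀ᶠ δ : ℝ in 𝓝[>] 0, ∀ D : Finset P2, Dom D →
      D ⊆ Asm695.disc δ ρ →
      E c D (fun u => PhiS s (Asm695.X δ D φ u)) ≤ C * s ^ 2 := by
  have hprob := hP.prob
  obtain ⟨q, n0, hq, hn01, hbound⟩ := plane_bound hc hM hC hP
  obtain ⟨ψ, R, hρR, hR1, hψ, hφψ, hψR⟩ := exists_maj hφ hφc ρ
  obtain ⟨Kl, hKl⟩ := ContDiff.lipschitzWith_of_hasCompactSupport hψ.supp hψ.smooth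
    (by simp)
  have hR0 : 0 < R := by linarith
  -- the neutral test function
  set f : ℂ → ℝ := fun z => ψ z - ψ (z - ((6 * R : ℝ) : ℂ)) with hf
  have hft : Test f := by
    refine ⟨hψ.smooth.sub (hψ.smooth.comp (contDiff_id.sub contDiff_const)), ?_⟩
    refine hψ.supp.sub ?_
    exact hψ.supp.comp_homeomorph (Homeomorph.subRight (((6 * R : ℝ) : ℂ)))
  have hf0 : ∫ z, f z = 0 := by
    have hi : Integrable ψ := hψ.smooth.continuous.integrable_of_hasCompactSupport hψ.supp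
    rw [hf, integral_sub hi (hi.comp_sub_right _), integral_sub_right_eq_self ψ, sub_self]
  set v : ℝ := kap c * plog f f with hv
  have hvar := hG.var f hft hf0
  have hv0 : 0 ≤ v := ge_of_tendsto' hvar fun δ => integral_nonneg fun u => sq_nonneg _
  obtain ⟨CV, hCV⟩ := hV
  refine ⟨(v ^ 2 / 4 + 1) / q, by positivity, fun s hs => ?_⟩
  -- limit of the plane expectation
  have hlim : Tendsto (fun δ : ℝ => ∫ u, PhiS s (Ifc372.X δ f u) ∂P) (𝓝[>] 0)
      (𝓝 (v - 2 / s ^ 2 * (1 - Real.exp (-(s ^ 2 * v / 2))))) := by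
    have h1 := hvar.sub (((tendsto_const_nhds (x := (1 : ℝ))).sub (hG.law f hft hf0 s)).const_mul
      (2 / s ^ 2))
    refine h1.congr' ?_
    filter_upwards [self_mem_nhdsWithin] with δ hδ
    have hm := hG.memLp f hft δ hδ
    have hi2 : Integrable (fun u => (Ifc372.X δ f u) ^ 2) P := hm.integrable_sq
    have hmeas : AEStronglyMeasurable (fun u => Ifc372.X δ f u) P := hm.aestronglyMeasurable
    have hic : Integrable (fun u => Real.cos (s * Ifc372.X δ f u)) P := by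
      refine Integrable.of_bound
        (Real.continuous_cos.comp_aestronglyMeasurable (hmeas.const_mul s)) 1 ?_
      exact ae_of_all _ fun u => by
        rw [Real.norm_eq_abs]; exact Real.abs_cos_le_one _
    have hi3 : Integrable (fun u => 2 / s ^ 2 * (1 - Real.cos (s * Ifc372.X δ f u))) P :=
      ((integrable_const (1 : ℝ)).sub hic).const_mul _
    have e1 : ∫ u, PhiS s (Ifc372.X δ f u) ∂P = ∫ u, (Ifc372.X δ f u) ^ 2 ∂P -
        ∫ u, 2 / s ^ 2 * (1 - Real.cos (s * Ifc372.X δ f u)) ∂P := integral_sub hi2 hi3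
    have e2 : ∫ u, (1 - Real.cos (s * Ifc372.X δ f u)) ∂P =
        1 - ∫ u, Real.cos (s * Ifc372.X δ f u) ∂P := by
      rw [integral_sub (integrable_const _) hic]
      simp
    rw [e1, integral_const_mul, e2]
  have hgauss := gauss_PhiS_le hs hv0
  -- choice of η
  set η : ℝ := s ^ 2 / (8 * (v + 1)) with hη
  have hη0 : 0 < η := by positivity
  have ev1 : ∀ᶠ δ : ℝ in 𝓝[>] 0, ∫ u, PhiS s (Ifc372.X δ f u) ∂P < s ^ 2 * v ^ 2 / 4 + s ^ 2 / 4 :=
    hlim.eventually_lt_const (by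
      have : 0 < s ^ 2 / 4 := by positivity
      linarith)
  have ev2 : ∀ᶠ δ : ℝ in 𝓝[>] 0, ∫ u, (Ifc372.X δ f u) ^ 2 ∂P < v + 1 :=
    hvar.eventually_lt_const (by linarith)
  -- the constant in the bound of the error
  set Q : ℝ := (2 / η + 2) * (160000 * R ^ 4 * (Kl : ℝ) ^ 2 * (|CV| * (1 + 40 * R))) with hQ
  have hQ0 : 0 ≤ Q := by positivity
  have ev3 : ∀ᶠ δ : ℝ in 𝓝[>] 0, Q * δ < s ^ 2 / 4 := by
    have : Tendsto (fun δ : ℝ => Q * δ) (𝓝[>] 0) (𝓝 (Q * 0)) :=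
      (tendsto_nhdsWithin_of_tendsto_nhds tendsto_id).const_mul Q
    rw [mul_zero] at this
    exact this.eventually_lt_const (by positivity)
  have ev4 : ∀ᶠ δ : ℝ in 𝓝[>] 0, δ < R / 8 :=
    eventually_nhdsWithin_of_eventually_nhds (eventually_lt_nhds (by positivity))
  have ev5 : ∀ᶠ δ : ℝ in 𝓝[>] 0, δ < R / (n0 + 1) :=
    eventually_nhdsWithin_of_eventually_nhds (eventually_lt_nhds (by positivity))
  have ev6 : ∀ᶠ δ : ℝ in 𝓝[>] 0, δ < 1 :=
    eventually_nhdsWithin_of_eventually_nhds (eventually_lt_nhds one_pos)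
  filter_upwards [ev1, ev2, ev3, ev4, ev5, ev6, self_mem_nhdsWithin] with δ he1 he2 he3 he4 he5 he6
    hδ D hD hDρ
  have hδ0 : 0 < δ := hδ
  set r : ℝ := R / δ with hr
  have hr8 : 8 < r := by rw [hr, lt_div_iff₀ hδ0]; linarith
  have hrδ : r * δ = R := by rw [hr]; field_simp
  set n : ℕ := ⌈r⌉₊ + 2 with hn
  have hn1 : r + 2 ≤ n := by
    rw [hn]; push_cast; have := Nat.le_ceil r; linarith
  have hn2 : (n : ℝ) < r + 3 := by
    rw [hn]; push_cast; have := Nat.ceil_lt_add_one (by positivity : (0:ℝ) ≤ r); linarith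
  have hnn0 : n0 ≤ n := by
    have h1 : (n0 : ℝ) + 1 < r := by
      rw [hr, lt_div_iff₀ hδ0]
      rw [lt_div_iff₀ (by positivity)] at he5
      linarith
    have : (n0 : ℝ) ≤ n := by linarith
    exact_mod_cast this
  set Mi : ℤ := ⌈6 * r⌉ with hMi
  have hM1 : 6 * r ≤ Mi := Int.le_ceil _
  have hM2 : (Mi : ℝ) < 6 * r + 1 := Int.ceil_lt_add_one _
  set N : ℕ := ⌈9 * r⌉₊ with hN
  have hN1 : 9 * r ≤ N := Nat.le_ceil _
  have hN2 : (N : ℝ) < 9 * r + 1 := Nat.ceil_lt_add_one (by positivity)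
  set S : Finset P2 := ball (0, 0) N with hS
  -- coefficients
  set a : P2 → ℝ := fun w => δ ^ 2 * ψ (ptC δ w) with ha
  set a' : P2 → ℝ := fun w => δ ^ 2 * φ (ptC δ w) with ha'
  set b : P2 → ℝ := fun w => -(a (w.1 - Mi, w.2)) with hb
  have ha0 : ∀ w : P2, a w ≠ 0 → |(w.1 : ℝ)| < r ∧ |(w.2 : ℝ)| < r := by
    intro w hw
    have h1 : ψ (ptC δ w) ≠ 0 := fun h => hw (by simp only [ha]; rw [h, mul_zero])
    exact ⟨abs_fst_lt hδ0 (hψR _ h1), abs_snd_lt hδ0 (hψR _ h1)⟩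
  have haa : ∀ w, |a' w| ≤ a w := by
    intro w
    simp only [ha', ha]
    rw [abs_mul, abs_of_nonneg (sq_nonneg δ)]
    exact mul_le_mul_of_nonneg_left (hφψ _) (sq_nonneg δ)
  have hint : ∀ w, w ∉ intVerts (ball (0, 0) n) → a w = 0 := by
    intro w hw
    by_contra hne
    obtain ⟨h1, h2⟩ := ha0 w hne
    rw [abs_lt] at h1 h2
    apply hw
    have k1 : (-(n : ℝ)) + 1 < w.1 := by linarith
    have k2 : (w.1 : ℝ) < n - 1 := by linarith
    have k3 : (-(n : ℝ)) + 1 < w.2 := by linarith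
    have k4 : (w.2 : ℝ) < n - 1 := by linarith
    refine mem_intVerts_ball ?_ ?_ ?_ ?_
    · have : (-(n : ℤ)) + 1 < w.1 := by exact_mod_cast k1
      exact this.le
    · have : (w.1 : ℤ) < n - 1 := by exact_mod_cast k2
      exact this.le
    · have : (-(n : ℤ)) + 1 < w.2 := by exact_mod_cast k3
      exact this.le
    · have : (w.2 : ℤ) < n - 1 := by exact_mod_cast k4
      exact this.le
  have hbint : ∀ w ∈ intVerts (ball (0, 0) (2 * n)), b w = 0 := by
    intro w hw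
    have h1 : w ∈ ball (0, 0) (2 * n) := (Finset.mem_filter.1 hw).1
    rw [mem_ball] at h1
    by_contra hne
    have h2 : a (w.1 - Mi, w.2) ≠ 0 := fun h => hne (by simp only [hb]; rw [h, neg_zero])
    obtain ⟨h3, _⟩ := ha0 _ h2
    rw [abs_lt] at h3
    have h4 : (w.1 : ℤ) ≤ 2 * n - 1 := by
      have := h1.1.2
      push_cast at this
      omega
    have h5 : (w.1 : ℝ) ≤ 2 * n - 1 := by exact_mod_cast h4
    have h6 := h3.1
    push_cast at h6
    linarith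
  have hSmem : ∀ w : P2, |(w.1 : ℝ)| < 9 * r - 1 → |(w.2 : ℝ)| < 9 * r - 1 → w ∈ S := by
    intro w h1 h2
    rw [abs_lt] at h1 h2
    rw [hS, mem_ball]
    have k1 : (-(N : ℝ)) < w.1 := by linarith
    have k2 : (w.1 : ℝ) < N - 1 := by linarith
    have k3 : (-(N : ℝ)) < w.2 := by linarith
    have k4 : (w.2 : ℝ) < N - 1 := by linarith
    have l1 : (-(N : ℤ)) < w.1 := by exact_mod_cast k1
    have l2 : (w.1 : ℤ) < N - 1 := by exact_mod_cast k2
    have l3 : (-(N : ℤ)) < w.2 := by exact_mod_cast k3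
    have l4 : (w.2 : ℤ) < N - 1 := by exact_mod_cast k4
    simp only
    omega
  have hSa : ∀ w, a w ≠ 0 → w ∈ S := by
    intro w hw
    obtain ⟨h1, h2⟩ := ha0 w hw
    exact hSmem w (by linarith) (by linarith)
  have hSb : ∀ w, b w ≠ 0 → w ∈ S := by
    intro w hw
    have h2 : a (w.1 - Mi, w.2) ≠ 0 := fun h => hw (by simp only [hb]; rw [h, neg_zero])
    obtain ⟨h3, h4⟩ := ha0 _ h2
    refine hSmem w ?_ (by simp only at h4; linarith)
    rw [abs_lt] at h3 ⊢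
    push_cast at h3
    constructor <;> linarith [h3.1, h3.2]
  have hsum : ∑ w ∈ S, (a w + b w) = 0 := by
    rw [Finset.sum_add_distrib]
    have h1 : ∑ w ∈ S, b w = ∑' w : P2, b w := by
      rw [tsum_eq_sum (s := S)]
      intro w hw
      by_contra h
      exact hw (hSb w h)
    have h2 : ∑ w ∈ S, a w = ∑' w : P2, a w := by
      rw [tsum_eq_sum (s := S)]
      intro w hw
      by_contra h
      exact hw (hSa w h)
    rw [h1, h2]
    have h3 : ∑' w : P2, b w = -∑' w : P2, a w := by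
      rw [← (Equiv.subRight ((Mi, 0) : P2)).tsum_eq a, ← tsum_neg]
      refine tsum_congr fun w => ?_
      simp only [hb, Equiv.subRight_apply]
      congr 2
      exact Prod.ext rfl (by simp)
    rw [h3, add_neg_cancel]
  have hDn : D ⊆ ball (0, 0) n := by
    intro g hg
    have h1 : g ∈ faces (δ / ρ) := by
      rw [← Asm695.disc_of_pos hρ]
      exact hDρ hg
    have h2 := Geo132.norm_of_face (div_pos hδ0 hρ) h1
    have h3 : ‖ptC δ g‖ < R := by
      rw [Geo132.pos_div, norm_div, div_lt_one (by simpa using hρ.ne')] at h2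
      rw [ptC_eq_pos]
      refine h2.trans_le ?_
      rw [Complex.norm_real, Real.norm_eq_abs, abs_of_pos hρ]
      exact hρR
    have h4 := abs_fst_lt hδ0 h3
    have h5 := abs_snd_lt hδ0 h3
    rw [abs_lt] at h4 h5
    rw [mem_ball]
    have k1 : (-(n : ℝ)) < g.1 := by linarith
    have k2 : (g.1 : ℝ) < n - 1 := by linarith
    have k3 : (-(n : ℝ)) < g.2 := by linarith
    have k4 : (g.2 : ℝ) < n - 1 := by linarith
    have l1 : (-(n : ℤ)) < g.1 := by exact_mod_cast k1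
    have l2 : (g.1 : ℤ) < n - 1 := by exact_mod_cast k2
    have l3 : (-(n : ℤ)) < g.2 := by exact_mod_cast k3
    have l4 : (g.2 : ℤ) < n - 1 := by exact_mod_cast k4
    simp only
    omega
  have hDS : D ⊆ S := by
    intro g hg
    have h1 := hDn hg
    rw [mem_ball] at h1
    rw [hS, mem_ball]
    have : (n : ℝ) ≤ N := by linarith
    have : n ≤ N := by exact_mod_cast this
    simp only at h1 ⊢
    omega
  -- the comparison
  have hmain := hbound n hnn0 D hD hDn S a' a b haa hint hbint hsum (PhiS s) (PhiS_convex hs)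
    (PhiS_even s) (PhiS_nonneg hs)
  -- identification of the left side
  have hleft : E c D (fun u => PhiS s (L S a' u)) = E c D (fun u => PhiS s (Asm695.X δ D φ u)) :=
    Asm695.E_Lin_congr hDS a' (PhiS s)
  rw [hleft] at hmain
  -- the error
  set ε : P2 → ℝ := fun w => (a w + b w) - δ ^ 2 * f (ptC δ w) with hε
  have hXf : ∀ u, Ifc372.X δ f u = L S (fun w => δ ^ 2 * f (ptC δ w)) u := by
    refine X_eq_L fun w hw => ?_
    by_cases h1 : ψ (ptC δ w) = 0
    · have h2 : ψ (ptC δ w - ((6 * R : ℝ) : ℂ)) ≠ 0 := fun h => hw (by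
        simp only [hf]; rw [h1, h, sub_zero])
      have h3 := hψR _ h2
      have h4 := Complex.abs_re_le_norm (ptC δ w - ((6 * R : ℝ) : ℂ))
      have h5 := Complex.abs_im_le_norm (ptC δ w - ((6 * R : ℝ) : ℂ))
      rw [Complex.sub_re, Complex.ofReal_re, ptC_re] at h4
      rw [Complex.sub_im, Complex.ofReal_im, ptC_im, sub_zero] at h5
      have h6 := co1 hδ0 hrδ (h4.trans_lt h3)
      have h7 := co2 hδ0 hrδ (h5.trans_lt h3)
      exact hSmem w (by rw [abs_lt]; constructor <;> linarith [h6.1, h6.2]) (by linarith)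
    · exact hSa w fun h => h1 (by
        simp only [ha] at h
        exact (mul_eq_zero.1 h).resolve_left (by positivity))
  have hsplit : ∀ u, L S (fun w => a w + b w) u = Ifc372.X δ f u + L S ε u := by
    intro u
    rw [hXf]
    unfold L
    rw [← Finset.sum_add_distrib]
    refine Finset.sum_congr rfl fun w _ => ?_
    simp only [hε]
    ring
  have hεb : ∀ w ∈ S, |ε w| ≤ (Kl : ℝ) * δ ^ 3 := by
    intro w _
    have e1 : ε w = δ ^ 2 * (ψ (ptC δ w - ((6 * R : ℝ) : ℂ)) - ψ (ptC δ (w.1 - Mi, w.2))) := by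
      simp only [hε, hb, ha, hf]
      ring
    have e2 : dist (ptC δ w - ((6 * R : ℝ) : ℂ)) (ptC δ (w.1 - Mi, w.2)) ≤ δ := by
      rw [dist_eq_norm]
      have e3 : ptC δ w - ((6 * R : ℝ) : ℂ) - ptC δ (w.1 - Mi, w.2) =
          ((δ * Mi - 6 * R : ℝ) : ℂ) := by
        unfold ptC
        push_cast
        ring
      rw [e3, Complex.norm_real, Real.norm_eq_abs]
      exact co3 hδ0 hrδ hM1 hM2
    have e4 := hKl.dist_le_mul (ptC δ w - ((6 * R : ℝ) : ℂ)) (ptC δ (w.1 - Mi, w.2))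
    rw [Real.dist_eq] at e4
    rw [e1, abs_mul, abs_of_nonneg (sq_nonneg δ)]
    have e5 : |ψ (ptC δ w - ((6 * R : ℝ) : ℂ)) - ψ (ptC δ (w.1 - Mi, w.2))| ≤ Kl * δ :=
      e4.trans (mul_le_mul_of_nonneg_left e2 (NNReal.coe_nonneg _))
    calc δ ^ 2 * |ψ (ptC δ w - ((6 * R : ℝ) : ℂ)) - ψ (ptC δ (w.1 - Mi, w.2))|
        ≤ δ ^ 2 * (Kl * δ) := mul_le_mul_of_nonneg_left e5 (sq_nonneg δ)
      _ = _ := by ring
  have hΛ : ∀ w ∈ S, |(w.1 : ℝ)| + |(w.2 : ℝ)| ≤ 40 * r := by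
    intro w hw
    rw [hS, mem_ball] at hw
    simp only at hw
    have h1 : |(w.1 : ℝ)| ≤ N := by
      rw [abs_le]
      constructor
      · have : -(N : ℤ) ≤ w.1 := by omega
        exact_mod_cast this
      · have : (w.1 : ℤ) ≤ N := by omega
        exact_mod_cast this
    have h2 : |(w.2 : ℝ)| ≤ N := by
      rw [abs_le]
      constructor
      · have : -(N : ℤ) ≤ w.2 := by omega
        exact_mod_cast this
      · have : (w.2 : ℤ) ≤ N := by omega
        exact_mod_cast this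
    linarith
  have herr := integral_sq_L_le hP hCV S ε hεb hΛ
  have hcard : (S.card : ℝ) ≤ 400 * r ^ 2 := by
    rw [hS, ball_card]
    push_cast
    exact co4 hr8 (Nat.cast_nonneg _) hN2
  have herr2 : ∫ u, (L S ε u) ^ 2 ∂P ≤
      160000 * R ^ 4 * (Kl : ℝ) ^ 2 * (|CV| * (1 + 40 * R)) * δ := by
    exact herr.trans (co5 hδ0 he6 hR0 (by linarith) hrδ (abs_nonneg _) (Nat.cast_nonneg _) hcard)
  -- integrate the stability inequality
  have hm := hG.memLp f hft δ hδ0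
  have hi2 : Integrable (fun u => (Ifc372.X δ f u) ^ 2) P := hm.integrable_sq
  have hiL : Integrable (fun u : Cfg => (L S ε u) ^ 2) P :=
    Aut373.loc_integrable hP (S := S) (f := fun u : Cfg => (L S ε u) ^ 2)
      (loc_L S ε fun t => t ^ 2)
  have hiP : Integrable (fun u => PhiS s (Ifc372.X δ f u)) P := by
    simp only [hXf]
    exact Aut373.loc_integrable hP (S := S) (loc_L S _ (PhiS s))
  have hiP' : Integrable (fun u => PhiS s (L S (fun w => a w + b w) u)) P :=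
    Aut373.loc_integrable hP (S := S) (loc_L S _ (PhiS s))
  have hstab : ∫ u, PhiS s (L S (fun w => a w + b w) u) ∂P ≤
      ∫ u, PhiS s (Ifc372.X δ f u) ∂P + 2 * η * ∫ u, (Ifc372.X δ f u) ^ 2 ∂P +
        (2 / η + 2) * ∫ u, (L S ε u) ^ 2 ∂P := by
    have h1 : ∫ u, PhiS s (L S (fun w => a w + b w) u) ∂P ≤
        ∫ u, (PhiS s (Ifc372.X δ f u) + 2 * η * (Ifc372.X δ f u) ^ 2 +
          (2 / η + 2) * (L S ε u) ^ 2) ∂P := by
      refine integral_mono hiP' ((hiP.add (hi2.const_mul _)).add (hiL.const_mul _)) fun u => ?_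
      have := PhiS_stab hs (Ifc372.X δ f u) (L S ε u) hη0
      rw [← hsplit] at this
      exact this
    have e1 : ∫ u, (PhiS s (Ifc372.X δ f u) + 2 * η * (Ifc372.X δ f u) ^ 2 +
          (2 / η + 2) * (L S ε u) ^ 2) ∂P =
        ∫ u, (PhiS s (Ifc372.X δ f u) + 2 * η * (Ifc372.X δ f u) ^ 2) ∂P +
          ∫ u, (2 / η + 2) * (L S ε u) ^ 2 ∂P :=
      integral_add (hiP.add (hi2.const_mul _)) (hiL.const_mul _)
    have e2 : ∫ u, (PhiS s (Ifc372.X δ f u) + 2 * η * (Ifc372.X δ f u) ^ 2) ∂P =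
        ∫ u, PhiS s (Ifc372.X δ f u) ∂P + ∫ u, 2 * η * (Ifc372.X δ f u) ^ 2 ∂P :=
      integral_add hiP (hi2.const_mul _)
    rw [e1, e2, integral_const_mul, integral_const_mul] at h1
    exact h1
  have h1 : 2 * η * ∫ u, (Ifc372.X δ f u) ^ 2 ∂P ≤ s ^ 2 / 4 := by
    have h2 : 2 * η * ∫ u, (Ifc372.X δ f u) ^ 2 ∂P ≤ 2 * η * (v + 1) :=
      mul_le_mul_of_nonneg_left he2.le (by positivity)
    have h3 : 2 * η * (v + 1) = s ^ 2 / 4 := by
      rw [hη]
      field_simp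
      norm_num
    linarith
  have h2 : (2 / η + 2) * ∫ u, (L S ε u) ^ 2 ∂P ≤ s ^ 2 / 4 := by
    have h3 := mul_le_mul_of_nonneg_left herr2 (by positivity : 0 ≤ 2 / η + 2)
    have h4 : (2 / η + 2) * (160000 * R ^ 4 * (Kl : ℝ) ^ 2 * (|CV| * (1 + 40 * R)) * δ) = Q * δ := by
      rw [hQ]; ring
    linarith
  have hfin : q * E c D (fun u => PhiS s (Asm695.X δ D φ u)) ≤ (v ^ 2 / 4 + 1) * s ^ 2 := by
    have h3 : 0 ≤ s ^ 2 / 4 := by positivity
    have h4 : (v ^ 2 / 4 + 1) * s ^ 2 = s ^ 2 * v ^ 2 / 4 + s ^ 2 / 4 + s ^ 2 / 4 + s ^ 2 / 4 +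
      s ^ 2 / 4 := by ring
    rw [h4]
    linarith
  rw [div_mul_eq_mul_div, le_div_iff₀ hq, mul_comm]
  exact hfin

end Crest.Agent.R161.H689
end
end

-- ▼ part R161/H6_689
section

/-!
# Second moments of mixtures from one characteristic function value (helper689, R161 doc 973 (6))
-/

set_option autoImplicit false

noncomputable section

namespace Crest.Agent.R161.H689

open Finset MeasureTheory Filter Topology Crest.Agent.R161.Geo729 Crest.Agent.R161.Defs372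
  Crest.Agent.R161.Ifc372
open scoped ContDiff

theorem E_PhiS (c : ℝ) (hc : 1 ≤ c) (D : Finset P2) (s : ℝ) (Y : Cfg → ℝ) :
    E c D (fun u => PhiS s (Y u)) =
      E c D (fun u => Y u ^ 2) - 2 / s ^ 2 * (1 - E c D (fun u => Real.cos (s * Y u))) := by
  unfold PhiS
  rw [E_sub, E_smul, E_sub, E_const hc]


end Crest.Agent.R161.H689
end
end

-- ▼ part R161/GlueH_792
section

/-!
# Row 161: forms of uniform integrability (helper792)

* `uiprop_of_phi` : the form `x² - (2/s²)(1 - cos (s x))` of uniform integrability gives `UIprop c`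
-/

set_option autoImplicit false

noncomputable section

namespace Crest.Agent.R161.GlueH792

open Finset Filter Topology Metric MeasureTheory
open Crest.Agent.R161.Geo729 Crest.Agent.R161.Defs372
open Crest.ProbabilityR.AshkinTeller
open scoped ContDiff

/-- pointwise comparison -/
theorem max_le_phi (x M : ℝ) (hM : 0 < M) :
    max (x ^ 2 - M ^ 2) 0 ≤ x ^ 2 - 2 / (2 / M) ^ 2 * (1 - Real.cos (2 / M * x)) := by
  have h1 : 1 - Real.cos (2 / M * x) ≤ 2 := by linarith [Real.neg_one_le_cos (2 / M * x)]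
  have h2 : 1 - Real.cos (2 / M * x) ≤ (2 / M * x) ^ 2 / 2 := by
    linarith [Real.one_sub_sq_div_two_le_cos (x := 2 / M * x)]
  have h3 : 2 / (2 / M) ^ 2 = M ^ 2 / 2 := by field_simp
  rw [h3]
  refine max_le ?_ ?_
  · nlinarith [sq_nonneg M]
  · have h4 : M ^ 2 / 2 * (1 - Real.cos (2 / M * x)) ≤ M ^ 2 / 2 * ((2 / M * x) ^ 2 / 2) :=
      mul_le_mul_of_nonneg_left h2 (by positivity)
    have h5 : M ^ 2 / 2 * ((2 / M * x) ^ 2 / 2) = x ^ 2 := by field_simp
    linarith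

/-- The `Φ_s` form of uniform integrability. -/
def UIphi (c : ℝ) : Prop := ∀ R : ℝ, 0 < R → ∀ ψ : ℂ → ℝ, ContDiff ℝ ∞ ψ →
  HasCompactSupport ψ → (∀ z, 0 ≤ ψ z) → tsupport ψ ⊆ ball (0 : ℂ) R →
    ∃ C : ℝ, ∀ s : ℝ, 0 < s → ∀ᶠ δ : ℝ in 𝓝[>] 0, ∀ D : Finset P2, Dom D →
      D ⊆ Asm695.disc δ R →
        E c D (fun u => Asm695.X δ D ψ u ^ 2)
          - 2 / s ^ 2 * (1 - E c D (fun u => Real.cos (s * Asm695.X δ D ψ u))) ≤ C * s ^ 2

theorem uiprop_of_phi {c : ℝ} (hc : 1 ≤ c) (h : UIphi c) : Asm695.UIprop c := by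
  intro R hR ψ h1 h2 h3 h4 ε hε
  obtain ⟨C, hC⟩ := h R hR ψ h1 h2 h3 h4
  -- choose `M` with `C (2/M)² ≤ ε`
  set M : ℝ := 2 * Real.sqrt (|C| / ε) + 1 with hMdef
  have hM : 0 < M := by positivity
  have hCM : C * (2 / M) ^ 2 ≤ ε := by
    have h5 : 2 * Real.sqrt (|C| / ε) ≤ M := by rw [hMdef]; linarith
    have h6 : 4 * (|C| / ε) ≤ M ^ 2 := by
      have := pow_le_pow_left₀ (by positivity) h5 2
      rw [mul_pow, Real.sq_sqrt (by positivity)] at this
      linarith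
    have h7 : C * (2 / M) ^ 2 ≤ |C| * (2 / M) ^ 2 :=
      mul_le_mul_of_nonneg_right (le_abs_self C) (by positivity)
    refine h7.trans ?_
    rw [div_pow, mul_div_assoc', div_le_iff₀ (by positivity)]
    have h8 : 4 * |C| ≤ M ^ 2 * ε := by
      have := mul_le_mul_of_nonneg_right h6 hε.le
      rwa [mul_assoc, div_mul_cancel₀ _ hε.ne'] at this
    nlinarith
  refine ⟨M, hM, ?_⟩
  filter_upwards [hC (2 / M) (by positivity)] with δ hδ D hD hDd
  have h9 := hδ D hD hDd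
  refine le_trans ?_ (h9.trans hCM)
  have h10 : E c D (fun u => Asm695.X δ D ψ u ^ 2)
      - 2 / (2 / M) ^ 2 * (1 - E c D (fun u => Real.cos (2 / M * Asm695.X δ D ψ u)))
      = E c D (fun u => Asm695.X δ D ψ u ^ 2
        - 2 / (2 / M) ^ 2 * (1 - Real.cos (2 / M * Asm695.X δ D ψ u))) := by
    rw [E_sub, E_smul, E_sub, E_const hc]
  rw [h10]
  exact E_mono hc fun u _ => max_le_phi _ M hM

end Crest.Agent.R161.GlueH792
end
end

-- ▼ part R161/H7_689

/-!
# `UIprop c` (helper689, R161)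

`uiprop : 1 ≤ c → UnifCirc c → IsState c P → PlaneGauss c P → VBound P → Asm695.UIprop c`.
-/

set_option autoImplicit false

noncomputable section

namespace Crest.Agent.R161.H689

open Finset MeasureTheory Filter Topology Crest.Agent.R161.Geo729 Crest.Agent.R161.Defs372
  Crest.Agent.R161.Ifc372
open scoped ContDiff

/-- logarithmic growth implies linear growth -/
theorem vlin_of_vbound {c : ℝ} {P : Measure Cfg} (hP : IsState c P) (hV : VBound P) : VLin P := by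
  obtain ⟨C, hC0, hC⟩ := hV
  have hVV : ∀ v : P2, ∫ u, (u.1 v : ℝ) ^ 2 ∂P = VV P v := by
    intro v
    unfold VV
    refine integral_congr_ae ?_
    filter_upwards [hP.valid] with u hu
    rw [hu.zero]
    simp
  refine ⟨VV P (1, 0) + 2 * C, fun v => ?_⟩
  rw [hVV]
  have hV0 : 0 ≤ VV P (1, 0) := integral_nonneg fun u => sq_nonneg _
  by_cases hv : v = 0
  · subst hv
    have h0 : VV P 0 = 0 := by
      unfold VV
      have : ∀ u : Cfg, ((u.1 (0 : P2) : ℝ) - u.1 (0, 0)) ^ 2 = 0 := fun u => by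
        have : u.1 (0 : P2) = u.1 (0, 0) := rfl
        rw [this, sub_self]
        norm_num
      simp [this]
    rw [h0]
    positivity
  · have h1 := (abs_le.1 (hC v (1, 0) hv (by simp [Prod.ext_iff]))).2
    have e1 : nrm (1, 0) = 1 := by simp [nrm]
    rw [e1, div_one] at h1
    -- `nrm v ≥ 1`
    have hpos : 1 ≤ (v.1 : ℝ) ^ 2 + (v.2 : ℝ) ^ 2 := by
      have h2 : v.1 ≠ 0 ∨ v.2 ≠ 0 := by
        by_contra hcon
        push Not at hcon
        exact hv (Prod.ext hcon.1 hcon.2)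
      have h3 : 1 ≤ v.1 ^ 2 + v.2 ^ 2 := by
        rcases h2 with h2 | h2
        · have : 0 < v.1 ^ 2 := by positivity
          nlinarith [sq_nonneg v.2]
        · have : 0 < v.2 ^ 2 := by positivity
          nlinarith [sq_nonneg v.1]
      exact_mod_cast h3
    have hn1 : 1 ≤ nrm v := by
      unfold nrm
      rw [Real.one_le_sqrt]
      exact hpos
    have hn2 : nrm v ≤ |(v.1 : ℝ)| + |(v.2 : ℝ)| := by
      unfold nrm
      rw [Real.sqrt_le_left (by positivity)]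
      nlinarith [sq_abs (v.1 : ℝ), sq_abs (v.2 : ℝ), abs_nonneg (v.1 : ℝ), abs_nonneg (v.2 : ℝ),
        mul_nonneg (abs_nonneg (v.1 : ℝ)) (abs_nonneg (v.2 : ℝ))]
    have hl : |Real.log (nrm v)| ≤ |(v.1 : ℝ)| + |(v.2 : ℝ)| := by
      rw [abs_of_nonneg (Real.log_nonneg hn1)]
      have := Real.log_le_sub_one_of_pos (by linarith : 0 < nrm v)
      linarith
    have h4 : C * (1 + |Real.log (nrm v)|) ≤ C * (1 + (|(v.1 : ℝ)| + |(v.2 : ℝ)|)) :=
      mul_le_mul_of_nonneg_left (by linarith) hC0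
    have h5 : 0 ≤ |(v.1 : ℝ)| + |(v.2 : ℝ)| := by positivity
    nlinarith

/-- **Uniform integrability** in the `Φ_s` form. -/
theorem uiphi {c : ℝ} (hc : 1 ≤ c) (hC : UnifCirc c) {P : Measure Cfg} (hP : IsState c P)
    (hG : PlaneGauss c P) (hV : VBound P) : GlueH792.UIphi c := by
  intro R hR ψ hψ hψc _ _
  obtain ⟨C, _, h⟩ := disc_ui hc (Sand375.cvxMono hc) hC hP hG (vlin_of_vbound hP hV) hR hψ hψc
  refine ⟨C, fun s hs => ?_⟩
  filter_upwards [h s hs] with δ hδ D hD hDd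
  have h1 := hδ D hD hDd
  rw [E_PhiS c hc] at h1
  exact h1

/-- **`UIprop`** of the final assembly. -/
theorem uiprop {c : ℝ} (hc : 1 ≤ c) (hC : UnifCirc c) {P : Measure Cfg} (hP : IsState c P)
    (hG : PlaneGauss c P) (hV : VBound P) : Asm695.UIprop c :=
  GlueH792.uiprop_of_phi hc (uiphi hc hC hP hG hV)

end Crest.Agent.R161.H689
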