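import Crest.Agent.R161.Dmp2_341
import Crest.Agent.R161.Exp_760
import Crest.Agent.R161.Ifc_372

/-!
# Row 161, block E: hulls of innermost / outermost circuits, second moment bounds (helper868)

* `HI Z x n m : Finset P2` : filled hull of the set of faces reached from `ball x n` through non-`Z`
  edges (`∅` when there is no `Z`-circuit in the annulus `ball x m \ ball x n`).
* `Exp760.DF (ball x m) x ω` : the hull of the outermost cut circuit (exploration from outside).
-/

set_option autoImplicit false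

noncomputable section

namespace Crest.Agent.R161.Out868

open Finset hiding box
open Crest.Agent.R161.Geo729 Crest.Agent.R161.Defs372 Crest.Agent.R161.Dmp341
open Crest.Agent.R161.Hull374 Crest.Agent.R161.Dual374 Crest.Agent.R161.Ifc372 MeasureTheory
open Crest.Agent.R161.Exp760 (DF doms mem_doms)

/-! ### balls -/

theorem mem_ball {x f : P2} {n : ℕ} :
    f ∈ ball x n ↔ x.1 - n ≤ f.1 ∧ f.1 ≤ x.1 + n - 1 ∧ x.2 - n ≤ f.2 ∧ f.2 ≤ x.2 + n - 1 := by
  obtain ⟨a, b⟩ := f
  simp only [ball, Finset.mem_product, Finset.mem_Icc]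
  tauto

theorem dom_ball (x : P2) (n : ℕ) : Dom (ball x n) := dom_rect _ _ _ _

theorem ball_mono (x : P2) {n m : ℕ} (h : n ≤ m) : ball x n ⊆ ball x m := by
  intro f hf
  rw [mem_ball] at hf ⊢
  omega

theorem self_mem_ball {x : P2} {n : ℕ} (hn : 1 ≤ n) : x ∈ ball x n := by
  rw [mem_ball]; omega


/-- a face outside `ball x m` -/
def far (x : P2) (m : ℕ) : P2 := (x.1 + m, x.2)

theorem far_notMem (x : P2) (m : ℕ) : far x m ∉ ball x m := by
  rw [mem_ball, far]
  simp only
  omega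

/-! ### circuits and reached sets -/

theorem circ_iff_disjoint {Z : Edge → Prop} {x : P2} {n m : ℕ} :
    Circ Z x n m ↔ ∀ f ∈ ball x n, f ∉ Reach Z ((↑(ball x m) : Set P2)ᶜ) := by
  have hsym : ∀ {a f : P2}, Relation.ReflTransGen (DStep (fun e => ¬ Z e)) a f →
      Relation.ReflTransGen (DStep (fun e => ¬ Z e)) f a := by
    intro a f h
    induction h with
    | refl => exact .refl
    | tail _ h2 ih => exact Relation.ReflTransGen.head h2.symm ih
  constructor
  · rintro h f hf ⟨a, ha, h2⟩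
    exact ha (h ⟨f, hf, hsym h2⟩)
  · rintro h g ⟨a, ha, h2⟩
    by_contra hg
    exact h a ha ⟨g, hg, hsym h2⟩

/-! ### the inner hull -/

open Classical in
/-- hull of the innermost `Z`-circuit -/
def HI (Z : Edge → Prop) (x : P2) (n m : ℕ) : Finset P2 :=
  (ball x m).filter fun f => Circ Z x n m ∧ f ∉ Comp (Reach Z (↑(ball x n) : Set P2))ᶜ (far x m)

variable {Z : Edge → Prop} {x : P2} {n m : ℕ}

theorem HI_sub : HI Z x n m ⊆ ball x m := by
  classical
  unfold HI
  exact Finset.filter_subset _ _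

theorem compl_ball_sub_comp (h : Circ Z x n m) :
    ((↑(ball x m) : Set P2)ᶜ) ⊆ Comp (Reach Z (↑(ball x n) : Set P2))ᶜ (far x m) := by
  intro f hf
  have h1 := (dom_ball x m).sc (far x m) (fun h => far_notMem x m (by exact_mod_cast h)) f hf
  exact h1.mono (Set.compl_subset_compl.2 h)

theorem coe_HI (h : Circ Z x n m) :
    (↑(HI Z x n m) : Set P2) = (Comp (Reach Z (↑(ball x n) : Set P2))ᶜ (far x m))ᶜ := by
  ext f
  simp only [HI, Finset.coe_filter, Set.mem_ofPred_eq, Set.mem_compl_iff]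
  constructor
  · rintro ⟨_, _, h2⟩; exact h2
  · intro h2
    refine ⟨?_, h, h2⟩
    by_contra h3
    exact h2 (compl_ball_sub_comp h (by simpa using h3))

theorem far_notMem_reach (h : Circ Z x n m) : far x m ∉ Reach Z (↑(ball x n) : Set P2) :=
  fun h1 => far_notMem x m (by exact_mod_cast h h1)

theorem reach_sub_HI (h : Circ Z x n m) :
    Reach Z (↑(ball x n) : Set P2) ⊆ (↑(HI Z x n m) : Set P2) := by
  rw [coe_HI h]
  intro f hf hc
  exact comp_subset (far_notMem_reach h) hc hf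

theorem ball_sub_HI (h : Circ Z x n m) : ball x n ⊆ HI Z x n m := by
  intro f hf
  exact_mod_cast reach_sub_HI h (subset_reach _ _ (by exact_mod_cast hf))

theorem HI_empty (h : ¬ Circ Z x n m) : HI Z x n m = ∅ := by
  simp [HI, h]

theorem circ_of_HI {f : P2} (h : f ∈ HI Z x n m) : Circ Z x n m := by
  by_contra h1
  rw [HI_empty h1] at h
  simp at h

theorem circ_iff_HI (hn : 1 ≤ n) : Circ Z x n m ↔ (HI Z x n m).Nonempty :=
  ⟨fun h => ⟨x, ball_sub_HI h (self_mem_ball hn)⟩, fun ⟨_, hf⟩ => circ_of_HI hf⟩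

theorem HI_dom (hn : 1 ≤ n) (h : Circ Z x n m) : Dom (HI Z x n m) := by
  have h1 : IsConn (Comp (Reach Z (↑(ball x n) : Set P2))ᶜ (far x m)) := comp_isConn _ _
  have h2 := (comp_compl_conn (Reach Z (↑(ball x n) : Set P2))
    (reach_isConn _ _ (dom_ball x n).conn)
    ⟨x, subset_reach _ _ (by exact_mod_cast self_mem_ball hn)⟩ (far x m) (far_notMem_reach h)).1
  refine ⟨?_, ?_⟩
  · rw [coe_HI h]; exact h2
  · unfold SC; rw [coe_HI h, compl_compl]; exact h1

/-- boundary edges of the inner hull are `Z`-edges -/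
theorem HI_bd (hn : 1 ≤ n) (h : Circ Z x n m) {e : Edge} (he : e ∈ bdE (HI Z x n m)) : Z e := by
  rw [mem_bdE_iff_Bd, coe_HI h, bd_compl] at he
  have hfar := far_notMem_reach h
  have hDR := comp_subset (T := (Reach Z (↑(ball x n) : Set P2))ᶜ) (x := far x m) hfar
  have h2 := (comp_compl_conn (Reach Z (↑(ball x n) : Set P2))
    (reach_isConn _ _ (dom_ball x n).conn)
    ⟨x, subset_reach _ _ (by exact_mod_cast self_mem_ball hn)⟩ (far x m) hfar).2
  have h3 : Bd (Reach Z (↑(ball x n) : Set P2)) e := by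
    rcases he with ⟨h3, h4⟩ | ⟨h3, h4⟩
    · exact Or.inr ⟨hDR h3, h2 _ _ h3 (adj_fA_fB e) h4⟩
    · exact Or.inl ⟨h2 _ _ h4 (adj_fA_fB e).symm h3, hDR h4⟩
  exact reach_bd h3

/-- locality of the inner hull -/
theorem HI_congr_aux {Z' : Edge → Prop} {D : Finset P2} (hn : 1 ≤ n) (hD : HI Z x n m = D)
    (hne : D.Nonempty) (hin : ∀ e ∈ intEdges D, (Z e ↔ Z' e)) (hbd : ∀ e ∈ bdE D, Z' e) :
    HI Z' x n m = D := by
  subst hD
  obtain ⟨f0, hf0⟩ := hne
  have hC := circ_of_HI hf0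
  have hcut : ∀ e, Bd ((↑(HI Z x n m) : Set P2)ᶜ) e → Z e ∧ Z' e := by
    intro e he
    rw [bd_compl, ← mem_bdE_iff_Bd] at he
    exact ⟨HI_bd hn hC he, hbd e he⟩
  have hAD : ∀ a ∈ (↑(ball x n) : Set P2), a ∉ ((↑(HI Z x n m) : Set P2)ᶜ) := by
    intro a ha h1
    exact h1 (by exact_mod_cast ball_sub_HI hC (by exact_mod_cast ha))
  have hag : ∀ e, fA e ∉ ((↑(HI Z x n m) : Set P2)ᶜ) → fB e ∉ ((↑(HI Z x n m) : Set P2)ᶜ) →
      (Z e ↔ Z' e) := by
    intro e h1 h2
    refine hin e (mem_intEdges.2 ⟨?_, ?_⟩)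
    · exact_mod_cast not_not.1 h1
    · exact_mod_cast not_not.1 h2
  have hR : Reach Z (↑(ball x n) : Set P2) = Reach Z' (↑(ball x n) : Set P2) :=
    Set.Subset.antisymm (Exp760.reach_congr hAD hcut hag)
      (Exp760.reach_congr hAD (fun e he => (hcut e he).symm) (fun e h1 h2 => (hag e h1 h2).symm))
  have hC' : Circ Z' x n m := by
    unfold Circ
    rw [← hR]
    exact hC
  have hC2 : Circ Z x n m := hC
  ext f
  unfold HI
  rw [hR]
  simp [hC2, hC']

/-- `{HI = D}` = the boundary of `D` consists of `Z`-edges, and an event of the edges inside `D`. -/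
theorem HI_iff {Z' : Edge → Prop} {D : Finset P2} (hn : 1 ≤ n) (hne : D.Nonempty)
    (hin : ∀ e ∈ intEdges D, (Z e ↔ Z' e)) (hbd : ∀ e ∈ bdE D, Z' e) :
    HI Z x n m = D ↔ (∀ e ∈ bdE D, Z e) ∧ HI Z' x n m = D := by
  constructor
  · intro h
    refine ⟨?_, HI_congr_aux hn h hne hin hbd⟩
    subst h
    obtain ⟨f0, hf0⟩ := hne
    exact fun e he => HI_bd hn (circ_of_HI hf0) he
  · rintro ⟨h1, h2⟩
    exact HI_congr_aux hn h2 hne (fun e he => (hin e he).symm) h1

/-- inner hull of the cut percolation -/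
abbrev DI (x : P2) (n m : ℕ) (ω : Cfg) : Finset P2 := HI (cutE ω) x n m

theorem insL_z {D : Finset P2} (ω : Cfg) (e : Edge) :
    (insL D ω).2.2 e = if e ∈ intEdges D then ω.2.2 e else true := rfl

theorem DI_iff {D : Finset P2} (hn : 1 ≤ n) (hne : D.Nonempty) (ω : Cfg) :
    DI x n m ω = D ↔ CutE D ω ∧ DI x n m (insL D ω) = D := by
  refine HI_iff hn hne ?_ ?_
  · intro e he
    unfold cutE
    rw [insL_z, if_pos he]
  · intro e he
    unfold cutE
    rw [insL_z, if_neg (not_intEdges_of_bdE he)]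

theorem DI_neg (D : Finset P2) (ω : Cfg) : DI x n m (negC D ω) = DI x n m ω := rfl

/-! ### the outer hull -/


theorem ball_sub_DF (hn : 1 ≤ n) {ω : Cfg} (h : Circ (cutE ω) x n m) :
    ball x n ⊆ DF (ball x m) x ω := by
  rw [circ_iff_disjoint] at h
  have := Exp760.sub_DF (B := ball x m) (x := x) (ω := ω) (dom_ball x n).conn
    (by exact_mod_cast self_mem_ball hn) (fun f hf => h f (by exact_mod_cast hf))
  exact_mod_cast this

theorem circ_iff_DF (hn : 1 ≤ n) {ω : Cfg} :
    Circ (cutE ω) x n m ↔ ball x n ⊆ DF (ball x m) x ω := by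
  refine ⟨ball_sub_DF hn, fun h => ?_⟩
  rw [circ_iff_disjoint]
  intro f hf
  exact Exp760.mem_DF_not_RR (h hf)

theorem circ_mono {Z' : Edge → Prop} (h : ∀ e, Z e → Z' e) (hC : Circ Z x n m) :
    Circ Z' x n m := by
  intro f hf
  refine hC ?_
  obtain ⟨a, ha, h2⟩ := hf
  refine ⟨a, ha, ?_⟩
  induction h2 with
  | refl => exact .refl
  | tail _ h3 ih =>
    refine ih.tail ?_
    obtain ⟨e, he, h4⟩ := h3
    exact ⟨e, fun h5 => he (h e h5), h4⟩

end Crest.Agent.R161.Out868
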