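import Crest.Agent.R161.Ann2_770
import Crest.Agent.R161.Mono_375
import Crest.Agent.R161.Fac_770
import Crest.Agent.R161.Dmp2_341
import Crest.Agent.R161.Flip_228
import Crest.Agent.R161.Out_868
import Crest.Agent.R161.Sand_375
import Crest.Agent.R161.BdI_228
import Crest.Agent.R161.Aut_373

-- ▼ part R161/Flt1_702
section

/-!
# Sums with observables over configurations with boundary heights (helper702, R161 block H-a)

* `sum_confB_HB` : summation over the cut variables with an observable of the heights.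
* `sum_confB_geo` : the same as a sum over abstract heights of `Ann770.geo F β`.
* `S_pin0`, `S_float` : the sums `Mono375.S` of the annulus geometry with both boundary classes at `0`,
  resp. the hole at `0` and the outer boundary floating.
-/

set_option autoImplicit false

noncomputable section

namespace Crest.Agent.R161.Flt702

open Finset Crest.Agent.R161.Geo729 Crest.Agent.R161.Defs372 Crest.Agent.R161.Hts375
open Crest.Agent.R161.Ann770

theorem sum_confB_HB (c : ℝ) (F : Finset P2) (b : P2 → ℤ) (Φ : (P2 → ℤ) × (P2 → ℤ) → ℝ) :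
    ∑ ω ∈ confB F b, wt c F ω * Φ (ω.1, ω.2.1) =
      ∑ w ∈ HB F b, (∏ e ∈ intEdges F, pw c w.1 w.2 e) * Φ w := by
  classical
  have key : ∀ w ∈ HB F b, (∏ e ∈ intEdges F, pw c w.1 w.2 e) * Φ w =
      ∑ S ∈ (intEdges F).powerset, wt c F (w.1, w.2, fun e => decide (e ∉ S)) * Φ w := by
    intro w hw
    have hv := mem_HB.1 hw
    have : ∏ e ∈ intEdges F, pw c w.1 w.2 e = ∏ e ∈ intEdges F,
        (ew c (w.1, w.2, fun _ => false) e + ew c (w.1, w.2, fun _ => true) e) := by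
      refine Finset.prod_congr rfl fun e he => ?_
      rw [add_comm, ew_add c (b := b) (F := F) hv he (fun _ => true) (fun _ => false) rfl rfl]
    rw [this, Finset.prod_add, Finset.sum_mul]
    refine Finset.sum_congr rfl fun S hS => ?_
    rw [Finset.mem_powerset] at hS
    congr 1
    unfold wt
    rw [← Finset.prod_sdiff hS, mul_comm]
    congr 1
    · refine Finset.prod_congr rfl fun e he => ?_
      have : e ∉ S := (Finset.mem_sdiff.1 he).2
      unfold ew
      simp [this]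
    · refine Finset.prod_congr rfl fun e he => ?_
      unfold ew
      simp [he]
  rw [Finset.sum_congr rfl key, ← Finset.sum_product']
  refine Finset.sum_bij' (fun ω _ => ((ω.1, ω.2.1), (intEdges F).filter fun e => ω.2.2 e = false))
    (fun p _ => (p.1.1, p.1.2, fun e => decide (e ∉ p.2))) ?_ ?_ ?_ ?_ ?_
  · intro ω hω
    rw [Finset.mem_product]
    obtain ⟨h1, h2, h3, h4, _⟩ := mem_confB.1 hω
    exact ⟨mem_HB.2 ⟨h1, h2, h3, h4⟩, Finset.mem_powerset.2 (Finset.filter_subset _ _)⟩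
  · rintro ⟨w, S⟩ hp
    rw [Finset.mem_product] at hp
    obtain ⟨h1, h2, h3, h4⟩ := mem_HB.1 hp.1
    refine mem_confB.2 ⟨h1, h2, h3, h4, fun e he => ?_⟩
    have : e ∉ S := fun h => he (Finset.mem_powerset.1 hp.2 h)
    simp [this]
  · intro ω hω
    have hc := (mem_confB.1 hω).cut
    refine Prod.ext rfl (Prod.ext rfl ?_)
    funext e
    by_cases he : e ∈ intEdges F
    · cases hz : ω.2.2 e
      · simp [he, hz]
      · simp [he, hz]
    · simp [he, hc e he]
  · rintro ⟨w, S⟩ hp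
    rw [Finset.mem_product] at hp
    refine Prod.ext rfl ?_
    ext e
    simp only [Finset.mem_filter, decide_eq_false_iff_not, not_not]
    exact ⟨fun h => h.2, fun h => ⟨Finset.mem_powerset.1 hp.2 h, h⟩⟩
  · intro ω hω
    have hc := (mem_confB.1 hω).cut
    congr 2
    refine Prod.ext rfl (Prod.ext rfl ?_)
    funext e
    by_cases he : e ∈ intEdges F
    · cases hz : ω.2.2 e
      · simp [he, hz]
      · simp [he, hz]
    · simp [he, hc e he]

section geo

variable {B : Type} (F : Finset P2) (β : P2 → B) [Fintype B] [DecidableEq B]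

open Classical in
theorem sum_confB_geo (c : ℝ) (q : B → ℤ) (hq : ∀ x, Even (q x)) (N : ℤ)
    (hN : hbB F (fun v => q (β v)) ≤ N) (Φ : ((↥(intVerts F) ⊕ B) ⊕ ↥F → ℤ) → ℝ) :
    ∑ ω ∈ confB F (fun v => q (β v)), wt c F ω * Φ (ofH F q (ω.1, ω.2.1)) =
    ∑ h ∈ (Finset.Icc (Sum.elim (Sum.elim (fun _ => -N) q) (fun _ => -N))
        (Sum.elim (Sum.elim (fun _ => N) q) (fun _ => N)) :
          Finset ((↥(intVerts F) ⊕ B) ⊕ ↥F → ℤ)),
      (geo F β).W (fun _ => c) h * Φ h := by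
  have e0 := sum_confB_HB c F (fun v => q (β v)) (fun w => Φ (ofH F q w))
  rw [e0]
  have h1 : ∀ h : (↥(intVerts F) ⊕ B) ⊕ ↥F → ℤ, (geo F β).W (fun _ => c) h * Φ h =
      if (geo F β).Valid h then (∏ p, (geo F β).wp (fun _ => c) h p) * Φ h else 0 := fun h => by
    unfold Geo.W
    split_ifs
    · congr
    · rw [zero_mul]
  simp only [h1]
  rw [← Finset.sum_filter]
  refine Finset.sum_bij' (fun w _ => ofH F q w) (fun h _ => toH F β h) ?_ ?_ ?_ ?_ ?_
  · intro w hw
    have hv := mem_HB.1 hw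
    have hω : ValidB F (fun v => q (β v)) (w.1, w.2, fun _ => true) :=
      ⟨hv.bdry, hv.even, hv.off, hv.corner, fun _ _ => rfl⟩
    have key : ∀ u, (ofH F q w) (Sum.inl (vm F β u)) = w.1 u := by
      intro u
      by_cases hu : u ∈ intVerts F
      · rw [vm_of_mem F β hu]; rfl
      · rw [vm_of_not_mem F β hu, hv.bdry u hu]; rfl
    rw [Finset.mem_filter, Finset.mem_Icc]
    refine ⟨⟨fun x => ?_, fun x => ?_⟩, ?_, ?_, ?_⟩
    · rcases x with (x | x) | x
      · exact (abs_le.1 ((hω.abs_vert (mem_cornV_of_mem (Finset.mem_filter.1 x.2).1)).trans hN)).1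
      · exact le_rfl
      · exact (abs_le.1 ((hω.abs_face x.1).trans hN)).1
    · rcases x with (x | x) | x
      · exact (abs_le.1 ((hω.abs_vert (mem_cornV_of_mem (Finset.mem_filter.1 x.2).1)).trans hN)).2
      · exact le_rfl
      · exact (abs_le.1 ((hω.abs_face x.1).trans hN)).2
    · rintro (x | x)
      · exact hv.even _
      · exact hq x
    · intro f
      have h2 := hv.corner f.1 f.2 f.1 (by simp [Geo729.IsCorner])
      have h3 := hv.even f.1
      show Odd (w.2 f.1)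
      rw [abs_eq (by norm_num)] at h2
      obtain ⟨r, hr⟩ := h3
      rcases h2 with h2 | h2
      · exact ⟨r - 1, by omega⟩
      · exact ⟨r, by omega⟩
    · rintro v f ⟨u, hu, rfl⟩
      rw [key]
      exact hv.corner f.1 f.2 u hu
  · intro h hh
    rw [Finset.mem_filter, Finset.mem_Icc] at hh
    obtain ⟨⟨g1, g2⟩, h3, h4, h5⟩ := hh
    have h2 : ∀ x, h (Sum.inl (Sum.inr x)) = q x := fun x =>
      le_antisymm (g2 (Sum.inl (Sum.inr x))) (g1 (Sum.inl (Sum.inr x)))
    refine mem_HB.2 ⟨fun v hv => ?_, fun v => h3 _, fun f hf => ?_, fun f hf v hv => ?_⟩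
    · show h (Sum.inl (vm F β v)) = q (β v)
      rw [vm_of_not_mem F β hv, h2]
    · show (if hf : f ∈ F then h (Sum.inr ⟨f, hf⟩) else 1) = 1
      rw [dif_neg hf]
    · show |h (Sum.inl (vm F β v)) - (if hf : f ∈ F then h (Sum.inr ⟨f, hf⟩) else 1)| = 1
      rw [dif_pos hf]
      exact h5 _ _ ⟨v, hv, rfl⟩
  · intro w hw
    have hv := mem_HB.1 hw
    refine Prod.ext ?_ ?_
    · funext u
      show (ofH F q w) (Sum.inl (vm F β u)) = w.1 u
      by_cases hu : u ∈ intVerts F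
      · rw [vm_of_mem F β hu]; rfl
      · rw [vm_of_not_mem F β hu, hv.bdry u hu]; rfl
    · funext f
      show (if hf : f ∈ F then ofH F q w (Sum.inr ⟨f, hf⟩) else 1) = w.2 f
      by_cases hf : f ∈ F
      · rw [dif_pos hf]; rfl
      · rw [dif_neg hf, hv.off f hf]
  · intro h hh
    rw [Finset.mem_filter, Finset.mem_Icc] at hh
    obtain ⟨⟨g1, g2⟩, _⟩ := hh
    have h2 : ∀ x, h (Sum.inl (Sum.inr x)) = q x := fun x =>
      le_antisymm (g2 (Sum.inl (Sum.inr x))) (g1 (Sum.inl (Sum.inr x)))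
    funext x
    rcases x with (x | x) | x
    · show h (Sum.inl (vm F β x.1)) = h (Sum.inl (Sum.inl x))
      rw [vm_of_mem F β x.2]
    · exact (h2 x).symm
    · show (if hf : x.1 ∈ F then h (Sum.inr ⟨x.1, hf⟩) else 1) = h (Sum.inr x)
      rw [dif_pos x.2]
  · intro w hw
    have hv := mem_HB.1 hw
    have key : ∀ u, (ofH F q w) (Sum.inl (vm F β u)) = w.1 u := by
      intro u
      by_cases hu : u ∈ intVerts F
      · rw [vm_of_mem F β hu]; rfl
      · rw [vm_of_not_mem F β hu, hv.bdry u hu]; rfl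
    rw [← Finset.prod_coe_sort]
    congr 1
    refine Finset.prod_congr rfl fun e _ => ?_
    unfold Geo.wp pw
    have : (geo F β).Flat (ofH F q w) e ↔ w.1 (src e.1) = w.1 (tgt e.1) ∧ w.2 (fA e.1) = w.2 (fB e.1) := by
      unfold Geo.Flat
      show (ofH F q w) (Sum.inl (vm F β (src e.1))) = (ofH F q w) (Sum.inl (vm F β (tgt e.1))) ∧ _ ↔ _
      rw [key, key]
      rfl
    by_cases hfl : w.1 (src e.1) = w.1 (tgt e.1) ∧ w.2 (fA e.1) = w.2 (fB e.1)
    · rw [if_pos hfl, if_pos (this.2 hfl)]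
    · rw [if_neg hfl, if_neg (fun h => hfl (this.1 h))]

end geo

end Crest.Agent.R161.Flt702
end
end

-- ▼ part R161/Flt2_702
section

/-!
# Floating comparison (helper702, R161 block H-a)

`E_A φ(∑ a_v K v) * Pr_F (CutE D) ≤ E_F[1_{CutE D} φ(∑ a_v (K v - level D))]` for `A = F \ D`, no vertex
touching both `D` and the complement of `F`, `a ≥ 0` on `V ⊆ intVerts A`, `φ` convex.
-/

set_option autoImplicit false

noncomputable section

namespace Crest.Agent.R161.Flt702

open Finset Crest.Agent.R161.Geo729 Crest.Agent.R161.Defs372 Crest.Agent.R161.Hts375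
open Crest.Agent.R161.Ann770 Crest.Agent.R161.Mono375 Crest.Agent.R161.Lsm375
open Crest.Agent.R161.Pol375 Crest.Agent.R161.Dmp341 Crest.Agent.R161.Flip228

section fib

variable (A : Finset P2) (β : P2 → Bool)

/-- sites of the annulus geometry -/
abbrev St (A : Finset P2) : Type := (↥(intVerts A) ⊕ Bool) ⊕ ↥A

/-- box sizes: `R` for the boundary classes, `N` for the other sites -/
def Mx (R N : ℤ) : St A → ℤ := Sum.elim (Sum.elim (fun _ => N) (fun _ => R)) (fun _ => N)

theorem S_fib (c : ℝ) (R N : ℤ)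
    (hN : ∀ q : Bool → ℤ, (∀ x, |q x| ≤ R) → hbB A (fun v => q (β v)) ≤ N)
    (u : (Bool → ℤ) → ℝ) (Φ : (St A → ℤ) → ℝ) :
    S (geo A β) (fun _ => c) (fun a => u (fun x => a (Sum.inl (Sum.inr x)))) (Mx A R N) Φ =
      ∑ q ∈ (Finset.Icc (fun _ => -R) (fun _ => R) : Finset (Bool → ℤ)).filter
          (fun q => ∀ x, Even (q x)),
        u (fun x => |q x|) *
          ∑ ω ∈ confB A (fun v => q (β v)), wt c A ω * Φ (ofH A q (ω.1, ω.2.1)) := by
  classical
  unfold S
  rw [← Finset.sum_fiberwise_of_maps_to (s := Finset.Icc (-(Mx A R N)) (Mx A R N))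
    (t := (Finset.Icc (fun _ => -R) (fun _ => R) : Finset (Bool → ℤ)))
    (g := fun h x => h (Sum.inl (Sum.inr x)))]
  · rw [Finset.sum_filter]
    refine Finset.sum_congr rfl fun q hq => ?_
    rw [Finset.mem_Icc] at hq
    have hqR : ∀ x, |q x| ≤ R := fun x => abs_le.2 ⟨hq.1 x, hq.2 x⟩
    by_cases hev : ∀ x, Even (q x)
    · rw [if_pos hev, sum_confB_geo A β c q hev N (hN q hqR) Φ, Finset.mul_sum]
      have : (Finset.Icc (-(Mx A R N)) (Mx A R N)).filter
          (fun h => (fun x => h (Sum.inl (Sum.inr x))) = q) =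
          Finset.Icc (Sum.elim (Sum.elim (fun _ => -N) q) (fun _ => -N))
            (Sum.elim (Sum.elim (fun _ => N) q) (fun _ => N)) := by
        ext h
        rw [Finset.mem_filter, Finset.mem_Icc, Finset.mem_Icc]
        constructor
        · rintro ⟨⟨h1, h2⟩, h3⟩
          refine ⟨fun x => ?_, fun x => ?_⟩
          · rcases x with (x | x) | x
            · exact h1 (Sum.inl (Sum.inl x))
            · exact (congrFun h3 x).ge
            · exact h1 (Sum.inr x)
          · rcases x with (x | x) | x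
            · exact h2 (Sum.inl (Sum.inl x))
            · exact (congrFun h3 x).le
            · exact h2 (Sum.inr x)
        · rintro ⟨h1, h2⟩
          have h3 : ∀ x, h (Sum.inl (Sum.inr x)) = q x := fun x =>
            le_antisymm (h2 (Sum.inl (Sum.inr x))) (h1 (Sum.inl (Sum.inr x)))
          refine ⟨⟨fun x => ?_, fun x => ?_⟩, funext h3⟩
          · rcases x with (x | x) | x
            · exact h1 (Sum.inl (Sum.inl x))
            · rw [h3 x]; exact hq.1 x
            · exact h1 (Sum.inr x)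
          · rcases x with (x | x) | x
            · exact h2 (Sum.inl (Sum.inl x))
            · rw [h3 x]; exact hq.2 x
            · exact h2 (Sum.inr x)
      rw [this]
      refine Finset.sum_congr rfl fun h hh => ?_
      rw [Finset.mem_Icc] at hh
      have h2 : ∀ x, h (Sum.inl (Sum.inr x)) = q x := fun x =>
        le_antisymm (hh.2 (Sum.inl (Sum.inr x))) (hh.1 (Sum.inl (Sum.inr x)))
      have h3 : (fun x => ab h (Sum.inl (Sum.inr x))) = fun x => |q x| :=
        funext fun x => by simp [ab, h2 x]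
      show (geo A β).W (fun _ => c) h * u (fun x => ab h (Sum.inl (Sum.inr x))) * Φ h = _
      rw [h3]; ring
    · rw [if_neg hev]
      refine Finset.sum_eq_zero fun h hh => ?_
      rw [Finset.mem_filter] at hh
      have : (geo A β).W (fun _ => c) h = 0 := by
        unfold Geo.W
        rw [if_neg]
        rintro ⟨h1, _⟩
        exact hev fun x => by rw [← congrFun hh.2 x]; exact h1 _
      rw [this]; ring
  · intro h hh
    rw [Finset.mem_Icc] at hh ⊢
    exact ⟨fun x => hh.1 (Sum.inl (Sum.inr x)), fun x => hh.2 (Sum.inl (Sum.inr x))⟩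

/-- both classes pinned at `0` -/
def Upin (a : St A → ℤ) : ℝ :=
  if a (Sum.inl (Sum.inr true)) ≤ 0 ∧ a (Sum.inl (Sum.inr false)) ≤ 0 then 1 else 0

/-- the hole pinned at `0` -/
def Uflt (a : St A → ℤ) : ℝ := if a (Sum.inl (Sum.inr true)) ≤ 0 then 1 else 0

theorem dom_UU : Abs375.Dom (Upin A) (Uflt A) := by
  have n1 : ∀ a, 0 ≤ Upin A a := fun a => by unfold Upin; split_ifs <;> norm_num
  have n2 : ∀ a, 0 ≤ Uflt A a := fun a => by unfold Uflt; split_ifs <;> norm_num
  refine ⟨n1, n2, fun a b => ?_⟩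
  by_cases ha : a (Sum.inl (Sum.inr true)) ≤ 0 ∧ a (Sum.inl (Sum.inr false)) ≤ 0
  · by_cases hb : b (Sum.inl (Sum.inr true)) ≤ 0
    · have h1 : Upin A (a ⊓ b) = 1 := by
        unfold Upin
        refine if_pos ⟨?_, ?_⟩
        · exact inf_le_of_left_le ha.1
        · exact inf_le_of_left_le ha.2
      have h2 : Uflt A (a ⊔ b) = 1 := by
        unfold Uflt
        exact if_pos (sup_le ha.1 hb)
      have h3 : Upin A a = 1 := by unfold Upin; exact if_pos ha
      have h4 : Uflt A b = 1 := by unfold Uflt; exact if_pos hb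
      rw [h1, h2, h3, h4]
    · have : Uflt A b = 0 := by unfold Uflt; exact if_neg hb
      rw [this, mul_zero]
      exact mul_nonneg (n1 _) (n2 _)
  · have : Upin A a = 0 := by unfold Upin; exact if_neg ha
    rw [this, zero_mul]
    exact mul_nonneg (n1 _) (n2 _)

variable {A β}

theorem S_pin (c : ℝ) {R N : ℤ} (hR : 0 ≤ R)
    (hN : ∀ q : Bool → ℤ, (∀ x, |q x| ≤ R) → hbB A (fun v => q (β v)) ≤ N)
    (Φ : (St A → ℤ) → ℝ) :
    S (geo A β) (fun _ => c) (Upin A) (Mx A R N) Φ =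
      ∑ ω ∈ conf A, wt c A ω * Φ (ofH A (fun _ => 0) (ω.1, ω.2.1)) := by
  have h := S_fib A β c R N hN (fun q => if q true ≤ 0 ∧ q false ≤ 0 then 1 else 0) Φ
  have h0 : S (geo A β) (fun _ => c) (Upin A) (Mx A R N) Φ = _ := h
  rw [h0, Finset.sum_eq_single (fun _ => (0 : ℤ))]
  · rw [if_pos (by simp), one_mul, ← confB_zero]
  · intro q _ hq
    rw [if_neg, zero_mul]
    rintro ⟨h1, h2⟩
    apply hq
    funext x
    cases x
    · exact abs_nonpos_iff.1 h2
    · exact abs_nonpos_iff.1 h1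
  · intro hn
    exfalso
    apply hn
    rw [Finset.mem_filter, Finset.mem_Icc]
    exact ⟨⟨fun _ => by simpa using hR, fun _ => hR⟩, fun _ => Even.zero⟩

theorem S_flt (c : ℝ) {R N : ℤ} (hR : 0 ≤ R)
    (hN : ∀ q : Bool → ℤ, (∀ x, |q x| ≤ R) → hbB A (fun v => q (β v)) ≤ N)
    (Φ : (St A → ℤ) → ℝ) :
    S (geo A β) (fun _ => c) (Uflt A) (Mx A R N) Φ =
      ∑ r ∈ (Finset.Icc (-R) R).filter (fun r => Even r),
        ∑ ω ∈ confB A (fun v => if β v then 0 else r),
          wt c A ω * Φ (ofH A (fun x => if x then 0 else r) (ω.1, ω.2.1)) := by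
  have h := S_fib A β c R N hN (fun q => if q true ≤ 0 then 1 else 0) Φ
  have h0 : S (geo A β) (fun _ => c) (Uflt A) (Mx A R N) Φ = _ := h
  rw [h0]
  symm
  refine Finset.sum_of_injOn (fun r => fun x : Bool => if x then (0 : ℤ) else r) ?_ ?_ ?_ ?_
  · intro r _ r' _ hrr
    exact congrFun hrr false
  · intro r hr
    rw [Finset.mem_coe, Finset.mem_filter, Finset.mem_Icc] at hr ⊢
    refine ⟨⟨fun x => ?_, fun x => ?_⟩, fun x => ?_⟩
    · cases x
      · exact hr.1.1
      · simpa using hR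
    · cases x
      · exact hr.1.2
      · exact hR
    · cases x
      · exact hr.2
      · exact Even.zero
  · intro q hq hqn
    rw [if_neg, zero_mul]
    intro h1
    apply hqn
    rw [Finset.mem_filter, Finset.mem_Icc] at hq
    refine ⟨q false, ?_, ?_⟩
    · rw [Finset.mem_coe, Finset.mem_filter, Finset.mem_Icc]
      exact ⟨⟨hq.1.1 false, hq.1.2 false⟩, hq.2 false⟩
    · funext x
      cases x
      · rfl
      · exact (abs_nonpos_iff.1 h1).symm
  · intro r _
    simp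

/-- coefficients on the interior sites -/
def cs (A V : Finset P2) (a : P2 → ℝ) : St A → ℝ :=
  Sum.elim (Sum.elim (fun v => if v.1 ∈ V then a v.1 else 0) (fun _ => 0)) (fun _ => 0)

theorem sum_cs {V : Finset P2} (hV : V ⊆ intVerts A) (a : P2 → ℝ) (q : Bool → ℤ)
    (w : (P2 → ℤ) × (P2 → ℤ)) :
    ∑ x, cs A V a x * (ofH A q w x : ℝ) = ∑ v ∈ V, a v * (w.1 v : ℝ) := by
  classical
  rw [Fintype.sum_sum_type, Fintype.sum_sum_type]
  simp only [cs, Sum.elim_inl, Sum.elim_inr, zero_mul, Finset.sum_const_zero, add_zero, ofH]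
  rw [Finset.sum_coe_sort (intVerts A) (fun v => (if v ∈ V then a v else 0) * (w.1 v : ℝ))]
  rw [← Finset.sum_subset hV]
  · exact Finset.sum_congr rfl fun v hv => by rw [if_pos hv]
  · intro v _ hv
    rw [if_neg hv, zero_mul]

/-- **Floating comparison**, unnormalised form. -/
theorem float_sum_le {c : ℝ} (hc : 1 ≤ c) (A : Finset P2) (β : P2 → Bool) {R : ℤ} (hR : 0 ≤ R)
    {φ : ℝ → ℝ} (hφ : ConvexOn ℝ Set.univ φ) {V : Finset P2} (hV : V ⊆ intVerts A) {a : P2 → ℝ}
    (ha : ∀ v ∈ V, 0 ≤ a v) :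
    E c A (fun ω => φ (Lin V a ω)) *
        (∑ r ∈ (Finset.Icc (-R) R).filter (fun r => Even r),
          ∑ ω ∈ confB A (fun v => if β v then 0 else r), wt c A ω) ≤
      ∑ r ∈ (Finset.Icc (-R) R).filter (fun r => Even r),
        ∑ ω ∈ confB A (fun v => if β v then 0 else r), wt c A ω * φ (Lin V a ω) := by
  classical
  obtain ⟨N, hN0, hN⟩ : ∃ N : ℤ, 0 ≤ N ∧
      ∀ q : Bool → ℤ, (∀ x, |q x| ≤ R) → hbB A (fun v => q (β v)) ≤ N := by
    refine ⟨2 * (A.card + 1) + 2 + (cornV A).card * R, by positivity, fun q hq => ?_⟩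
    unfold hbB bS
    have : ∑ v ∈ cornV A, |q (β v)| ≤ (cornV A).card * R := by
      rw [← nsmul_eq_mul]
      exact Finset.sum_le_card_nsmul _ _ _ fun v _ => hq _
    linarith
  have hcs : ∀ x, 0 ≤ cs A V a x := by
    rintro ((x | x) | x)
    · show 0 ≤ (if x.1 ∈ V then a x.1 else 0)
      split_ifs with h
      · exact ha _ h
      · exact le_rfl
    · exact le_rfl
    · exact le_rfl
  have hM : 0 ≤ Mx A R N := by
    rintro ((x | x) | x)
    · exact hN0
    · exact hR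
    · exact hN0
  have key := mono_heights (geo A β) (c := fun _ => c) (c' := fun _ => c) (fun _ => hc)
    (fun _ => le_rfl) (dom_UU A) (fun p hp => absurd rfl hp) (Mx A R N) hM
    (IncAv.of_fl (geo A β) (Fl.convex hφ hcs))
  rw [S_pin c hR hN, S_flt c hR hN, S_pin c hR hN, S_flt c hR hN] at key
  simp only [sum_cs hV, mul_one] at key
  have hZ := Z_pos hc A
  rw [E_eq_div]
  rw [div_mul_eq_mul_div, div_le_iff₀ hZ, mul_comm _ (Z c A)]
  exact key

end fib

/-! ### the outer part of a cut configuration -/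

open Classical in
theorem E_cutE_sum {c : ℝ} {F D : Finset P2} (hD : Dom D) (hne : (bdV D).Nonempty)
    (Φ : ℤ → Cfg → ℝ) :
    E c F (fun ω => if CutE D ω then Φ (level D ω) ω else 0) =
      ∑ q ∈ (Finset.Icc (-(hb F)) (hb F)).filter (fun q => Even q),
        E c F (fun ω => if CutAt D q ω then Φ q ω else 0) := by
  rw [← E_sum]
  refine E_congr' fun ω hω hok => ?_
  by_cases hcut : CutE D ω
  · rw [if_pos hcut]
    have hA := cutAt_level hD hω.even hcut hok
    rw [Finset.sum_eq_single (level D ω)]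
    · rw [if_pos hA]
    · intro q _ hq
      rw [if_neg]
      intro h
      exact hq (h.level_eq hne).symm
    · intro h
      exfalso
      apply h
      obtain ⟨w, _, h1⟩ := level_of_mem hne ω
      rw [h1, Finset.mem_filter, Finset.mem_Icc]
      exact ⟨abs_le.1 (hω.abs_vert w), hω.even w⟩
  · rw [if_neg hcut]
    symm
    refine Finset.sum_eq_zero fun q _ => ?_
    rw [if_neg]
    intro h
    exact hcut h.cutE

open Classical in
theorem E_cutAt_out {c : ℝ} {F D : Finset P2} {q : ℤ} (hsep : Ann770.Sep D F) (hq : Even q)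
    {V : Finset P2} (hV : V ⊆ intVerts (F \ D)) (a : P2 → ℝ) (φ : ℝ → ℝ) :
    E c F (fun ω => if CutAt D q ω then φ (∑ v ∈ V, a v * ((ω.1 v : ℝ) - q)) else 0) =
      Z c D / Z c F * ∑ ω ∈ confB (F \ D) (fun v => if tch D v then 0 else -q),
        wt c (F \ D) ω * φ (Lin V a ω) := by
  have h1 := sum_cut_wt c hsep hq (fun ω => φ (∑ v ∈ V, a v * ((ω.1 v : ℝ) - q)))
  have h2 : ∑ ω ∈ conf F, wt c F ω *
      (if CutAt D q ω then φ (∑ v ∈ V, a v * ((ω.1 v : ℝ) - q)) else 0) =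
      ∑ ω ∈ cutConf F D q, wt c F ω * φ (∑ v ∈ V, a v * ((ω.1 v : ℝ) - q)) := by
    unfold cutConf
    rw [Finset.sum_filter]
    refine Finset.sum_congr rfl fun ω _ => ?_
    split_ifs <;> simp
  rw [E_eq_div, h2, h1]
  have h3 : ∀ α ∈ confB (F \ D) (bD D q), ∀ β ∈ conf D,
      wt c (F \ D) α * wt c D β * φ (∑ v ∈ V, a v * (((glue D q α β).1 v : ℝ) - q)) =
      wt c D β * (wt c (F \ D) α * φ (∑ v ∈ V, a v * ((α.1 v : ℝ) - q))) := by
    intro α _ β _
    have : ∑ v ∈ V, a v * (((glue D q α β).1 v : ℝ) - q) = ∑ v ∈ V, a v * ((α.1 v : ℝ) - q) := by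
      refine Finset.sum_congr rfl fun v hv => ?_
      have hv' : v ∉ intVerts D := fun h =>
        not_tch_of_intVerts_sdiff (hV hv) (tch_of_intVerts h)
      simp only [glue, hv', if_false]
    rw [this]; ring
  rw [Finset.sum_congr rfl fun α hα => Finset.sum_congr rfl fun β hβ => h3 α hα β hβ]
  simp only [← Finset.sum_mul]
  rw [← Finset.mul_sum]
  -- shift
  have h4 : ∑ α ∈ confB (F \ D) (bD D q), wt c (F \ D) α * φ (∑ v ∈ V, a v * ((α.1 v : ℝ) - q)) =
      ∑ ω ∈ confB (F \ D) (fun v => if tch D v then 0 else -q),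
        wt c (F \ D) ω * φ (Lin V a ω) := by
    have hb1 : (fun v => bD D q v + -q) = (fun v => if tch D v then (0 : ℤ) else -q) := by
      funext v
      unfold bD
      split_ifs <;> ring
    have hb2 : (fun v => (if tch D v then (0 : ℤ) else -q) + q) = bD D q := by
      funext v
      unfold bD
      split_ifs <;> ring
    refine Finset.sum_bij' (fun ω _ => shB (F \ D) (-q) ω) (fun ω _ => shB (F \ D) q ω)
      ?_ ?_ ?_ ?_ ?_
    · intro ω hω
      have := (mem_confB.1 hω).shift (a := -q) hq.neg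
      rw [hb1] at this
      exact mem_confB.2 this
    · intro ω hω
      have := (mem_confB.1 hω).shift (a := q) hq
      rw [hb2] at this
      exact mem_confB.2 this
    · intro ω _
      rw [shB_shB, neg_add_cancel, shB_zero]
    · intro ω _
      rw [shB_shB, add_neg_cancel, shB_zero]
    · intro ω _
      rw [wt_shB]
      congr 2
      unfold Lin
      refine Finset.sum_congr rfl fun v _ => ?_
      show a v * ((ω.1 v : ℝ) - q) = a v * ((ω.1 v + -q : ℤ) : ℝ)
      push_cast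
      ring
  rw [h4]
  unfold Z
  ring

open Classical in
/-- **Floating comparison.** -/
theorem float_le {c : ℝ} (hc : 1 ≤ c) {F D : Finset P2} (hD : Dom D) (hne : D.Nonempty)
    (hsep : Ann770.Sep D F) {φ : ℝ → ℝ} (hφ : ConvexOn ℝ Set.univ φ)
    {V : Finset P2} (hV : V ⊆ intVerts (F \ D)) {a : P2 → ℝ} (ha : ∀ v ∈ V, 0 ≤ a v) :
    E c (F \ D) (fun ω => φ (Lin V a ω)) * E c F (fun ω => if CutE D ω then 1 else 0) ≤
      E c F (fun ω => if CutE D ω then φ (∑ v ∈ V, a v * ((ω.1 v : ℝ) - level D ω)) else 0) := by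
  have hbd : (bdV D).Nonempty := by
    by_contra h
    have := (bdV_nonempty_of_int (Finset.not_nonempty_iff_eq_empty.1 h)).2
    rw [this] at hne
    simp at hne
  have hR : 0 ≤ hb F := by unfold hb; positivity
  have key := float_sum_le hc (F \ D) (tch D) hR hφ hV ha
  have e1 := E_cutE_sum (c := c) (F := F) hD hbd (fun _ _ => 1)
  have e2 := E_cutE_sum (c := c) (F := F) hD hbd
    (fun q ω => φ (∑ v ∈ V, a v * ((ω.1 v : ℝ) - q)))
  -- reindex `r = -q`
  have hneg : ∀ f : ℤ → ℝ, ∑ q ∈ (Finset.Icc (-(hb F)) (hb F)).filter (fun q => Even q), f (-q) =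
      ∑ r ∈ (Finset.Icc (-(hb F)) (hb F)).filter (fun q => Even q), f r := by
    intro f
    refine Finset.sum_bij' (fun q _ => -q) (fun q _ => -q) ?_ ?_ ?_ ?_ ?_
    · intro q hq
      rw [Finset.mem_filter, Finset.mem_Icc] at hq ⊢
      exact ⟨⟨by linarith [hq.1.2], by linarith [hq.1.1]⟩, hq.2.neg⟩
    · intro q hq
      rw [Finset.mem_filter, Finset.mem_Icc] at hq ⊢
      exact ⟨⟨by linarith [hq.1.2], by linarith [hq.1.1]⟩, hq.2.neg⟩
    · intro q _; ring
    · intro q _; ring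
    · intro q _; rfl
  have hk : 0 ≤ Z c D / Z c F := div_nonneg (Z_pos hc D).le (Z_pos hc F).le
  have g1 : E c F (fun ω => if CutE D ω then 1 else 0) = Z c D / Z c F *
      ∑ r ∈ (Finset.Icc (-(hb F)) (hb F)).filter (fun q => Even q),
        ∑ ω ∈ confB (F \ D) (fun v => if tch D v then 0 else r), wt c (F \ D) ω := by
    rw [e1, ← hneg (fun r => ∑ ω ∈ confB (F \ D) (fun v => if tch D v then 0 else r),
      wt c (F \ D) ω), Finset.mul_sum]
    refine Finset.sum_congr rfl fun q hq => ?_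
    rw [Finset.mem_filter] at hq
    have := E_cutAt_out (c := c) hsep hq.2 (Finset.empty_subset (intVerts (F \ D)))
      a (fun _ => 1)
    simpa using this
  have g2 : E c F (fun ω => if CutE D ω then
      φ (∑ v ∈ V, a v * ((ω.1 v : ℝ) - level D ω)) else 0) = Z c D / Z c F *
      ∑ r ∈ (Finset.Icc (-(hb F)) (hb F)).filter (fun q => Even q),
        ∑ ω ∈ confB (F \ D) (fun v => if tch D v then 0 else r),
          wt c (F \ D) ω * φ (Lin V a ω) := by
    rw [e2, ← hneg (fun r => ∑ ω ∈ confB (F \ D) (fun v => if tch D v then 0 else r),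
      wt c (F \ D) ω * φ (Lin V a ω)), Finset.mul_sum]
    refine Finset.sum_congr rfl fun q hq => ?_
    rw [Finset.mem_filter] at hq
    exact E_cutAt_out hsep hq.2 hV a φ
  rw [g1, g2]
  calc _ = Z c D / Z c F * (E c (F \ D) (fun ω => φ (Lin V a ω)) *
        ∑ r ∈ (Finset.Icc (-(hb F)) (hb F)).filter (fun q => Even q),
          ∑ ω ∈ confB (F \ D) (fun v => if tch D v then 0 else r), wt c (F \ D) ω) := by ring
    _ ≤ _ := mul_le_mul_of_nonneg_left key hk

end Crest.Agent.R161.Flt702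
end
end

-- ▼ part R161/Ha1_702
section

/-!
# A zero boundary domain with a hole against the big domain (helper702, R161 block H-a)

`hull_le` : if `ball b m` is outside `F'`, `F' ⊆ F`, `ball b (m+1) ⊆ F`, `a ≥ 0` lives on the interior
vertices of `F'` and `g` inside `ball b n` with the same total mass, then
`E_F' (Lin V a)² * P_F(cut circuit around ball b n inside ball b m) ≤ E_F (Lin V a - Lin W g)²`.
-/

set_option autoImplicit false

noncomputable section

namespace Crest.Agent.R161.Ha702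

open Finset Crest.Agent.R161.Geo729 Crest.Agent.R161.Defs372
open Crest.Agent.R161.Dmp341 Crest.Agent.R161.Flip228 Crest.Agent.R161.Ifc372
open Crest.Agent.R161.Out868 (mem_ball DI HI dom_ball ball_mono ball_sub_HI HI_sub HI_dom HI_empty
  circ_of_HI DI_iff self_mem_ball DI_neg circ_iff_HI)
open Crest.Agent.R161.Hull374

theorem intVerts_mono' {F F' : Finset P2} (h : F ⊆ F') : intVerts F ⊆ intVerts F' :=
  Sand375.intVerts_mono h

/-- enlarging the domain and the coefficients -/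
theorem E_sq_le {c : ℝ} (hc : 1 ≤ c) {F F' : Finset P2} (hF : F ⊆ F') (V : Finset P2)
    {g a : P2 → ℝ} (h : ∀ v ∈ V, |g v| ≤ a v) :
    E c F (fun ω => Lin V g ω ^ 2) ≤ E c F' (fun ω => Lin V a ω ^ 2) := by
  classical
  have key := Sand375.cvx hF hc V (a := fun v => if v ∈ V then g v else 0)
    (b := fun v => if v ∈ V then a v else 0) (fun v => by
      split_ifs with hv
      · exact h v hv
      · simp) (φ := fun x => x ^ 2) (Even.convexOn_pow (by decide))
  have e1 : ∀ (f : P2 → ℝ) (ω : Cfg), ∑ v ∈ V, (ω.1 v : ℝ) * (if v ∈ V then f v else 0) =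
      Lin V f ω := by
    intro f ω
    unfold Lin
    exact Finset.sum_congr rfl fun v hv => by rw [if_pos hv, mul_comm]
  simp only [e1] at key
  exact key

theorem sep_of_ball {b : P2} {m : ℕ} {F D : Finset P2} (hD : D ⊆ ball b m)
    (h : ball b (m + 1) ⊆ F) : Ann770.Sep D F := by
  intro v hv
  obtain ⟨f, hf, hvf⟩ := Ann770.tch_iff.1 hv
  have h1 := mem_ball.1 (hD hf)
  rw [mem_intVerts]
  obtain ⟨x, y⟩ := v
  obtain ⟨p, q⟩ := f
  simp only [Geo729.IsCorner, Prod.mk.injEq] at hvf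
  simp only at h1
  have key : ∀ z : P2, b.1 - (m + 1) ≤ z.1 → z.1 ≤ b.1 + m → b.2 - (m + 1) ≤ z.2 →
      z.2 ≤ b.2 + m → z ∈ F := by
    intro z h2 h3 h4 h5
    apply h
    rw [mem_ball]
    push_cast
    omega
  refine ⟨?_, ?_, ?_, ?_⟩ <;> apply key <;> simp only <;> omega

open Classical in
theorem Lin_out {D V : Finset P2} (h : ∀ v ∈ V, v ∉ intVerts D) (a : P2 → ℝ) :
    OutLoc D (fun ω => ∑ v ∈ V, a v * ((ω.1 v : ℝ) - level D ω)) := by
  intro ω ω' h1 h2 h3
  have e := outLoc_level_self D ω ω' h1 h2 h3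
  refine Finset.sum_congr rfl fun v hv => ?_
  rw [h1 v (h v hv), e]

open Classical in
/-- the hull inequality for one value of the hull -/
theorem hull_one {c : ℝ} (hc : 1 ≤ c) {F' F D : Finset P2} {b : P2} {n m : ℕ} (hn : 1 ≤ n)
    (hDdom : Dom D) (hDm : D ⊆ ball b m) (hnD : ball b n ⊆ D)
    (hdis : Disjoint (ball b m) F') (hF' : F' ⊆ F) (hsep : ball b (m + 1) ⊆ F)
    {V W : Finset P2} (hV : V ⊆ intVerts F') (hW : W ⊆ intVerts (ball b n)) {a g : P2 → ℝ}
    (ha : ∀ v ∈ V, 0 ≤ a v) (hm : ∑ v ∈ V, a v = ∑ w ∈ W, g w) :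
    E c F' (fun ω => Lin V a ω ^ 2) * E c F (fun ω => if DI b n m ω = D then 1 else 0) ≤
      E c F (fun ω => if DI b n m ω = D then (Lin V a ω - Lin W g ω) ^ 2 else 0) := by
  have hne : D.Nonempty := ⟨b, hnD (self_mem_ball hn)⟩
  have hDF : D ⊆ F := fun f hf => hsep (ball_mono b (Nat.le_succ m) (hDm hf))
  have hSep := sep_of_ball hDm hsep
  have hdis' : Disjoint D F' := Finset.disjoint_of_subset_left hDm hdis
  have hsub : F' ⊆ F \ D := fun f hf =>
    Finset.mem_sdiff.2 ⟨hF' hf, fun h => Finset.disjoint_left.1 hdis' h hf⟩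
  have hV2 : V ⊆ intVerts (F \ D) := hV.trans (intVerts_mono' hsub)
  have hVD : ∀ v ∈ V, v ∉ intVerts D := fun v hv h =>
    Ann770.not_tch_of_intVerts_sdiff (hV2 hv) (Ann770.tch_of_intVerts h)
  have hWD : W ⊆ intVerts D := hW.trans (intVerts_mono' hnD)
  set X : Cfg → ℝ := fun ω => ∑ v ∈ V, a v * ((ω.1 v : ℝ) - level D ω) with hX
  set f : Cfg → ℝ := fun β => if DI b n m β = D then 1 else 0 with hf
  have hXout : OutLoc D X := Lin_out hVD a
  have hX2out : OutLoc D (fun ω => X ω ^ 2) := OutLoc.comp hXout (fun x => x ^ 2)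
  have hf0 : 0 ≤ E c D f := E_nonneg hc fun ω _ => by simp only [hf]; split_ifs <;> norm_num
  -- `1{DI = D} G = 1_CutE G f(insL)`
  have hI : ∀ (G : Cfg → ℝ) (ω : Cfg), (if DI b n m ω = D then G ω else 0) =
      if CutE D ω then G ω * f (insL D ω) else 0 := by
    intro G ω
    have := DI_iff (x := b) (n := n) (m := m) hn hne ω
    simp only [hf]
    by_cases h1 : CutE D ω <;> by_cases h2 : DI b n m (insL D ω) = D
    · rw [if_pos (this.2 ⟨h1, h2⟩), if_pos h1, if_pos h2, mul_one]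
    · rw [if_neg (fun h => h2 (this.1 h).2), if_pos h1, if_neg h2, mul_zero]
    · rw [if_neg (fun h => h1 (this.1 h).1), if_neg h1]
    · rw [if_neg (fun h => h1 (this.1 h).1), if_neg h1]
  -- (1)
  have e1 : E c F (fun ω => if DI b n m ω = D then 1 else 0) =
      E c F (fun ω => if CutE D ω then 1 else 0) * E c D f := by
    rw [← E_cutE hc hDF hDdom (g := fun _ => 1) (f := f) (fun _ _ _ _ _ => rfl)]
    exact E_congr fun ω _ => hI (fun _ => 1) ω
  -- (2)
  have e2 : E c F (fun ω => if DI b n m ω = D then X ω ^ 2 else 0) =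
      E c F (fun ω => if CutE D ω then X ω ^ 2 else 0) * E c D f := by
    rw [← E_cutE hc hDF hDdom (g := fun ω => X ω ^ 2) (f := f) hX2out]
    exact E_congr fun ω _ => hI (fun ω => X ω ^ 2) ω
  -- (3)
  have e3 := Flt702.float_le hc hDdom hne hSep (φ := fun x => x ^ 2)
    (Even.convexOn_pow (by decide)) hV2 ha
  -- (4)
  have e4 : E c F' (fun ω => Lin V a ω ^ 2) ≤ E c (F \ D) (fun ω => Lin V a ω ^ 2) :=
    E_sq_le hc hsub V fun v hv => (abs_of_nonneg (ha v hv)).le
  -- (5)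
  set Y : Cfg → ℝ := fun ω => Lin W g (insL D ω) with hY
  have hXY : ∀ ω, Lin V a ω - Lin W g ω = X ω - Y ω := by
    intro ω
    have h1 : X ω = Lin V a ω - (∑ v ∈ V, a v) * level D ω := by
      simp only [hX, Lin]
      rw [Finset.sum_mul, ← Finset.sum_sub_distrib]
      exact Finset.sum_congr rfl fun v _ => by ring
    have h2 : Y ω = Lin W g ω - (∑ w ∈ W, g w) * level D ω := by
      simp only [hY, Lin]
      rw [Finset.sum_mul, ← Finset.sum_sub_distrib]
      refine Finset.sum_congr rfl fun w hw => ?_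
      rw [insL_K (hWD hw)]
      push_cast
      ring
    rw [h1, h2, hm]
    ring
  have e5 : E c F (fun ω => if DI b n m ω = D then X ω * Y ω else 0) = 0 := by
    have h1 : E c D (fun β => f β * Lin W g β) = 0 := by
      refine E_odd c D fun ω => ?_
      have h2 : f (negC D ω) = f ω := rfl
      have h3 : Lin W g (negC D ω) = - Lin W g ω := by
        unfold Lin
        rw [← Finset.sum_neg_distrib]
        refine Finset.sum_congr rfl fun v _ => ?_
        simp [negC]
      rw [h2, h3]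
      ring
    have h4 := E_cutE hc hDF hDdom (g := X) (f := fun β => f β * Lin W g β) hXout
    rw [h1, mul_zero] at h4
    refine Eq.trans (E_congr fun ω _ => ?_) h4
    rw [hI (fun ω => X ω * Y ω) ω]
    split_ifs
    · simp only [hY]; ring
    · rfl
  have e6 : E c F (fun ω => if DI b n m ω = D then X ω ^ 2 else 0) ≤
      E c F (fun ω => if DI b n m ω = D then (Lin V a ω - Lin W g ω) ^ 2 else 0) := by
    have h1 : E c F (fun ω => if DI b n m ω = D then X ω ^ 2 else 0) -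
        2 * E c F (fun ω => if DI b n m ω = D then X ω * Y ω else 0) ≤
        E c F (fun ω => if DI b n m ω = D then (Lin V a ω - Lin W g ω) ^ 2 else 0) := by
      rw [← E_smul, ← E_sub]
      refine E_mono hc fun ω _ => ?_
      split_ifs
      · rw [hXY ω]
        nlinarith [sq_nonneg (Y ω)]
      · simp
    rw [e5] at h1
    linarith
  have hC0 : 0 ≤ E c F (fun ω => if CutE D ω then (1 : ℝ) else 0) :=
    E_nonneg hc fun ω _ => by split_ifs <;> norm_num
  calc E c F' (fun ω => Lin V a ω ^ 2) * E c F (fun ω => if DI b n m ω = D then 1 else 0)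
      = (E c F' (fun ω => Lin V a ω ^ 2) * E c F (fun ω => if CutE D ω then 1 else 0)) *
          E c D f := by rw [e1]; ring
    _ ≤ (E c (F \ D) (fun ω => Lin V a ω ^ 2) * E c F (fun ω => if CutE D ω then 1 else 0)) *
          E c D f := mul_le_mul_of_nonneg_right (mul_le_mul_of_nonneg_right e4 hC0) hf0
    _ ≤ E c F (fun ω => if CutE D ω then X ω ^ 2 else 0) * E c D f :=
        mul_le_mul_of_nonneg_right e3 hf0
    _ = E c F (fun ω => if DI b n m ω = D then X ω ^ 2 else 0) := e2.symm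
    _ ≤ _ := e6

open Classical in
/-- **Hull inequality.** -/
theorem hull_le {c : ℝ} (hc : 1 ≤ c) {F' F : Finset P2} {b : P2} {n m : ℕ} (hn : 1 ≤ n)
    (hdis : Disjoint (ball b m) F') (hF' : F' ⊆ F) (hsep : ball b (m + 1) ⊆ F)
    {V W : Finset P2} (hV : V ⊆ intVerts F') (hW : W ⊆ intVerts (ball b n)) {a g : P2 → ℝ}
    (ha : ∀ v ∈ V, 0 ≤ a v) (hm : ∑ v ∈ V, a v = ∑ w ∈ W, g w) :
    E c F' (fun ω => Lin V a ω ^ 2) *
        E c F (fun ω => if Circ (cutE ω) b n m then 1 else 0) ≤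
      E c F (fun ω => (Lin V a ω - Lin W g ω) ^ 2) := by
  set 𝒟 : Finset (Finset P2) := (ball b m).powerset.filter fun D => Dom D ∧ ball b n ⊆ D with h𝒟
  have hmem : ∀ ω, Circ (cutE ω) b n m → DI b n m ω ∈ 𝒟 := by
    intro ω h
    rw [h𝒟, Finset.mem_filter, Finset.mem_powerset]
    exact ⟨HI_sub, HI_dom hn h, ball_sub_HI h⟩
  have hnot : ∀ ω, ¬ Circ (cutE ω) b n m → DI b n m ω ∉ 𝒟 := by
    intro ω h hD
    rw [h𝒟, Finset.mem_filter, Finset.mem_powerset] at hD
    have := hD.2.2 (self_mem_ball hn)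
    exact h (circ_of_HI this)
  have hdec : ∀ (G : Cfg → ℝ) (ω : Cfg), (if Circ (cutE ω) b n m then G ω else 0) =
      ∑ D ∈ 𝒟, if DI b n m ω = D then G ω else 0 := by
    intro G ω
    rw [Finset.sum_ite_eq]
    by_cases h : Circ (cutE ω) b n m
    · rw [if_pos h, if_pos (hmem ω h)]
    · rw [if_neg h, if_neg (hnot ω h)]
  have h1 : E c F (fun ω => if Circ (cutE ω) b n m then 1 else 0) =
      ∑ D ∈ 𝒟, E c F (fun ω => if DI b n m ω = D then 1 else 0) := by
    rw [← E_sum]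
    exact E_congr fun ω _ => hdec (fun _ => 1) ω
  have h2 : ∑ D ∈ 𝒟, E c F (fun ω => if DI b n m ω = D then (Lin V a ω - Lin W g ω) ^ 2 else 0) ≤
      E c F (fun ω => (Lin V a ω - Lin W g ω) ^ 2) := by
    rw [← E_sum]
    refine E_mono hc fun ω _ => ?_
    rw [← hdec (fun ω => (Lin V a ω - Lin W g ω) ^ 2) ω]
    split_ifs
    · exact le_rfl
    · exact sq_nonneg _
  rw [h1, Finset.mul_sum]
  refine (Finset.sum_le_sum fun D hD => ?_).trans h2
  rw [h𝒟, Finset.mem_filter, Finset.mem_powerset] at hD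
  exact hull_one hc hn hD.2.1 hD.1 hD.2.2 hdis hF' hsep hV hW ha hm

end Crest.Agent.R161.Ha702
end
end

-- ▼ part R161/Ha2_702
section

/-!
# Block H-a: assembly from the plane bound (helper702, R161)

`PlaneSq P` : second moments of mass-zero smeared heights of the plane state at scale `s` are bounded.
`ha_of_planeSq` : `HA c` from `IsState c P`, `LemU c` and `PlaneSq P`.
-/

set_option autoImplicit false

noncomputable section

namespace Crest.Agent.R161.Ha702

open Finset hiding box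
open MeasureTheory Crest.Agent.R161.Geo729 Crest.Agent.R161.Defs372
open Crest.Agent.R161.Dmp341 Crest.Agent.R161.Flip228 Crest.Agent.R161.Ifc372
open Crest.Agent.R161.Out868 (mem_ball DI HI dom_ball ball_mono ball_sub_HI HI_sub HI_dom HI_empty
  circ_of_HI DI_iff self_mem_ball DI_neg circ_iff_HI circ_mono)
open Crest.Agent.R161.Hull374 Crest.Agent.R161.Dual374

/-- second moments of mass-zero smeared heights of the plane state -/
def PlaneSq (P : Measure Cfg) : Prop :=
  ∀ A : ℕ, ∃ C : ℝ, ∀ s : ℕ, 1 ≤ s → ∀ (b : P2) (V : Finset P2) (h : P2 → ℝ),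
    V ⊆ ball b (A * s) → (∀ v ∈ V, |h v| ≤ A / (s : ℝ) ^ 2) → ∑ v ∈ V, h v = 0 →
      ∫ ω, Lin V h ω ^ 2 ∂P ≤ C

theorem circ_sizes {Z : Edge → Prop} {x : P2} {n n' m m' : ℕ} (hn : n' ≤ n) (hm : m ≤ m')
    (h : Circ Z x n m) : Circ Z x n' m' := by
  intro f hf
  obtain ⟨a, ha, h2⟩ := hf
  have h3 : f ∈ (ball x m : Set P2) := h ⟨a, ball_mono x hn ha, h2⟩
  exact ball_mono x hm h3

theorem card_ball (b : P2) (n : ℕ) : (ball b n).card = (2 * n) * (2 * n) := by
  unfold ball
  rw [Finset.card_product, Int.card_Icc, Int.card_Icc]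
  congr 1 <;> omega

theorem Lin_norm0 {U : Finset P2} {h : P2 → ℝ} (h0 : ∑ v ∈ U, h v = 0) (ω : Cfg) :
    Lin U h (norm0 ω) = Lin U h ω := by
  unfold Lin
  have : ∀ v ∈ U, h v * ((norm0 ω).1 v : ℝ) = h v * (ω.1 v : ℝ) - h v * (ω.1 (0, 0) : ℝ) := by
    intro v _
    have : (norm0 ω).1 v = ω.1 v + -ω.1 (0, 0) := rfl
    rw [this]
    push_cast
    ring
  rw [Finset.sum_congr rfl this, Finset.sum_sub_distrib, ← Finset.sum_mul, h0, zero_mul, sub_zero]

theorem loc_Lin_sq (U : Finset P2) (h : P2 → ℝ) :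
    Loc (U : Set P2) (fun ω => Lin U h ω ^ 2) := by
  intro ω ω' hag
  have : Lin U h ω = Lin U h ω' := by
    unfold Lin
    exact Finset.sum_congr rfl fun v hv => by rw [(hag v hv).1]
  simp only [this]

open Classical in
/-- a cut circuit in `ball b s \ ball b n`, `n` much smaller than `s` -/
theorem circ_half {c : ℝ} (hc : 1 ≤ c) {J L : ℕ} (hL : 2 ≤ L) {G : Finset P2} {b : P2} {n s : ℕ}
    (hns : 2 * (L ^ J * n) ≤ s)
    (hU : E c G (fun ω => indP (fun ω => ∀ j : ℕ, j < J →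
      ¬ Circ (plusE ω) b (L ^ j * n) (2 * (L ^ j * n))) ω) ≤ 1 / 2) :
    1 / 2 ≤ E c G (fun ω => if Circ (cutE ω) b n s then 1 else 0) := by
  have h1 : E c G (fun _ => 1) ≤ E c G (fun ω => (if Circ (cutE ω) b n s then 1 else 0) +
      indP (fun ω => ∀ j : ℕ, j < J → ¬ Circ (plusE ω) b (L ^ j * n) (2 * (L ^ j * n))) ω) := by
    refine E_mono hc fun ω _ => ?_
    unfold indP
    by_cases h2 : Circ (cutE ω) b n s
    · rw [if_pos h2]
      split_ifs <;> norm_num
    · rw [if_neg h2, if_pos, zero_add]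
      intro j hj h3
      apply h2
      have h4 : Circ (cutE ω) b (L ^ j * n) (2 * (L ^ j * n)) := circ_mono (fun e he => he.1) h3
      refine circ_sizes ?_ ?_ h4
      · exact Nat.le_mul_of_pos_left n (Nat.pow_pos (by omega))
      · refine le_trans ?_ hns
        have : L ^ j ≤ L ^ J := Nat.pow_le_pow_right (by omega) hj.le
        exact Nat.mul_le_mul_left 2 (Nat.mul_le_mul_right n this)
  rw [E_const hc, E_add] at h1
  linarith

theorem ha_of_planeSq {c : ℝ} (hc : 1 ≤ c) {P : Measure Cfg} (hP : IsState c P) (hU : LemU c)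
    (hPl : PlaneSq P) : BdI228.HA c := by
  classical
  intro A₀
  obtain ⟨J, n0, L, hL, hUJ⟩ := hU (1 / 2) (by norm_num)
  obtain ⟨C, hC⟩ := hPl (64 * A₀ ^ 3 * L ^ (2 * J) + A₀ + 1)
  refine ⟨2 * (C + 1), 4 * L ^ J * (n0 + 1), fun s hs F hF b hdis V g hV hg => ?_⟩
  have hLJ : 1 ≤ L ^ J := Nat.one_le_pow _ _ (by omega)
  obtain ⟨n, hn⟩ : ∃ n, n = s / (2 * L ^ J) := ⟨_, rfl⟩
  have hpos : 0 < 2 * L ^ J := by positivity
  have hn1 : n0 + 1 ≤ n := by
    rw [hn, Nat.le_div_iff_mul_le hpos]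
    nlinarith
  have hn2 : 2 * (L ^ J * n) ≤ s := by
    have := Nat.div_mul_le_self s (2 * L ^ J)
    rw [← hn] at this
    linarith
  have hn3 : s ≤ 4 * L ^ J * n := by
    have h1 : s < (n + 1) * (2 * L ^ J) := by
      rw [hn]
      have h1 := Nat.div_add_mod s (2 * L ^ J)
      have h2 := Nat.mod_lt s hpos
      calc s = 2 * L ^ J * (s / (2 * L ^ J)) + s % (2 * L ^ J) := h1.symm
        _ < 2 * L ^ J * (s / (2 * L ^ J)) + 2 * L ^ J := Nat.add_lt_add_left h2 _
        _ = (s / (2 * L ^ J) + 1) * (2 * L ^ J) := by ring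
    have h2 : (n + 1) * (2 * L ^ J) ≤ (2 * n) * (2 * L ^ J) :=
      Nat.mul_le_mul_right _ (by omega)
    calc s ≤ (2 * n) * (2 * L ^ J) := h1.le.trans h2
      _ = 4 * L ^ J * n := by ring
  have hn0 : 1 ≤ n := by omega
  have hs1 : 1 ≤ s := by
    refine le_trans ?_ hs
    have : 1 ≤ L ^ J * (n0 + 1) := Nat.mul_pos hLJ (by omega)
    nlinarith
  have hsR : (0 : ℝ) < s := by exact_mod_cast hs1
  have hnR : (0 : ℝ) < n := by exact_mod_cast hn0
  -- data
  set V' : Finset P2 := V ∩ intVerts F with hV'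
  set W : Finset P2 := Finset.Icc b.1 (b.1 + n - 1) ×ˢ Finset.Icc b.2 (b.2 + n - 1) with hW
  set m : ℝ := ∑ v ∈ V', |g v| with hm
  have hWcard : (W.card : ℝ) = (n : ℝ) ^ 2 := by
    rw [hW, Finset.card_product, Int.card_Icc, Int.card_Icc,
      show (b.1 + n - 1 + 1 - b.1).toNat = n by omega,
      show (b.2 + n - 1 + 1 - b.2).toNat = n by omega]
    push_cast
    ring
  have hWint : W ⊆ intVerts (ball b n) := by
    intro v hv
    rw [hW, Finset.mem_product, Finset.mem_Icc, Finset.mem_Icc] at hv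
    rw [mem_intVerts]
    have key : ∀ z : P2, b.1 - n ≤ z.1 → z.1 ≤ b.1 + n - 1 → b.2 - n ≤ z.2 →
        z.2 ≤ b.2 + n - 1 → z ∈ ball b n := by
      intro z h2 h3 h4 h5
      exact mem_ball.2 ⟨h2, h3, h4, h5⟩
    refine ⟨?_, ?_, ?_, ?_⟩ <;> apply key <;> simp only <;> omega
  have hVint : V' ⊆ intVerts F := Finset.inter_subset_right
  have hm0 : 0 ≤ m := Finset.sum_nonneg fun _ _ => abs_nonneg _
  have hmle : m ≤ 4 * (A₀ : ℝ) ^ 3 := by
    have h1 : m ≤ ∑ v ∈ V, |g v| :=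
      Finset.sum_le_sum_of_subset_of_nonneg Finset.inter_subset_left fun _ _ _ => abs_nonneg _
    have h2 : ∑ v ∈ V, |g v| ≤ V.card • ((A₀ : ℝ) / (s : ℝ) ^ 2) :=
      Finset.sum_le_card_nsmul _ _ _ hg
    have h3 : (V.card : ℝ) ≤ (2 * (A₀ * s)) * (2 * (A₀ * s)) := by
      have := Finset.card_le_card hV
      rw [card_ball] at this
      exact_mod_cast this
    rw [nsmul_eq_mul] at h2
    have h4 : (V.card : ℝ) * ((A₀ : ℝ) / (s : ℝ) ^ 2) ≤
        ((2 * (A₀ * s)) * (2 * (A₀ * s))) * ((A₀ : ℝ) / (s : ℝ) ^ 2) :=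
      mul_le_mul_of_nonneg_right h3 (by positivity)
    have h5 : ((2 * ((A₀ : ℝ) * s)) * (2 * (A₀ * s))) * ((A₀ : ℝ) / (s : ℝ) ^ 2) =
        4 * (A₀ : ℝ) ^ 3 := by
      field_simp
      ring
    linarith
  set g₀ : ℝ := m / (n : ℝ) ^ 2 with hg₀
  have hg₀0 : 0 ≤ g₀ := by positivity
  have hg₀le : g₀ ≤ (64 * (A₀ : ℝ) ^ 3 * (L : ℝ) ^ (2 * J)) / (s : ℝ) ^ 2 := by
    rw [hg₀, div_le_div_iff₀ (by positivity) (by positivity)]
    have h1 : (s : ℝ) ≤ 4 * (L : ℝ) ^ J * n := by exact_mod_cast hn3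
    have h2 : (s : ℝ) ^ 2 ≤ (4 * (L : ℝ) ^ J * n) ^ 2 := pow_le_pow_left₀ hsR.le h1 2
    calc m * (s : ℝ) ^ 2 ≤ (4 * (A₀ : ℝ) ^ 3) * (4 * (L : ℝ) ^ J * n) ^ 2 :=
          mul_le_mul hmle h2 (by positivity) (by positivity)
      _ = 64 * (A₀ : ℝ) ^ 3 * (L : ℝ) ^ (2 * J) * (n : ℝ) ^ 2 := by
          rw [mul_comm 2 J, pow_mul]; ring
  have hmass : ∑ v ∈ V', |g v| = ∑ w ∈ W, (fun _ : P2 => g₀) w := by
    rw [Finset.sum_const, nsmul_eq_mul, hWcard, hg₀, ← hm]
    field_simp
  -- combined coefficients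
  set U : Finset P2 := V' ∪ W with hUdef
  set h : P2 → ℝ := fun v => (if v ∈ V' then |g v| else 0) - (if v ∈ W then g₀ else 0) with hh
  have hsum1 : ∀ f : P2 → ℝ, ∑ v ∈ U, (if v ∈ V' then f v else 0) = ∑ v ∈ V', f v := by
    intro f
    rw [Finset.sum_ite_mem, Finset.inter_eq_right.2 Finset.subset_union_left]
  have hsum2 : ∀ f : P2 → ℝ, ∑ v ∈ U, (if v ∈ W then f v else 0) = ∑ v ∈ W, f v := by
    intro f
    rw [Finset.sum_ite_mem, Finset.inter_eq_right.2 Finset.subset_union_right]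
  have hlin : ∀ ω : Cfg, Lin U h ω = Lin V' (fun v => |g v|) ω - Lin W (fun _ => g₀) ω := by
    intro ω
    unfold Lin
    rw [← hsum1 (fun v => |g v| * (ω.1 v : ℝ)), ← hsum2 (fun v => g₀ * (ω.1 v : ℝ)),
      ← Finset.sum_sub_distrib]
    refine Finset.sum_congr rfl fun v _ => ?_
    simp only [hh]
    split_ifs <;> ring
  have hsum0 : ∑ v ∈ U, h v = 0 := by
    simp only [hh]
    rw [Finset.sum_sub_distrib, hsum1 (fun v => |g v|), hsum2 (fun _ => g₀), hmass]
    ring
  have hA : (((64 * A₀ ^ 3 * L ^ (2 * J) + A₀ + 1 : ℕ)) : ℝ) =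
      64 * (A₀ : ℝ) ^ 3 * (L : ℝ) ^ (2 * J) + A₀ + 1 := by push_cast; ring
  have hhle : ∀ v ∈ U, |h v| ≤ ((64 * A₀ ^ 3 * L ^ (2 * J) + A₀ + 1 : ℕ) : ℝ) / (s : ℝ) ^ 2 := by
    intro v hv
    rw [hA]
    have h1 : |h v| ≤ (A₀ : ℝ) / (s : ℝ) ^ 2 +
        (64 * (A₀ : ℝ) ^ 3 * (L : ℝ) ^ (2 * J)) / (s : ℝ) ^ 2 := by
      simp only [hh]
      refine (abs_sub _ _).trans (add_le_add ?_ ?_)
      · split_ifs with h2
        · rw [abs_abs]
          exact hg v (Finset.mem_inter.1 h2).1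
        · rw [abs_zero]; positivity
      · split_ifs with h2
        · rw [abs_of_nonneg hg₀0]; exact hg₀le
        · rw [abs_zero]; positivity
    refine h1.trans ?_
    rw [← add_div]
    refine div_le_div_of_nonneg_right ?_ (by positivity)
    linarith
  have hUball : U ⊆ ball b ((64 * A₀ ^ 3 * L ^ (2 * J) + A₀ + 1) * s) := by
    refine Finset.union_subset ?_ ?_
    · exact (Finset.inter_subset_left.trans hV).trans
        (ball_mono b (Nat.mul_le_mul_right s (by omega)))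
    · have hns : n ≤ (64 * A₀ ^ 3 * L ^ (2 * J) + A₀ + 1) * s := by
        have h1 : n ≤ s := by nlinarith
        exact h1.trans (Nat.le_mul_of_pos_left s (by omega))
      refine Finset.Subset.trans (fun v hv => ?_) (ball_mono b hns)
      exact corner_mem_of_int (hWint hv) (by simp [Geo729.IsCorner])
  have hplane := hC s hs1 b U h hUball hhle hsum0
  -- the big box
  obtain ⟨N1, hN1⟩ := hP.lim U (fun ω => Lin U h ω ^ 2) (loc_Lin_sq U h) 1 one_pos
  obtain ⟨N2, hN2⟩ := exists_box (F ∪ ball b (s + 1))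
  have hG := hN1 (box (max N1 N2)) (dom_box _) (box_mono (le_max_left _ _))
  have hbig : F ∪ ball b (s + 1) ⊆ box (max N1 N2) := hN2.trans (box_mono (le_max_right _ _))
  set G : Finset P2 := box (max N1 N2) with hGdef
  have hdomG : Dom G := dom_box _
  simp only [Lin_norm0 hsum0] at hG
  have hEG : E c G (fun ω => Lin U h ω ^ 2) ≤ C + 1 := by
    have := (abs_lt.1 hG).2
    linarith
  -- the hull inequality
  have hull := hull_le hc (F' := F) (F := G) (b := b) (n := n) (m := s) hn0 hdis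
    (Finset.subset_union_left.trans hbig) (Finset.subset_union_right.trans hbig)
    (V := V') (W := W) hVint hWint (a := fun v => |g v|) (g := fun _ => g₀)
    (fun _ _ => abs_nonneg _) hmass
  have hEq : E c G (fun ω => (Lin V' (fun v => |g v|) ω - Lin W (fun _ => g₀) ω) ^ 2) =
      E c G (fun ω => Lin U h ω ^ 2) := E_congr fun ω _ => by rw [hlin ω]
  rw [hEq] at hull
  have hcirc := circ_half hc hL (J := J) (G := G) (b := b) (n := n) (s := s) hn2
    (hUJ G hdomG b n (by omega))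
  have hX0 : 0 ≤ E c F (fun ω => Lin V' (fun v => |g v|) ω ^ 2) :=
    E_nonneg hc fun ω _ => sq_nonneg _
  have hfin : E c F (fun ω => Lin V' (fun v => |g v|) ω ^ 2) ≤ 2 * (C + 1) := by
    have h1 := mul_le_mul_of_nonneg_left hcirc hX0
    linarith
  -- restriction to the interior vertices
  have hres : E c F (fun ω => Lin V g ω ^ 2) = E c F (fun ω => Lin V' g ω ^ 2) := by
    refine E_congr fun ω hω => ?_
    congr 1
    unfold Lin
    symm
    refine Finset.sum_subset Finset.inter_subset_left fun v hv hv' => ?_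
    have : v ∉ intVerts F := fun h => hv' (Finset.mem_inter.2 ⟨hv, h⟩)
    rw [hω.zero v this]
    simp
  rw [hres]
  exact (E_sq_le hc (Finset.Subset.refl F) V' fun v _ => le_rfl).trans hfin

end Crest.Agent.R161.Ha702
end
end

-- ▼ part R161/HaP_228

/-!
# Row 161, block H-a, plane part (helper228 for helper702)

* `int_sub_sq` : `∫ (K x - K y)² dP = VV P (x - y)`
* `int_lin_sq` : `∫ (∑ h K)² dP = -1/2 ∑∑ h_x h_y VV P (x - y)` for mass zero `h`
* `sumW_le` : the lattice sum `∑_{|p| ≤ R} 1/|p| ≤ 6 (2R+1)`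
* `plane_sq` : uniform second moment bound for mass zero densities at every scale
-/

set_option autoImplicit false

noncomputable section

namespace Crest.Agent.R161.HaP228

open Finset MeasureTheory Crest.Agent.R161.Geo729 Crest.Agent.R161.Defs372
  Crest.Agent.R161.Ifc372 Crest.Agent.R161.Aut373

variable {c : ℝ} {P : Measure Cfg}

theorem loc_k (x : P2) {S : Finset P2} (hx : x ∈ S) : Loc (S : Set P2) (fun ω : Cfg => ω.1 x) :=
  fun _ _ h => (h x hx).1

theorem loc_diff_sq (x y : P2) :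
    Loc (({x, y} : Finset P2) : Set P2) (fun ω : Cfg => ((ω.1 x : ℝ) - ω.1 y) ^ 2) := by
  intro ω ω' h
  have h1 : ω.1 x = ω'.1 x := loc_k x (by simp) ω ω' h
  have h2 : ω.1 y = ω'.1 y := loc_k y (by simp) ω ω' h
  simp only [h1, h2]

theorem neut_diff_sq (x y : P2) : Neut (fun ω : Cfg => ((ω.1 x : ℝ) - ω.1 y) ^ 2) := by
  intro ω _ a _
  simp only [addH]
  push_cast
  ring

theorem int_sub_sq (hP : IsState c P) (x y : P2) :
    ∫ ω, ((ω.1 x : ℝ) - ω.1 y) ^ 2 ∂P = VV P (x - y) := by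
  have h := integral_aut hP (Aut.tr y) (loc_diff_sq (x - y) (0, 0)) (neut_diff_sq (x - y) (0, 0))
  unfold VV
  rw [← h]
  refine integral_congr_ae (Filter.Eventually.of_forall fun ω => ?_)
  simp only [Aut.cfg_k]
  have e1 : (Aut.tr y).V (x - y) = x := by
    show x - y + y = x
    abel
  have e2 : (Aut.tr y).V (0, 0) = y := by
    show ((0, 0) : P2) + y = y
    exact zero_add y
  rw [e1, e2]

theorem VV_zero (P : Measure Cfg) : VV P 0 = 0 := by
  have h0 : (0 : P2) = (0, 0) := rfl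
  unfold VV
  rw [h0]
  simp

theorem lin_sq_eq (V : Finset P2) (h : P2 → ℝ) (h0 : ∑ v ∈ V, h v = 0) (ω : Cfg) :
    Flip228.Lin V h ω ^ 2 =
      ∑ x ∈ V, ∑ y ∈ V, (-(1 / 2) * h x * h y) * ((ω.1 x : ℝ) - ω.1 y) ^ 2 := by
  have e1 : ∀ x ∈ V, ∑ y ∈ V, (-(1 / 2) * h x * h y) * ((ω.1 x : ℝ) - ω.1 y) ^ 2 =
      (-(1 / 2) * h x * (ω.1 x : ℝ) ^ 2) * ∑ y ∈ V, h y + (h x * ω.1 x) * Flip228.Lin V h ω
        + (-(1 / 2) * h x) * ∑ y ∈ V, h y * (ω.1 y : ℝ) ^ 2 := by
    intro x _
    unfold Flip228.Lin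
    rw [Finset.mul_sum, Finset.mul_sum, Finset.mul_sum, ← Finset.sum_add_distrib,
      ← Finset.sum_add_distrib]
    exact Finset.sum_congr rfl fun y _ => by ring
  rw [Finset.sum_congr rfl e1, h0]
  simp only [mul_zero, zero_add]
  rw [Finset.sum_add_distrib, ← Finset.sum_mul, ← Finset.sum_mul, ← Finset.mul_sum, h0]
  have e2 : ∑ x ∈ V, h x * (ω.1 x : ℝ) = Flip228.Lin V h ω := rfl
  rw [e2]
  ring

theorem int_lin_sq (hP : IsState c P) (V : Finset P2) (h : P2 → ℝ) (h0 : ∑ v ∈ V, h v = 0) :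
    ∫ ω, Flip228.Lin V h ω ^ 2 ∂P = ∑ x ∈ V, ∑ y ∈ V, (-(1 / 2) * h x * h y) * VV P (x - y) := by
  simp only [lin_sq_eq V h h0]
  rw [integral_finsetSum]
  · refine Finset.sum_congr rfl fun x _ => ?_
    rw [integral_finsetSum]
    · refine Finset.sum_congr rfl fun y _ => ?_
      rw [integral_const_mul, int_sub_sq hP]
    · intro y _
      exact (loc_integrable hP (loc_diff_sq x y)).const_mul _
  · intro x _
    refine integrable_finsetSum _ fun y _ => ?_
    exact (loc_integrable hP (loc_diff_sq x y)).const_mul _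

/-- a constant may be subtracted from the kernel -/
theorem int_lin_sq' (hP : IsState c P) (V : Finset P2) (h : P2 → ℝ) (h0 : ∑ v ∈ V, h v = 0)
    (a : ℝ) : ∫ ω, Flip228.Lin V h ω ^ 2 ∂P =
      ∑ x ∈ V, ∑ y ∈ V, (-(1 / 2) * h x * h y) * (VV P (x - y) - a) := by
  rw [int_lin_sq hP V h h0]
  refine Finset.sum_congr rfl fun x _ => ?_
  have e : ∑ y ∈ V, (-(1 / 2) * h x * h y) * (VV P (x - y) - a) =
      ∑ y ∈ V, (-(1 / 2) * h x * h y) * VV P (x - y) + (1 / 2 * h x * a) * ∑ y ∈ V, h y := by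
    rw [Finset.mul_sum, ← Finset.sum_add_distrib]
    exact Finset.sum_congr rfl fun y _ => by ring
  rw [e, h0, mul_zero, add_zero]

/-! ### lattice sum -/

/-- an upper bound for `1/|p|` -/
def W (p : P2) : ℝ := (if |p.2| ≤ |p.1| then (|(p.1 : ℝ)|)⁻¹ else 0) +
  (if |p.1| ≤ |p.2| then (|(p.2 : ℝ)|)⁻¹ else 0)

theorem W_nonneg (p : P2) : 0 ≤ W p := by
  unfold W
  refine add_nonneg ?_ ?_ <;> split_ifs <;> positivity

theorem inv_nrm_le (p : P2) (hp : p ≠ 0) : (nrm p)⁻¹ ≤ W p := by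
  have h1 : |(p.1 : ℝ)| ≤ nrm p := by
    unfold nrm
    rw [← Real.sqrt_sq_eq_abs]
    exact Real.sqrt_le_sqrt (by nlinarith [sq_nonneg (p.2 : ℝ)])
  have h2 : |(p.2 : ℝ)| ≤ nrm p := by
    unfold nrm
    rw [← Real.sqrt_sq_eq_abs]
    exact Real.sqrt_le_sqrt (by nlinarith [sq_nonneg (p.1 : ℝ)])
  have hne : p.1 ≠ 0 ∨ p.2 ≠ 0 := by
    by_contra hcon
    push Not at hcon
    exact hp (Prod.ext hcon.1 hcon.2)
  unfold W
  rcases le_total |p.2| |p.1| with h | h
  · have h3 : p.1 ≠ 0 := by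
      intro h0
      rw [h0, abs_zero] at h
      have : p.2 = 0 := abs_eq_zero.1 (le_antisymm h (abs_nonneg _))
      tauto
    have h4 : 0 < |(p.1 : ℝ)| := by
      rw [abs_pos]; exact_mod_cast h3
    rw [if_pos h]
    have h5 : (nrm p)⁻¹ ≤ (|(p.1 : ℝ)|)⁻¹ := inv_anti₀ h4 h1
    have h6 : (0 : ℝ) ≤ (if |p.1| ≤ |p.2| then (|(p.2 : ℝ)|)⁻¹ else 0) := by
      split_ifs <;> positivity
    linarith
  · have h3 : p.2 ≠ 0 := by
      intro h0
      rw [h0, abs_zero] at h
      have : p.1 = 0 := abs_eq_zero.1 (le_antisymm h (abs_nonneg _))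
      tauto
    have h4 : 0 < |(p.2 : ℝ)| := by
      rw [abs_pos]; exact_mod_cast h3
    rw [if_pos h]
    have h5 : (nrm p)⁻¹ ≤ (|(p.2 : ℝ)|)⁻¹ := inv_anti₀ h4 h2
    have h6 : (0 : ℝ) ≤ (if |p.2| ≤ |p.1| then (|(p.1 : ℝ)|)⁻¹ else 0) := by
      split_ifs <;> positivity
    linarith

theorem inner_le (R : ℕ) (a : ℤ) :
    ∑ b ∈ Finset.Icc (-(R : ℤ)) R, (if |b| ≤ |a| then (|(a : ℝ)|)⁻¹ else 0) ≤ 3 := by
  rcases eq_or_ne a 0 with rfl | ha
  · simp
  · rw [← Finset.sum_filter, Finset.sum_const, nsmul_eq_mul]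
    have h1 : ((Finset.Icc (-(R : ℤ)) R).filter fun b => |b| ≤ |a|).card ≤ 2 * a.natAbs + 1 := by
      have h2 : ((Finset.Icc (-(R : ℤ)) R).filter fun b => |b| ≤ |a|) ⊆
          Finset.Icc (-(a.natAbs : ℤ)) a.natAbs := by
        intro b hb
        rw [Finset.mem_filter] at hb
        rw [Finset.mem_Icc]
        have h3 := abs_le.1 hb.2
        rw [Int.natCast_natAbs]
        exact h3
      refine (Finset.card_le_card h2).trans ?_
      rw [Int.card_Icc]
      omega
    have h3 : (1 : ℝ) ≤ |(a : ℝ)| := by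
      have : (1 : ℤ) ≤ |a| := Int.one_le_abs ha
      exact_mod_cast this
    have h4 : ((2 * a.natAbs + 1 : ℕ) : ℝ) = 2 * |(a : ℝ)| + 1 := by
      push_cast
      rw [Nat.cast_natAbs]
      push_cast
      ring
    have h5 : ((((Finset.Icc (-(R : ℤ)) R).filter fun b => |b| ≤ |a|).card : ℕ) : ℝ) ≤
        2 * |(a : ℝ)| + 1 := by
      rw [← h4]
      exact_mod_cast h1
    have h6 : 0 < |(a : ℝ)| := by linarith
    rw [← div_eq_mul_inv, div_le_iff₀ h6]
    linarith

/-- box of differences -/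
def bx (R : ℕ) : Finset P2 := Finset.Icc (-(R : ℤ)) R ×ˢ Finset.Icc (-(R : ℤ)) R

theorem sumW_le (R : ℕ) : ∑ p ∈ bx R, W p ≤ 6 * (2 * R + 1) := by
  unfold bx W
  rw [Finset.sum_add_distrib]
  have hc : ((Finset.Icc (-(R : ℤ)) R).card : ℝ) = 2 * R + 1 := by
    rw [Int.card_Icc]
    have : ((R : ℤ) + 1 - -(R : ℤ)).toNat = 2 * R + 1 := by omega
    rw [this]
    push_cast
    ring
  have h1 : ∑ p ∈ Finset.Icc (-(R : ℤ)) R ×ˢ Finset.Icc (-(R : ℤ)) R,
      (if |p.2| ≤ |p.1| then (|(p.1 : ℝ)|)⁻¹ else 0) ≤ 3 * (2 * R + 1) := by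
    rw [Finset.sum_product]
    refine (Finset.sum_le_sum fun a _ => inner_le R a).trans ?_
    rw [Finset.sum_const, nsmul_eq_mul, hc]
    linarith
  have h2 : ∑ p ∈ Finset.Icc (-(R : ℤ)) R ×ˢ Finset.Icc (-(R : ℤ)) R,
      (if |p.1| ≤ |p.2| then (|(p.2 : ℝ)|)⁻¹ else 0) ≤ 3 * (2 * R + 1) := by
    rw [Finset.sum_product_right]
    refine (Finset.sum_le_sum fun a _ => inner_le R a).trans ?_
    rw [Finset.sum_const, nsmul_eq_mul, hc]
    linarith
  linarith

theorem abs_log_le {r : ℝ} (hr : 0 < r) : |Real.log r| ≤ r + r⁻¹ := by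
  rw [abs_le]
  constructor
  · have h1 := Real.log_le_sub_one_of_pos (inv_pos.2 hr)
    rw [Real.log_inv] at h1
    have : 0 < r⁻¹ := inv_pos.2 hr
    linarith
  · have h1 := Real.log_le_sub_one_of_pos hr
    have : 0 < r⁻¹ := inv_pos.2 hr
    linarith

theorem nrm_pos {p : P2} (hp : p ≠ 0) : 0 < nrm p := by
  unfold nrm
  apply Real.sqrt_pos.2
  have hne : p.1 ≠ 0 ∨ p.2 ≠ 0 := by
    by_contra hcon
    push Not at hcon
    exact hp (Prod.ext hcon.1 hcon.2)
  rcases hne with h | h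
  · have : (p.1 : ℝ) ≠ 0 := by exact_mod_cast h
    positivity
  · have : (p.2 : ℝ) ≠ 0 := by exact_mod_cast h
    positivity

theorem nrm_le {p : P2} {R : ℕ} (hp : p ∈ bx R) : nrm p ≤ 2 * R := by
  unfold bx at hp
  rw [Finset.mem_product, Finset.mem_Icc, Finset.mem_Icc] at hp
  have h1 : |(p.1 : ℝ)| ≤ R := by
    rw [abs_le]; exact ⟨by exact_mod_cast hp.1.1, by exact_mod_cast hp.1.2⟩
  have h2 : |(p.2 : ℝ)| ≤ R := by
    rw [abs_le]; exact ⟨by exact_mod_cast hp.2.1, by exact_mod_cast hp.2.2⟩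
  have h3 : (p.1 : ℝ) ^ 2 ≤ (R : ℝ) ^ 2 := sq_le_sq' (abs_le.1 h1).1 (abs_le.1 h1).2
  have h4 : (p.2 : ℝ) ^ 2 ≤ (R : ℝ) ^ 2 := sq_le_sq' (abs_le.1 h2).1 (abs_le.1 h2).2
  unfold nrm
  apply Real.sqrt_le_iff.2 ⟨by positivity, ?_⟩
  nlinarith [Nat.cast_nonneg (α := ℝ) R]

/-- pointwise kernel bound -/
theorem kernel_le {C : ℝ} (hC : 0 ≤ C) (hV : ∀ p q : P2, p ≠ 0 → q ≠ 0 →
    |VV P p - VV P q| ≤ C * (1 + |Real.log (nrm p / nrm q)|)) {s : ℕ} (hs : 1 ≤ s) {R : ℕ}
    {p : P2} (hp : p ∈ bx R) :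
    |VV P p - VV P ((s : ℤ), 0)| ≤ (if p = 0 then |VV P (1, 0)| + C * (1 + s) else 0) +
      C * (1 + 2 * R / s) + C * s * W p := by
  have hs' : (1 : ℝ) ≤ s := by exact_mod_cast hs
  have hs0 : (0 : ℝ) < s := by linarith
  have hq : (((s : ℤ), 0) : P2) ≠ 0 := by
    intro h
    have := congrArg Prod.fst h
    simp at this
    omega
  have hnq : nrm ((s : ℤ), 0) = s := by
    unfold nrm
    simp
  have hq1 : ((1, 0) : P2) ≠ 0 := by
    intro h
    have := congrArg Prod.fst h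
    simp at this
  have hn1 : nrm ((1, 0) : P2) = 1 := by
    unfold nrm
    simp
  have hW := W_nonneg p
  have hR : (0 : ℝ) ≤ 2 * R / s := by positivity
  by_cases h0 : p = 0
  · rw [if_pos h0, h0, VV_zero, zero_sub, abs_neg]
    have h1 := hV _ _ hq hq1
    rw [hnq, hn1, div_one] at h1
    have h2 : |Real.log s| ≤ s := by
      rw [abs_of_nonneg (Real.log_nonneg hs')]
      have := Real.log_le_sub_one_of_pos hs0
      linarith
    have h3 : |VV P ((s : ℤ), 0)| ≤ |VV P (1, 0)| + |VV P ((s : ℤ), 0) - VV P (1, 0)| := by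
      have := abs_add_le (VV P (1, 0)) (VV P ((s : ℤ), 0) - VV P (1, 0))
      rwa [add_sub_cancel] at this
    have h4 : C * (1 + |Real.log s|) ≤ C * (1 + s) := mul_le_mul_of_nonneg_left (by linarith) hC
    have h5 : 0 ≤ C * (1 + 2 * R / s) := by positivity
    have h6 : 0 ≤ C * s * W 0 := by
      have := W_nonneg 0
      positivity
    linarith
  · rw [if_neg h0, zero_add]
    have h1 := hV _ _ h0 hq
    rw [hnq] at h1
    have hnp := nrm_pos h0
    have h2 := abs_log_le (div_pos hnp hs0)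
    have h3 : nrm p / s ≤ 2 * R / s := div_le_div_of_nonneg_right (nrm_le hp) hs0.le
    have h4 : (nrm p / s)⁻¹ ≤ s * W p := by
      rw [inv_div, div_eq_mul_inv]
      exact mul_le_mul_of_nonneg_left (inv_nrm_le p h0) hs0.le
    have h5 : C * (1 + |Real.log (nrm p / s)|) ≤ C * (1 + 2 * R / s + s * W p) :=
      mul_le_mul_of_nonneg_left (by linarith) hC
    have h6 : C * (1 + 2 * R / s + s * W p) = C * (1 + 2 * R / s) + C * s * W p := by ring
    linarith

theorem card_ball (b : P2) (n : ℕ) : ((ball b n).card : ℝ) = (2 * n) ^ 2 := by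
  unfold ball
  rw [Finset.card_product, Int.card_Icc, Int.card_Icc]
  have h1 : (b.1 + (n : ℤ) - 1 + 1 - (b.1 - n)).toNat = 2 * n := by omega
  have h2 : (b.2 + (n : ℤ) - 1 + 1 - (b.2 - n)).toNat = 2 * n := by omega
  rw [h1, h2]
  push_cast
  ring

/-- **Second moments in the plane.** -/
theorem plane_sq {c : ℝ} (_hc : 1 ≤ c) {P : Measure Cfg} (hP : IsState c P) (hV : VBound P) :
    ∀ A : ℕ, ∃ C : ℝ, ∀ s : ℕ, 1 ≤ s → ∀ (b : P2) (V : Finset P2) (h : P2 → ℝ),
      V ⊆ ball b (A * s) → (∀ v ∈ V, |h v| ≤ A / (s : ℝ) ^ 2) → ∑ v ∈ V, h v = 0 →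
      ∫ ω, Flip228.Lin V h ω ^ 2 ∂P ≤ C := by
  intro A
  obtain ⟨C, hC, hV⟩ := hV
  set c1 : ℝ := |VV P (1, 0)| with hc1
  have hc10 : 0 ≤ c1 := abs_nonneg _
  refine ⟨2 * A ^ 4 * (c1 + 2 * C + C * (1 + 4 * A) * (4 * A ^ 2) + 6 * C * (4 * A + 1)),
    fun s hs b V h hVb hh h0 => ?_⟩
  have hs' : (1 : ℝ) ≤ s := by exact_mod_cast hs
  have hs0 : (0 : ℝ) < s := by linarith
  set R : ℕ := 2 * (A * s) with hR
  have hsub : ∀ x ∈ V, ∀ y ∈ V, x - y ∈ bx R := by
    intro x hx y hy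
    have h1 := hVb hx
    have h2 := hVb hy
    simp only [ball, Finset.mem_product, Finset.mem_Icc] at h1 h2
    simp only [bx, Finset.mem_product, Finset.mem_Icc, Prod.fst_sub, Prod.snd_sub, hR]
    push_cast at h1 h2 ⊢
    omega
  have hcard : (V.card : ℝ) ≤ (2 * (A * s)) ^ 2 := by
    have h1 := Finset.card_le_card hVb
    have h2 := card_ball b (A * s)
    have h3 : (V.card : ℝ) ≤ (ball b (A * s)).card := by exact_mod_cast h1
    rw [h2] at h3
    push_cast at h3
    exact h3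
  have hcard0 : (0 : ℝ) ≤ V.card := Nat.cast_nonneg _
  -- row sums
  have hrow : ∀ x ∈ V, ∑ y ∈ V, |VV P (x - y) - VV P ((s : ℤ), 0)| ≤
      (c1 + C * (1 + s)) + V.card * (C * (1 + 4 * A)) + C * s * (6 * (2 * R + 1)) := by
    intro x hx
    have h1 : ∀ y ∈ V, |VV P (x - y) - VV P ((s : ℤ), 0)| ≤
        ((if x - y = 0 then c1 + C * (1 + s) else 0) + C * (1 + 4 * A)) + C * s * W (x - y) := by
      intro y hy
      have := kernel_le (P := P) hC hV hs (hsub x hx y hy)
      have e : (2 : ℝ) * R / s = 4 * A := by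
        rw [hR]; push_cast; field_simp; ring
      rw [e] at this
      linarith
    refine (Finset.sum_le_sum h1).trans ?_
    rw [Finset.sum_add_distrib, Finset.sum_add_distrib, Finset.sum_const, nsmul_eq_mul,
      ← Finset.mul_sum]
    have h2 : ∑ y ∈ V, (if x - y = 0 then c1 + C * (1 + s) else 0) ≤ c1 + C * (1 + s) := by
      have e : ∀ y ∈ V, (if x - y = 0 then c1 + C * (1 + s) else 0) =
          (if x = y then c1 + C * (1 + s) else 0) := by
        intro y _
        simp only [sub_eq_zero]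
      rw [Finset.sum_congr rfl e, Finset.sum_ite_eq V x]
      rw [if_pos hx]
    have h3 : ∑ y ∈ V, W (x - y) ≤ 6 * (2 * R + 1) := by
      refine le_trans ?_ (sumW_le R)
      rw [← Finset.sum_image (s := V) (f := W) (g := fun y => x - y)
        (fun a _ b _ hab => sub_right_injective hab)]
      refine Finset.sum_le_sum_of_subset_of_nonneg ?_ fun p _ _ => W_nonneg p
      intro p hp
      rw [Finset.mem_image] at hp
      obtain ⟨y, hy, rfl⟩ := hp
      exact hsub x hx y hy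
    have h4 : C * s * ∑ y ∈ V, W (x - y) ≤ C * s * (6 * (2 * R + 1)) :=
      mul_le_mul_of_nonneg_left h3 (by positivity)
    linarith
  rw [int_lin_sq' hP V h h0 (VV P ((s : ℤ), 0))]
  have hterm : ∀ x ∈ V, ∑ y ∈ V, (-(1 / 2) * h x * h y) * (VV P (x - y) - VV P ((s : ℤ), 0)) ≤
      (1 / 2) * (A / (s : ℝ) ^ 2) ^ 2 *
        ((c1 + C * (1 + s)) + V.card * (C * (1 + 4 * A)) + C * s * (6 * (2 * R + 1))) := by
    intro x hx
    have h1 : ∀ y ∈ V, (-(1 / 2) * h x * h y) * (VV P (x - y) - VV P ((s : ℤ), 0)) ≤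
        (1 / 2) * (A / (s : ℝ) ^ 2) ^ 2 * |VV P (x - y) - VV P ((s : ℤ), 0)| := by
      intro y hy
      refine (le_abs_self _).trans ?_
      rw [abs_mul]
      refine mul_le_mul_of_nonneg_right ?_ (abs_nonneg _)
      rw [abs_mul, abs_mul, abs_neg, abs_of_nonneg (by norm_num : (0 : ℝ) ≤ 1 / 2), mul_assoc, sq]
      refine mul_le_mul_of_nonneg_left ?_ (by norm_num)
      exact mul_le_mul (hh x hx) (hh y hy) (abs_nonneg _) (by positivity)
    refine (Finset.sum_le_sum h1).trans ?_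
    rw [← Finset.mul_sum]
    exact mul_le_mul_of_nonneg_left (hrow x hx) (by positivity)
  refine (Finset.sum_le_sum hterm).trans ?_
  rw [Finset.sum_const, nsmul_eq_mul]
  -- final arithmetic
  have hB : (c1 + C * (1 + s)) + V.card * (C * (1 + 4 * A)) + C * s * (6 * (2 * R + 1)) ≤
      (c1 + 2 * C + C * (1 + 4 * A) * (4 * A ^ 2) + 6 * C * (4 * A + 1)) * (s : ℝ) ^ 2 := by
    have hss : (s : ℝ) ≤ (s : ℝ) ^ 2 := by nlinarith
    have h1s : (1 : ℝ) ≤ (s : ℝ) ^ 2 := by nlinarith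
    have e1 : c1 ≤ c1 * (s : ℝ) ^ 2 := le_mul_of_one_le_right hc10 h1s
    have e2 : C * (1 + s) ≤ 2 * C * (s : ℝ) ^ 2 := by nlinarith
    have e3 : V.card * (C * (1 + 4 * A)) ≤ (C * (1 + 4 * A) * (4 * A ^ 2)) * (s : ℝ) ^ 2 := by
      calc V.card * (C * (1 + 4 * A)) ≤ (2 * (A * s)) ^ 2 * (C * (1 + 4 * A)) :=
            mul_le_mul_of_nonneg_right hcard (by positivity)
        _ = _ := by ring
    have e4 : C * s * (6 * (2 * R + 1)) ≤ (6 * C * (4 * A + 1)) * (s : ℝ) ^ 2 := by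
      have e5 : (2 : ℝ) * R + 1 ≤ (4 * A + 1) * s := by
        rw [hR]; push_cast
        nlinarith [Nat.cast_nonneg (α := ℝ) A]
      calc C * s * (6 * (2 * R + 1)) ≤ C * s * (6 * ((4 * A + 1) * s)) :=
            mul_le_mul_of_nonneg_left (by linarith) (by positivity)
        _ = _ := by ring
    nlinarith
  calc (V.card : ℝ) * ((1 / 2) * (A / (s : ℝ) ^ 2) ^ 2 *
        ((c1 + C * (1 + s)) + V.card * (C * (1 + 4 * A)) + C * s * (6 * (2 * R + 1))))
      ≤ (2 * (A * s)) ^ 2 * ((1 / 2) * (A / (s : ℝ) ^ 2) ^ 2 *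
        ((c1 + 2 * C + C * (1 + 4 * A) * (4 * A ^ 2) + 6 * C * (4 * A + 1)) * (s : ℝ) ^ 2)) := by
        refine mul_le_mul hcard (mul_le_mul_of_nonneg_left hB (by positivity)) (by positivity)
          (by positivity)
    _ = 2 * A ^ 4 * (c1 + 2 * C + C * (1 + 4 * A) * (4 * A ^ 2) + 6 * C * (4 * A + 1)) := by
        field_simp

end Crest.Agent.R161.HaP228
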