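import Crest.Agent.R161.BlkDef_868
import Crest.Agent.R161.Spr2_868
import Crest.Agent.R161.NuInv_421
import Crest.Agent.R161.LkS_159
import Crest.Agent.R161.Green1_722
import Crest.Agent.R161.Ifc_372

-- ▼ part R161/Blk_868
section

/-!
# Row 161, block E: one-arm blocking (helper868)

`blockX` : `IsState c P`, `PlaneGauss c P`, `FKGLoc (nu P)` imply `BlockX (nu P)`.

An open path from `{|u| ≤ s}` to distance `C1 s` forces the heights of the outermost cut circuits at the
two scales `t1 = 4s`, `t2 = M t1` to be equal, while the averages of the height at these scales differ a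
lot; the difference between the height of the circuit and the inner average is bounded in `L²` by the
domain Markov property.
-/

set_option autoImplicit false

noncomputable section

namespace Crest.Agent.R161.Blk868

open Finset hiding box
open MeasureTheory Filter Topology
open Crest.Agent.R161.Geo729 Crest.Agent.R161.Defs372 Crest.Agent.R161.Dual374
open Crest.Agent.R161.Hull374 Crest.Agent.R161.Ifc372 Crest.Agent.R161.Ring421
open Crest.Agent.R161.Dmp341 Crest.Agent.R161.Out868 Crest.Agent.R161.Spr868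
open Crest.Agent.R161.Aut373
open Crest.Agent.R161.Exp760 (DF doms mem_doms)
open Crest.Agent.R161.Flip228 (Lin)

/-! ### geometry -/

theorem mem_intVerts_ball {m : ℕ} {v : P2} : v ∈ intVerts (ball (0, 0) m) ↔
    (-(m : ℤ) + 1 ≤ v.1 ∧ v.1 ≤ m - 1) ∧ (-(m : ℤ) + 1 ≤ v.2 ∧ v.2 ≤ m - 1) := by
  obtain ⟨a, b⟩ := v
  rw [mem_intVerts]
  unfold IntV
  simp only [Finset.mem_coe, mem_ball]
  omega

theorem VN_sub_int {N : ℕ} {D : Finset P2} (h : ball (0, 0) N ⊆ D) : VN N ⊆ intVerts D := by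
  intro v hv
  apply intVerts_mono h
  rw [mem_intVerts_ball]
  exact mem_VN.1 hv

theorem WN_not_int {N : ℕ} {D : Finset P2} (h : D ⊆ ball (0, 0) (2 * N)) :
    ∀ v ∈ WN N, v ∉ intVerts D := by
  intro v hv hv'
  have h1 := intVerts_mono h hv'
  rw [mem_intVerts_ball] at h1
  rw [mem_WN] at hv
  push_cast at h1
  omega

/-- A cut path leaving the interior of a cut domain has the height of its boundary. -/
theorem level_of_path {D : Finset P2} (hD : Dom D) {ω : Cfg} (hev : ∀ v, Even (ω.1 v))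
    (hok : ∀ e, EdgeOk ω e) (hcut : CutE D ω) {u v : P2}
    (hp : Relation.ReflTransGen (PStep (cutE ω)) u v) (hu : u ∈ intVerts D)
    (hv : v ∉ intVerts D) : ω.1 u = level D ω := by
  induction hp using Relation.ReflTransGen.head_induction_on with
  | refl => exact absurd hu hv
  | @head a b hab _ ih =>
    obtain ⟨e, he, h⟩ := hab
    have hK : ω.1 a = ω.1 b := by
      have := (hok e).1 he
      rcases h with ⟨h1, h2⟩ | ⟨h1, h2⟩
      · rw [h1, h2]; exact this
      · rw [h1, h2]; exact this.symm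
    by_cases hb : b ∈ intVerts D
    · rw [hK]; exact ih hb
    · have hface : fA e ∈ D := by
        rcases h with ⟨h1, _⟩ | ⟨h1, _⟩
        · exact corner_mem_of_int (h1 ▸ hu) (isCorner_src_fA e)
        · exact corner_mem_of_int (h1 ▸ hu) (isCorner_tgt_fA e)
      have hbd : b ∈ bdV D := by
        refine mem_bdV.2 ⟨⟨_, hface, ?_⟩, hb⟩
        rcases h with ⟨_, h2⟩ | ⟨_, h2⟩
        · rw [h2]; exact isCorner_tgt_fA e
        · rw [h2]; exact isCorner_src_fA e
      rw [hK]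
      exact (cutAt_level hD hev hcut hok).ht b hbd

/-- the arm and the two circuits -/
def Gev (s t1 t2 : ℕ) (ω : Cfg) : Prop :=
  ArmP (cutE ω) s (2 * t2) ∧ Circ (cutE ω) (0, 0) t1 (2 * t1) ∧ Circ (cutE ω) (0, 0) t2 (2 * t2)

/-- outer hull at scale `t` -/
abbrev Dt (t : ℕ) (ω : Cfg) : Finset P2 := DF (ball (0, 0) (2 * t)) (0, 0) ω

theorem Dt_cutE {t : ℕ} (ht : 1 ≤ t) {ω : Cfg} (h : Circ (cutE ω) (0, 0) t (2 * t)) :
    CutE (Dt t ω) ω := by
  intro e he
  refine Exp760.DF_bd_cut (dom_ball (0, 0) (2 * t)).sc ?_ he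
  exact Exp760.mem_DF_not_RR ((circ_iff_DF ht).1 h (self_mem_ball ht))

theorem level_eq_of_arm {s t1 t2 : ℕ} (hs : s < t1) (h12 : t1 ≤ t2) {ω : Cfg}
    (hev : ∀ v, Even (ω.1 v)) (hok : ∀ e, EdgeOk ω e) (h : Gev s t1 t2 ω) :
    level (Dt t1 ω) ω = level (Dt t2 ω) ω := by
  obtain ⟨⟨u, v, hu1, hu2, hv, hp⟩, hc1, hc2⟩ := h
  have ht1 : 1 ≤ t1 := by omega
  have ht2 : 1 ≤ t2 := by omega
  have key : ∀ t : ℕ, 1 ≤ t → s < t → t ≤ t2 → Circ (cutE ω) (0, 0) t (2 * t) →
      ω.1 u = level (Dt t ω) ω := by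
    intro t ht hst htt hc
    have hmem := (DF_mem_hulls ht).2 hc
    refine level_of_path (mem_doms.1 hmem).2.2 hev hok (Dt_cutE ht hc) hp ?_ ?_
    · refine intVerts_mono (mem_doms.1 hmem).2.1 ?_
      rw [mem_intVerts_ball]
      rw [abs_le] at hu1 hu2
      omega
    · intro h1
      have h2 := intVerts_mono (mem_doms.1 hmem).1 h1
      rw [mem_intVerts_ball] at h2
      push_cast at h2 hv
      rcases hv with hv | hv <;> rw [le_abs] at hv <;> omega
  rw [← key t1 ht1 hs h12 hc1, ← key t2 ht2 (by omega) le_rfl hc2]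

/-! ### finite volume -/

open Classical in
theorem sm_t {c : ℝ} (hc : 1 ≤ c) {F : Finset P2} {t : ℕ} (ht : 1 ≤ t)
    (hF : ball (0, 0) (2 * t) ⊆ F) :
    E c F (fun ω => if Circ (cutE ω) (0, 0) t (2 * t) then (XN t ω - level (Dt t ω) ω) ^ 2 else 0) ≤
      E c F (fun ω => (XN t ω - YN t ω) ^ 2) := by
  have h := sm_hull hc (outer_isHull c ht hF) (V := VN t) (W := WN t) (a := aN t) (b := bN t)
    (fun D hD => VN_sub_int (mem_doms.1 hD).2.1) (sum_aN ht)
    (fun D hD => WN_not_int (mem_doms.1 hD).1)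
  refine le_trans (E_mono hc fun ω _ => ?_) h
  simp only [DF_mem_hulls ht]
  split_ifs
  · have := sq_nonneg ((level (DF (ball (0, 0) (2 * t)) (0, 0) ω) ω : ℝ) - Lin (WN t) (bN t) ω)
    unfold XN Dt
    linarith
  · exact le_rfl

open Classical in
theorem fv_bound {c : ℝ} (hc : 1 ≤ c) {F : Finset P2} {s t1 t2 : ℕ} (hs : s < t1) (h12 : t1 ≤ t2)
    (hF : ball (0, 0) (2 * t2) ⊆ F) {K : ℝ} (hK : 0 < K) :
    E c F (fun ω => if Gev s t1 t2 ω then 1 else 0) ≤
      (K ^ 2)⁻¹ * E c F (fun ω => (XN t1 ω - YN t1 ω) ^ 2) +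
      (K ^ 2)⁻¹ * E c F (fun ω => (XN t2 ω - YN t2 ω) ^ 2) +
      E c F (fun ω => if |XN t1 ω - XN t2 ω| ≤ 2 * K then 1 else 0) := by
  have ht1 : 1 ≤ t1 := by omega
  have ht2 : 1 ≤ t2 := by omega
  have hF1 : ball (0, 0) (2 * t1) ⊆ F := (ball_mono _ (by omega)).trans hF
  have hK2 : 0 < (K ^ 2)⁻¹ := by positivity
  have s1 := mul_le_mul_of_nonneg_left (sm_t hc ht1 hF1) hK2.le
  have s2 := mul_le_mul_of_nonneg_left (sm_t hc ht2 hF) hK2.le
  rw [← E_smul] at s1 s2
  have h1 : E c F (fun ω => if Gev s t1 t2 ω then 1 else 0) ≤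
      E c F (fun ω => ((K ^ 2)⁻¹ * (if Circ (cutE ω) (0, 0) t1 (2 * t1) then
          (XN t1 ω - level (Dt t1 ω) ω) ^ 2 else 0) +
        (K ^ 2)⁻¹ * (if Circ (cutE ω) (0, 0) t2 (2 * t2) then
          (XN t2 ω - level (Dt t2 ω) ω) ^ 2 else 0)) +
        (if |XN t1 ω - XN t2 ω| ≤ 2 * K then 1 else 0)) := by
    refine E_mono' hc fun ω hω hok => ?_
    have n1 : 0 ≤ (if Circ (cutE ω) (0, 0) t1 (2 * t1) then
        (XN t1 ω - level (Dt t1 ω) ω) ^ 2 else 0) := by
      split_ifs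
      · exact sq_nonneg _
      · exact le_rfl
    have n2 : 0 ≤ (if Circ (cutE ω) (0, 0) t2 (2 * t2) then
        (XN t2 ω - level (Dt t2 ω) ω) ^ 2 else 0) := by
      split_ifs
      · exact sq_nonneg _
      · exact le_rfl
    have n3 : (0 : ℝ) ≤ (if |XN t1 ω - XN t2 ω| ≤ 2 * K then 1 else 0) := by
      split_ifs <;> norm_num
    have p1 := mul_nonneg hK2.le n1
    have p2 := mul_nonneg hK2.le n2
    by_cases hG : Gev s t1 t2 ω
    · rw [if_pos hG]
      have hlev := level_eq_of_arm hs h12 hω.even hok hG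
      by_cases hX : |XN t1 ω - XN t2 ω| ≤ 2 * K
      · rw [if_pos hX]
        linarith
      · rw [if_pos hG.2.1, if_pos hG.2.2] at *
        have big : ∀ x : ℝ, K < |x| → 1 ≤ (K ^ 2)⁻¹ * x ^ 2 := by
          intro x hx
          rw [inv_mul_eq_div, le_div_iff₀ (by positivity), one_mul, ← sq_abs x]
          exact pow_le_pow_left₀ hK.le hx.le 2
        by_cases ha : K < |XN t1 ω - level (Dt t1 ω) ω|
        · have := big _ ha
          linarith
        · have hb : K < |XN t2 ω - level (Dt t2 ω) ω| := by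
            by_contra hb
            apply hX
            have e : XN t1 ω - XN t2 ω = (XN t1 ω - level (Dt t1 ω) ω) -
                (XN t2 ω - level (Dt t2 ω) ω) := by
              rw [hlev]; ring
            rw [e]
            refine (abs_sub _ _).trans ?_
            linarith
          have := big _ hb
          linarith
    · rw [if_neg hG]
      linarith
  refine h1.trans ?_
  rw [E_add, E_add]
  linarith

/-! ### passage to the state -/

theorem state_mono {c : ℝ} {P : Measure Cfg} (hP : IsState c P) {S T : Finset P2} {f g : Cfg → ℝ}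
    (hf : Loc (S : Set P2) f) (hfn : Neut f) (hg : Loc (T : Set P2) g) (hgn : Neut g) {n0 : ℕ}
    (h : ∀ F : Finset P2, Dom F → Defs372.box n0 ⊆ F → E c F f ≤ E c F g) :
    ∫ ω, f ω ∂P ≤ ∫ ω, g ω ∂P := by
  refine le_of_forall_pos_le_add fun ε hε => ?_
  obtain ⟨n1, h1⟩ := lim_neut hP hf hfn (half_pos hε)
  obtain ⟨n2, h2⟩ := lim_neut hP hg hgn (half_pos hε)
  set n := max n0 (max n1 n2)
  have e0 := h (Defs372.box n) (Dmp341.dom_box n) (box_mono (by omega))
  have e1 := h1 (Defs372.box n) (Dmp341.dom_box n) (box_mono (by omega))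
  have e2 := h2 (Defs372.box n) (Dmp341.dom_box n) (box_mono (by omega))
  rw [abs_lt] at e1 e2
  linarith [e1.1, e2.2]

theorem loc_Lin {S : Finset P2} (a : P2 → ℝ) : Loc (S : Set P2) (Lin S a) := by
  intro ω ω' h
  unfold Lin
  exact Finset.sum_congr rfl fun v hv => by rw [(h v hv).1]

theorem loc_mono {α : Type*} {S T : Finset P2} (h : S ⊆ T) {f : Cfg → α}
    (hf : Loc (S : Set P2) f) : Loc (T : Set P2) f := fun ω ω' h1 =>
  hf ω ω' fun v hv => h1 v (h hv)

theorem Lin_addH {S : Finset P2} {a : P2 → ℝ} (ha : ∑ v ∈ S, a v = 1) (b : ℤ) (ω : Cfg) :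
    Lin S a (addH b ω) = Lin S a ω + b := by
  unfold Lin addH
  have : ∀ v ∈ S, a v * (((ω.1 v + b : ℤ)) : ℝ) = a v * (ω.1 v : ℝ) + a v * (b : ℝ) := by
    intro v _
    push_cast
    ring
  rw [Finset.sum_congr rfl this, Finset.sum_add_distrib, ← Finset.sum_mul, ha, one_mul]

/-- faces whose edges decide the arm and the circuits -/
def gS (t : ℕ) : Finset P2 :=
  Finset.Icc (-(2 * t : ℤ) - 1) (2 * t + 1) ×ˢ Finset.Icc (-(2 * t : ℤ) - 1) (2 * t + 1)

theorem circ_loc {ω ω' : Cfg} {n m : ℕ} (h : ∀ v ∈ gS m, ∀ b, ω.2.2 (v, b) = ω'.2.2 (v, b))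
    (hc : Circ (cutE ω) (0, 0) n (2 * m)) : Circ (cutE ω') (0, 0) n (2 * m) := by
  refine reach_subset_congr ?_ hc
  intro e he
  unfold cutE
  have : e.1 ∈ gS m := by
    obtain ⟨⟨a, b⟩, d⟩ := e
    simp only [gS, Finset.mem_product, Finset.mem_Icc]
    simp only [Finset.mem_coe, mem_ball] at he
    cases d
    · simp only [fA_mk, fB_h] at he
      push_cast at he
      omega
    · simp only [fA_mk, fB_v] at he
      push_cast at he
      omega
  rw [show ω.2.2 e = ω'.2.2 e from h e.1 this e.2]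

theorem Gev_loc {s t1 t2 : ℕ} (h12 : t1 ≤ t2) {ω ω' : Cfg}
    (h : ∀ v ∈ gS t2, ∀ b, ω.2.2 (v, b) = ω'.2.2 (v, b)) (hG : Gev s t1 t2 ω) :
    Gev s t1 t2 ω' := by
  obtain ⟨h1, h2, h3⟩ := hG
  refine ⟨armP_local ?_ h1, circ_loc ?_ h2, circ_loc h h3⟩
  · intro e he hz
    unfold cutE at *
    have : e.1 ∈ gS t2 := by
      rw [mem_armE] at he
      obtain ⟨⟨a, b⟩, d⟩ := e
      simp only [gS, Finset.mem_product, Finset.mem_Icc]
      simp only [src_mk] at he
      push_cast at he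
      omega
    rw [← show ω.2.2 e = ω'.2.2 e from h e.1 this e.2]
    exact hz
  · intro v hv b
    refine h v ?_ b
    simp only [gS, Finset.mem_product, Finset.mem_Icc] at hv ⊢
    omega

open Classical in
theorem state_bound {c : ℝ} (hc : 1 ≤ c) {P : Measure Cfg} (hP : IsState c P) {s t1 t2 : ℕ}
    (hs : s < t1) (h12 : t1 ≤ t2) {K : ℝ} (hK : 0 < K) :
    ∫ ω, (if Gev s t1 t2 ω then (1 : ℝ) else 0) ∂P ≤
      (K ^ 2)⁻¹ * ∫ ω, (XN t1 ω - YN t1 ω) ^ 2 ∂P +
      (K ^ 2)⁻¹ * ∫ ω, (XN t2 ω - YN t2 ω) ^ 2 ∂P +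
      ∫ ω, (if |XN t1 ω - XN t2 ω| ≤ 2 * K then (1 : ℝ) else 0) ∂P := by
  have ht1 : 1 ≤ t1 := by omega
  have ht2 : 1 ≤ t2 := by omega
  -- localisation of the four functionals
  have lX : ∀ t, Loc ((VN t : Finset P2) : Set P2) (XN t) := fun t => loc_Lin _
  have lY : ∀ t, Loc ((WN t : Finset P2) : Set P2) (YN t) := fun t => loc_Lin _
  have nX : ∀ t, 1 ≤ t → ∀ b ω, XN t (addH b ω) = XN t ω + b := fun t ht b ω =>
    Lin_addH (sum_aN ht) b ω
  have nY : ∀ t, 1 ≤ t → ∀ b ω, YN t (addH b ω) = YN t ω + b := fun t ht b ω =>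
    Lin_addH (sum_bN ht) b ω
  have l1 : ∀ t, Loc ((VN t ∪ WN t : Finset P2) : Set P2) (fun ω => (XN t ω - YN t ω) ^ 2) := by
    intro t ω ω' h
    have e1 := loc_mono (Finset.subset_union_left) (lX t) ω ω' h
    have e2 := loc_mono (Finset.subset_union_right) (lY t) ω ω' h
    simp only [e1, e2]
  have n1 : ∀ t, 1 ≤ t → Neut (fun ω => (XN t ω - YN t ω) ^ 2) := by
    intro t ht ω _ b _
    simp only [nX t ht, nY t ht]
    ring
  have l3 : Loc ((VN t1 ∪ VN t2 : Finset P2) : Set P2)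
      (fun ω => if |XN t1 ω - XN t2 ω| ≤ 2 * K then (1 : ℝ) else 0) := by
    intro ω ω' h
    have e1 := loc_mono (Finset.subset_union_left) (lX t1) ω ω' h
    have e2 := loc_mono (Finset.subset_union_right) (lX t2) ω ω' h
    simp only [e1, e2]
  have n3 : Neut (fun ω => if |XN t1 ω - XN t2 ω| ≤ 2 * K then (1 : ℝ) else 0) := by
    intro ω _ b _
    simp only [nX t1 ht1, nX t2 ht2, add_sub_add_right_eq_sub]
  have l0 : Loc ((gS t2 : Finset P2) : Set P2) (fun ω => if Gev s t1 t2 ω then (1 : ℝ) else 0) := by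
    intro ω ω' h
    have : Gev s t1 t2 ω ↔ Gev s t1 t2 ω' :=
      ⟨Gev_loc h12 fun v hv b => (h v hv).2.2 b,
        Gev_loc h12 fun v hv b => ((h v hv).2.2 b).symm⟩
    simp only [this]
  have n0 : Neut (fun ω => if Gev s t1 t2 ω then (1 : ℝ) else 0) := fun ω _ b _ => rfl
  -- the right-hand side as one functional
  set g : Cfg → ℝ := fun ω => ((K ^ 2)⁻¹ * (XN t1 ω - YN t1 ω) ^ 2 +
    (K ^ 2)⁻¹ * (XN t2 ω - YN t2 ω) ^ 2) +
    (if |XN t1 ω - XN t2 ω| ≤ 2 * K then (1 : ℝ) else 0) with hg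
  have lg : Loc (((VN t1 ∪ WN t1) ∪ (VN t2 ∪ WN t2) ∪ (VN t1 ∪ VN t2) : Finset P2) : Set P2) g := by
    intro ω ω' h
    have e1 := loc_mono (T := (VN t1 ∪ WN t1) ∪ (VN t2 ∪ WN t2) ∪ (VN t1 ∪ VN t2))
      (Finset.subset_union_left.trans Finset.subset_union_left) (l1 t1) ω ω' h
    have e2 := loc_mono (T := (VN t1 ∪ WN t1) ∪ (VN t2 ∪ WN t2) ∪ (VN t1 ∪ VN t2))
      (Finset.subset_union_right.trans Finset.subset_union_left) (l1 t2) ω ω' h
    have e3 := loc_mono (T := (VN t1 ∪ WN t1) ∪ (VN t2 ∪ WN t2) ∪ (VN t1 ∪ VN t2))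
      Finset.subset_union_right l3 ω ω' h
    simp only [hg]
    rw [e1, e2, e3]
  have ng : Neut g := by
    intro ω _ b _
    simp only [hg, nX t1 ht1, nX t2 ht2, nY t1 ht1, nY t2 ht2, add_sub_add_right_eq_sub]
  have hmain := state_mono hP l0 n0 lg ng (n0 := 2 * t2) (fun F hF hFn => by
    have hsub : ball (0, 0) (2 * t2) ⊆ F := by
      rw [ball_zero]; exact hFn
    have := fv_bound hc hs h12 hsub hK
    refine this.trans (le_of_eq ?_)
    rw [hg, E_add, E_add, E_smul, E_smul])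
  refine hmain.trans (le_of_eq ?_)
  rw [hg, integral_add, integral_add, integral_const_mul, integral_const_mul]
  · exact (loc_integrable hP (l1 t1)).const_mul _
  · exact (loc_integrable hP (l1 t2)).const_mul _
  · exact ((loc_integrable hP (l1 t1)).const_mul _).add ((loc_integrable hP (l1 t2)).const_mul _)
  · exact loc_integrable hP l3

/-! ### the theorem -/

open Classical in
theorem nu_le_Gev {c : ℝ} {P : Measure Cfg} (hP : IsState c P) {s t1 t2 : ℕ} (h12 : t1 ≤ t2) :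
    (nu P).real (Arm s (2 * t2) ∩ (CircZ (0, 0) t1 (2 * t1) ∩ CircZ (0, 0) t2 (2 * t2))) ≤
      ∫ ω, (if Gev s t1 t2 ω then (1 : ℝ) else 0) ∂P := by
  have := hP.prob
  set A := Arm s (2 * t2) ∩ (CircZ (0, 0) t1 (2 * t1) ∩ CircZ (0, 0) t2 (2 * t2)) with hA
  have hLA : LocEv A := (locEv_arm _ _).inter ((locEv_circZ _ _ _).inter (locEv_circZ _ _ _))
  rw [NuInv421.nu_real hLA.measurableSet]
  have key : ∀ (a : ℤ) (ω : Cfg), plusMap (addH a ω) ∈ A → Gev s t1 t2 ω := by
    intro a ω h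
    have hle : ∀ e, plusMap (addH a ω) e = true → cutE ω e := by
      intro e he
      unfold plusMap at he
      rw [decide_eq_true_eq] at he
      exact he.1
    exact ⟨armP_mono hle h.1, Ring421.circ_mono hle h.2.1, Ring421.circ_mono hle h.2.2⟩
  have l0 : Loc ((gS t2 : Finset P2) : Set P2) (fun ω => if Gev s t1 t2 ω then (1 : ℝ) else 0) := by
    intro ω ω' h
    have : Gev s t1 t2 ω ↔ Gev s t1 t2 ω' :=
      ⟨Gev_loc h12 fun v hv b => (h v hv).2.2 b,
        Gev_loc h12 fun v hv b => ((h v hv).2.2 b).symm⟩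
    simp only [this]
  obtain ⟨S, hS⟩ := hLA
  refine integral_mono (loc_integrable hP (NuInv421.loc_GA hS)) (loc_integrable hP l0) fun ω => ?_
  have k0 := key 0 ω
  have k2 := key 2 ω
  have e0 : addH 0 ω = ω := by simp [addH]
  rw [e0] at k0
  simp only [NuInv421.GA]
  by_cases hG : Gev s t1 t2 ω
  · rw [if_pos hG]
    split_ifs <;> norm_num
  · rw [if_neg hG, if_neg fun h => hG (k0 h), if_neg fun h => hG (k2 h)]
    norm_num

/-- **One-arm blocking.** -/
theorem blockX {c : ℝ} (hc : 1 ≤ c) {P : Measure Cfg} (hP : IsState c P) (hG : PlaneGauss c P)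
    (hF : FKGLoc (nu P)) : BlockX (nu P) := by
  classical
  have := hP.prob
  have hc0 : 0 < c := by linarith
  rw [blockX_iff]
  intro c3 ε h3 hε
  obtain ⟨K0, hK0, N1, hN1⟩ := second_moment hG
  -- the constant `K`
  set K : ℝ := Real.sqrt (4 * K0 / (c3 ^ 2 * ε)) with hKdef
  have hK : 0 < K := Real.sqrt_pos.2 (by positivity)
  have hK2 : K ^ 2 = 4 * K0 / (c3 ^ 2 * ε) := Real.sq_sqrt (by positivity)
  have hKK : (K ^ 2)⁻¹ * K0 = c3 ^ 2 * ε / 4 := by
    rw [hK2]
    field_simp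
  obtain ⟨M, hM, N2, hN2⟩ := spread hc0 hG (L := 2 * K) (η := c3 ^ 2 * ε / 2) (by positivity)
    (by positivity)
  refine ⟨8 * M, max (max N1 N2) 1, by omega, fun s hs hcirc => ?_⟩
  have hs1 : 1 ≤ s := (le_max_right _ _).trans hs
  have hsN1 : N1 ≤ 4 * s := by
    have := (le_max_left _ _).trans ((le_max_left _ _).trans hs)
    omega
  have hsN2 : N2 ≤ 4 * s := by
    have := (le_max_right _ _).trans ((le_max_left _ _).trans hs)
    omega
  set t1 := 4 * s with ht1
  set t2 := M * t1 with ht2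
  have h12 : t1 ≤ t2 := Nat.le_mul_of_pos_left _ hM
  have hst : s < t1 := by omega
  have ht11 : 1 ≤ t1 := by omega
  have hR : 8 * M * s = 2 * t2 := by rw [ht2, ht1]; ring
  rw [hR]
  -- the bound of the triple event
  have hb := (nu_le_Gev hP (s := s) h12).trans (state_bound hc hP hst h12 hK)
  have m1 := hN1 t1 hsN1
  have m2 := hN1 t2 (hsN1.trans h12)
  have m3 := hN2 t1 hsN2
  have hK2' : 0 < (K ^ 2)⁻¹ := by positivity
  have q1 := mul_le_mul_of_nonneg_left m1 hK2'.le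
  have q2 := mul_le_mul_of_nonneg_left m2 hK2'.le
  rw [hKK] at q1 q2
  have hms : MeasurableSet {ω : Cfg | |XN t1 ω - XN t2 ω| ≤ 2 * K} :=
    measurableSet_le ((measurable_XN t1).sub (measurable_XN t2)).abs measurable_const
  have e3 : ∫ ω, (if |XN t1 ω - XN t2 ω| ≤ 2 * K then (1 : ℝ) else 0) ∂P =
      P.real {ω : Cfg | |XN t1 ω - XN t2 ω| ≤ 2 * K} := by
    have : (fun ω : Cfg => if |XN t1 ω - XN t2 ω| ≤ 2 * K then (1 : ℝ) else 0) =
        {ω : Cfg | |XN t1 ω - XN t2 ω| ≤ 2 * K}.indicator (fun _ => (1 : ℝ)) := by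
      funext ω
      simp only [Set.indicator, Set.mem_ofPred_eq]
    rw [this, integral_indicator hms]
    simp
  rw [e3] at hb
  have hsmall : (nu P).real (Arm s (2 * t2) ∩ (CircZ (0, 0) t1 (2 * t1) ∩
      CircZ (0, 0) t2 (2 * t2))) ≤ c3 ^ 2 * ε := by
    have : P.real {ω : Cfg | |XN t1 ω - XN t2 ω| ≤ 2 * K} ≤ c3 ^ 2 * ε / 2 := m3
    linarith
  -- FKG
  have hf2 := hF (CircZ (0, 0) t1 (2 * t1)) (CircZ (0, 0) t2 (2 * t2)) (locEv_circZ _ _ _)
    (locEv_circZ _ _ _) (incEv_circZ _ _ _) (incEv_circZ _ _ _)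
  have hf1 := hF (Arm s (2 * t2)) (CircZ (0, 0) t1 (2 * t1) ∩ CircZ (0, 0) t2 (2 * t2))
    (locEv_arm _ _) ((locEv_circZ _ _ _).inter (locEv_circZ _ _ _)) (incEv_arm _ _)
    ((incEv_circZ _ _ _).inter (incEv_circZ _ _ _))
  have r2 := ENNReal.toReal_mono (by finiteness) hf2
  have r1 := ENNReal.toReal_mono (by finiteness) hf1
  rw [ENNReal.toReal_mul] at r1 r2
  have c1 := hcirc t1 le_rfl (by rw [hR]; omega)
  have c2 := hcirc t2 h12 (by rw [hR]; omega)
  have hprod : c3 ^ 2 ≤ (nu P (CircZ (0, 0) t1 (2 * t1) ∩ CircZ (0, 0) t2 (2 * t2))).toReal := by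
    refine le_trans ?_ r2
    rw [sq]
    exact mul_le_mul c1 c2 h3.le (h3.le.trans c1)
  have hfin : (nu P (Arm s (2 * t2))).toReal * c3 ^ 2 ≤ c3 ^ 2 * ε :=
    (mul_le_mul_of_nonneg_left hprod ENNReal.toReal_nonneg).trans (r1.trans hsmall)
  have hc32 : 0 < c3 ^ 2 := by positivity
  nlinarith

end Crest.Agent.R161.Blk868
end
end

-- ▼ part R161/LkL_159
section

/-!
# Row 161, block J (helper159): smeared heights as integrals over the plane

* `q s` : position in AT coordinates of the six-vertex face `s`.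
* `SM δ x` : site map `x : ℂ → ℤ × ℤ` at mesh `δ`.
* `YY f x ω = ∫ f(z) H ω (x z) dz`.
* `cov_lim` : `E YY f x_δ YY g y_δ → s · plog f g` for mean zero `f, g` and any site maps.
-/

set_option autoImplicit false

noncomputable section

open Filter Topology MeasureTheory
open Finset hiding box
open Crest.ProbabilityR.SixVertex
open Crest.Agent.R150.Hgt989 Crest.Agent.R150.Pln989 Crest.Agent.R150.Pls989
open Crest.Agent.R150.Red989
open Crest.Agent.R161.Green722 (Tst)

namespace Crest.Agent.R161.Lk159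

variable {c : ℝ} {P : Measure Conf}

/-- position in AT coordinates of the six-vertex face `s` -/
def q (s : ℤ × ℤ) : ℂ := ⟨((s.1 : ℝ) - s.2) / 2, ((s.1 : ℝ) + s.2) / 2⟩

lemma q_sub (s t : ℤ × ℤ) : q (s - t) = q s - q t := by
  apply Complex.ext
  · simp [q]; ring
  · simp [q]; ring

@[simp] lemma q_zero : q 0 = 0 := by
  apply Complex.ext <;> simp [q]

lemma normSq_q (s : ℤ × ℤ) : ‖q s‖ ^ 2 = ((s.1 : ℝ) ^ 2 + (s.2 : ℝ) ^ 2) / 2 := by
  rw [← Complex.normSq_eq_norm_sq, Complex.normSq_apply]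
  simp only [q]
  ring

lemma sqrt_eq_q (s : ℤ × ℤ) : Real.sqrt ((s.1 : ℝ) ^ 2 + (s.2 : ℝ) ^ 2) = Real.sqrt 2 * ‖q s‖ := by
  have h : (s.1 : ℝ) ^ 2 + (s.2 : ℝ) ^ 2 = 2 * ‖q s‖ ^ 2 := by rw [normSq_q]; ring
  rw [h, Real.sqrt_mul (by norm_num), Real.sqrt_sq (norm_nonneg _)]

lemma norm_le_q (s : ℤ × ℤ) : ‖s‖ ≤ 2 * ‖q s‖ := by
  refine (norm_le_euclid s).trans ?_
  rw [sqrt_eq_q]
  have : Real.sqrt 2 ≤ 2 := by
    rw [Real.sqrt_le_left (by norm_num)]; norm_num
  exact mul_le_mul_of_nonneg_right this (norm_nonneg _)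

lemma half_le_q {s : ℤ × ℤ} (hs : s ≠ 0) : 1 / 2 ≤ ‖q s‖ := by
  have := norm_pos_of_ne hs
  have := norm_le_q s
  linarith

lemma q_ne_zero {s : ℤ × ℤ} (hs : s ≠ 0) : ‖q s‖ ≠ 0 := by
  have := half_le_q hs
  positivity

lemma el_eq_q {s : ℤ × ℤ} (hs : s ≠ 0) : el s = Real.log (Real.sqrt 2) + Real.log ‖q s‖ := by
  unfold el
  rw [sqrt_eq_q, Real.log_mul (by positivity) (q_ne_zero hs)]

/-- site maps at mesh `δ` -/
structure SM (δ : ℝ) (x : ℂ → ℤ × ℤ) : Prop where
  meas : Measurable x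
  close : ∀ z, ‖(δ : ℂ) * q (x z) - z‖ ≤ 2 * δ

/-- weights of the sites -/
def wf (f : ℂ → ℝ) (x : ℂ → ℤ × ℤ) (s : ℤ × ℤ) : ℝ := ∫ z in x ⁻¹' {s}, f z

variable {r δ : ℝ} {f g : ℂ → ℝ} {x y : ℂ → ℤ × ℤ}

lemma SM.mem_box (hδ : 0 < δ) (hx : SM δ x) {m : ℕ} (hm : 2 * (r / δ + 2) ≤ m) {z : ℂ}
    (hz : ‖z‖ ≤ r) : x z ∈ box m := by
  rw [mem_box_norm]
  refine (norm_le_q _).trans (le_trans ?_ hm)
  have h1 : ‖(δ : ℂ) * q (x z)‖ ≤ r + 2 * δ := by
    have : (δ : ℂ) * q (x z) = ((δ : ℂ) * q (x z) - z) + z := by ring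
    rw [this]
    refine (norm_add_le _ _).trans ?_
    have := hx.close z
    linarith
  rw [norm_mul, Complex.norm_real, Real.norm_eq_abs, abs_of_pos hδ] at h1
  have h2 : ‖q (x z)‖ ≤ r / δ + 2 := by
    rw [div_add' _ _ _ hδ.ne', le_div_iff₀ hδ]
    linarith
  linarith

lemma int_step (hf : Tst r f) (hδ : 0 < δ) (hx : SM δ x) {m : ℕ} (hm : 2 * (r / δ + 2) ≤ m)
    (φ : ℤ × ℤ → ℝ) : ∫ z, f z * φ (x z) = ∑ s ∈ box m, wf f x s * φ s := by
  have h1 : ∀ z, f z * φ (x z) = ∑ s ∈ box m, (x ⁻¹' {s}).indicator f z * φ s := by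
    intro z
    by_cases hz : f z = 0
    · rw [hz, zero_mul]
      symm
      refine sum_eq_zero fun s _ => ?_
      by_cases hs : z ∈ x ⁻¹' {s}
      · rw [Set.indicator_of_mem hs, hz, zero_mul]
      · rw [Set.indicator_of_notMem hs, zero_mul]
    · have hzr : ‖z‖ ≤ r := by
        by_contra hcon
        exact hz (hf.supp z (not_le.1 hcon))
      rw [sum_eq_single (x z)]
      · rw [Set.indicator_of_mem (by simp)]
      · intro s _ hs
        rw [Set.indicator_of_notMem (by simpa using fun h => hs h.symm), zero_mul]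
      · intro hn
        exact absurd (hx.mem_box hδ hm hzr) hn
  have hms : ∀ s, MeasurableSet (x ⁻¹' {s}) := fun s => hx.meas (measurableSet_singleton s)
  simp only [h1]
  rw [integral_finsetSum]
  · refine sum_congr rfl fun s _ => ?_
    rw [integral_mul_const, integral_indicator (hms s), wf]
  · intro s _
    exact (hf.integrable.indicator (hms s)).mul_const _

lemma abs_wf_le {A : ℝ} (hA : ∀ z, |f z| ≤ A) (hδ : 0 < δ) (hx : SM δ x) (s : ℤ × ℤ) :
    |wf f x s| ≤ 16 * A * δ ^ 2 := by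
  have hA0 : 0 ≤ A := (abs_nonneg _).trans (hA 0)
  unfold wf
  have hsub : x ⁻¹' {s} ⊆ Metric.closedBall ((δ : ℂ) * q s) (2 * δ) := by
    intro z hz
    have := hx.close z
    rw [show x z = s from hz] at this
    rw [Metric.mem_closedBall, dist_comm, dist_eq_norm]
    exact this
  have hvol : volume (x ⁻¹' {s}) ≤ ENNReal.ofReal (2 * δ) ^ 2 * NNReal.pi := by
    refine (measure_mono hsub).trans ?_
    rw [Complex.volume_closedBall]
  have hfin : ENNReal.ofReal (2 * δ) ^ 2 * NNReal.pi ≠ ⊤ := by finiteness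
  have hlt : volume (x ⁻¹' {s}) < ⊤ := lt_of_le_of_lt hvol hfin.lt_top
  have h1 := norm_setIntegral_le_of_norm_le_const (f := f) hlt (C := A)
    (fun z _ => by rw [Real.norm_eq_abs]; exact hA z)
  rw [Real.norm_eq_abs] at h1
  refine h1.trans ?_
  have h2 : volume.real (x ⁻¹' {s}) ≤ (2 * δ) ^ 2 * Real.pi := by
    have h3 := ENNReal.toReal_mono hfin hvol
    rw [ENNReal.toReal_mul, ENNReal.toReal_pow, ENNReal.toReal_ofReal (by positivity)] at h3
    exact h3
  have h4 : volume.real (x ⁻¹' {s}) ≤ 16 * δ ^ 2 := by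
    refine h2.trans ?_
    have := Real.pi_lt_four
    nlinarith [sq_nonneg δ]
  calc A * volume.real (x ⁻¹' {s}) ≤ A * (16 * δ ^ 2) := by gcongr
    _ = _ := by ring

lemma sum_wf (hf : Tst r f) (hδ : 0 < δ) (hx : SM δ x) {m : ℕ} (hm : 2 * (r / δ + 2) ≤ m) :
    ∑ s ∈ box m, wf f x s = ∫ z, f z := by
  have := int_step hf hδ hx hm (fun _ => 1)
  simp only [mul_one] at this
  exact this.symm

lemma int_step2 (hf : Tst r f) (hg : Tst r g) (hδ : 0 < δ) (hx : SM δ x) (hy : SM δ y) {m : ℕ}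
    (hm : 2 * (r / δ + 2) ≤ m) (Φ : ℤ × ℤ → ℤ × ℤ → ℝ) :
    ∫ z, ∫ w, f z * Φ (x z) (y w) * g w =
      ∑ s ∈ box m, ∑ t ∈ box m, wf f x s * wf g y t * Φ s t := by
  have h1 : ∀ z, ∫ w, f z * Φ (x z) (y w) * g w =
      f z * (fun s => ∑ t ∈ box m, wf g y t * Φ s t) (x z) := by
    intro z
    have := int_step hg hδ hy hm (Φ (x z))
    change _ = f z * ∑ t ∈ box m, wf g y t * Φ (x z) t
    rw [← this, ← integral_const_mul]
    refine integral_congr_ae (Eventually.of_forall fun w => ?_)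
    simp only
    ring
  simp only [h1]
  rw [int_step hf hδ hx hm (fun s => ∑ t ∈ box m, wf g y t * Φ s t)]
  refine sum_congr rfl fun s _ => ?_
  rw [mul_sum]
  refine sum_congr rfl fun t _ => ?_
  ring

/-- smeared height as an integral over the plane -/
def YY (f : ℂ → ℝ) (x : ℂ → ℤ × ℤ) (ω : Conf) : ℝ := ∫ z, f z * H ω (x z)

lemma YY_eq (hf : Tst r f) (hδ : 0 < δ) (hx : SM δ x) {m : ℕ} (hm : 2 * (r / δ + 2) ≤ m)
    (ω : Conf) : YY f x ω = XX (box m) (wf f x) id ω := by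
  unfold YY XX
  exact int_step hf hδ hx hm (H ω)

/-! ### the rescaled kernel -/

/-- the rescaled logarithm -/
def ell (δ : ℝ) (s : ℤ × ℤ) : ℝ := el s - Real.log (Real.sqrt 2) + Real.log δ

lemma ell_of_ne (hδ : 0 < δ) {s : ℤ × ℤ} (hs : s ≠ 0) : ell δ s = Real.log ‖(δ : ℂ) * q s‖ := by
  unfold ell
  rw [el_eq_q hs, norm_mul, Complex.norm_real, Real.norm_eq_abs, abs_of_pos hδ,
    Real.log_mul hδ.ne' (q_ne_zero hs)]
  ring

lemma ell_zero : ell δ 0 = Real.log δ - Real.log (Real.sqrt 2) := by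
  unfold ell el
  simp
  ring

lemma dist_sites (hx : SM δ x) (hy : SM δ y) (z w : ℂ) :
    ‖(δ : ℂ) * q (x z - y w) - (z - w)‖ ≤ 4 * δ := by
  have e : (δ : ℂ) * q (x z - y w) - (z - w) = ((δ : ℂ) * q (x z) - z) - ((δ : ℂ) * q (y w) - w) := by
    rw [q_sub]; ring
  rw [e]
  refine (norm_sub_le _ _).trans ?_
  have := hx.close z
  have := hy.close w
  linarith

lemma abs_ell_le (hδ : 0 < δ) (hδ1 : δ ≤ 1) (hx : SM δ x) (hy : SM δ y) {z w : ℂ} (hzw : z ≠ w) :
    |ell δ (x z - y w)| ≤ |Real.log ‖z - w‖| + 6 := by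
  have hd := dist_sites hx hy z w
  have hpos : 0 < ‖z - w‖ := norm_pos_iff.2 (sub_ne_zero.2 hzw)
  have hl2 : Real.log 2 ≤ 1 := by have := Real.log_two_lt_d9; linarith
  have hl2' : 0 ≤ Real.log 2 := Real.log_nonneg (by norm_num)
  have hup : ‖(δ : ℂ) * q (x z - y w)‖ ≤ ‖z - w‖ + 4 * δ := by
    have : (δ : ℂ) * q (x z - y w) = ((δ : ℂ) * q (x z - y w) - (z - w)) + (z - w) := by ring
    rw [this]
    refine (norm_add_le _ _).trans ?_
    linarith
  have hlo : ‖z - w‖ - 4 * δ ≤ ‖(δ : ℂ) * q (x z - y w)‖ := by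
    have : z - w = (δ : ℂ) * q (x z - y w) - ((δ : ℂ) * q (x z - y w) - (z - w)) := by ring
    have h2 : ‖z - w‖ ≤ ‖(δ : ℂ) * q (x z - y w)‖ + ‖(δ : ℂ) * q (x z - y w) - (z - w)‖ := by
      conv_lhs => rw [this]
      exact norm_sub_le _ _
    linarith
  rcases le_or_gt (8 * δ) ‖z - w‖ with hbig | hsmall
  · have hs : x z - y w ≠ 0 := by
      intro h0
      rw [h0, q_zero, mul_zero, norm_zero] at hlo
      linarith
    rw [ell_of_ne hδ hs]
    have h1 : ‖z - w‖ / 2 ≤ ‖(δ : ℂ) * q (x z - y w)‖ := by linarith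
    have h2 : ‖(δ : ℂ) * q (x z - y w)‖ ≤ ‖z - w‖ * 2 := by linarith
    have h3 := Real.log_le_log (by positivity) h1
    have h4 := Real.log_le_log (lt_of_lt_of_le (by positivity) h1) h2
    rw [Real.log_div hpos.ne' (by norm_num)] at h3
    rw [Real.log_mul hpos.ne' (by norm_num)] at h4
    rw [abs_le]
    have := neg_abs_le (Real.log ‖z - w‖)
    have := le_abs_self (Real.log ‖z - w‖)
    constructor <;> linarith
  · -- near
    have h5 : -Real.log δ ≤ |Real.log ‖z - w‖| + 3 * Real.log 2 := by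
      have := Real.log_le_log hpos hsmall.le
      rw [Real.log_mul (by norm_num) hδ.ne'] at this
      have e8 : Real.log 8 = 3 * Real.log 2 := by
        rw [show (8 : ℝ) = 2 ^ 3 by norm_num, Real.log_pow]; norm_num
      rw [e8] at this
      have := neg_abs_le (Real.log ‖z - w‖)
      linarith
    have hlδ : Real.log δ ≤ 0 := Real.log_nonpos hδ.le hδ1
    have hs2 : 0 ≤ Real.log (Real.sqrt 2) ∧ Real.log (Real.sqrt 2) ≤ Real.log 2 := by
      rw [Real.log_sqrt (by norm_num)]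
      constructor <;> linarith
    by_cases hs : x z - y w = 0
    · rw [hs, ell_zero, abs_le]
      have h0 := abs_nonneg (Real.log ‖z - w‖)
      constructor <;> linarith [hs2.1, hs2.2]
    · rw [ell_of_ne hδ hs]
      have h1 : δ / 2 ≤ ‖(δ : ℂ) * q (x z - y w)‖ := by
        rw [norm_mul, Complex.norm_real, Real.norm_eq_abs, abs_of_pos hδ]
        have := half_le_q hs
        nlinarith
      have h2 : ‖(δ : ℂ) * q (x z - y w)‖ ≤ 16 := by linarith
      have h3 := Real.log_le_log (by positivity) h1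
      have h4 := Real.log_le_log (lt_of_lt_of_le (by positivity) h1) h2
      rw [Real.log_div hδ.ne' (by norm_num)] at h3
      have e16 : Real.log 16 = 4 * Real.log 2 := by
        rw [show (16 : ℝ) = 2 ^ 4 by norm_num, Real.log_pow]; norm_num
      rw [e16] at h4
      have h0 := abs_nonneg (Real.log ‖z - w‖)
      rw [abs_le]
      constructor <;> linarith

lemma ell_tendsto {x y : ℝ → ℂ → ℤ × ℤ} (hx : ∀ δ, 0 < δ → SM δ (x δ))
    (hy : ∀ δ, 0 < δ → SM δ (y δ)) {z w : ℂ} (hzw : z ≠ w) :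
    Tendsto (fun δ : ℝ => ell δ (x δ z - y δ w)) (𝓝[>] 0) (𝓝 (Real.log ‖z - w‖)) := by
  have hpos : 0 < ‖z - w‖ := norm_pos_iff.2 (sub_ne_zero.2 hzw)
  have h1 : Tendsto (fun δ : ℝ => (δ : ℂ) * q (x δ z - y δ w)) (𝓝[>] 0) (𝓝 (z - w)) := by
    rw [tendsto_iff_norm_sub_tendsto_zero]
    refine squeeze_zero' (Eventually.of_forall fun _ => norm_nonneg _) (g := fun δ => 4 * δ) ?_ ?_
    · filter_upwards [self_mem_nhdsWithin] with δ hδ
      exact dist_sites (hx δ hδ) (hy δ hδ) z w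
    · have : Tendsto (fun δ : ℝ => 4 * δ) (𝓝 0) (𝓝 (4 * 0)) := tendsto_id.const_mul 4
      rw [mul_zero] at this
      exact this.mono_left nhdsWithin_le_nhds
  have h2 : Tendsto (fun δ : ℝ => Real.log ‖(δ : ℂ) * q (x δ z - y δ w)‖) (𝓝[>] 0)
      (𝓝 (Real.log ‖z - w‖)) := (h1.norm).log hpos.ne'
  refine h2.congr' ?_
  have h3 : ∀ᶠ δ : ℝ in 𝓝[>] 0, δ < ‖z - w‖ / 8 :=
    nhdsWithin_le_nhds (Iio_mem_nhds (by positivity))
  filter_upwards [self_mem_nhdsWithin, h3] with δ hδ h4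
  have hδ' : (0 : ℝ) < δ := hδ
  symm
  refine ell_of_ne hδ' ?_
  intro h0
  have hd := dist_sites (hx δ hδ) (hy δ hδ) z w
  rw [h0, q_zero, mul_zero, zero_sub, norm_neg] at hd
  linarith

/-! ### the covariance limit -/

/-- the rescaled double sum as a double integral -/
def II (f g : ℂ → ℝ) (δ : ℝ) (x y : ℂ → ℤ × ℤ) : ℝ :=
  ∫ z, ∫ w, f z * ell δ (x z - y w) * g w

lemma measurable_site {x y : ℂ → ℤ × ℤ} (hx : Measurable x) (hy : Measurable y) (φ : ℤ × ℤ → ℝ) :
    Measurable fun p : ℂ × ℂ => φ (x p.1 - y p.2) :=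
  (measurable_of_countable φ).comp ((hx.comp measurable_fst).sub (hy.comp measurable_snd))

lemma II_tendsto (hf : Tst r f) (hg : Tst r g) {x y : ℝ → ℂ → ℤ × ℤ}
    (hx : ∀ δ, 0 < δ → SM δ (x δ)) (hy : ∀ δ, 0 < δ → SM δ (y δ)) :
    Tendsto (fun δ => II f g δ (x δ) (y δ)) (𝓝[>] 0)
      (𝓝 (∫ z, ∫ w, f z * Real.log ‖z - w‖ * g w)) := by
  have hdom := Crest.Agent.R161.Green722.integrable_dom hf hg 6
  have hmeas : ∀ δ, 0 < δ → AEStronglyMeasurable
      (fun p : ℂ × ℂ => f p.1 * ell δ (x δ p.1 - y δ p.2) * g p.2) (volume : Measure (ℂ × ℂ)) := by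
    intro δ hδ
    exact (((hf.meas.comp measurable_fst).mul
      (measurable_site (hx δ hδ).meas (hy δ hδ).meas (ell δ))).mul
      (hg.meas.comp measurable_snd)).aestronglyMeasurable
  have hne : ∀ᵐ p : ℂ × ℂ, p.1 ≠ p.2 := by
    have h1 : ∀ᵐ p : ℂ × ℂ ∂(volume.prod volume), p ∈ {p : ℂ × ℂ | p.1 ≠ p.2} := by
      rw [Measure.ae_prod_mem_iff_ae_ae_mem]
      · refine Eventually.of_forall fun z => ?_
        have : ∀ᵐ w : ℂ, w ≠ z := by rw [ae_iff]; simp
        filter_upwards [this] with w hw using hw.symm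
      · exact (isOpen_ne_fun continuous_fst continuous_snd).measurableSet
    exact h1
  have hbd : ∀ δ, 0 < δ → δ ≤ 1 → ∀ᵐ p : ℂ × ℂ,
      ‖f p.1 * ell δ (x δ p.1 - y δ p.2) * g p.2‖ ≤
        |f p.1| * (|Real.log ‖p.1 - p.2‖| + 6) * |g p.2| := by
    intro δ hδ hδ1
    filter_upwards [hne] with p hp
    rw [Real.norm_eq_abs, abs_mul, abs_mul]
    have := abs_ell_le hδ hδ1 (hx δ hδ) (hy δ hδ) hp
    gcongr
  have hlogi := Crest.Agent.R161.Green722.integrable_log_kernel hf hg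
  have hkey : Tendsto (fun δ => ∫ p : ℂ × ℂ, f p.1 * ell δ (x δ p.1 - y δ p.2) * g p.2) (𝓝[>] 0)
      (𝓝 (∫ p : ℂ × ℂ, f p.1 * Real.log ‖p.1 - p.2‖ * g p.2)) := by
    refine tendsto_integral_filter_of_dominated_convergence
      (fun p : ℂ × ℂ => |f p.1| * (|Real.log ‖p.1 - p.2‖| + 6) * |g p.2|) ?_ ?_ hdom ?_
    · filter_upwards [self_mem_nhdsWithin] with δ hδ
      exact hmeas δ hδ
    · have h1 : ∀ᶠ δ : ℝ in 𝓝[>] 0, δ ≤ 1 :=
        nhdsWithin_le_nhds (Iic_mem_nhds one_pos)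
      filter_upwards [self_mem_nhdsWithin, h1] with δ hδ hδ1
      exact hbd δ hδ hδ1
    · filter_upwards [hne] with p hp
      exact ((ell_tendsto hx hy hp).const_mul (f p.1)).mul_const (g p.2)
  have e2 : ∫ z, ∫ w, f z * Real.log ‖z - w‖ * g w =
      ∫ p : ℂ × ℂ, f p.1 * Real.log ‖p.1 - p.2‖ * g p.2 :=
    (integral_prod _ hlogi).symm
  rw [e2]
  refine hkey.congr' ?_
  have h1 : ∀ᶠ δ : ℝ in 𝓝[>] 0, δ ≤ 1 := nhdsWithin_le_nhds (Iic_mem_nhds one_pos)
  filter_upwards [self_mem_nhdsWithin, h1] with δ hδ hδ1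
  have hi : Integrable (fun p : ℂ × ℂ => f p.1 * ell δ (x δ p.1 - y δ p.2) * g p.2) :=
    Integrable.mono' hdom (hmeas δ hδ) (hbd δ hδ hδ1)
  exact integral_prod _ hi

/-- comparison of `E YY YY` with the rescaled double integral -/
lemma cov_sub_II (h : PlaneIn c P) (hr : 0 ≤ r) (hf : Tst r f) (hg : Tst r g) (hf0 : ∫ z, f z = 0)
    (hg0 : ∫ z, g z = 0) {ε : ℝ} (hε : 0 < ε) : ∃ δ0 : ℝ, 0 < δ0 ∧ ∀ δ, 0 < δ → δ < δ0 →
      ∀ x y : ℂ → ℤ × ℤ, SM δ x → SM δ y →
      |∫ ω, YY f x ω * YY g y ω ∂P + Lk159.kap c / 2 * II f g δ x y| ≤ ε := by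
  obtain ⟨A, hA⟩ := hf.bdd
  obtain ⟨A', hA'⟩ := hg.bdd
  have hA0 : 0 ≤ A := (abs_nonneg _).trans (hA 0)
  have hA0' : 0 ≤ A' := (abs_nonneg _).trans (hA' 0)
  obtain ⟨N0, hN0, H0⟩ := smeared h (64 * (A + A' + 1)) (by positivity) ⌈2 * r + 5⌉₊ hε
  refine ⟨1 / (N0 + 1), by positivity, fun δ hδ hδ0 x y hx hy => ?_⟩
  have hN0' : (1 : ℝ) ≤ N0 := by exact_mod_cast hN0
  have hδ1 : δ ≤ 1 := by
    refine hδ0.le.trans ?_
    rw [div_le_one (by positivity)]
    linarith
  set N := ⌈1 / δ⌉₊ with hN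
  set m := ⌈2 * (r / δ + 2)⌉₊ with hm
  have hm1 : 2 * (r / δ + 2) ≤ m := Nat.le_ceil _
  have hN1 : 1 / δ ≤ N := Nat.le_ceil _
  have hNpos : (0 : ℝ) < N := lt_of_lt_of_le (by positivity) hN1
  have hN1' : 1 ≤ 1 / δ := by rwa [le_div_iff₀ hδ, one_mul]
  have hN2 : (N : ℝ) ≤ 2 / δ := by
    have h1 : (N : ℝ) < 1 / δ + 1 := Nat.ceil_lt_add_one (by positivity)
    have h2 : 2 / δ = 1 / δ + 1 / δ := by ring
    linarith
  have hNN0 : N0 ≤ N := by
    have h1 : (N0 : ℝ) ≤ 1 / δ := by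
      rw [le_div_iff₀ hδ]
      rw [lt_div_iff₀ (by positivity)] at hδ0
      nlinarith
    exact_mod_cast h1.trans hN1
  have hδN : δ ^ 2 ≤ 4 / (N : ℝ) ^ 2 := by
    have h1 : δ ≤ 2 / N := by
      rw [le_div_iff₀ hNpos]
      rw [le_div_iff₀ hδ] at hN2
      linarith
    calc δ ^ 2 ≤ (2 / (N : ℝ)) ^ 2 := by gcongr
      _ = _ := by ring
  have hsup : ∀ s ∈ box m, ‖id s‖ ≤ (⌈2 * r + 5⌉₊ : ℝ) * N := by
    intro s hs
    rw [id, ]
    have h1 := mem_box_norm.1 hs
    have h2 : (m : ℝ) < 2 * (r / δ + 2) + 1 := Nat.ceil_lt_add_one (by positivity)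
    have h3 : 2 * r + 5 ≤ (⌈2 * r + 5⌉₊ : ℝ) := Nat.le_ceil _
    have h4 : r / δ = r * (1 / δ) := by ring
    have h5 : r * (1 / δ) ≤ r * N := by gcongr
    have h6 : (1 : ℝ) ≤ N := hN1'.trans hN1
    calc ‖s‖ ≤ m := h1
      _ ≤ 2 * (r * N + 2) + 1 := by rw [h4] at h2; linarith
      _ ≤ (2 * r + 5) * N := by nlinarith
      _ ≤ _ := by gcongr
  have hwf : ∀ s ∈ box m, |wf f x s| ≤ 64 * (A + A' + 1) / (N : ℝ) ^ 2 := by
    intro s _
    refine (abs_wf_le hA hδ hx s).trans ?_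
    calc 16 * A * δ ^ 2 ≤ 16 * (A + A' + 1) * (4 / (N : ℝ) ^ 2) := by gcongr; linarith
      _ = _ := by ring
  have hwg : ∀ s ∈ box m, |wf g y s| ≤ 64 * (A + A' + 1) / (N : ℝ) ^ 2 := by
    intro s _
    refine (abs_wf_le hA' hδ hy s).trans ?_
    calc 16 * A' * δ ^ 2 ≤ 16 * (A + A' + 1) * (4 / (N : ℝ) ^ 2) := by gcongr; linarith
      _ = _ := by ring
  have hsf : ∑ s ∈ box m, wf f x s = 0 := by rw [sum_wf hf hδ hx hm1, hf0]
  have hsg : ∑ s ∈ box m, wf g y s = 0 := by rw [sum_wf hg hδ hy hm1, hg0]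
  have key := H0 N hNN0 (ℤ × ℤ) (ℤ × ℤ) (box m) (box m) (wf f x) (wf g y) id id
    Function.injective_id.injOn Function.injective_id.injOn hsup hsup hwf hwg hsf hsg
  have e1 : ∫ ω, YY f x ω * YY g y ω ∂P =
      ∫ ω, XX (box m) (wf f x) id ω * XX (box m) (wf g y) id ω ∂P := by
    refine integral_congr_ae (Eventually.of_forall fun ω => ?_)
    simp only
    rw [YY_eq hf hδ hx hm1, YY_eq hg hδ hy hm1]
  have e2 : ∑ s ∈ box m, ∑ t ∈ box m, wf f x s * wf g y t * el (id s - id t) = II f g δ x y := by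
    unfold II
    rw [int_step2 hf hg hδ hx hy hm1 (fun s t => ell δ (s - t))]
    have e3 : ∀ s t, wf f x s * wf g y t * el (id s - id t) =
        wf f x s * wf g y t * ell δ (s - t) +
          wf f x s * wf g y t * (Real.log (Real.sqrt 2) - Real.log δ) := by
      intro s t
      unfold ell
      simp only [id]
      ring
    simp only [e3, sum_add_distrib]
    have e4 : ∑ s ∈ box m, ∑ t ∈ box m, wf f x s * wf g y t * (Real.log (Real.sqrt 2) - Real.log δ) =
        0 := by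
      simp only [← sum_mul, ← mul_sum]
      rw [hsg]
      simp
    rw [e4, add_zero]
  rw [e1, ← e2]
  exact key

/-- **The covariance limit.** -/
theorem cov_lim (h : PlaneIn c P) (hr : 0 ≤ r) (hf : Tst r f) (hg : Tst r g) (hf0 : ∫ z, f z = 0)
    (hg0 : ∫ z, g z = 0) {x y : ℝ → ℂ → ℤ × ℤ} (hx : ∀ δ, 0 < δ → SM δ (x δ))
    (hy : ∀ δ, 0 < δ → SM δ (y δ)) :
    Tendsto (fun δ => ∫ ω, YY f (x δ) ω * YY g (y δ) ω ∂P) (𝓝[>] 0)
      (𝓝 (varianceMultiplier c * Ifc372.plog f g)) := by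
  have h1 : Tendsto (fun δ => ∫ ω, YY f (x δ) ω * YY g (y δ) ω ∂P +
      kap c / 2 * II f g δ (x δ) (y δ)) (𝓝[>] 0) (𝓝 0) := by
    rw [Metric.tendsto_nhds]
    intro ε hε
    obtain ⟨δ0, hδ0, H0⟩ := cov_sub_II h hr hf hg hf0 hg0 (ε := ε / 2) (by positivity)
    have h3 : ∀ᶠ δ : ℝ in 𝓝[>] 0, δ < δ0 := nhdsWithin_le_nhds (Iio_mem_nhds hδ0)
    filter_upwards [self_mem_nhdsWithin, h3] with δ hδ hδ2
    rw [Real.dist_eq, sub_zero]
    have := H0 δ hδ hδ2 (x δ) (y δ) (hx δ hδ) (hy δ hδ)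
    linarith
  have h2 := (II_tendsto hf hg hx hy).const_mul (kap c / 2)
  have h3 := h1.sub h2
  have e : 0 - kap c / 2 * (∫ z, ∫ w, f z * Real.log ‖z - w‖ * g w) =
      varianceMultiplier c * Ifc372.plog f g := by
    unfold Ifc372.plog kap
    have e1 : ∀ z w : ℂ, f z * (-(2 * Real.pi)⁻¹ * Real.log ‖z - w‖) * g w =
        -(2 * Real.pi)⁻¹ * (f z * Real.log ‖z - w‖ * g w) := fun z w => by ring
    simp only [e1, integral_const_mul]
    have := Real.pi_pos
    field_simp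
    ring
  rw [e] at h3
  refine h3.congr fun δ => ?_
  ring

/-- two site maps give asymptotically the same functional -/
theorem diff_lim (h : PlaneIn c P) (hr : 0 ≤ r) (hf : Tst r f) (hf0 : ∫ z, f z = 0)
    {x y : ℝ → ℂ → ℤ × ℤ} (hx : ∀ δ, 0 < δ → SM δ (x δ)) (hy : ∀ δ, 0 < δ → SM δ (y δ)) :
    Tendsto (fun δ => ∫ ω, (YY f (x δ) ω - YY f (y δ) ω) ^ 2 ∂P) (𝓝[>] 0) (𝓝 0) := by
  have h1 := cov_lim h hr hf hf hf0 hf0 hx hx
  have h2 := cov_lim h hr hf hf hf0 hf0 hx hy
  have h3 := cov_lim h hr hf hf hf0 hf0 hy hy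
  have h4 := (h1.sub (h2.const_mul 2)).add h3
  have e : varianceMultiplier c * Ifc372.plog f f - 2 * (varianceMultiplier c * Ifc372.plog f f) +
      varianceMultiplier c * Ifc372.plog f f = 0 := by ring
  rw [e] at h4
  refine h4.congr' ?_
  filter_upwards [self_mem_nhdsWithin] with δ hδ
  have := h.plane.prob
  have hδ' : (0 : ℝ) < δ := hδ
  have hm1 : 2 * (r / δ + 2) ≤ (⌈2 * (r / δ + 2)⌉₊ : ℝ) := Nat.le_ceil _
  have ex : ∀ ω, YY f (x δ) ω = XX (box ⌈2 * (r / δ + 2)⌉₊) (wf f (x δ)) id ω :=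
    YY_eq hf hδ' (hx δ hδ) hm1
  have ey : ∀ ω, YY f (y δ) ω = XX (box ⌈2 * (r / δ + 2)⌉₊) (wf f (y δ)) id ω :=
    YY_eq hf hδ' (hy δ hδ) hm1
  simp only [ex, ey]
  have l1 := loc_XX (box ⌈2 * (r / δ + 2)⌉₊) (wf f (x δ)) id
  have l2 := loc_XX (box ⌈2 * (r / δ + 2)⌉₊) (wf f (y δ)) id
  have i11 := Loc.integrable (l1.mul l1) P
  have i12 := Loc.integrable (l1.mul l2) P
  have i22 := Loc.integrable (l2.mul l2) P
  rw [← integral_const_mul, ← integral_sub i11 (i12.const_mul 2), ← integral_add _ i22]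
  · refine integral_congr_ae (Eventually.of_forall fun ω => ?_)
    simp only
    ring
  · exact i11.sub (i12.const_mul 2)

end Crest.Agent.R161.Lk159
end
end

-- ▼ part R161/LkD_159
section

/-!
# Row 161, block J (helper159): from S0211's law (signed measures on `ℝ × ℝ`, six-vertex
coordinates) to smooth densities on `ℂ` (AT coordinates)

* `T : ℝ × ℝ → ℂ` coordinates; `map_T`.
* `muf f` : the signed measure with density; `hp_muf`, `energy_muf`, `finiteEnergy_muf`.
* `law_YY` : law of `YY f (xB δ)`.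
-/

set_option autoImplicit false

noncomputable section

open Filter Topology MeasureTheory
open Finset hiding box
open scoped ENNReal
open Crest.ProbabilityR.SixVertex
open Crest.Agent.R150.Hgt989 Crest.Agent.R150.Pln989 Crest.Agent.R150.Pls989
open Crest.Agent.R150.Red989
open Crest.Agent.R161.Green722 (Tst)

namespace Crest.Agent.R161.Lk159

variable {c : ℝ} {P : Measure Conf}

/-! ### coordinates -/

/-- AT coordinates of the point `p` of the six-vertex plane -/
def T (p : ℝ × ℝ) : ℂ := ⟨(p.1 - p.2) / 2, (p.1 + p.2) / 2⟩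

/-- inverse coordinates -/
def Ti (z : ℂ) : ℝ × ℝ := (z.re + z.im, z.im - z.re)

lemma Ti_T (p : ℝ × ℝ) : Ti (T p) = p := by
  ext
  · simp [Ti, T]; ring
  · simp [Ti, T]; ring

lemma T_Ti (z : ℂ) : T (Ti z) = z := by
  apply Complex.ext
  · simp only [Ti, T]; ring
  · simp only [Ti, T]; ring

lemma T_eq_mul (p : ℝ × ℝ) :
    T p = (⟨1 / 2, 1 / 2⟩ : ℂ) * Complex.measurableEquivRealProd.symm p := by
  rw [Complex.measurableEquivRealProd_symm_apply]
  apply Complex.ext
  · simp [T]; ring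
  · simp [T]; ring

lemma continuous_T : Continuous T := by
  have : T = fun p : ℝ × ℝ => (((p.1 - p.2) / 2 : ℝ) : ℂ) + (((p.1 + p.2) / 2 : ℝ) : ℂ) * Complex.I := by
    funext p
    apply Complex.ext <;> simp [T]
  rw [this]
  fun_prop

lemma measurable_T : Measurable T := continuous_T.measurable

lemma measurable_Ti : Measurable Ti := by
  unfold Ti
  exact (Complex.measurable_re.add Complex.measurable_im).prodMk
    (Complex.measurable_im.sub Complex.measurable_re)

/-- the coordinates as a measurable equivalence -/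
def eT : ℝ × ℝ ≃ᵐ ℂ where
  toFun := T
  invFun := Ti
  left_inv := Ti_T
  right_inv := T_Ti
  measurable_toFun := measurable_T
  measurable_invFun := measurable_Ti

lemma map_mul_left (a : ℂ) (ha : a ≠ 0) :
    Measure.map (fun z : ℂ => a * z) volume =
      ENNReal.ofReal |(Complex.normSq a)⁻¹| • (volume : Measure ℂ) := by
  have h := Measure.map_linearMap_addHaar_eq_smul_addHaar (volume : Measure ℂ)
    (f := Algebra.lmul ℝ ℂ a) (by
      rw [← Algebra.norm_apply, Algebra.norm_complex_apply]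
      exact (Complex.normSq_pos.2 ha).ne')
  rw [← Algebra.norm_apply, Algebra.norm_complex_apply] at h
  exact h

lemma map_T : Measure.map T (volume : Measure (ℝ × ℝ)) = (2 : ℝ≥0∞) • (volume : Measure ℂ) := by
  have h1 : T = (fun z : ℂ => (⟨1 / 2, 1 / 2⟩ : ℂ) * z) ∘ Complex.measurableEquivRealProd.symm := by
    funext p
    exact T_eq_mul p
  rw [h1, ← Measure.map_map (by fun_prop) (MeasurableEquiv.measurable _),
    Complex.volume_preserving_equiv_real_prod.symm.map_eq, map_mul_left]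
  · congr 1
    have : Complex.normSq (⟨1 / 2, 1 / 2⟩ : ℂ) = 1 / 2 := by
      simp [Complex.normSq_apply]; norm_num
    rw [this]
    norm_num
  · intro h
    have := congrArg Complex.re h
    norm_num at this

lemma mp_T : MeasurePreserving T (volume : Measure (ℝ × ℝ)) ((2 : ℝ≥0∞) • (volume : Measure ℂ)) :=
  ⟨measurable_T, map_T⟩

lemma emb_T : MeasurableEmbedding T := eT.measurableEmbedding

lemma integral_T (φ : ℂ → ℝ) : ∫ p, φ (T p) = 2 * ∫ z, φ z := by
  rw [mp_T.integral_comp emb_T, integral_smul_measure]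
  simp

lemma integrable_T {φ : ℂ → ℝ} (h : Integrable φ) : Integrable fun p => φ (T p) := by
  have : Integrable φ ((2 : ℝ≥0∞) • (volume : Measure ℂ)) := h.smul_measure (by simp)
  exact mp_T.integrable_comp_of_integrable this

lemma integrable_T2 {φ : ℂ × ℂ → ℝ} (h : Integrable φ) :
    Integrable fun p : (ℝ × ℝ) × (ℝ × ℝ) => φ (T p.1, T p.2) := by
  have hm : MeasurePreserving (Prod.map T T) ((volume : Measure (ℝ × ℝ)).prod volume)
      (((2 : ℝ≥0∞) • (volume : Measure ℂ)).prod ((2 : ℝ≥0∞) • (volume : Measure ℂ))) :=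
    mp_T.prod mp_T
  have h1 : Integrable φ
      (((2 : ℝ≥0∞) • (volume : Measure ℂ)).prod ((2 : ℝ≥0∞) • (volume : Measure ℂ))) := by
    rw [Measure.prod_smul_left, Measure.prod_smul_right]
    exact (h.smul_measure (by simp)).smul_measure (by simp)
  exact hm.integrable_comp_of_integrable h1

lemma euclidDist_eq (x y : ℝ × ℝ) : euclidDist x y = Real.sqrt 2 * ‖T x - T y‖ := by
  have h : (x.1 - y.1) ^ 2 + (x.2 - y.2) ^ 2 = 2 * ‖T x - T y‖ ^ 2 := by
    rw [← Complex.normSq_eq_norm_sq, Complex.normSq_apply]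
    simp only [T, Complex.sub_re, Complex.sub_im]
    ring
  unfold euclidDist
  rw [h, Real.sqrt_mul (by norm_num), Real.sqrt_sq (norm_nonneg _)]

/-! ### integrals against densities -/

section dens

variable {X : Type*} [MeasurableSpace X] {ν : Measure X} {F φ : X → ℝ}

lemma integral_withDensityV (hF : Integrable F ν) (hFm : Measurable F)
    (hi : Integrable (fun x => φ x * F x) ν) :
    ∫ᵛ x, φ x ∂<•(ν.withDensityᵥ F) = ∫ x, φ x * F x ∂ν := by
  have hfin1 : IsFiniteMeasure (ν.withDensity fun x => ENNReal.ofReal (F x)) :=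
    isFiniteMeasure_withDensity_ofReal hF.2
  have hfin2 : IsFiniteMeasure (ν.withDensity fun x => ENNReal.ofReal (-F x)) :=
    isFiniteMeasure_withDensity_ofReal hF.neg.2
  have h0 : ν.withDensityᵥ F = (ν.withDensity fun x => ENNReal.ofReal (F x)).toSignedMeasure -
      (ν.withDensity fun x => ENNReal.ofReal (-F x)).toSignedMeasure :=
    withDensityᵥ_eq_withDensity_pos_part_sub_withDensity_neg_part hF
  have m1 : Measurable fun x => ENNReal.ofReal (F x) := hFm.ennreal_ofReal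
  have m2 : Measurable fun x => ENNReal.ofReal (-F x) := hFm.neg.ennreal_ofReal
  have l1 : ∀ᵐ x ∂ν, ENNReal.ofReal (F x) < ⊤ := Eventually.of_forall fun _ => ENNReal.ofReal_lt_top
  have l2 : ∀ᵐ x ∂ν, ENNReal.ofReal (-F x) < ⊤ := Eventually.of_forall fun _ => ENNReal.ofReal_lt_top
  have i1 : Integrable (fun x => (ENNReal.ofReal (F x)).toReal • φ x) ν := by
    refine Integrable.mono hi ?_ (Eventually.of_forall fun x => ?_)
    · have h1 : (fun x => (ENNReal.ofReal (F x)).toReal • φ x) =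
          fun x => (if 0 < F x then 1 else 0) * (φ x * F x) := by
        funext x
        rw [ENNReal.toReal_ofReal', smul_eq_mul]
        split_ifs with h
        · rw [max_eq_left h.le]; ring
        · rw [max_eq_right (not_lt.1 h)]; ring
      rw [h1]
      exact ((Measurable.ite (measurableSet_lt measurable_const hFm) measurable_const
        measurable_const).aestronglyMeasurable).mul hi.1
    · rw [ENNReal.toReal_ofReal', smul_eq_mul, norm_mul, norm_mul, mul_comm ‖φ x‖]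
      gcongr
      rw [Real.norm_eq_abs, Real.norm_eq_abs, abs_of_nonneg (le_max_right _ _)]
      exact max_le (le_abs_self _) (abs_nonneg _)
  have i2 : Integrable (fun x => (ENNReal.ofReal (-F x)).toReal • φ x) ν := by
    refine Integrable.mono hi ?_ (Eventually.of_forall fun x => ?_)
    · have h1 : (fun x => (ENNReal.ofReal (-F x)).toReal • φ x) =
          fun x => (if F x < 0 then -1 else 0) * (φ x * F x) := by
        funext x
        rw [ENNReal.toReal_ofReal', smul_eq_mul]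
        split_ifs with h
        · rw [max_eq_left (by linarith)]; ring
        · rw [max_eq_right (by linarith [not_lt.1 h])]; ring
      rw [h1]
      exact ((Measurable.ite (measurableSet_lt hFm measurable_const) measurable_const
        measurable_const).aestronglyMeasurable).mul hi.1
    · rw [ENNReal.toReal_ofReal', smul_eq_mul, norm_mul, norm_mul, mul_comm ‖φ x‖]
      gcongr
      rw [Real.norm_eq_abs, Real.norm_eq_abs, abs_of_nonneg (le_max_right _ _)]
      exact max_le (neg_le_abs _) (abs_nonneg _)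
  rw [h0, VectorMeasure.integral_sub_vectorMeasure, VectorMeasure.integral_toSignedMeasure,
    VectorMeasure.integral_toSignedMeasure,
    integral_withDensity_eq_integral_toReal_smul m1 l1,
    integral_withDensity_eq_integral_toReal_smul m2 l2, ← integral_sub i1 i2]
  · refine integral_congr_ae (Eventually.of_forall fun x => ?_)
    simp only [ENNReal.toReal_ofReal', smul_eq_mul]
    rcases le_total 0 (F x) with h | h
    · rw [max_eq_left h, max_eq_right (by linarith)]; ring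
    · rw [max_eq_right h, max_eq_left (by linarith)]; ring
  · simp only [VectorMeasure.Integrable, Measure.variation_toSignedMeasure]
    rw [integrable_withDensity_iff_integrable_smul₀' m1.aemeasurable l1]
    exact i1
  · simp only [VectorMeasure.Integrable, Measure.variation_toSignedMeasure]
    rw [integrable_withDensity_iff_integrable_smul₀' m2.aemeasurable l2]
    exact i2

end dens

/-! ### the signed measure with density `f` -/

/-- the density in six-vertex coordinates -/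
def dn (f : ℂ → ℝ) (p : ℝ × ℝ) : ℝ := f (T p) / 2

/-- the signed measure -/
def muf (f : ℂ → ℝ) : SignedMeasure (ℝ × ℝ) := (volume : Measure (ℝ × ℝ)).withDensityᵥ (dn f)

variable {r δ : ℝ} {f g : ℂ → ℝ}

lemma measurable_dn (hf : Tst r f) : Measurable (dn f) := (hf.meas.comp measurable_T).div_const 2

lemma integrable_dn (hf : Tst r f) : Integrable (dn f) := (integrable_T hf.integrable).div_const 2

lemma integral_dn (f : ℂ → ℝ) : ∫ p, dn f p = ∫ z, f z := by
  unfold dn
  rw [integral_div, integral_T]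
  ring

lemma dn_zero (hf : Tst r f) {p : ℝ × ℝ} (hp : 2 * r < ‖p‖) : dn f p = 0 := by
  unfold dn
  rw [hf.supp, zero_div]
  by_contra hcon
  have h1 : ‖T p‖ ≤ r := not_lt.1 hcon
  have h2 : p = Ti (T p) := (Ti_T p).symm
  have h3 := (Complex.abs_re_le_norm (T p)).trans h1
  have h4 := (Complex.abs_im_le_norm (T p)).trans h1
  have h5 : ‖p‖ ≤ 2 * r := by
    rw [h2, Prod.norm_def, Real.norm_eq_abs, Real.norm_eq_abs]
    simp only [Ti]
    rw [abs_le] at h3 h4
    refine max_le ?_ ?_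
    · rw [abs_le]; constructor <;> linarith [h3.1, h3.2, h4.1, h4.2]
    · rw [abs_le]; constructor <;> linarith [h3.1, h3.2, h4.1, h4.2]
  linarith

lemma variation_muf (hf : Tst r f) :
    (muf f).variation = (volume : Measure (ℝ × ℝ)).withDensity fun p => ‖dn f p‖ₑ :=
  Measure.variation_withDensityᵥ (integrable_dn hf)

lemma muf_univ (hf : Tst r f) : muf f Set.univ = ∫ z, f z := by
  unfold muf
  rw [withDensityᵥ_apply (integrable_dn hf) MeasurableSet.univ, Measure.restrict_univ,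
    integral_dn]

lemma muf_compact (hf : Tst r f) :
    ∃ K : Set (ℝ × ℝ), IsCompact K ∧ (muf f).variation Kᶜ = 0 := by
  refine ⟨Metric.closedBall 0 (2 * r), isCompact_closedBall _ _, ?_⟩
  rw [variation_muf hf, withDensity_apply _ (Metric.isClosed_closedBall.measurableSet.compl)]
  rw [setLIntegral_congr_fun (g := fun _ => 0) Metric.isClosed_closedBall.measurableSet.compl]
  · simp
  · intro p hp
    have : 2 * r < ‖p‖ := by simpa using hp
    simp only [dn_zero hf this, enorm_zero]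

/-- the site map of the six-vertex faces -/
def xB (δ : ℝ) (z : ℂ) : ℤ × ℤ := (⌊(Ti z).1 / δ⌋, ⌊(Ti z).2 / δ⌋)

lemma sm_xB (hδ : 0 < δ) : SM δ (xB δ) where
  meas := by
    unfold xB
    exact (Int.measurable_floor.comp ((measurable_fst.comp measurable_Ti).div_const δ)).prodMk
      (Int.measurable_floor.comp ((measurable_snd.comp measurable_Ti).div_const δ))
  close := by
    intro z
    have ha1 := Int.floor_le ((Ti z).1 / δ)
    have ha2 := Int.lt_floor_add_one ((Ti z).1 / δ)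
    have hb1 := Int.floor_le ((Ti z).2 / δ)
    have hb2 := Int.lt_floor_add_one ((Ti z).2 / δ)
    rw [le_div_iff₀ hδ] at ha1 hb1
    rw [div_lt_iff₀ hδ] at ha2 hb2
    simp only [Ti] at ha1 ha2 hb1 hb2
    have h1 : |((δ : ℂ) * q (xB δ z) - z).re| ≤ δ := by
      simp only [xB, q, Ti, Complex.sub_re, Complex.mul_re, Complex.ofReal_re, Complex.ofReal_im,
        zero_mul, sub_zero]
      rw [abs_le]
      constructor <;> nlinarith
    have h2 : |((δ : ℂ) * q (xB δ z) - z).im| ≤ δ := by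
      simp only [xB, q, Ti, Complex.sub_im, Complex.mul_im, Complex.ofReal_re, Complex.ofReal_im,
        zero_mul, add_zero]
      rw [abs_le]
      constructor <;> nlinarith
    refine (Complex.norm_le_abs_re_add_abs_im _).trans ?_
    linarith

lemma H_xB (ω : Conf) (p : ℝ × ℝ) (δ : ℝ) : H ω (xB δ (T p)) = hgt ω δ p := by
  unfold xB H hgt
  rw [Ti_T]

lemma integrable_mul_dn (hf : Tst r f) (δ : ℝ) (ω : Conf) :
    Integrable (fun p => hgt ω δ p * dn f p) := by
  obtain ⟨C, hC⟩ := abs_hgt_le (isCompact_closedBall (0 : ℝ × ℝ) (2 * r)) δ ω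
  refine Integrable.mono' ((integrable_dn hf).norm.const_mul |C|) ?_ ?_
  · exact ((measurable_hgt ω δ).mul (measurable_dn hf)).aestronglyMeasurable
  · refine Eventually.of_forall fun p => ?_
    rw [norm_mul]
    by_cases hp : ‖p‖ ≤ 2 * r
    · have h1 := hC p (by simpa using hp)
      have h2 : ‖hgt ω δ p‖ ≤ |C| := by
        rw [Real.norm_eq_abs]
        exact h1.trans (le_abs_self C)
      gcongr
    · rw [dn_zero hf (not_le.1 hp)]
      simp

lemma hp_muf (hf : Tst r f) (δ : ℝ) (ω : Conf) : hp δ (muf f) ω = YY f (xB δ) ω := by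
  unfold hp muf
  rw [integral_withDensityV (integrable_dn hf) (measurable_dn hf) (integrable_mul_dn hf δ ω)]
  unfold YY
  have h1 := integral_T (fun z => f z * H ω (xB δ z) / 2)
  have h3 : ∫ z, f z * H ω (xB δ z) / 2 = (∫ z, f z * H ω (xB δ z)) / 2 := integral_div _ _
  rw [h3] at h1
  have h2 : ∫ z, f z * H ω (xB δ z) = 2 * ((∫ z, f z * H ω (xB δ z)) / 2) := by ring
  rw [h2, ← h1]
  refine integral_congr_ae (Eventually.of_forall fun p => ?_)
  simp only [dn]
  rw [H_xB]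
  ring

/-! ### energy -/

/-- the product integrand in six-vertex coordinates -/
lemma integrable_green (hf : Tst r f) (hg : Tst r g) :
    Integrable fun p : (ℝ × ℝ) × (ℝ × ℝ) => dn f p.1 * greenKernel p.1 p.2 * dn g p.2 := by
  have h1 := Crest.Agent.R161.Green722.integrable_log_kernel hf hg
  have h2 : Integrable (fun p : ℂ × ℂ => f p.1 * g p.2) := hf.integrable.mul_prod hg.integrable
  have h3 : Integrable (fun p : ℂ × ℂ => -(2 * Real.pi)⁻¹ / 4 * (f p.1 * Real.log ‖p.1 - p.2‖ * g p.2) +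
      -(2 * Real.pi)⁻¹ / 4 * Real.log (Real.sqrt 2) * (f p.1 * g p.2)) :=
    (h1.const_mul _).add (h2.const_mul _)
  have h4 := integrable_T2 h3
  refine h4.congr ?_
  have hne : ∀ᵐ p : (ℝ × ℝ) × (ℝ × ℝ), p.1 ≠ p.2 := by
    have h1 : ∀ᵐ p : (ℝ × ℝ) × (ℝ × ℝ) ∂(volume.prod volume),
        p ∈ {p : (ℝ × ℝ) × (ℝ × ℝ) | p.1 ≠ p.2} := by
      rw [Measure.ae_prod_mem_iff_ae_ae_mem]
      · refine Eventually.of_forall fun z => ?_
        have : ∀ᵐ w : ℝ × ℝ, w ≠ z := by rw [ae_iff]; simp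
        filter_upwards [this] with w hw using hw.symm
      · exact (isOpen_ne_fun continuous_fst continuous_snd).measurableSet
    exact h1
  filter_upwards [hne] with p hp
  have hT : ‖T p.1 - T p.2‖ ≠ 0 := by
    rw [norm_ne_zero_iff, sub_ne_zero]
    exact fun h => hp (emb_T.injective h)
  simp only [dn, greenKernel, euclidDist_eq]
  rw [Real.log_mul (by positivity) hT]
  ring

lemma ae_ne (x : ℝ × ℝ) : ∀ᵐ y : ℝ × ℝ, y ≠ x := by rw [ae_iff]; simp

lemma energy_muf (hf : Tst r f) (hf0 : ∫ z, f z = 0) : energy (muf f) = Ifc372.plog f f := by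
  have hi := integrable_green hf hf
  have hvar := variation_muf hf
  have hac : (muf f).variation ≪ (volume : Measure (ℝ × ℝ)) := by
    rw [hvar]; exact withDensity_absolutelyContinuous _ _
  have hmd := measurable_dn hf
  -- integrability of the inner function for points with nonzero density
  have h1 : ∀ᵐ x ∂(muf f).variation, ∫ᵛ y, greenKernel x y ∂<•(muf f) =
      ∫ y, greenKernel x y * dn f y := by
    have h2 : ∀ᵐ x : ℝ × ℝ, Integrable fun y => dn f x * greenKernel x y * dn f y :=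
      hi.prod_right_ae
    have h3 : ∀ᵐ x ∂(muf f).variation, dn f x ≠ 0 := by
      rw [hvar, ae_withDensity_iff (by fun_prop)]
      refine Eventually.of_forall fun x hx => ?_
      intro h0
      apply hx
      rw [h0, enorm_zero]
    filter_upwards [hac h2, h3] with x hx hx0
    refine integral_withDensityV (integrable_dn hf) hmd ?_
    have h4 := hx.const_mul (dn f x)⁻¹
    refine h4.congr (Eventually.of_forall fun y => ?_)
    simp only
    field_simp
  unfold energy
  rw [VectorMeasure.integral_congr_ae h1]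
  have h5 : Integrable (fun x => (∫ y, greenKernel x y * dn f y) * dn f x) := by
    have h6 := hi.integral_prod_left
    refine h6.congr (Eventually.of_forall fun x => ?_)
    simp only
    rw [← integral_mul_const]
    refine integral_congr_ae (Eventually.of_forall fun y => ?_)
    simp only
    ring
  unfold muf
  rw [integral_withDensityV (integrable_dn hf) hmd h5]
  -- now change variables
  have h7 : ∀ x : ℝ × ℝ, ∫ y, greenKernel x y * dn f y =
      ∫ w, -(2 * Real.pi)⁻¹ * Real.log ‖T x - w‖ * f w := by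
    intro x
    have e1 := integral_T (fun w => -(2 * Real.pi)⁻¹ * Real.log ‖T x - w‖ * f w)
    have e2 : ∫ y, greenKernel x y * dn f y =
        ∫ y, ((-(2 * Real.pi)⁻¹ * Real.log ‖T x - T y‖ * f (T y)) / 2 +
          -(2 * Real.pi)⁻¹ * Real.log (Real.sqrt 2) * dn f y) := by
      refine integral_congr_ae ?_
      filter_upwards [ae_ne x] with y hy
      have hT : ‖T x - T y‖ ≠ 0 := by
        rw [norm_ne_zero_iff, sub_ne_zero]
        exact fun h => hy (emb_T.injective h).symm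
      simp only [dn, greenKernel, euclidDist_eq]
      rw [Real.log_mul (by positivity) hT]
      ring
    rw [e2]
    have hlogi : Integrable (fun w : ℂ => -(2 * Real.pi)⁻¹ * Real.log ‖T x - w‖ * f w) := by
      obtain ⟨A, hA⟩ := hf.bdd
      have hA0 : 0 ≤ A := (abs_nonneg _).trans (hA 0)
      have h8 := Crest.Agent.R161.Green722.integrableOn_log (‖T x‖ + r + 1)
      have h9 : Integrable (fun w : ℂ => (Metric.ball (0 : ℂ) (‖T x‖ + r + 1)).indicator
          (fun z => Real.log ‖z‖) (T x - w)) := by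
        have := (integrable_indicator_iff Metric.isOpen_ball.measurableSet).2 h8
        exact this.comp_sub_left (T x)
      refine Integrable.mono' ((h9.norm).const_mul A) ?_ ?_
      · exact ((((Real.measurable_log.comp (measurable_norm.comp
          (measurable_const.sub measurable_id))).const_mul _).mul hf.meas)).aestronglyMeasurable
      · refine Eventually.of_forall fun w => ?_
        by_cases hw : ‖w‖ ≤ r
        · rw [Set.indicator_of_mem]
          · rw [norm_mul, norm_mul, Real.norm_eq_abs, Real.norm_eq_abs (f w)]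
            have h3 : |-(2 * Real.pi)⁻¹| ≤ 1 := by
              rw [abs_neg, abs_of_pos (by positivity)]
              refine inv_le_one_of_one_le₀ ?_
              linarith [Real.pi_gt_three]
            calc |-(2 * Real.pi)⁻¹| * ‖Real.log ‖T x - w‖‖ * |f w|
                ≤ 1 * ‖Real.log ‖T x - w‖‖ * A := by
                  gcongr
                  exact hA w
              _ = _ := by ring
          · rw [Metric.mem_ball, dist_zero_right]
            have := norm_sub_le (T x) w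
            linarith
        · rw [hf.supp w (not_le.1 hw), mul_zero, norm_zero]
          positivity
    rw [integral_add ((integrable_T hlogi).div_const 2) ((integrable_dn hf).const_mul _),
      integral_const_mul, integral_dn, hf0, mul_zero, add_zero, integral_div, e1]
    ring
  simp only [h7]
  have h8 := integral_T (fun z => (∫ w, -(2 * Real.pi)⁻¹ * Real.log ‖z - w‖ * f w) * f z / 2)
  have h9 : ∫ x, (∫ w, -(2 * Real.pi)⁻¹ * Real.log ‖T x - w‖ * f w) * dn f x =
      ∫ p, (fun z => (∫ w, -(2 * Real.pi)⁻¹ * Real.log ‖z - w‖ * f w) * f z / 2) (T p) := by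
    refine integral_congr_ae (Eventually.of_forall fun x => ?_)
    simp only [dn]
    ring
  rw [h9, h8, integral_div]
  unfold Ifc372.plog
  rw [mul_div_cancel₀ _ (by norm_num : (2 : ℝ) ≠ 0)]
  refine integral_congr_ae (Eventually.of_forall fun z => ?_)
  simp only
  rw [← integral_mul_const]
  refine integral_congr_ae (Eventually.of_forall fun w => ?_)
  simp only
  ring

end Crest.Agent.R161.Lk159
end
end

-- ▼ part R161/LkE_159
section

/-!
# Row 161, block J (helper159): PlaneGauss for the AT-coordinate state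

* `law_YY` : law of `YY f (xB δ)`
* `XAT δ f ω = δ² ∑ H ω (rot v) f(δ v)`; comparison with `YY f (xA δ)`.
* `planeGauss_of` : `PlaneGauss c Q` for every measure `Q` on `Cfg` whose vertex heights are
  distributed as `kmap` of the plane state of row 150.
-/

set_option autoImplicit false

noncomputable section

open Filter Topology MeasureTheory
open Finset hiding box
open scoped ENNReal
open Crest.ProbabilityR.SixVertex
open Crest.Agent.R150.Hgt989 Crest.Agent.R150.Pln989 Crest.Agent.R150.Pls989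
open Crest.Agent.R150.Red989
open Crest.Agent.R161.Green722 (Tst)

namespace Crest.Agent.R161.Lk159

variable {c : ℝ} {P : Measure Conf} {r δ : ℝ} {f g : ℂ → ℝ}

lemma finiteEnergy_muf (hf : Tst r f) : HasFiniteEnergy (muf f) := by
  unfold HasFiniteEnergy
  have hmd := measurable_dn hf
  rw [variation_muf hf, prod_withDensity₀ (by fun_prop) (by fun_prop)]
  refine lt_of_le_of_lt (lintegral_withDensity_le_lintegral_mul _ (by fun_prop) _) ?_
  have hi := (integrable_green hf hf).const_mul (2 * Real.pi)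
  refine lt_of_le_of_lt ?_ hi.2
  refine lintegral_mono_ae ?_
  have hne : ∀ᵐ p : (ℝ × ℝ) × (ℝ × ℝ) ∂(volume.prod volume), p ∈ {p : (ℝ × ℝ) × (ℝ × ℝ) | p.1 ≠ p.2} := by
    rw [Measure.ae_prod_mem_iff_ae_ae_mem]
    · refine Eventually.of_forall fun z => ?_
      filter_upwards [ae_ne z] with w hw using hw.symm
    · exact (isOpen_ne_fun continuous_fst continuous_snd).measurableSet
  filter_upwards [hne] with p hp
  simp only [Pi.mul_apply]
  unfold logPlusInvDist
  rw [if_neg hp]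
  have e1 : 2 * Real.pi * (dn f p.1 * greenKernel p.1 p.2 * dn f p.2) =
      dn f p.1 * dn f p.2 * (-Real.log (euclidDist p.1 p.2)) := by
    unfold greenKernel
    have := Real.pi_pos
    field_simp
  rw [e1, enorm_mul, enorm_mul]
  gcongr
  exact Real.ofReal_le_enorm _

/-! ### the law -/

lemma integral_cos_gaussian (v : NNReal) (s : ℝ) :
    ∫ t, Real.cos (s * t) ∂ProbabilityTheory.gaussianReal 0 v = Real.exp (-(s ^ 2 * v / 2)) := by
  have h := ProbabilityTheory.charFun_gaussianReal (μ := 0) (v := v) s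
  rw [charFun_apply_real] at h
  have h2 := congrArg Complex.re h
  have hint : Integrable (fun x : ℝ => Complex.exp (s * x * Complex.I))
      (ProbabilityTheory.gaussianReal 0 v) := by
    refine Integrable.of_bound (C := 1) (by fun_prop) (Eventually.of_forall fun x => ?_)
    rw [show (s : ℂ) * x * Complex.I = ((s * x : ℝ) : ℂ) * Complex.I by push_cast; ring,
      Complex.norm_exp_ofReal_mul_I]
  have h3 : (∫ x, Complex.exp (s * x * Complex.I) ∂ProbabilityTheory.gaussianReal 0 v).re =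
      ∫ x, (Complex.exp (s * x * Complex.I)).re ∂ProbabilityTheory.gaussianReal 0 v := by
    have := integral_re (𝕜 := ℂ) hint
    exact this.symm
  rw [h3] at h2
  have h4 : ∀ x : ℝ, (Complex.exp (s * x * Complex.I)).re = Real.cos (s * x) := by
    intro x
    rw [show (s : ℂ) * x * Complex.I = ((s * x : ℝ) : ℂ) * Complex.I by push_cast; ring,
      Complex.exp_ofReal_mul_I_re]
  simp only [h4] at h2
  rw [h2]
  have : ((s : ℂ) * ((0 : ℝ) : ℂ) * Complex.I - ((v : ℝ) : ℂ) * s ^ 2 / 2) =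
      ((-(s ^ 2 * v / 2) : ℝ) : ℂ) := by
    push_cast; ring
  rw [this, ← Complex.ofReal_exp, Complex.ofReal_re]

/-- `cos (s ·)` as a bounded continuous function -/
def cosB (s : ℝ) : BoundedContinuousFunction ℝ ℝ :=
  BoundedContinuousFunction.ofNormedAddCommGroup (fun t => Real.cos (s * t)) (by fun_prop) 1
    fun t => by rw [Real.norm_eq_abs]; exact Real.abs_cos_le_one _

/-- the limit variance is nonnegative -/
lemma plog_nonneg (h : PlaneIn c P) (hr : 0 ≤ r) (hf : Tst r f) (hf0 : ∫ z, f z = 0) :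
    0 ≤ varianceMultiplier c * Ifc372.plog f f := by
  have h1 := cov_lim h hr hf hf hf0 hf0 (x := xB) (y := xB) (fun δ hδ => sm_xB hδ)
    (fun δ hδ => sm_xB hδ)
  exact ge_of_tendsto' h1 fun δ => integral_nonneg fun ω => mul_self_nonneg _

theorem law_YY (h : PlaneIn c P) (hr : 0 ≤ r) (hf : Tst r f) (hf0 : ∫ z, f z = 0) (s : ℝ) :
    Tendsto (fun δ : ℝ => ∫ ω, Real.cos (s * YY f (xB δ) ω) ∂P) (𝓝[>] 0)
      (𝓝 (Real.exp (-(s ^ 2 * (varianceMultiplier c * Ifc372.plog f f) / 2)))) := by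
  have h1 := h.law (muf f) (muf_compact hf) (by rw [muf_univ hf, hf0]) (finiteEnergy_muf hf) (cosB s)
  have e1 : ∫ t, cosB s t ∂ProbabilityTheory.gaussianReal 0
      (Real.toNNReal (varianceMultiplier c * energy (muf f))) =
      Real.exp (-(s ^ 2 * (varianceMultiplier c * Ifc372.plog f f) / 2)) := by
    change ∫ t, Real.cos (s * t) ∂_ = _
    rw [integral_cos_gaussian, energy_muf hf hf0, Real.coe_toNNReal _ (plog_nonneg h hr hf hf0)]
  rw [e1] at h1
  refine h1.congr fun δ => ?_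
  change ∫ ω, Real.cos (s * hp δ (muf f) ω) ∂P = _
  simp only [hp_muf hf]

/-! ### the AT lattice -/

/-- the six-vertex face at the AT vertex `v` -/
def rot (v : ℤ × ℤ) : ℤ × ℤ := (v.1 + v.2, v.2 - v.1)

lemma rot_injective : Function.Injective rot := by
  intro v w h
  simp only [rot, Prod.mk.injEq] at h
  ext <;> omega

lemma q_rot (v : ℤ × ℤ) : q (rot v) = (v.1 : ℂ) + (v.2 : ℂ) * Complex.I := by
  apply Complex.ext
  · simp [q, rot]; ring
  · simp [q, rot]; ring

/-- cell of the AT lattice containing `z` -/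
def fl (δ : ℝ) (z : ℂ) : ℤ × ℤ := (⌊z.re / δ⌋, ⌊z.im / δ⌋)

/-- site map of the AT vertices -/
def xA (δ : ℝ) (z : ℂ) : ℤ × ℤ := rot (fl δ z)

lemma measurable_fl (δ : ℝ) : Measurable (fl δ) := by
  unfold fl
  exact (Int.measurable_floor.comp (Complex.measurable_re.div_const δ)).prodMk
    (Int.measurable_floor.comp (Complex.measurable_im.div_const δ))

lemma fl_close (hδ : 0 < δ) (z : ℂ) : ‖Ifc372.ptC δ (fl δ z) - z‖ ≤ 2 * δ := by
  have ha1 := Int.floor_le (z.re / δ)
  have ha2 := Int.lt_floor_add_one (z.re / δ)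
  have hb1 := Int.floor_le (z.im / δ)
  have hb2 := Int.lt_floor_add_one (z.im / δ)
  rw [le_div_iff₀ hδ] at ha1 hb1
  rw [div_lt_iff₀ hδ] at ha2 hb2
  have h1 : |(Ifc372.ptC δ (fl δ z) - z).re| ≤ δ := by
    simp only [fl, Ifc372.ptC, Complex.sub_re, Complex.mul_re, Complex.add_re, Complex.intCast_re,
      Complex.intCast_im, Complex.I_re, Complex.I_im, Complex.ofReal_re, Complex.ofReal_im,
      zero_mul, sub_zero, mul_zero, add_zero]
    rw [abs_le]
    constructor <;> nlinarith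
  have h2 : |(Ifc372.ptC δ (fl δ z) - z).im| ≤ δ := by
    simp only [fl, Ifc372.ptC, Complex.sub_im, Complex.mul_im, Complex.add_im, Complex.mul_re,
      Complex.intCast_re, Complex.add_re,
      Complex.intCast_im, Complex.I_re, Complex.I_im, Complex.ofReal_re, Complex.ofReal_im,
      zero_mul, sub_zero, mul_zero, add_zero, mul_one, zero_add]
    rw [abs_le]
    constructor <;> nlinarith
  refine (Complex.norm_le_abs_re_add_abs_im _).trans ?_
  linarith

lemma sm_xA (hδ : 0 < δ) : SM δ (xA δ) where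
  meas := (measurable_of_countable rot).comp (measurable_fl δ)
  close := by
    intro z
    have : (δ : ℂ) * q (xA δ z) = Ifc372.ptC δ (fl δ z) := by
      unfold xA Ifc372.ptC
      rw [q_rot]
    rw [this]
    exact fl_close hδ z

/-- smeared vertex heights on the AT lattice -/
def XAT (δ : ℝ) (f : ℂ → ℝ) (ω : Conf) : ℝ := δ ^ 2 * ∑' v : ℤ × ℤ, H ω (rot v) * f (Ifc372.ptC δ v)

lemma norm_ptC (hδ : 0 < δ) (v : ℤ × ℤ) : δ * ‖v‖ ≤ ‖Ifc372.ptC δ v‖ := by
  have e : Ifc372.ptC δ v = (δ : ℂ) * q (rot v) := by rw [q_rot]; rfl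
  rw [e, norm_mul, Complex.norm_real, Real.norm_eq_abs, abs_of_pos hδ]
  refine mul_le_mul_of_nonneg_left ?_ hδ.le
  rw [q_rot, Prod.norm_def, Int.norm_eq_abs, Int.norm_eq_abs]
  have h1 := Complex.abs_re_le_norm ((v.1 : ℂ) + (v.2 : ℂ) * Complex.I)
  have h2 := Complex.abs_im_le_norm ((v.1 : ℂ) + (v.2 : ℂ) * Complex.I)
  simp at h1 h2
  exact max_le h1 h2

lemma ptC_zero (hf : Tst r f) (hδ : 0 < δ) {m : ℕ} (hm : r / δ ≤ m) {v : ℤ × ℤ} (hv : v ∉ box m) :
    f (Ifc372.ptC δ v) = 0 := by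
  refine hf.supp _ ?_
  have h1 := norm_of_not_mem hv
  have h2 := norm_ptC hδ v
  rw [div_le_iff₀ hδ] at hm
  nlinarith

lemma tsum_eq (hf : Tst r f) (hδ : 0 < δ) {m : ℕ} (hm : r / δ ≤ m) (φ : ℤ × ℤ → ℝ) :
    δ ^ 2 * ∑' v : ℤ × ℤ, φ v * f (Ifc372.ptC δ v) =
      ∑ v ∈ box m, (δ ^ 2 * f (Ifc372.ptC δ v)) * φ v := by
  rw [tsum_eq_sum (s := box m) fun v hv => by rw [ptC_zero hf hδ hm hv, mul_zero], mul_sum]
  exact sum_congr rfl fun v _ => by ring

lemma XAT_eq (hf : Tst r f) (hδ : 0 < δ) {m : ℕ} (hm : r / δ ≤ m) (ω : Conf) :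
    XAT δ f ω = XX (box m) (fun v => δ ^ 2 * f (Ifc372.ptC δ v)) rot ω := by
  unfold XAT XX
  exact tsum_eq hf hδ hm (fun v => H ω (rot v))

end Crest.Agent.R161.Lk159
end
end

-- ▼ part R161/LkF_159
section

/-!
# Row 161, block J (helper159): law and variance of the AT-lattice smeared heights

* `var_AT`, `law_AT` : limits of the variance and of the law of `XAT δ f` for smooth mean zero `f`.
* `kmap`, `planeGauss_of` : `PlaneGauss c Q` for every `Q` with `Q.map Prod.fst = P.map kmap`.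
* `vBound_of` : `VBound Q`.
-/

set_option autoImplicit false

noncomputable section

open Filter Topology MeasureTheory
open Finset hiding box
open scoped ENNReal
open Crest.ProbabilityR.SixVertex
open Crest.Agent.R150.Hgt989 Crest.Agent.R150.Pln989 Crest.Agent.R150.Pls989
open Crest.Agent.R150.Red989
open Crest.Agent.R161.Green722 (Tst)

namespace Crest.Agent.R161.Lk159

variable {c : ℝ} {P : Measure Conf} {r δ : ℝ} {f g : ℂ → ℝ}

/-! ### cells of the AT lattice -/

lemma int_stepG (hf : Tst r f) {x : ℂ → ℤ × ℤ} (hx : Measurable x) {m : ℕ}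
    (hm : ∀ z, ‖z‖ ≤ r → x z ∈ box m) (φ : ℤ × ℤ → ℝ) :
    ∫ z, f z * φ (x z) = ∑ s ∈ box m, wf f x s * φ s := by
  have h1 : ∀ z, f z * φ (x z) = ∑ s ∈ box m, (x ⁻¹' {s}).indicator f z * φ s := by
    intro z
    by_cases hz : f z = 0
    · rw [hz, zero_mul]
      symm
      refine sum_eq_zero fun s _ => ?_
      by_cases hs : z ∈ x ⁻¹' {s}
      · rw [Set.indicator_of_mem hs, hz, zero_mul]
      · rw [Set.indicator_of_notMem hs, zero_mul]
    · have hzr : ‖z‖ ≤ r := by
        by_contra hcon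
        exact hz (hf.supp z (not_le.1 hcon))
      rw [sum_eq_single (x z)]
      · rw [Set.indicator_of_mem (by simp)]
      · intro s _ hs
        rw [Set.indicator_of_notMem (by simpa using fun h => hs h.symm), zero_mul]
      · intro hn
        exact absurd (hm z hzr) hn
  have hms : ∀ s, MeasurableSet (x ⁻¹' {s}) := fun s => hx (measurableSet_singleton s)
  simp only [h1]
  rw [integral_finsetSum]
  · refine sum_congr rfl fun s _ => ?_
    rw [integral_mul_const, integral_indicator (hms s), wf]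
  · intro s _
    exact (hf.integrable.indicator (hms s)).mul_const _

lemma fl_mem_box (hδ : 0 < δ) {m : ℕ} (hm : r / δ + 2 ≤ m) {z : ℂ} (hz : ‖z‖ ≤ r) :
    fl δ z ∈ box m := by
  rw [mem_box_norm]
  refine le_trans ?_ hm
  have h1 := norm_ptC hδ (fl δ z)
  have h2 := fl_close hδ z
  have h3 : ‖Ifc372.ptC δ (fl δ z)‖ ≤ 2 * δ + r := by
    have : Ifc372.ptC δ (fl δ z) = (Ifc372.ptC δ (fl δ z) - z) + z := by ring
    rw [this]
    exact (norm_add_le _ _).trans (add_le_add h2 hz)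
  rw [div_add' _ _ _ hδ.ne', le_div_iff₀ hδ]
  linarith

lemma cell_eq (hδ : 0 < δ) (v : ℤ × ℤ) : fl δ ⁻¹' {v} =
    Complex.measurableEquivRealProd ⁻¹'
      (Set.Ico (δ * v.1) (δ * v.1 + δ) ×ˢ Set.Ico (δ * v.2) (δ * v.2 + δ)) := by
  ext z
  simp only [fl, Set.mem_preimage, Set.mem_singleton_iff, Set.mem_prod, Set.mem_Ico,
    Complex.measurableEquivRealProd_apply, Prod.ext_iff, Int.floor_eq_iff, le_div_iff₀ hδ,
    div_lt_iff₀ hδ]
  constructor
  · rintro ⟨⟨h1, h2⟩, h3, h4⟩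
    refine ⟨⟨?_, ?_⟩, ?_, ?_⟩ <;> linarith
  · rintro ⟨⟨h1, h2⟩, h3, h4⟩
    refine ⟨⟨?_, ?_⟩, ?_, ?_⟩ <;> linarith

lemma volume_cell (hδ : 0 < δ) (v : ℤ × ℤ) : volume (fl δ ⁻¹' {v}) = ENNReal.ofReal (δ ^ 2) := by
  rw [cell_eq hδ, Complex.volume_preserving_equiv_real_prod.measure_preimage
    (measurableSet_Ico.prod measurableSet_Ico).nullMeasurableSet, Measure.volume_eq_prod,
    Measure.prod_prod, Real.volume_Ico, Real.volume_Ico, add_sub_cancel_left, add_sub_cancel_left,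
    ← ENNReal.ofReal_mul hδ.le, sq]

/-- the difference of the weights -/
def dw (f : ℂ → ℝ) (δ : ℝ) (v : ℤ × ℤ) : ℝ := δ ^ 2 * f (Ifc372.ptC δ v) - wf f (fl δ) v

lemma abs_dw_le (hf : Tst r f) (hδ : 0 < δ) {L : ℝ} (hL : ∀ z w, |f z - f w| ≤ L * ‖z - w‖)
    (v : ℤ × ℤ) : |dw f δ v| ≤ 2 * L * δ ^ 3 := by
  have hvol := volume_cell hδ v
  have hfin : volume (fl δ ⁻¹' {v}) < ⊤ := by rw [hvol]; exact ENNReal.ofReal_lt_top
  have hr : volume.real (fl δ ⁻¹' {v}) = δ ^ 2 := by
    rw [measureReal_def, hvol, ENNReal.toReal_ofReal (by positivity)]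
  have hms : MeasurableSet (fl δ ⁻¹' {v}) := measurable_fl δ (measurableSet_singleton v)
  have e : dw f δ v = ∫ z in fl δ ⁻¹' {v}, (f (Ifc372.ptC δ v) - f z) := by
    unfold dw wf
    rw [integral_sub, setIntegral_const, hr, smul_eq_mul]
    · exact integrableOn_const hfin.ne
    · exact hf.integrable.integrableOn
  rw [e, ← Real.norm_eq_abs]
  have hL0 : 0 ≤ L := by
    have := (abs_nonneg _).trans (hL 1 0)
    simpa using this
  refine (norm_setIntegral_le_of_norm_le_const hfin (C := L * (2 * δ)) fun z hz => ?_).trans ?_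
  · rw [Real.norm_eq_abs]
    refine (hL _ _).trans ?_
    have h1 := fl_close hδ z
    rw [show fl δ z = v from hz] at h1
    gcongr
  · rw [hr]
    nlinarith

lemma XAT_sub (hf : Tst r f) (hδ : 0 < δ) {m : ℕ} (hm : r / δ + 2 ≤ m) (ω : Conf) :
    XAT δ f ω - YY f (xA δ) ω = XX (box m) (dw f δ) rot ω := by
  have h1 := XAT_eq hf hδ (m := m) (by linarith) ω
  have h2 : YY f (xA δ) ω = ∑ v ∈ box m, wf f (fl δ) v * H ω (rot v) :=
    int_stepG hf (measurable_fl δ) (fun z hz => fl_mem_box hδ hm hz) (fun v => H ω (rot v))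
  rw [h1, h2]
  unfold XX dw
  rw [← sum_sub_distrib]
  exact sum_congr rfl fun v _ => by ring

lemma norm_rot_le (v : ℤ × ℤ) : ‖rot v‖ ≤ 2 * ‖v‖ := by
  rw [Prod.norm_def, Prod.norm_def]
  simp only [rot, Int.norm_eq_abs]
  push_cast
  have h1 : |(v.1 : ℝ)| ≤ max |(v.1 : ℝ)| |(v.2 : ℝ)| := le_max_left _ _
  have h2 : |(v.2 : ℝ)| ≤ max |(v.1 : ℝ)| |(v.2 : ℝ)| := le_max_right _ _
  refine max_le ?_ ?_
  · exact (abs_add_le _ _).trans (by linarith)
  · exact (abs_sub _ _).trans (by linarith)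

/-- crude linear variance bound -/
lemma V_le_lin (h : PlaneIn c P) : ∃ C : ℝ, 0 < C ∧ ∀ z : ℤ × ℤ, V P z ≤ C * (1 + ‖z‖) := by
  obtain ⟨C, hC, H1⟩ := V_le h
  refine ⟨2 * C, by positivity, fun z => (H1 z).trans ?_⟩
  have h1 : Real.log (1 + ‖z‖) ≤ 1 + ‖z‖ := log_le_self' (by positivity)
  have := norm_nonneg z
  nlinarith

/-- `XAT` and the integral form are asymptotically equal -/
theorem XAT_diff (h : PlaneIn c P) (hr : 0 ≤ r) (hf : Tst r f) {L : ℝ}
    (hL : ∀ z w, |f z - f w| ≤ L * ‖z - w‖) :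
    Tendsto (fun δ => ∫ ω, (XAT δ f ω - YY f (xA δ) ω) ^ 2 ∂P) (𝓝[>] 0) (𝓝 0) := by
  obtain ⟨C, hC, HV⟩ := V_le_lin h
  have hL0 : 0 ≤ L := by
    have := (abs_nonneg _).trans (hL 1 0)
    simpa using this
  -- bound by `const * δ` for `δ ≤ 1`
  set B : ℝ := (18 * (r + 4) ^ 2 * L) ^ 2 * (C * (2 * (r + 4))) with hB
  have hlim : Tendsto (fun δ : ℝ => B * δ) (𝓝[>] 0) (𝓝 0) := by
    have : Tendsto (fun δ : ℝ => B * δ) (𝓝 0) (𝓝 (B * 0)) := tendsto_id.const_mul B
    rw [mul_zero] at this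
    exact this.mono_left nhdsWithin_le_nhds
  refine squeeze_zero' (Eventually.of_forall fun δ => integral_nonneg fun ω => sq_nonneg _) ?_ hlim
  have h1 : ∀ᶠ δ : ℝ in 𝓝[>] 0, δ ≤ 1 := nhdsWithin_le_nhds (Iic_mem_nhds one_pos)
  filter_upwards [self_mem_nhdsWithin, h1] with δ hδ hδ1
  have hδ' : (0 : ℝ) < δ := hδ
  set m := ⌈r / δ + 2⌉₊ with hm
  have hm1 : r / δ + 2 ≤ m := Nat.le_ceil _
  have hm2 : (m : ℝ) ≤ r / δ + 3 := by
    have : (m : ℝ) < r / δ + 2 + 1 := Nat.ceil_lt_add_one (by positivity)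
    linarith
  have hm3 : δ * (m : ℝ) ≤ r + 3 := by
    have : δ * (m : ℝ) ≤ δ * (r / δ + 3) := by gcongr
    have e : δ * (r / δ + 3) = r + 3 * δ := by field_simp
    linarith
  have hm0 : (0 : ℝ) ≤ m := Nat.cast_nonneg m
  simp only [XAT_sub hf hδ' hm1]
  have hM : ∀ v ∈ box m, V P (rot v) ≤ C * (1 + 2 * m) := by
    intro v hv
    refine (HV _).trans ?_
    have := norm_rot_le v
    have := mem_box_norm.1 hv
    gcongr
    linarith
  refine (sq_XX_le h.plane (box m) (dw f δ) rot hM).trans ?_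
  have hs : ∑ v ∈ box m, |dw f δ v| ≤ 18 * (r + 4) ^ 2 * L * δ := by
    calc ∑ v ∈ box m, |dw f δ v| ≤ ∑ v ∈ box m, 2 * L * δ ^ 3 :=
          sum_le_sum fun v _ => abs_dw_le hf hδ' hL v
      _ = (2 * (δ * m) + δ) ^ 2 * (2 * L * δ) := by
          rw [sum_const, nsmul_eq_mul, card_box]
          push_cast
          ring
      _ ≤ (2 * (r + 3) + 1) ^ 2 * (2 * L * δ) := by gcongr
      _ ≤ (3 * (r + 4)) ^ 2 * (2 * L * δ) := by gcongr; linarith
      _ = _ := by ring
  have hs0 : 0 ≤ ∑ v ∈ box m, |dw f δ v| := sum_nonneg fun _ _ => abs_nonneg _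
  have hM0 : δ * (1 + 2 * (m : ℝ)) ≤ 2 * (r + 4) := by nlinarith
  calc (∑ v ∈ box m, |dw f δ v|) ^ 2 * (C * (1 + 2 * m))
      ≤ (18 * (r + 4) ^ 2 * L * δ) ^ 2 * (C * (1 + 2 * m)) := by gcongr
    _ = (18 * (r + 4) ^ 2 * L) ^ 2 * (C * (δ * (1 + 2 * m))) * δ := by ring
    _ ≤ (18 * (r + 4) ^ 2 * L) ^ 2 * (C * (2 * (r + 4))) * δ := by gcongr
    _ = B * δ := by rw [hB]

/-! ### `L²` bookkeeping -/

lemma loc_XAT (hf : Tst r f) (hδ : 0 < δ) : Loc (XAT δ f) := by
  have e : XAT δ f = XX (box ⌈r / δ⌉₊) (fun v => δ ^ 2 * f (Ifc372.ptC δ v)) rot :=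
    funext fun ω => XAT_eq hf hδ (Nat.le_ceil _) ω
  rw [e]
  exact loc_XX _ _ _

lemma loc_YY (hf : Tst r f) (hδ : 0 < δ) {x : ℂ → ℤ × ℤ} (hx : SM δ x) : Loc (YY f x) := by
  have e : YY f x = XX (box ⌈2 * (r / δ + 2)⌉₊) (wf f x) id :=
    funext fun ω => YY_eq hf hδ hx (Nat.le_ceil _) ω
  rw [e]
  exact loc_XX _ _ _

/-- Cauchy–Schwarz for local functions -/
lemma loc_cs [IsFiniteMeasure P] {F G : Conf → ℝ} (hF : Loc F) (hG : Loc G) :
    |∫ ω, F ω * G ω ∂P| ≤ Real.sqrt (∫ ω, F ω ^ 2 ∂P) * Real.sqrt (∫ ω, G ω ^ 2 ∂P) := by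
  have hFm : MemLp F (ENNReal.ofReal 2) P := by
    obtain ⟨A, hA⟩ := Loc.bounded hF
    exact MemLp.of_bound (Loc.continuous hF).aestronglyMeasurable A
      (Eventually.of_forall fun ω => by rw [Real.norm_eq_abs]; exact hA ω)
  have hGm : MemLp G (ENNReal.ofReal 2) P := by
    obtain ⟨A, hA⟩ := Loc.bounded hG
    exact MemLp.of_bound (Loc.continuous hG).aestronglyMeasurable A
      (Eventually.of_forall fun ω => by rw [Real.norm_eq_abs]; exact hA ω)
  have h := integral_mul_norm_le_Lp_mul_Lq (μ := P) (p := 2) (q := 2) (by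
    constructor <;> norm_num) hFm hGm
  have h1 : |∫ ω, F ω * G ω ∂P| ≤ ∫ ω, ‖F ω‖ * ‖G ω‖ ∂P := by
    rw [← Real.norm_eq_abs]
    refine (norm_integral_le_integral_norm _).trans (le_of_eq ?_)
    refine integral_congr_ae (Eventually.of_forall fun ω => ?_)
    simp only [norm_mul]
  refine h1.trans (h.trans (le_of_eq ?_))
  simp only [Real.norm_eq_abs, Real.rpow_two, sq_abs]
  rw [Real.sqrt_eq_rpow, Real.sqrt_eq_rpow]

lemma integral_abs_le [IsProbabilityMeasure P] {F : Conf → ℝ} (hF : Loc F) :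
    ∫ ω, |F ω| ∂P ≤ Real.sqrt (∫ ω, F ω ^ 2 ∂P) := by
  have h := loc_cs (P := P) (hF.comp fun t => |t|) (Loc.const 1)
  have e1 : ∫ ω, |F ω| * 1 ∂P = ∫ ω, |F ω| ∂P := by simp
  have e2 : ∫ ω : Conf, (1 : ℝ) ^ 2 ∂P = 1 := by simp
  rw [e1, e2, Real.sqrt_one, mul_one] at h
  refine (le_abs_self _).trans (h.trans (le_of_eq ?_))
  simp only [sq_abs]

lemma integral_add_sq [IsProbabilityMeasure P] {F G : Conf → ℝ} (hF : Loc F) (hG : Loc G) :
    ∫ ω, (F ω + G ω) ^ 2 ∂P ≤ 2 * ∫ ω, F ω ^ 2 ∂P + 2 * ∫ ω, G ω ^ 2 ∂P := by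
  have i1 := Loc.integrable (hF.comp fun t => t ^ 2) P
  have i2 := Loc.integrable (hG.comp fun t => t ^ 2) P
  have i3 := Loc.integrable ((hF.add hG).comp fun t => t ^ 2) P
  rw [← integral_const_mul, ← integral_const_mul, ← integral_add (i1.const_mul 2) (i2.const_mul 2)]
  refine integral_mono i3 ((i1.const_mul 2).add (i2.const_mul 2)) fun ω => ?_
  simp only
  nlinarith [sq_nonneg (F ω - G ω)]

/-- variance of the AT smeared heights -/
theorem var_AT (h : PlaneIn c P) (hr : 0 ≤ r) (hf : Tst r f) (hf0 : ∫ z, f z = 0) {L : ℝ}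
    (hL : ∀ z w, |f z - f w| ≤ L * ‖z - w‖) :
    Tendsto (fun δ => ∫ ω, XAT δ f ω ^ 2 ∂P) (𝓝[>] 0)
      (𝓝 (varianceMultiplier c * Ifc372.plog f f)) := by
  have := h.plane.prob
  have h1 := cov_lim h hr hf hf hf0 hf0 (x := xA) (y := xA) (fun δ hδ => sm_xA hδ)
    (fun δ hδ => sm_xA hδ)
  have h2 := XAT_diff h hr hf hL
  -- `E XAT² = E Y² + 2 E Y D + E D²`
  have h1' : Tendsto (fun δ => Real.sqrt (∫ ω, YY f (xA δ) ω ^ 2 ∂P)) (𝓝[>] 0)
      (𝓝 (Real.sqrt (varianceMultiplier c * Ifc372.plog f f))) := by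
    refine (h1.sqrt).congr fun δ => ?_
    congr 1
    refine integral_congr_ae (Eventually.of_forall fun ω => ?_)
    simp only
    ring
  have h2' := h2.sqrt
  rw [Real.sqrt_zero] at h2'
  have hprod := h1'.mul h2'
  rw [mul_zero] at hprod
  have hcross : Tendsto (fun δ => ∫ ω, YY f (xA δ) ω * (XAT δ f ω - YY f (xA δ) ω) ∂P) (𝓝[>] 0)
      (𝓝 0) := by
    rw [tendsto_zero_iff_abs_tendsto_zero]
    refine squeeze_zero' (Eventually.of_forall fun _ => abs_nonneg _) ?_ hprod
    filter_upwards [self_mem_nhdsWithin] with δ hδ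
    exact loc_cs (loc_YY hf hδ (sm_xA hδ)) ((loc_XAT hf hδ).sub (loc_YY hf hδ (sm_xA hδ)))
  have h3 := (h1.add (hcross.const_mul 2)).add h2
  rw [mul_zero, add_zero, add_zero] at h3
  refine h3.congr' ?_
  filter_upwards [self_mem_nhdsWithin] with δ hδ
  have lY := loc_YY hf hδ (sm_xA hδ)
  have lX := loc_XAT hf hδ
  have i1 := Loc.integrable (lY.mul lY) P
  have i2 := Loc.integrable (lY.mul (lX.sub lY)) P
  have i3 := Loc.integrable ((lX.sub lY).comp fun t => t ^ 2) P
  rw [← integral_const_mul, ← integral_add i1 (i2.const_mul 2), ← integral_add _ i3]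
  · refine integral_congr_ae (Eventually.of_forall fun ω => ?_)
    simp only
    ring
  · exact i1.add (i2.const_mul 2)

lemma abs_cos_sub_le (a b : ℝ) : |Real.cos a - Real.cos b| ≤ |a - b| := by
  have h := Real.abs_sin_le_abs (x := (a - b) / 2)
  rw [Real.cos_sub_cos, abs_mul, abs_mul, abs_neg, abs_two]
  have h1 := Real.abs_sin_le_one ((a + b) / 2)
  have h2 : |(a - b) / 2| = |a - b| / 2 := by rw [abs_div, abs_two]
  rw [h2] at h
  have h3 := abs_nonneg (Real.sin ((a - b) / 2))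
  nlinarith [abs_nonneg (Real.sin ((a + b) / 2))]

/-- law of the AT smeared heights -/
theorem law_AT (h : PlaneIn c P) (hr : 0 ≤ r) (hf : Tst r f) (hf0 : ∫ z, f z = 0) {L : ℝ}
    (hL : ∀ z w, |f z - f w| ≤ L * ‖z - w‖) (s : ℝ) :
    Tendsto (fun δ => ∫ ω, Real.cos (s * XAT δ f ω) ∂P) (𝓝[>] 0)
      (𝓝 (Real.exp (-(s ^ 2 * (varianceMultiplier c * Ifc372.plog f f) / 2)))) := by
  have := h.plane.prob
  have h1 := law_YY h hr hf hf0 s
  have h2 := XAT_diff h hr hf hL
  have h3 := diff_lim h hr hf hf0 (x := xA) (y := xB) (fun δ hδ => sm_xA hδ) (fun δ hδ => sm_xB hδ)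
  have h4 := ((h2.const_mul 2).add (h3.const_mul 2)).sqrt.const_mul |s|
  rw [mul_zero, add_zero, Real.sqrt_zero, mul_zero] at h4
  have h5 : Tendsto (fun δ => ∫ ω, Real.cos (s * XAT δ f ω) ∂P -
      ∫ ω, Real.cos (s * YY f (xB δ) ω) ∂P) (𝓝[>] 0) (𝓝 0) := by
    rw [tendsto_zero_iff_abs_tendsto_zero]
    refine squeeze_zero' (Eventually.of_forall fun _ => abs_nonneg _) ?_ h4
    filter_upwards [self_mem_nhdsWithin] with δ hδ
    have lA := loc_YY hf hδ (sm_xA hδ)
    have lB := loc_YY hf hδ (sm_xB hδ)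
    have lX := loc_XAT hf hδ
    have i1 := Loc.integrable (lX.comp fun t => Real.cos (s * t)) P
    have i2 := Loc.integrable (lB.comp fun t => Real.cos (s * t)) P
    simp only [Function.comp_apply]
    rw [← integral_sub i1 i2]
    refine (abs_integral_le_integral_abs).trans ?_
    have i3 := Loc.integrable ((lX.sub lB).comp fun t => |t|) P
    have h6 : ∫ ω, |Real.cos (s * XAT δ f ω) - Real.cos (s * YY f (xB δ) ω)| ∂P ≤
        ∫ ω, |s| * |XAT δ f ω - YY f (xB δ) ω| ∂P := by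
      refine integral_mono (i1.sub i2).abs (i3.const_mul |s|) fun ω => ?_
      simp only
      refine (abs_cos_sub_le _ _).trans (le_of_eq ?_)
      rw [← mul_sub, abs_mul]
    refine h6.trans ?_
    rw [integral_const_mul]
    refine mul_le_mul_of_nonneg_left ?_ (abs_nonneg s)
    refine (integral_abs_le (lX.sub lB)).trans (Real.sqrt_le_sqrt ?_)
    have h7 := integral_add_sq (P := P) (lX.sub lA) (lA.sub lB)
    refine le_trans (le_of_eq ?_) h7
    refine integral_congr_ae (Eventually.of_forall fun ω => ?_)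
    simp only
    ring
  have h6 := h5.add h1
  rw [zero_add] at h6
  refine h6.congr fun δ => ?_
  ring

end Crest.Agent.R161.Lk159
end
end

-- ▼ part R161/LkG_159

/-!
# Row 161, block J (helper159): `PlaneGauss` and `VBound` for states on `Cfg`

* `kmap ω v` : vertex heights (AT coordinates) of the six-vertex plane configuration `ω`.
* `integral_kmap` : transport for `Q` with `Q.map Prod.fst = P.map kmap`.
* `planeGauss_of`, `vBound_of`, `VV_le`.
-/

set_option autoImplicit false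

noncomputable section

open Filter Topology MeasureTheory
open Finset hiding box
open scoped ENNReal
open Crest.ProbabilityR.SixVertex
open Crest.Agent.R150.Hgt989 Crest.Agent.R150.Pln989 Crest.Agent.R150.Pls989
open Crest.Agent.R150.Red989
open Crest.Agent.R161.Green722 (Tst)
open Crest.Agent.R161.Geo729 (P2 Edge)
open Crest.Agent.R161.Defs372 (Cfg)

namespace Crest.Agent.R161.Lk159

variable {c : ℝ} {P : Measure Conf} {Q : Measure Cfg} {r δ : ℝ} {f g : ℂ → ℝ}

/-- vertex heights in AT coordinates -/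
def kmap (ω : Conf) : P2 → ℤ := fun v => relH ω (v.1 + v.2) (v.2 - v.1)


lemma measurable_relH (p q : ℤ) : Measurable fun ω : Conf => relH ω p q := by
  have h := (Loc.continuous (Loc.relH p q)).measurable
  have h2 := Int.measurable_floor.comp h
  have e : (fun ω : Conf => relH ω p q) = Int.floor ∘ fun ω => (relH ω p q : ℝ) := by
    ext ω
    simp
  rw [e]
  exact h2

lemma measurable_kmap : Measurable kmap :=
  measurable_pi_iff.2 fun _ => measurable_relH _ _

lemma integral_kmap (hQ : Q.map Prod.fst = P.map kmap) {F : (P2 → ℤ) → ℝ} (hF : Measurable F) :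
    ∫ ω, F ω.1 ∂Q = ∫ ω, F (kmap ω) ∂P := by
  have h1 : ∫ k, F k ∂(Q.map Prod.fst) = ∫ ω, F ω.1 ∂Q :=
    integral_map measurable_fst.aemeasurable hF.aestronglyMeasurable
  have h2 : ∫ k, F k ∂(P.map kmap) = ∫ ω, F (kmap ω) ∂P :=
    integral_map measurable_kmap.aemeasurable hF.aestronglyMeasurable
  rw [← h1, hQ, h2]


/-- smeared heights of a height function -/
def Xk (δ : ℝ) (f : ℂ → ℝ) (k : P2 → ℤ) : ℝ := δ ^ 2 * ∑' v : P2, (k v : ℝ) * f (Ifc372.ptC δ v)



lemma Xk_eq (hf : Tst r f) (hδ : 0 < δ) {m : ℕ} (hm : r / δ ≤ m) (k : P2 → ℤ) :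
    Xk δ f k = ∑ v ∈ box m, (δ ^ 2 * f (Ifc372.ptC δ v)) * (k v : ℝ) :=
  tsum_eq hf hδ hm fun v => (k v : ℝ)

lemma measurable_Xk (hf : Tst r f) (hδ : 0 < δ) : Measurable (Xk δ f) := by
  have e : Xk δ f = fun k => ∑ v ∈ box ⌈r / δ⌉₊, (δ ^ 2 * f (Ifc372.ptC δ v)) * (k v : ℝ) :=
    funext fun k => Xk_eq hf hδ (Nat.le_ceil _) k
  rw [e]
  refine Finset.measurable_sum _ fun v _ => ?_
  refine measurable_const.mul ?_
  exact (measurable_of_countable (fun n : ℤ => (n : ℝ))).comp (measurable_pi_apply v)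

/-! ### test functions -/

lemma tst_of_test (hf : Ifc372.Test f) : ∃ r, 0 ≤ r ∧ Tst r f := by
  obtain ⟨ρ, hρ⟩ := hf.supp.isCompact.isBounded.subset_ball_lt 0 0
  obtain ⟨r, hr, _, h⟩ := Green722.exists_Tst hρ.1 hf.smooth.continuous hf.supp hρ.2
  exact ⟨r, hr, h⟩

lemma lip_of_test (hf : Ifc372.Test f) : ∃ L, ∀ z w, |f z - f w| ≤ L * ‖z - w‖ := by
  obtain ⟨C, hC⟩ := ContDiff.lipschitzWith_of_hasCompactSupport (n := ((⊤ : ℕ∞) : WithTop ℕ∞))
    hf.supp hf.smooth (by simp)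
  refine ⟨C, fun z w => ?_⟩
  have := hC.dist_le_mul z w
  rwa [Real.dist_eq, dist_eq_norm] at this

/-- **Block J.** -/
theorem planeGauss_of (h : PlaneIn c P) (hQ : Q.map Prod.fst = P.map kmap) :
    Ifc372.PlaneGauss c Q where
  memLp := by
    intro f hf δ hδ
    have := h.plane.prob
    obtain ⟨r, hr, hT⟩ := tst_of_test hf
    have hm := measurable_Xk hT hδ
    have h1 : MemLp (Xk δ f ∘ kmap) 2 P := by
      obtain ⟨A, hA⟩ := Loc.bounded (loc_XAT hT hδ)
      exact MemLp.of_bound (Loc.continuous (loc_XAT hT hδ)).aestronglyMeasurable A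
        (Eventually.of_forall fun ω => by rw [Real.norm_eq_abs]; exact hA ω)
    rw [← memLp_map_measure_iff hm.aestronglyMeasurable measurable_kmap.aemeasurable, ← hQ,
      memLp_map_measure_iff hm.aestronglyMeasurable measurable_fst.aemeasurable] at h1
    exact h1
  law := by
    intro f hf hf0 s
    obtain ⟨r, hr, hT⟩ := tst_of_test hf
    obtain ⟨L, hL⟩ := lip_of_test hf
    refine (law_AT h hr hT hf0 hL s).congr' ?_
    filter_upwards [self_mem_nhdsWithin] with δ hδ
    exact (integral_kmap hQ (F := fun k => Real.cos (s * Xk δ f k))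
      (Real.measurable_cos.comp ((measurable_Xk hT hδ).const_mul s))).symm
  var := by
    intro f hf hf0
    obtain ⟨r, hr, hT⟩ := tst_of_test hf
    obtain ⟨L, hL⟩ := lip_of_test hf
    refine (var_AT h hr hT hf0 hL).congr' ?_
    filter_upwards [self_mem_nhdsWithin] with δ hδ
    exact (integral_kmap hQ (F := fun k => Xk δ f k ^ 2) ((measurable_Xk hT hδ).pow_const 2)).symm

/-! ### two-point variances -/

lemma VV_eq (h : PlaneIn c P) (hQ : Q.map Prod.fst = P.map kmap) (v w : P2) :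
    ∫ ω, ((ω.1 v : ℝ) - ω.1 w) ^ 2 ∂Q = V P (rot v - rot w) := by
  rw [← integral_sq_sub h.plane]
  refine integral_kmap hQ (F := fun k => ((k v : ℝ) - k w) ^ 2) ?_
  have : ∀ u : P2, Measurable fun k : P2 → ℤ => (k u : ℝ) := fun u =>
    (measurable_of_countable (fun n : ℤ => (n : ℝ))).comp (measurable_pi_apply u)
  exact ((this v).sub (this w)).pow_const 2



/-- variance increments in the plane state of row 150 -/
theorem V_incr (h : PlaneIn c P) : ∃ C : ℝ, 0 ≤ C ∧ ∀ z z' : ℤ × ℤ, z ≠ 0 → z' ≠ 0 →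
    |V P z - V P z'| ≤ C * (1 + |Real.log (‖z‖ / ‖z'‖)|) := by
  obtain ⟨R1, hR1, H1⟩ := V_asymp h one_pos
  set R := ⌈R1⌉₊ with hR
  have hRN : R1 ≤ R := Nat.le_ceil R1
  have hRpos : (1 : ℝ) ≤ R := by linarith
  set D : ℝ := ∑ z ∈ box R, V P z with hD
  have hDn : 0 ≤ D := sum_nonneg fun _ _ => V_nonneg _ _
  have hk := kap_pos h.cpos
  have hDle : ∀ z : ℤ × ℤ, ‖z‖ ≤ R → V P z ≤ D := fun z hz =>
    single_le_sum (f := fun z => V P z) (fun _ _ => V_nonneg _ _) (mem_box_norm.2 hz)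
  have hel : ∀ z : ℤ × ℤ, z ≠ 0 → |el z - Real.log ‖z‖| ≤ 1 := by
    intro z hz
    have h1 := norm_pos_of_ne hz
    have h2 := el_ge (lt_of_lt_of_le one_pos h1) le_rfl
    have h3 := el_le (lt_of_lt_of_le one_pos h1) (le_refl ‖z‖)
    rw [Real.log_mul (by norm_num) (by positivity)] at h3
    have h4 : Real.log 2 ≤ 1 := by have := Real.log_two_lt_d9; linarith
    rw [abs_le]
    constructor <;> linarith
  -- far points
  have hfar : ∀ z z' : ℤ × ℤ, z' ≠ 0 → (R : ℝ) ≤ ‖z'‖ → ‖z'‖ ≤ ‖z‖ →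
      |V P z - V P z'| ≤ (1 + 2 * kap c) * (1 + Real.log (‖z‖ / ‖z'‖)) := by
    intro z z' hz' h1 h2
    have hz'1 := norm_pos_of_ne hz'
    have hz : z ≠ 0 := by
      rintro rfl
      rw [norm_zero] at h2
      linarith
    have h3 := H1 z z' (hRN.trans h1) h2
    rw [one_mul] at h3
    change |V P z - V P z' - kap c * (el z - el z')| ≤ _ at h3
    have h4 := hel z hz
    have h5 := hel z' hz'
    have h6 : Real.log (‖z‖ / ‖z'‖) = Real.log ‖z‖ - Real.log ‖z'‖ :=
      Real.log_div (by positivity) (by positivity)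
    have h7 : 0 ≤ Real.log (‖z‖ / ‖z'‖) := Real.log_nonneg (by
      rw [le_div_iff₀ (by positivity)]; linarith)
    have h8 : |kap c * (el z - el z')| ≤ kap c * (2 + Real.log (‖z‖ / ‖z'‖)) := by
      rw [abs_mul, abs_of_pos hk]
      refine mul_le_mul_of_nonneg_left ?_ hk.le
      rw [abs_le] at h4 h5 ⊢
      constructor <;> linarith [h4.1, h4.2, h5.1, h5.2]
    have h9 : V P z - V P z' = (V P z - V P z' - kap c * (el z - el z')) +
        kap c * (el z - el z') := by ring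
    rw [h9]
    refine (abs_add_le _ _).trans ?_
    nlinarith
  have key : ∀ z z' : ℤ × ℤ, z ≠ 0 → z' ≠ 0 → ‖z'‖ ≤ ‖z‖ →
      |V P z - V P z'| ≤ (1 + 2 * kap c + 2 * D) * (1 + Real.log (‖z‖ / ‖z'‖)) := by
    intro z z' hz hz' h2
    have hz1 := norm_pos_of_ne hz
    have hz'1 := norm_pos_of_ne hz'
    have h7 : 0 ≤ Real.log (‖z‖ / ‖z'‖) := Real.log_nonneg (by
      rw [le_div_iff₀ (by positivity)]; linarith)
    rcases le_total (R : ℝ) ‖z'‖ with h1 | h1
    · refine (hfar z z' hz' h1 h2).trans ?_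
      nlinarith
    · rcases le_total ‖z‖ (R : ℝ) with h3 | h3
      · have h4 := hDle z h3
        have h5 := hDle z' h1
        have h6 := V_nonneg P z
        have h8 := V_nonneg P z'
        rw [abs_le]
        constructor <;> nlinarith
      · have he : e1 R ≠ 0 := by
          intro h0
          have := norm_e1 R
          rw [h0, norm_zero] at this
          linarith
        have h4 := hfar z (e1 R) he (by rw [norm_e1]) (by rw [norm_e1]; exact h3)
        rw [norm_e1] at h4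
        have h5 := hDle z' h1
        have h6 := hDle (e1 R) (by rw [norm_e1])
        have h8 := V_nonneg P z'
        have h9 := V_nonneg P (e1 R)
        have h10 : Real.log (‖z‖ / R) ≤ Real.log (‖z‖ / ‖z'‖) := by
          refine Real.log_le_log (by positivity) ?_
          gcongr
        have h11 : V P z - V P z' = (V P z - V P (e1 R)) + (V P (e1 R) - V P z') := by ring
        rw [h11]
        refine (abs_add_le _ _).trans ?_
        have h12 : |V P (e1 R) - V P z'| ≤ D := by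
          rw [abs_le]; constructor <;> linarith
        have h13 : (1 + 2 * kap c) * (1 + Real.log (‖z‖ / R)) ≤
            (1 + 2 * kap c) * (1 + Real.log (‖z‖ / ‖z'‖)) := by
          refine mul_le_mul_of_nonneg_left (by linarith) (by linarith)
        nlinarith
  refine ⟨1 + 2 * kap c + 2 * D, by linarith, fun z z' hz hz' => ?_⟩
  rcases le_total ‖z'‖ ‖z‖ with h1 | h1
  · refine (key z z' hz hz' h1).trans ?_
    have := le_abs_self (Real.log (‖z‖ / ‖z'‖))
    exact mul_le_mul_of_nonneg_left (by linarith) (by linarith)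
  · rw [abs_sub_comm]
    refine (key z' z hz' hz h1).trans ?_
    have h2 : Real.log (‖z'‖ / ‖z‖) = -Real.log (‖z‖ / ‖z'‖) := by
      rw [← Real.log_inv, inv_div]
    rw [h2]
    have := neg_le_abs (Real.log (‖z‖ / ‖z'‖))
    exact mul_le_mul_of_nonneg_left (by linarith) (by linarith)

lemma rot_zero : rot 0 = 0 := by simp [rot]

lemma rot_ne_zero {v : ℤ × ℤ} (hv : v ≠ 0) : rot v ≠ 0 := by
  intro h
  exact hv (rot_injective (h.trans rot_zero.symm))

lemma nrm_eq (v : P2) : Ifc372.nrm v = ‖q (rot v)‖ := by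
  unfold Ifc372.nrm
  rw [← Real.sqrt_sq (norm_nonneg (q (rot v))), normSq_q]
  congr 1
  simp only [rot]
  push_cast
  ring

lemma nrm_pos {v : P2} (hv : v ≠ 0) : 0 < Ifc372.nrm v := by
  rw [nrm_eq]
  have := half_le_q (rot_ne_zero hv)
  linarith

/-- `‖rot v‖ ≤ 2 |v|` -/
lemma norm_rot_le_nrm (v : P2) : ‖rot v‖ ≤ 2 * Ifc372.nrm v := by
  rw [nrm_eq]
  exact norm_le_q _

lemma nrm_le_norm_rot (v : P2) : Ifc372.nrm v ≤ 2 * ‖rot v‖ := by
  rw [nrm_eq]
  have h1 := euclid_le_norm (rot v)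
  rw [sqrt_eq_q] at h1
  have h2 : (1 : ℝ) ≤ Real.sqrt 2 := by
    rw [Real.one_le_sqrt]; norm_num
  have := norm_nonneg (q (rot v))
  nlinarith

/-- **`VBound`** -/
theorem vBound_of (h : PlaneIn c P) (hQ : Q.map Prod.fst = P.map kmap) : Ifc372.VBound Q := by
  obtain ⟨C, hC, H1⟩ := V_incr h
  refine ⟨3 * C, by positivity, fun v w hv hw => ?_⟩
  have hVV : ∀ v : P2, Ifc372.VV Q v = V P (rot v) := by
    intro v
    have := VV_eq h hQ v (0, 0)
    rw [show rot ((0 : ℤ), (0 : ℤ)) = 0 from rot_zero, sub_zero] at this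
    exact this
  rw [hVV, hVV]
  refine (H1 _ _ (rot_ne_zero hv) (rot_ne_zero hw)).trans ?_
  have hv1 := norm_pos_of_ne (rot_ne_zero hv)
  have hw1 := norm_pos_of_ne (rot_ne_zero hw)
  have hnv := nrm_pos hv
  have hnw := nrm_pos hw
  have h2 : ∀ u : P2, u ≠ 0 → |Real.log ‖rot u‖ - Real.log (Ifc372.nrm u)| ≤ 1 := by
    intro u hu
    have hu1 := norm_pos_of_ne (rot_ne_zero hu)
    have hnu := nrm_pos hu
    have h3 := Real.log_le_log (by positivity) (norm_rot_le_nrm u)
    have h4 := Real.log_le_log hnu (nrm_le_norm_rot u)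
    rw [Real.log_mul (by norm_num) (by positivity)] at h3 h4
    have h5 : Real.log 2 ≤ 1 := by have := Real.log_two_lt_d9; linarith
    rw [abs_le]
    constructor <;> linarith
  have h3 : |Real.log (‖rot v‖ / ‖rot w‖)| ≤ 2 + |Real.log (Ifc372.nrm v / Ifc372.nrm w)| := by
    rw [Real.log_div (by positivity) (by positivity), Real.log_div hnv.ne' hnw.ne']
    have h4 := h2 v hv
    have h5 := h2 w hw
    have h6 := neg_abs_le (Real.log (Ifc372.nrm v) - Real.log (Ifc372.nrm w))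
    have h7 := le_abs_self (Real.log (Ifc372.nrm v) - Real.log (Ifc372.nrm w))
    rw [abs_le] at h4 h5 ⊢
    constructor <;> linarith [h4.1, h4.2, h5.1, h5.2]
  have h8 := abs_nonneg (Real.log (Ifc372.nrm v / Ifc372.nrm w))
  nlinarith

end Crest.Agent.R161.Lk159
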