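import Crest.Agent.R161.RP_695
import Mathlib.Analysis.InnerProductSpace.Defs

/-!
R161, STEPS 5-6 (helper695): the propagation inequality for a sesquilinear form, and for a
reflection positive state `E` on functionals of a configuration space.
-/

set_option autoImplicit false

namespace Crest.Agent.R161.RPsys695

open scoped ComplexConjugate


/-- Cauchy-Schwarz, form version -/
theorem cauchy_schwarz_form {V : Type*} [AddCommGroup V] [Module ℂ V] (B : V → V → ℂ)
    (hadd : ∀ x y z, B (x + y) z = B x z + B y z)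
    (hsmul : ∀ x y (r : ℂ), B (r • x) y = conj r * B x y)
    (hconj : ∀ x y, conj (B y x) = B x y)
    (hnn : ∀ x, 0 ≤ (B x x).re) (x y : V) :
    ‖B x y‖ ≤ √(B x x).re * √(B y y).re := by
  let cd : PreInnerProductSpace.Core ℂ V :=
    { inner := B
      conj_inner_symm := fun x y => hconj x y
      re_inner_nonneg := fun x => hnn x
      add_left := fun x y z => hadd x y z
      smul_left := fun x y r => hsmul x y r }
  letI i1 : SeminormedAddCommGroup V :=
    @InnerProductSpace.Core.toSeminormedAddCommGroup ℂ V _ _ _ cd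
  letI i2 : InnerProductSpace ℂ V := InnerProductSpace.ofCore cd
  exact norm_inner_le_norm (𝕜 := ℂ) x y

/-- A reflection positive state, seen from one family of parallel reflection lines.

`Ω` configurations, `E` the state, `N` admissible (neutral, bounded, measurable) functionals,
`V` admissible functionals of one half plane (of a fixed charge), `θ` the reflection,
`τ` the translation (as maps of configurations): `F ∘ τ` lives one unit further away from the
line when `F` lives in the half plane. -/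
structure RPSys (Ω : Type*) where
  /-- the state -/
  E : (Ω → ℂ) → ℂ
  /-- admissible neutral functionals -/
  N : Submodule ℂ (Ω → ℂ)
  /-- half plane functionals -/
  V : Submodule ℂ (Ω → ℂ)
  /-- reflection -/
  θ : Ω → Ω
  /-- translation -/
  τ : Ω → Ω
  θθ : ∀ ω, θ (θ ω) = ω
  τθτ : ∀ ω, τ (θ (τ ω)) = θ ω
  mem_N : ∀ F ∈ V, ∀ G ∈ V, (fun ω => conj (F (θ ω)) * G ω) ∈ N
  mem_V : ∀ F ∈ V, (fun ω => F (τ ω)) ∈ V
  E_add : ∀ F ∈ N, ∀ G ∈ N, E (F + G) = E F + E G
  E_smul : ∀ (r : ℂ), ∀ F ∈ N, E (r • F) = r * E F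
  E_conj : ∀ F ∈ V, ∀ G ∈ V, E (fun ω => conj (conj (F (θ ω)) * G ω))
    = conj (E (fun ω => conj (F (θ ω)) * G ω))
  E_θ : ∀ F ∈ V, ∀ G ∈ V, E (fun ω => conj (F (θ ω)) * G ω)
    = E (fun ω => conj (F ω) * G (θ ω))
  E_τ : ∀ F ∈ N, E (fun ω => F (τ ω)) = E F
  rp0 : ∀ F ∈ V, 0 ≤ (E (fun ω => conj (F (θ ω)) * F ω)).re
  rp1 : ∀ F ∈ V, 0 ≤ (E (fun ω => conj (F (θ ω)) * F (τ ω))).re
  bdd : ∀ F ∈ V, ∃ C : ℝ, ∀ n : ℕ,
    (E (fun ω => conj (F (τ^[n] (θ ω))) * F (τ^[n] ω))).re ≤ C

namespace RPSys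

variable {Ω : Type*} (S : RPSys Ω)

/-- the form `E[conj (F ∘ θ) G]` -/
def B (F G : Ω → ℂ) : ℂ := S.E (fun ω => conj (F (S.θ ω)) * G ω)


/-- translation on half plane functionals -/
def T : S.V →ₗ[ℂ] S.V where
  toFun F := ⟨fun ω => F.1 (S.τ ω), S.mem_V F.1 F.2⟩
  map_add' F G := rfl
  map_smul' r F := rfl

lemma T_pow_apply (n : ℕ) (F : S.V) : ((S.T ^ n) F).1 = fun ω => F.1 (S.τ^[n] ω) := by
  induction n with
  | zero => rfl
  | succ n ih =>
    rw [pow_succ', Module.End.mul_apply]
    funext ω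
    change ((S.T ^ n) F).1 (S.τ ω) = _
    rw [ih, Function.iterate_succ_apply]



theorem cauchy_schwarz {F G : Ω → ℂ} (hF : F ∈ S.V) (hG : G ∈ S.V) :
    ‖S.B F G‖ ≤ √(S.B F F).re * √(S.B G G).re := by
  exact cauchy_schwarz_form (V := S.V) (fun F G => S.B F.1 G.1)
    (fun x y z => by
      have := S.E_add _ (S.mem_N x.1 x.2 z.1 z.2) _ (S.mem_N y.1 y.2 z.1 z.2)
      simp only [B]
      rw [← this]
      congr 1
      funext ω
      simp [add_mul])
    (fun x y r => by
      have := S.E_smul (conj r) _ (S.mem_N x.1 x.2 y.1 y.2)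
      simp only [B]
      rw [← this]
      congr 1
      funext ω
      simp [mul_assoc])
    (fun x y => by
      simp only [B]
      rw [← S.E_conj y.1 y.2 x.1 x.2, S.E_θ x.1 x.2 y.1 y.2]
      congr 1
      funext ω
      simp [mul_comm])
    (fun x => S.rp0 x.1 x.2) ⟨F, hF⟩ ⟨G, hG⟩

end RPSys

end Crest.Agent.R161.RPsys695

namespace Crest.Agent.R161.RPsys695

open Filter Topology


end Crest.Agent.R161.RPsys695
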