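import Crest.Agent.R161.NuInv_421

/-!
# Row 161, leaf L4 (helper421): coarse grid, ring event, static separation

Coarse grid of side `N` aligned at `0` (proposal of helper389, H-e):
* `shr N a g` : cell `a` (faces `[a₁N, (a₁+1)N) × [a₂N, (a₂+1)N)`) shrunk by `g`;
* `inV k v` : coarse vertex `v` inside the disc of squared radius `k`;
* `InCell`, `OutCell`, `RingCell` : all corners inside / no corner inside / otherwise;
* `nv N f` : coarse vertex nearest to (the centre of) the face `f`;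
* `static_sep` : along a face path avoiding `shr N a (2g)` for all ring cells `a` and avoiding the balls
  `ball (mid e) (2g+2)` around the midpoints of the coarse edges joining an inside to an outside coarse
  vertex, the label `inV k (nv N f)` is constant.
* `ringEv N g K` : all cells `a`, `|a| ≤ K`, have a circuit between `shr N a (2g)` and `shr N a g`;
* `ring_pos` : its probability is bounded below (RSW + FKG + translation invariance).
-/

set_option autoImplicit false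

noncomputable section

namespace Crest.Agent.R161.Ring421

open MeasureTheory
open Crest.Agent.R161.Geo729 Crest.Agent.R161.Defs372 Crest.Agent.R161.Dual374
open Crest.Agent.R161.Hull374 Crest.Agent.R161.Ifc372

/-! ### coarse cells -/

/-- cell `a` of the coarse grid of side `N`, shrunk by `g` -/
def shr (N : ℤ) (a : P2) (g : ℤ) : Finset P2 :=
  Finset.Icc (a.1 * N + g) ((a.1 + 1) * N - 1 - g) ×ˢ
    Finset.Icc (a.2 * N + g) ((a.2 + 1) * N - 1 - g)



/-- coarse vertex inside the disc of squared radius `k` -/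
def inV (k : ℝ) (v : P2) : Prop := (v.1 : ℝ) ^ 2 + (v.2 : ℝ) ^ 2 < k

/-- some corner inside, some corner outside -/
def RingCell (k : ℝ) (a : P2) : Prop := (∃ v, IsCorner v a ∧ inV k v) ∧ ∃ v, IsCorner v a ∧ ¬ inV k v


/-- ring cells are at bounded distance -/
theorem RingCell.abs_le {k : ℝ} {K : ℕ} (hk : k ≤ (K : ℝ) ^ 2) {a : P2} (h : RingCell k a) :
    (-((K : ℤ) + 1) ≤ a.1 ∧ a.1 ≤ (K : ℤ) + 1) ∧ (-((K : ℤ) + 1) ≤ a.2 ∧ a.2 ≤ (K : ℤ) + 1) := by
  obtain ⟨⟨v, hv, hin⟩, _⟩ := h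
  unfold inV at hin
  have h1 : (v.1 : ℝ) ^ 2 < (K : ℝ) ^ 2 := by nlinarith [sq_nonneg (v.2 : ℝ)]
  have h2 : (v.2 : ℝ) ^ 2 < (K : ℝ) ^ 2 := by nlinarith [sq_nonneg (v.1 : ℝ)]
  have h3 : v.1 ^ 2 < (K : ℤ) ^ 2 := by exact_mod_cast h1
  have h4 : v.2 ^ 2 < (K : ℤ) ^ 2 := by exact_mod_cast h2
  have hK : (0 : ℤ) ≤ K := Int.natCast_nonneg K
  have h5 := abs_lt_of_sq_lt_sq h3 hK
  have h6 := abs_lt_of_sq_lt_sq h4 hK
  rw [abs_lt] at h5 h6
  obtain ⟨a1, a2⟩ := a
  obtain ⟨v1, v2⟩ := v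
  simp only [Geo729.IsCorner, Prod.mk.injEq] at hv h5 h6
  simp only
  omega







/-! ### static separation -/

/-- midpoint (rounded down) of the coarse edge `e` -/
def mid (N : ℤ) (e : Edge) : P2 := ((src e).1 * N + ((tgt e).1 - (src e).1) * (N / 2),
  (src e).2 * N + ((tgt e).2 - (src e).2) * (N / 2))

@[simp] theorem mid_h (N : ℤ) (v : P2) : mid N (v, false) = (v.1 * N + N / 2, v.2 * N) := by
  simp [mid]
@[simp] theorem mid_v (N : ℤ) (v : P2) : mid N (v, true) = (v.1 * N, v.2 * N + N / 2) := by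
  simp [mid]

/-- coarse edge joining an inside to an outside coarse vertex -/
def CrossE (k : ℝ) (e : Edge) : Prop :=
  (inV k (src e) ∧ ¬ inV k (tgt e)) ∨ (¬ inV k (src e) ∧ inV k (tgt e))

/-- both cells bordering a crossing coarse edge are ring cells -/
theorem CrossE.ring {k : ℝ} {e : Edge} (h : CrossE k e) : RingCell k (fA e) ∧ RingCell k (fB e) := by
  have hc : IsCorner (src e) (fA e) ∧ IsCorner (tgt e) (fA e) ∧ IsCorner (src e) (fB e) ∧
      IsCorner (tgt e) (fB e) := by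
    obtain ⟨⟨a, b⟩, c⟩ := e
    cases c <;> simp [Geo729.IsCorner]
  obtain ⟨h1, h2, h3, h4⟩ := hc
  rcases h with ⟨h5, h6⟩ | ⟨h5, h6⟩
  · exact ⟨⟨⟨_, h1, h5⟩, ⟨_, h2, h6⟩⟩, ⟨⟨_, h3, h5⟩, ⟨_, h4, h6⟩⟩⟩
  · exact ⟨⟨⟨_, h2, h6⟩, ⟨_, h1, h5⟩⟩, ⟨⟨_, h4, h6⟩, ⟨_, h3, h5⟩⟩⟩








/-! ### the ring event -/


/-- all cells `a` with `|a| ≤ K` have a circuit in the collar between `shr N a (2g)` and `shr N a g` -/
def ringEv (N g : ℤ) (K : ℕ) : Set (Edge → Bool) :=
  ⋂ a ∈ idx K, SepZ (shr N a (2 * g) : Set P2) (shr N a g : Set P2)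







end Crest.Agent.R161.Ring421
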