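import Crest.Agent.R161.Peel_369
import Crest.Agent.R161.Defs_372

/-!
R161, STEP 6 (helper369): peeling for a reflection positive state on `Cfg`.

`RPHyp P κ Θ` : what block F delivers (polynomial bound in the 8 directions, Cauchy–Schwarz for the
vertical line).  `peel` : four groups of bounded charged functionals around an observable `O n` that
is asymptotically small in the half plane sense; conclusion: the correlation tends to `0`.
-/

set_option autoImplicit false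

noncomputable section

open Filter Topology MeasureTheory
open scoped ComplexConjugate

namespace Crest.Agent.R161.PeelP369

open Crest.Agent.R161.Geo729 Crest.Agent.R161.Defs372 Crest.Agent.R161.Ray369
open Crest.Agent.R161.Peel369

/-- `F` has charge `α`: shifting all heights by an even `a` multiplies `F` by `e^{iαa}`. -/
def Chg (α : ℝ) (F : Cfg → ℂ) : Prop :=
  ∀ ω : Cfg, (∀ v, Even (ω.1 v)) → ∀ a : ℤ, Even a →
    F (addH a ω) = Complex.exp (Complex.I * ((α * a : ℝ) : ℂ)) * F ω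

theorem Chg.mul {α β : ℝ} {F G : Cfg → ℂ} (hF : Chg α F) (hG : Chg β G) :
    Chg (α + β) (fun ω => F ω * G ω) := by
  intro ω hω a ha
  simp only
  rw [hF ω hω a ha, hG ω hω a ha]
  have : Complex.exp (Complex.I * (((α + β) * a : ℝ) : ℂ)) =
      Complex.exp (Complex.I * ((α * a : ℝ) : ℂ)) * Complex.exp (Complex.I * ((β * a : ℝ) : ℂ)) := by
    rw [← Complex.exp_add]
    congr 1
    push_cast
    ring
  rw [this]
  ring

theorem Chg.one : Chg 0 (fun _ => 1) := by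
  intro ω _ a _
  simp

theorem Chg.prod {ι : Type*} (s : Finset ι) {α : ι → ℝ} {F : ι → Cfg → ℂ}
    (h : ∀ i ∈ s, Chg (α i) (F i)) : Chg (∑ i ∈ s, α i) (fun ω => ∏ i ∈ s, F i ω) := by
  classical
  induction s using Finset.induction_on with
  | empty => simpa using Chg.one
  | insert i s hi ih =>
    simp only [Finset.sum_insert hi, Finset.prod_insert hi]
    exact (h i (by simp)).mul (ih fun j hj => h j (by simp [hj]))

theorem even_trans {ω : Cfg} (hω : ∀ v, Even (ω.1 v)) (b : P2) : ∀ v, Even ((trans b ω).1 v) :=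
  fun v => hω (v + b)

theorem trans_addH (a : ℤ) (b : P2) (ω : Cfg) : trans b (addH a ω) = addH a (trans b ω) := rfl

theorem trans_trans (a b : P2) (ω : Cfg) : trans a (trans b ω) = trans (a + b) ω := by
  unfold Defs372.trans
  simp only [add_assoc]

theorem Chg.trans {α : ℝ} {F : Cfg → ℂ} (hF : Chg α F) (b : P2) :
    Chg α (fun ω => F (trans b ω)) := by
  intro ω hω a ha
  simp only
  rw [trans_addH]
  exact hF _ (even_trans hω b) a ha


theorem loc_mono {α : Type*} {S T : Set P2} {F : Cfg → α} (h : Loc S F) (hST : S ⊆ T) : Loc T F :=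
  fun ω ω' hag => h ω ω' fun v hv => hag v (hST hv)

theorem loc_mul {S : Set P2} {F G : Cfg → ℂ} (hF : Loc S F) (hG : Loc S G) :
    Loc S (fun ω => F ω * G ω) := fun ω ω' hag => by
  simp only
  rw [hF ω ω' hag, hG ω ω' hag]

theorem loc_prod {ι : Type*} (s : Finset ι) {S : Set P2} {F : ι → Cfg → ℂ}
    (h : ∀ i ∈ s, Loc S (F i)) : Loc S (fun ω => ∏ i ∈ s, F i ω) := fun ω ω' hag =>
  Finset.prod_congr rfl fun i hi => h i hi ω ω' hag

theorem loc_trans {α : Type*} {S : Finset P2} {F : Cfg → α} (hF : Loc (S : Set P2) F) (a : P2) :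
    Loc ((S.image (· + a) : Finset P2) : Set P2) (fun ω => F (trans a ω)) := by
  intro ω ω' hag
  refine hF _ _ fun v hv => ?_
  have := hag (v + a) (by
    simp only [Finset.coe_image, Set.mem_image]
    exact ⟨v, hv, rfl⟩)
  exact ⟨this.1, this.2.1, fun b => this.2.2 b⟩

/-- Output of block F used in the peeling: `Θ ℓ` is the reflection in the vertical line `x = ℓ`. -/
structure RPHyp (P : Measure Cfg) (κ : ℤ) (Θ : ℤ → Cfg → Cfg) : Prop where
  /-- polynomial bound in the 8 directions -/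
  pb : ∀ e ∈ Dir8, ∀ (a b : ℤ) (S T : Finset P2) (A B : Cfg → ℂ) (α : ℝ),
    Loc (S : Set P2) A → Loc (T : Set P2) B →
    (∀ v ∈ S, dot e v ≤ a) → (∀ v ∈ T, b ≤ dot e v) → a + κ ≤ b → Chg (-α) A → Chg α B →
    PolyBound (fun k : ℕ => ∫ ω, A ω * B (trans ((k : ℤ) • e) ω) ∂P)
      (√(∫ ω, ‖A ω‖ ^ 2 ∂P) * √(∫ ω, ‖B ω‖ ^ 2 ∂P))
  /-- Cauchy–Schwarz inequality for the vertical line `x = ℓ` -/
  cs : ∀ (ℓ : ℤ) (S T : Finset P2) (A B : Cfg → ℂ) (α : ℝ),
    Loc (S : Set P2) A → Loc (T : Set P2) B →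
    (∀ v ∈ S, v.1 + κ ≤ ℓ) → (∀ v ∈ T, ℓ + κ ≤ v.1) → Chg (-α) A → Chg α B →
    ‖∫ ω, A ω * B ω ∂P‖ ≤
      √(∫ ω, ‖A ω‖ ^ 2 ∂P) * √(∫ ω, conj (B (Θ ℓ ω)) * B ω ∂P).re

/-- support function of the box `[p₁,p₂] × [q₁,q₂]` -/
def boxH (p₁ p₂ q₁ q₂ : ℝ) (e : ℤ × ℤ) : ℝ :=
  max ((e.1 : ℝ) * p₁) (e.1 * p₂) + max ((e.2 : ℝ) * q₁) (e.2 * q₂)

theorem le_boxH {p₁ p₂ q₁ q₂ x y : ℝ} (e : ℤ × ℤ) (h1 : p₁ ≤ x) (h2 : x ≤ p₂) (h3 : q₁ ≤ y)
    (h4 : y ≤ q₂) : (e.1 : ℝ) * x + e.2 * y ≤ boxH p₁ p₂ q₁ q₂ e := by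
  have aux : ∀ (c a b t : ℝ), a ≤ t → t ≤ b → c * t ≤ max (c * a) (c * b) := by
    intro c a b t h1 h2
    rcases le_total 0 c with hc | hc
    · exact (mul_le_mul_of_nonneg_left h2 hc).trans (le_max_right _ _)
    · exact (mul_le_mul_of_nonpos_left h1 hc).trans (le_max_left _ _)
  exact add_le_add (aux _ _ _ _ h1 h2) (aux _ _ _ _ h3 h4)

theorem boxH_le {p₁ p₂ q₁ q₂ L : ℝ} (e : ℤ × ℤ) (h1 : |p₁| ≤ L) (h2 : |p₂| ≤ L) (h3 : |q₁| ≤ L)
    (h4 : |q₂| ≤ L) : boxH p₁ p₂ q₁ q₂ e ≤ L * (|(e.1 : ℝ)| + |(e.2 : ℝ)|) := by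
  have aux : ∀ (c t : ℝ), |t| ≤ L → c * t ≤ L * |c| := by
    intro c t h
    calc c * t ≤ |c * t| := le_abs_self _
      _ = |c| * |t| := abs_mul _ _
      _ ≤ |c| * L := by gcongr
      _ = L * |c| := mul_comm _ _
  unfold boxH
  rw [mul_add]
  exact add_le_add (max_le (aux _ _ h1) (aux _ _ h2)) (max_le (aux _ _ h3) (aux _ _ h4))

/-- Geometry of a peeling problem: the column `x ≤ x₁`, the rows `y₀ ≤ y ≤ y₁`, margin `γ`, all
contained in `[-L, L]²`; `x₀` is the left side of the block containing the observable. -/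
structure PGeo where
  x₀ : ℝ
  x₁ : ℝ
  y₀ : ℝ
  y₁ : ℝ
  γ : ℝ
  L : ℝ
  γpos : 0 < γ
  hx : x₀ + γ ≤ x₁ - γ
  hy : y₀ + γ ≤ y₁ - γ
  hx₀ : -L ≤ x₀ - γ
  hx₁ : x₁ + γ ≤ L
  hy₀ : -L ≤ y₀ - γ
  hy₁ : y₁ + γ ≤ L

namespace PGeo

variable (G : PGeo)

/-- regions of the groups: `0` right, `1` up, `2` down, `3` left; -/
def reg (i : Fin 4) (x y : ℝ) : Prop :=
  match i with
  | 0 => G.x₁ + G.γ ≤ x ∧ x ≤ G.L ∧ -G.L ≤ y ∧ y ≤ G.L
  | 1 => -G.L ≤ x ∧ x ≤ G.x₁ - G.γ ∧ G.y₁ + G.γ ≤ y ∧ y ≤ G.L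
  | 2 => -G.L ≤ x ∧ x ≤ G.x₁ - G.γ ∧ -G.L ≤ y ∧ y ≤ G.y₀ - G.γ
  | 3 => -G.L ≤ x ∧ x ≤ G.x₀ - G.γ ∧ G.y₀ + G.γ ≤ y ∧ y ≤ G.y₁ - G.γ

/-- region of the observable -/
def regO (x y : ℝ) : Prop :=
  G.x₀ + G.γ ≤ x ∧ x ≤ G.x₁ - G.γ ∧ G.y₀ + G.γ ≤ y ∧ y ≤ G.y₁ - G.γ

/-- support functions of the groups (`3`: static group and observable) -/
def hiR (i : Fin 4) (e : ℤ × ℤ) : ℝ :=
  match i with
  | 0 => boxH (G.x₁ + G.γ) G.L (-G.L) G.L e
  | 1 => boxH (-G.L) (G.x₁ - G.γ) (G.y₁ + G.γ) G.L e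
  | 2 => boxH (-G.L) (G.x₁ - G.γ) (-G.L) (G.y₀ - G.γ) e
  | 3 => boxH (-G.L) (G.x₁ - G.γ) (G.y₀ + G.γ) (G.y₁ - G.γ) e

theorem Lpos : 0 < G.L := by
  have := G.γpos; have := G.hx; have := G.hx₀; have := G.hx₁
  linarith

theorem le_hiR (i : Fin 4) (e : ℤ × ℤ) {x y : ℝ} (h : G.reg i x y) :
    (e.1 : ℝ) * x + e.2 * y ≤ G.hiR i e := by
  have := G.γpos; have := G.hx; have := G.hx₀; have := G.hx₁
  fin_cases i
  · obtain ⟨h1, h2, h3, h4⟩ := h
    exact le_boxH e h1 h2 h3 h4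
  · obtain ⟨h1, h2, h3, h4⟩ := h
    exact le_boxH e h1 h2 h3 h4
  · obtain ⟨h1, h2, h3, h4⟩ := h
    exact le_boxH e h1 h2 h3 h4
  · obtain ⟨h1, h2, h3, h4⟩ := h
    exact le_boxH e h1 (by linarith) h3 h4

theorem le_hiO (e : ℤ × ℤ) {x y : ℝ} (h : G.regO x y) :
    (e.1 : ℝ) * x + e.2 * y ≤ G.hiR 3 e := by
  have := G.γpos; have := G.hx; have := G.hx₀; have := G.hx₁
  obtain ⟨h1, h2, h3, h4⟩ := h
  exact le_boxH e (by linarith) h2 h3 h4

theorem hiR_le (i : Fin 4) (e : ℤ × ℤ) : G.hiR i e ≤ G.L * (|(e.1 : ℝ)| + |(e.2 : ℝ)|) := by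
  have := G.γpos; have := G.hx; have := G.hx₀; have := G.hx₁
  have := G.hy; have := G.hy₀; have := G.hy₁; have := G.Lpos
  fin_cases i
  · exact boxH_le e (abs_le.2 ⟨by linarith, by linarith⟩) (abs_le.2 ⟨by linarith, by linarith⟩)
      (abs_le.2 ⟨by linarith, by linarith⟩) (abs_le.2 ⟨by linarith, by linarith⟩)
  · exact boxH_le e (abs_le.2 ⟨by linarith, by linarith⟩) (abs_le.2 ⟨by linarith, by linarith⟩)
      (abs_le.2 ⟨by linarith, by linarith⟩) (abs_le.2 ⟨by linarith, by linarith⟩)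
  · exact boxH_le e (abs_le.2 ⟨by linarith, by linarith⟩) (abs_le.2 ⟨by linarith, by linarith⟩)
      (abs_le.2 ⟨by linarith, by linarith⟩) (abs_le.2 ⟨by linarith, by linarith⟩)
  · exact boxH_le e (abs_le.2 ⟨by linarith, by linarith⟩) (abs_le.2 ⟨by linarith, by linarith⟩)
      (abs_le.2 ⟨by linarith, by linarith⟩) (abs_le.2 ⟨by linarith, by linarith⟩)

end PGeo

/-- Data of a peeling problem for the state `P`. -/
structure PProb (P : Measure Cfg) (κ : ℤ) (Θ : ℤ → Cfg → Cfg) where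
  G : PGeo
  prob : IsProbabilityMeasure P
  rp : RPHyp P κ Θ
  κ0 : 0 ≤ κ
  δ : ℕ → ℝ
  δpos : ∀ n, 0 < δ n
  δlim : Tendsto δ atTop (𝓝 0)
  /-- the four groups -/
  A : ℕ → Fin 4 → Cfg → ℂ
  /-- the observable -/
  O : ℕ → Cfg → ℂ
  M : ℝ
  hA : ∀ n i ω, ‖A n i ω‖ ≤ 1
  hO : ∀ n ω, ‖O n ω‖ ≤ M
  S : ℕ → Fin 4 → Finset P2
  T : ℕ → Finset P2
  locA : ∀ n i, Loc (S n i : Set P2) (A n i)
  locO : ∀ n, Loc (T n : Set P2) (O n)
  suppA : ∀ n i, ∀ v ∈ S n i, G.reg i (δ n * v.1) (δ n * v.2)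
  suppO : ∀ n, ∀ v ∈ T n, G.regO (δ n * v.1) (δ n * v.2)
  α : ℕ → Fin 4 → ℝ
  β : ℕ → ℝ
  chgA : ∀ n i, Chg (α n i) (A n i)
  chgO : ∀ n, Chg (β n) (O n)
  neutral : ∀ n, ∑ i, α n i + β n = 0
  /-- reflection lines -/
  ℓ : ℕ → ℤ
  hℓ : Tendsto (fun n => δ n * (ℓ n : ℝ)) atTop (𝓝 G.x₀)
  hℓL : ∀ n, G.x₀ ≤ δ n * (ℓ n : ℝ)
  small : Tendsto (fun n => (∫ ω, conj (O n (Θ (ℓ n) ω)) * O n ω ∂P).re) atTop (𝓝 0)

namespace PProb

variable {P : Measure Cfg} {κ : ℤ} {Θ : ℤ → Cfg → Cfg} (D : PProb P κ Θ)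

/-- functional of all groups except `X` -/
def oth (n : ℕ) (X : Fin 3) (z : Fin 3 → P2) (ω : Cfg) : ℂ :=
  (∏ i ∈ Finset.univ.erase X, D.A n i.castSucc (trans (z i) ω)) * (D.A n 3 ω * D.O n ω)

/-- the correlation with displaced groups -/
def c (n : ℕ) (z : Fin 3 → P2) : ℂ :=
  ∫ ω, (∏ i : Fin 3, D.A n i.castSucc (trans (z i) ω)) * (D.A n 3 ω * D.O n ω) ∂P

theorem Mnonneg : 0 ≤ D.M := (norm_nonneg _).trans (D.hO 0 flat)

theorem norm_prod_le {ι : Type*} (s : Finset ι) (f : ι → ℂ) (h : ∀ i ∈ s, ‖f i‖ ≤ 1) :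
    ‖∏ i ∈ s, f i‖ ≤ 1 := by
  rw [norm_prod]
  exact Finset.prod_le_one (fun i _ => norm_nonneg _) h

theorem norm_oth_le (n : ℕ) (X : Fin 3) (z : Fin 3 → P2) (ω : Cfg) : ‖D.oth n X z ω‖ ≤ D.M := by
  unfold oth
  rw [norm_mul, norm_mul]
  calc _ ≤ 1 * (1 * D.M) := by
        gcongr
        · exact norm_prod_le _ _ fun i _ => D.hA n _ _
        · exact D.hA n _ _
        · exact D.hO n _
    _ = D.M := by ring

theorem norm_c_le (n : ℕ) (z : Fin 3 → P2) : ‖D.c n z‖ ≤ D.M := by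
  have := D.prob
  have h := norm_integral_le_of_norm_le_const (μ := P) (C := D.M)
    (f := fun ω => (∏ i : Fin 3, D.A n i.castSucc (trans (z i) ω)) * (D.A n 3 ω * D.O n ω))
    (Eventually.of_forall fun ω => by
      rw [norm_mul, norm_mul]
      calc _ ≤ 1 * (1 * D.M) := by
            gcongr
            · exact norm_prod_le _ _ fun i _ => D.hA n _ _
            · exact D.hA n _ _
            · exact D.hO n _
        _ = D.M := by ring)
  simpa [c] using h

theorem sqrt_int_le {F : Cfg → ℂ} {M : ℝ} (hM : 0 ≤ M) (hF : ∀ ω, ‖F ω‖ ≤ M)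
    [IsProbabilityMeasure P] : √(∫ ω, ‖F ω‖ ^ 2 ∂P) ≤ M := by
  rw [Real.sqrt_le_left hM]
  have h := integral_mono_of_nonneg (μ := P) (f := fun ω => ‖F ω‖ ^ 2) (g := fun _ => M ^ 2)
    (Eventually.of_forall fun ω => by positivity) (integrable_const _)
    (Eventually.of_forall fun ω => by
      have := hF ω
      simp only
      gcongr)
  simpa using h

/-- support functions at stage `n` -/
def hi (n : ℕ) (i : Fin 4) (e : ℤ × ℤ) : ℤ := ⌊D.G.hiR i e / D.δ n⌋

theorem hi_mul_le (n : ℕ) (i : Fin 4) (e : ℤ × ℤ) : (D.hi n i e : ℝ) * D.δ n ≤ D.G.hiR i e := by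
  have := Int.floor_le (D.G.hiR i e / D.δ n)
  rwa [le_div_iff₀ (D.δpos n)] at this

theorem dot_le_of (n : ℕ) (i : Fin 4) (e : ℤ × ℤ) (v : P2)
    (h : (e.1 : ℝ) * (D.δ n * v.1) + e.2 * (D.δ n * v.2) ≤ D.G.hiR i e) :
    dot e v ≤ D.hi n i e := by
  unfold hi
  rw [Int.le_floor, le_div_iff₀ (D.δpos n)]
  unfold dot
  push_cast
  linarith

theorem dot_le (n : ℕ) (i : Fin 4) (e : ℤ × ℤ) (v : P2) (hv : v ∈ D.S n i) :
    dot e v ≤ D.hi n i e := D.dot_le_of n i e v (D.G.le_hiR i e (D.suppA n i v hv))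

theorem dot_le_O (n : ℕ) (e : ℤ × ℤ) (v : P2) (hv : v ∈ D.T n) :
    dot e v ≤ D.hi n 3 e := D.dot_le_of n 3 e v (D.G.le_hiO e (D.suppO n v hv))

theorem dot_neg_le (n : ℕ) (i : Fin 4) (e : ℤ × ℤ) (v : P2) (hv : v ∈ D.S n i) :
    -D.hi n i (-e) ≤ dot e v := by
  have := D.dot_le n i (-e) v hv
  have h2 : dot (-e) v = -dot e v := by
    simp [dot]
    ring
  rw [h2] at this
  linarith

theorem dot_add (e a b : ℤ × ℤ) : dot e (a + b) = dot e a + dot e b := by
  simp [dot]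
  ring

/-- support of the functional `oth` -/
def Soth (n : ℕ) (X : Fin 3) (z : Fin 3 → P2) : Finset P2 :=
  ((Finset.univ.erase X).biUnion fun i => (D.S n i.castSucc).image (· + z i)) ∪
    (D.S n 3 ∪ D.T n)

theorem loc_oth (n : ℕ) (X : Fin 3) (z : Fin 3 → P2) :
    Loc (D.Soth n X z : Set P2) (D.oth n X z) := by
  refine loc_mul ?_ (loc_mul ?_ ?_)
  · refine loc_prod _ fun i hi => loc_mono (loc_trans (D.locA n i.castSucc) (z i)) ?_
    intro v hv
    simp only [Soth, Finset.coe_union, Set.mem_union, Finset.mem_coe]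
    left
    rw [Finset.mem_biUnion]
    exact ⟨i, hi, by simpa using hv⟩
  · refine loc_mono (D.locA n 3) ?_
    intro v hv
    simp only [Soth, Finset.coe_union, Set.mem_union]
    exact Or.inr (Or.inl hv)
  · refine loc_mono (D.locO n) ?_
    intro v hv
    simp only [Soth, Finset.coe_union, Set.mem_union]
    exact Or.inr (Or.inr hv)

theorem chg_oth (n : ℕ) (X : Fin 3) (z : Fin 3 → P2) :
    Chg (-(D.α n X.castSucc)) (D.oth n X z) := by
  have h1 : Chg (∑ i ∈ Finset.univ.erase X, D.α n i.castSucc)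
      (fun ω => ∏ i ∈ Finset.univ.erase X, D.A n i.castSucc (trans (z i) ω)) :=
    Chg.prod _ fun i _ => (D.chgA n i.castSucc).trans (z i)
  have h2 := h1.mul ((D.chgA n 3).mul (D.chgO n))
  have h3 : ∑ i ∈ Finset.univ.erase X, D.α n i.castSucc + (D.α n 3 + D.β n) =
      -(D.α n X.castSucc) := by
    have h4 := D.neutral n
    rw [Fin.sum_univ_castSucc] at h4
    have h5 : (Fin.last 3) = 3 := rfl
    rw [h5] at h4
    have h6 := Finset.add_sum_erase Finset.univ (fun i : Fin 3 => D.α n i.castSucc)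
      (Finset.mem_univ X)
    linarith
  rw [h3] at h2
  exact h2

theorem c_update (n : ℕ) (X : Fin 3) (z : Fin 3 → P2) (w : P2) :
    D.c n (Function.update z X w) =
      ∫ ω, D.oth n X z ω * D.A n X.castSucc (trans w ω) ∂P := by
  unfold c oth
  refine integral_congr_ae (Eventually.of_forall fun ω => ?_)
  simp only
  rw [← Finset.mul_prod_erase Finset.univ
    (fun i : Fin 3 => D.A n i.castSucc (trans (Function.update z X w i) ω)) (Finset.mem_univ X)]
  rw [Function.update_self]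
  have : ∏ i ∈ Finset.univ.erase X, D.A n i.castSucc (trans (Function.update z X w i) ω) =
      ∏ i ∈ Finset.univ.erase X, D.A n i.castSucc (trans (z i) ω) := by
    refine Finset.prod_congr rfl fun i hi => ?_
    rw [Function.update_of_ne (Finset.ne_of_mem_erase hi)]
  rw [this]
  ring

theorem pb (n : ℕ) (e : ℤ × ℤ) (he : e ∈ Dir8) (X : Fin 3) (z : Fin 3 → ℤ × ℤ)
    (hz : ∀ Y : Fin 4, Y ≠ X.castSucc →
      D.hi n Y e + dot e (pos4 z Y) + κ ≤ -D.hi n X.castSucc (-e) + dot e (z X)) :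
    PolyBound (fun k : ℕ => D.c n (Function.update z X (z X + (k : ℤ) • e))) D.M := by
  have := D.prob
  set b : ℤ := -D.hi n X.castSucc (-e) + dot e (z X) with hb
  have h := D.rp.pb e he (b - κ) b (D.Soth n X z) ((D.S n X.castSucc).image (· + z X))
    (D.oth n X z) (fun ω => D.A n X.castSucc (trans (z X) ω)) (D.α n X.castSucc)
    (D.loc_oth n X z) (loc_trans (D.locA n _) _) ?_ ?_ (by omega) (D.chg_oth n X z)
    ((D.chgA n _).trans _)
  · have heq : (fun k : ℕ => D.c n (Function.update z X (z X + (k : ℤ) • e))) =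
        fun k : ℕ => ∫ ω, D.oth n X z ω *
          D.A n X.castSucc (trans (z X) (trans ((k : ℤ) • e) ω)) ∂P := by
      funext k
      rw [D.c_update]
      refine integral_congr_ae (Eventually.of_forall fun ω => ?_)
      simp only
      rw [trans_trans]
    rw [heq]
    refine h.mono ?_
    calc _ ≤ D.M * 1 := by
          gcongr
          · exact D.Mnonneg
          · exact sqrt_int_le D.Mnonneg (D.norm_oth_le n X z)
          · exact sqrt_int_le zero_le_one fun ω => D.hA n _ _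
      _ = D.M := mul_one _
  · intro v hv
    simp only [Soth, Finset.mem_union, Finset.mem_biUnion, Finset.mem_image] at hv
    rcases hv with ⟨i, hi, w, hw, rfl⟩ | hv | hv
    · have h1 := hz i.castSucc (fun h => Finset.ne_of_mem_erase hi (Fin.castSucc_injective _ h))
      have h2 : pos4 z i.castSucc = z i := by
        unfold pos4
        rw [dif_pos (by simp)]
        rfl
      rw [h2] at h1
      rw [dot_add]
      have := D.dot_le n _ e w hw
      linarith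
    · have h1 := hz 3 (fun h => absurd (congrArg Fin.val h) (by simp; omega))
      have h2 : pos4 z 3 = 0 := by
        unfold pos4
        rw [dif_neg (by decide)]
      rw [h2] at h1
      have h3 : dot e 0 = 0 := by simp [dot]
      rw [h3] at h1
      have := D.dot_le n _ e v hv
      linarith
    · have h1 := hz 3 (fun h => absurd (congrArg Fin.val h) (by simp; omega))
      have h2 : pos4 z 3 = 0 := by
        unfold pos4
        rw [dif_neg (by decide)]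
      rw [h2] at h1
      have h3 : dot e 0 = 0 := by simp [dot]
      rw [h3] at h1
      have := D.dot_le_O n e v hv
      linarith
  · intro v hv
    simp only [Finset.mem_image] at hv
    obtain ⟨w, hw, rfl⟩ := hv
    rw [dot_add]
    have := D.dot_neg_le n _ e w hw
    linarith

/-- geometric condition under which Cauchy–Schwarz applies -/
def good (n : ℕ) : Prop :=
  (κ : ℝ) * D.δ n + D.δ n * (D.ℓ n : ℝ) ≤ D.G.x₀ + D.G.γ ∧
    D.G.x₀ - D.G.γ + (κ : ℝ) * D.δ n ≤ D.δ n * (D.ℓ n : ℝ)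

open Classical in
/-- bound for the correlation when all groups are left of the line -/
def eps (n : ℕ) : ℝ :=
  if D.good n then √(∫ ω, conj (D.O n (Θ (D.ℓ n) ω)) * D.O n ω ∂P).re else D.M

theorem eps_lim : Tendsto D.eps atTop (𝓝 0) := by
  have h1 : Tendsto (fun n => √(∫ ω, conj (D.O n (Θ (D.ℓ n) ω)) * D.O n ω ∂P).re) atTop (𝓝 0) := by
    have := D.small.sqrt
    rwa [Real.sqrt_zero] at this
  refine h1.congr' ?_
  have hκ : Tendsto (fun n => (κ : ℝ) * D.δ n) atTop (𝓝 0) := by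
    have := D.δlim.const_mul (κ : ℝ)
    rwa [mul_zero] at this
  have hγ := D.G.γpos
  have h2 := hκ.add D.hℓ
  have h3 := D.hℓ.sub hκ
  rw [zero_add] at h2
  rw [sub_zero] at h3
  filter_upwards [h2.eventually (ge_mem_nhds (by linarith : D.G.x₀ < D.G.x₀ + D.G.γ)),
    h3.eventually (le_mem_nhds (by linarith : D.G.x₀ - D.G.γ < D.G.x₀))] with n h4 h5
  unfold eps
  rw [if_pos]
  exact ⟨h4, by linarith⟩

theorem base (n : ℕ) (z : Fin 3 → ℤ × ℤ)
    (hz : ∀ X : Fin 3, D.hi n X.castSucc (1, 0) + (z X).1 + κ ≤ D.ℓ n) :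
    ‖D.c n z‖ ≤ D.eps n := by
  have := D.prob
  unfold eps
  split_ifs with hg
  swap
  · exact D.norm_c_le n z
  have hδ := D.δpos n
  have hloc : Loc ((Finset.univ.biUnion (fun i : Fin 3 => (D.S n i.castSucc).image (· + z i)) ∪
      D.S n 3 : Finset P2) : Set P2)
      (fun ω => (∏ i : Fin 3, D.A n i.castSucc (trans (z i) ω)) * D.A n 3 ω) := by
    refine loc_mul ?_ ?_
    · refine loc_prod _ fun i hi => loc_mono (loc_trans (D.locA n i.castSucc) (z i)) ?_
      intro v hv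
      simp only [Finset.coe_union, Set.mem_union, Finset.mem_coe]
      left
      rw [Finset.mem_biUnion]
      exact ⟨i, Finset.mem_univ i, by simpa using hv⟩
    · refine loc_mono (D.locA n 3) ?_
      intro v hv
      simp only [Finset.coe_union, Set.mem_union]
      exact Or.inr hv
  have hchg : Chg (-(D.β n))
      (fun ω => (∏ i : Fin 3, D.A n i.castSucc (trans (z i) ω)) * D.A n 3 ω) := by
    have h1 : Chg (∑ i : Fin 3, D.α n i.castSucc)
        (fun ω => ∏ i : Fin 3, D.A n i.castSucc (trans (z i) ω)) :=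
      Chg.prod _ fun i _ => (D.chgA n i.castSucc).trans (z i)
    have h2 := h1.mul (D.chgA n 3)
    have h3 : ∑ i : Fin 3, D.α n i.castSucc + D.α n 3 = -(D.β n) := by
      have h4 := D.neutral n
      rw [Fin.sum_univ_castSucc] at h4
      have h5 : (Fin.last 3) = 3 := rfl
      rw [h5] at h4
      linarith
    rw [h3] at h2
    exact h2
  have h := D.rp.cs (D.ℓ n) _ (D.T n) _ (D.O n) (D.β n) hloc (D.locO n) ?_ ?_ hchg (D.chgO n)
  · have e1 : D.c n z = ∫ ω, (∏ i : Fin 3, D.A n i.castSucc (trans (z i) ω)) * D.A n 3 ω *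
        D.O n ω ∂P := by
      unfold c
      refine integral_congr_ae (Eventually.of_forall fun ω => ?_)
      simp only
      ring
    rw [e1]
    refine h.trans ?_
    calc _ ≤ 1 * √(∫ ω, conj (D.O n (Θ (D.ℓ n) ω)) * D.O n ω ∂P).re := by
          gcongr
          refine sqrt_int_le zero_le_one fun ω => ?_
          rw [norm_mul]
          calc _ ≤ (1 : ℝ) * 1 := by
                gcongr
                · exact norm_prod_le _ _ fun i _ => D.hA n _ _
                · exact D.hA n _ _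
            _ = 1 := one_mul _
      _ = _ := one_mul _
  · intro v hv
    simp only [Finset.mem_union, Finset.mem_biUnion, Finset.mem_image] at hv
    rcases hv with ⟨i, hi, w, hw, rfl⟩ | hv
    · have h1 := hz i
      have h2 := D.dot_le n _ (1, 0) w hw
      simp only [dot, one_mul, zero_mul, add_zero] at h2
      simp only [Prod.fst_add]
      linarith
    · have h1 := D.suppA n 3 v hv
      have h2 : D.δ n * (v.1 : ℝ) ≤ D.G.x₀ - D.G.γ := h1.2.1
      have h3 := hg.2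
      have h4 : ((v.1 + κ : ℤ) : ℝ) ≤ (D.ℓ n : ℝ) := by
        push_cast
        refine le_of_mul_le_mul_left ?_ hδ
        rw [mul_add]
        linarith
      exact_mod_cast h4
  · intro v hv
    have h1 := D.suppO n v hv
    have h2 : D.G.x₀ + D.G.γ ≤ D.δ n * (v.1 : ℝ) := h1.1
    have h3 := hg.1
    have h4 : ((D.ℓ n + κ : ℤ) : ℝ) ≤ (v.1 : ℝ) := by
      push_cast
      refine le_of_mul_le_mul_left ?_ hδ
      rw [mul_add]
      linarith
    exact_mod_cast h4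

theorem boxH_10 (p₁ p₂ q₁ q₂ : ℝ) (h : p₁ ≤ p₂) : boxH p₁ p₂ q₁ q₂ (1, 0) = p₂ := by
  simp [boxH, h]

theorem boxH_m10 (p₁ p₂ q₁ q₂ : ℝ) (h : p₁ ≤ p₂) : boxH p₁ p₂ q₁ q₂ (-1, 0) = -p₁ := by
  simp [boxH, h]

theorem boxH_01 (p₁ p₂ q₁ q₂ : ℝ) (h : q₁ ≤ q₂) : boxH p₁ p₂ q₁ q₂ (0, 1) = q₂ := by
  simp [boxH, h]

theorem boxH_0m1 (p₁ p₂ q₁ q₂ : ℝ) (h : q₁ ≤ q₂) : boxH p₁ p₂ q₁ q₂ (0, -1) = -q₁ := by
  simp [boxH, h]

/-- the abstract peeling problem -/
def toPeel : PeelData where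
  c := D.c
  δ := D.δ
  δpos := D.δpos
  δlim := D.δlim
  C := D.M
  κ := κ
  κ0 := D.κ0
  hi := D.hi
  loO := D.ℓ
  L := D.G.L
  Lpos := D.G.Lpos
  g := 2 * D.G.γ
  gpos := by have := D.G.γpos; positivity
  hi_le := fun n Y e _ => (D.hi_mul_le n Y e).trans (D.G.hiR_le Y e)
  loO_ge := by
    intro n
    have := D.hℓL n
    have := D.G.γpos; have := D.G.hx₀
    linarith
  home_D := by
    intro n
    have h1 := D.hi_mul_le n 3 (0, -1)
    have h2 := D.hi_mul_le n 2 (0, 1)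
    have := D.G.γpos; have := D.G.hx; have := D.G.hx₀; have := D.G.hx₁
    have := D.G.hy; have := D.G.hy₀; have := D.G.hy₁
    change _ ≤ boxH (-D.G.L) (D.G.x₁ - D.G.γ) (D.G.y₀ + D.G.γ) (D.G.y₁ - D.G.γ) _ at h1
    change _ ≤ boxH (-D.G.L) (D.G.x₁ - D.G.γ) (-D.G.L) (D.G.y₀ - D.G.γ) _ at h2
    rw [boxH_0m1 _ _ _ _ (by linarith)] at h1
    rw [boxH_01 _ _ _ _ (by linarith)] at h2
    linarith
  home_U := by
    intro n Y hY
    have h2 := D.hi_mul_le n 1 (0, -1)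
    have := D.G.γpos; have := D.G.hx; have := D.G.hx₀; have := D.G.hx₁
    have := D.G.hy; have := D.G.hy₀; have := D.G.hy₁
    change _ ≤ boxH (-D.G.L) (D.G.x₁ - D.G.γ) (D.G.y₁ + D.G.γ) D.G.L _ at h2
    rw [boxH_0m1 _ _ _ _ (by linarith)] at h2
    rcases hY with rfl | rfl
    · have h1 := D.hi_mul_le n 2 (0, 1)
      change _ ≤ boxH (-D.G.L) (D.G.x₁ - D.G.γ) (-D.G.L) (D.G.y₀ - D.G.γ) _ at h1
      rw [boxH_01 _ _ _ _ (by linarith)] at h1
      linarith
    · have h1 := D.hi_mul_le n 3 (0, 1)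
      change _ ≤ boxH (-D.G.L) (D.G.x₁ - D.G.γ) (D.G.y₀ + D.G.γ) (D.G.y₁ - D.G.γ) _ at h1
      rw [boxH_01 _ _ _ _ (by linarith)] at h1
      linarith
  home_R := by
    intro n Y hY
    have h2 := D.hi_mul_le n 0 (-1, 0)
    have := D.G.γpos; have := D.G.hx; have := D.G.hx₀; have := D.G.hx₁
    have := D.G.hy; have := D.G.hy₀; have := D.G.hy₁
    change _ ≤ boxH (D.G.x₁ + D.G.γ) D.G.L (-D.G.L) D.G.L _ at h2
    rw [boxH_m10 _ _ _ _ (by linarith)] at h2
    have h1 := D.hi_mul_le n Y (1, 0)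
    have h3 : D.G.hiR Y (1, 0) = D.G.x₁ - D.G.γ := by
      fin_cases Y
      · exact absurd rfl hY
      · exact boxH_10 _ _ _ _ (by linarith)
      · exact boxH_10 _ _ _ _ (by linarith)
      · exact boxH_10 _ _ _ _ (by linarith)
    rw [h3] at h1
    linarith
  pb := fun n e he X z hz => D.pb n e he X z hz
  ε := D.eps
  εlim := D.eps_lim
  base := fun n z hz => D.base n z hz

/-- **Peeling theorem.** -/
theorem tendsto : Tendsto (fun n => ∫ ω, (∏ i : Fin 4, D.A n i ω) * D.O n ω ∂P) atTop (𝓝 0) := by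
  have h := D.toPeel.tendsto_home
  refine h.congr fun n => ?_
  change D.c n 0 = _
  unfold c
  refine integral_congr_ae (Eventually.of_forall fun ω => ?_)
  have h0 : trans (0 : P2) ω = ω := by
    unfold Defs372.trans
    simp
  simp only [Pi.zero_apply, h0]
  rw [Fin.prod_univ_castSucc (n := 3)]
  have h5 : (Fin.last 3) = 3 := rfl
  rw [h5]
  ring

end PProb

end Crest.Agent.R161.PeelP369
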