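import Crest.Agent.R161.W1_369
import Crest.Agent.R161.PeelP_369

-- ▼ part R161/W2_369
section

/-!
R161, STEP 6 (helper369), part W2: the law of exactly neutral lattice functionals.
-/

set_option autoImplicit false

noncomputable section

open Filter Topology MeasureTheory
open scoped ComplexConjugate

namespace Crest.Agent.R161.Ward369

open Crest.Agent.R161.Geo729 Crest.Agent.R161.Defs372 Crest.Agent.R161.Ifc372
open Crest.Agent.R161.Aut373

/-- Gaussian input: law of the mass-zero smooth smeared heights, and a crude bound for the second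
moments of the heights (heights are normalised at the origin). -/
structure LawHyp (A : ℝ) (P : Measure Cfg) : Prop where
  law : ∀ f : ℂ → ℝ, Test f → ∫ z, f z = 0 →
    Tendsto (fun δ : ℝ => ∫ ω, Complex.exp (Complex.I * (X δ f ω : ℂ)) ∂P) (𝓝[>] 0)
      (𝓝 ((Real.exp (-(A * plog f f) / 2) : ℝ) : ℂ))
  lin : ∃ C : ℝ, 0 ≤ C ∧ ∀ v : P2, ∫ ω, (ω.1 v : ℝ) ^ 2 ∂P ≤ C * (1 + |(v.1 : ℝ)| + |(v.2 : ℝ)|)

theorem X_eq (δ : ℝ) (f : ℂ → ℝ) (ω : Cfg) :
    X δ f ω = Yl (fun v => δ ^ 2 * f (ptC δ v)) ω := by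
  unfold X Yl
  rw [← tsum_mul_left]
  exact tsum_congr fun v => by ring

theorem norm_exp_sub_le (x y : ℝ) :
    ‖Complex.exp (Complex.I * (x : ℂ)) - Complex.exp (Complex.I * (y : ℂ))‖ ≤ |x - y| := by
  have h1 : Complex.exp (Complex.I * (x : ℂ)) - Complex.exp (Complex.I * (y : ℂ)) =
      Complex.exp (Complex.I * (y : ℂ)) * (Complex.exp (Complex.I * ((x - y : ℝ) : ℂ)) - 1) := by
    rw [mul_sub, ← Complex.exp_add, mul_one]
    congr 2
    push_cast
    ring
  rw [h1, norm_mul, mul_comm Complex.I (y : ℂ), Complex.norm_exp_ofReal_mul_I, one_mul]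
  exact Real.norm_exp_I_mul_ofReal_sub_one_le

theorem loc_k (v : P2) : Loc (({v} : Finset P2) : Set P2) (fun ω : Cfg => (ω.1 v : ℝ)) := by
  intro ω ω' h
  simp only
  rw [(h v (by simp)).1]

variable {c A : ℝ} {P : Measure Cfg}

/-- `L¹` estimate for small lattice functionals -/
theorem int_abs_Yl_le (hP : IsState c P) {r : P2 → ℝ} {S : Finset P2} (hr : ∀ v, v ∉ S → r v = 0)
    {B : ℝ} (hB : ∀ v ∈ S, ∫ ω, |(ω.1 v : ℝ)| ∂P ≤ B) :
    ∫ ω, |Yl r ω| ∂P ≤ (∑ v ∈ S, |r v|) * B := by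
  have := hP.prob
  have h1 : ∀ v : P2, Integrable (fun ω : Cfg => (ω.1 v : ℝ)) P := fun v =>
    loc_integrable hP (loc_k v)
  calc ∫ ω, |Yl r ω| ∂P ≤ ∫ ω, ∑ v ∈ S, |r v| * |(ω.1 v : ℝ)| ∂P := by
        refine integral_mono (loc_integrable hP (loc_Yl hr)).abs
          (integrable_finsetSum _ fun v _ => (h1 v).abs.const_mul _) fun ω => ?_
        rw [Yl_eq_sum hr]
        refine (Finset.abs_sum_le_sum_abs _ _).trans (Finset.sum_le_sum fun v _ => ?_)
        rw [abs_mul]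
    _ = ∑ v ∈ S, |r v| * ∫ ω, |(ω.1 v : ℝ)| ∂P := by
        rw [integral_finsetSum _ fun v _ => (h1 v).abs.const_mul _]
        exact Finset.sum_congr rfl fun v _ => integral_const_mul _ _
    _ ≤ ∑ v ∈ S, |r v| * B := Finset.sum_le_sum fun v hv =>
        mul_le_mul_of_nonneg_left (hB v hv) (abs_nonneg _)
    _ = (∑ v ∈ S, |r v|) * B := (Finset.sum_mul _ _ _).symm

theorem int_abs_k_le (hP : IsState c P) {C : ℝ} (v : P2)
    (hC : ∫ ω, (ω.1 v : ℝ) ^ 2 ∂P ≤ C * (1 + |(v.1 : ℝ)| + |(v.2 : ℝ)|)) {t : ℝ} (ht : 0 < t) :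
    ∫ ω, |(ω.1 v : ℝ)| ∂P ≤ t⁻¹ + t * (C * (1 + |(v.1 : ℝ)| + |(v.2 : ℝ)|)) := by
  have := hP.prob
  have h1 : Integrable (fun ω : Cfg => (ω.1 v : ℝ)) P := loc_integrable hP (loc_k v)
  have h2 : Integrable (fun ω : Cfg => (ω.1 v : ℝ) ^ 2) P :=
    loc_integrable hP (loc_comp (loc_k v) (fun x : ℝ => x ^ 2))
  calc ∫ ω, |(ω.1 v : ℝ)| ∂P ≤ ∫ ω, (t⁻¹ + t * (ω.1 v : ℝ) ^ 2) ∂P := by
        refine integral_mono h1.abs ((integrable_const _).add (h2.const_mul _)) fun ω => ?_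
        simp only
        set x : ℝ := |(ω.1 v : ℝ)| with hx
        have hx2 : (ω.1 v : ℝ) ^ 2 = x ^ 2 := by rw [hx, sq_abs]
        rw [hx2]
        have hx0 : 0 ≤ x := abs_nonneg _
        have h3 : 0 ≤ (t * x - 1) ^ 2 := sq_nonneg _
        have h4 : x ≤ t⁻¹ * (1 + (t * x) ^ 2) := by
          rw [inv_mul_eq_div, le_div_iff₀ ht]
          nlinarith [mul_nonneg ht.le hx0]
        calc x ≤ t⁻¹ * (1 + (t * x) ^ 2) := h4
          _ = t⁻¹ + t * x ^ 2 := by field_simp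
    _ = t⁻¹ + t * ∫ ω, (ω.1 v : ℝ) ^ 2 ∂P := by
        rw [integral_add (integrable_const _) (h2.const_mul _), integral_const_mul]
        simp
    _ ≤ _ := by gcongr

/-- `L¹` closeness of lattice approximations -/
theorem lat_L1 (hP : IsState c P) (h : LawHyp A P) {δ : ℕ → ℝ} (hδ : Mesh δ)
    {a : ℕ → P2 → ℝ} {f : ℂ → ℝ} (ha : Lat δ a f) :
    ∃ C : ℝ, 0 ≤ C ∧ ∀ n, ∫ ω, |Yl (a n) ω - X (δ n) f ω| ∂P ≤ C * √(δ n) := by
  obtain ⟨C1, R, hC1, hR, h1⟩ := ha.sum_error hδ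
  obtain ⟨C2, hC2, h2⟩ := h.lin
  refine ⟨C1 * (1 + C2 * (1 + 2 * R)), by positivity, fun n => ?_⟩
  obtain ⟨h3, h4⟩ := h1 n
  have hp := hδ.pos n
  have hp1 := hδ.le_one n
  set s := √(δ n) with hs
  have hs0 : 0 < s := Real.sqrt_pos.2 hp
  have hs2 : s * s = δ n := Real.mul_self_sqrt hp.le
  have hs1 : s ≤ 1 := by
    rw [hs, Real.sqrt_le_one]
    exact hp1
  set r : P2 → ℝ := fun v => a n v - δ n ^ 2 * f (ptC (δ n) v) with hr
  have hr0 : ∀ v, v ∉ lbox (δ n) R → r v = 0 := fun v hv => by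
    rw [hr]
    simp only
    rw [(h3 v hv).1, (h3 v hv).2]
    ring
  have hY : ∀ ω, Yl (a n) ω - X (δ n) f ω = Yl r ω := by
    intro ω
    rw [X_eq, hr, Yl_sub]
    · exact fin0_of_subset (S := lbox (δ n) R) fun v hv => (h3 v hv).1
    · exact fin0_of_subset (S := lbox (δ n) R) fun v hv => by rw [(h3 v hv).2, mul_zero]
  simp_rw [hY]
  refine (int_abs_Yl_le hP hr0 (B := (1 + C2 * (1 + 2 * R)) * s⁻¹) fun v hv => ?_).trans ?_
  · refine (int_abs_k_le hP v (h2 v) hs0).trans ?_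
    obtain ⟨h5, h6⟩ := mem_lbox_abs hp hv
    have h7 : s * (1 + |(v.1 : ℝ)| + |(v.2 : ℝ)|) ≤ (1 + 2 * R) * s⁻¹ := by
      rw [← div_eq_mul_inv, le_div_iff₀ hs0]
      calc s * (1 + |(v.1 : ℝ)| + |(v.2 : ℝ)|) * s
          = (s * s) + (s * s) * |(v.1 : ℝ)| + (s * s) * |(v.2 : ℝ)| := by ring
        _ ≤ 1 + 2 * R := by rw [hs2]; linarith
    calc s⁻¹ + s * (C2 * (1 + |(v.1 : ℝ)| + |(v.2 : ℝ)|))
        = s⁻¹ + C2 * (s * (1 + |(v.1 : ℝ)| + |(v.2 : ℝ)|)) := by ring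
      _ ≤ s⁻¹ + C2 * ((1 + 2 * R) * s⁻¹) := by gcongr
      _ = (1 + C2 * (1 + 2 * R)) * s⁻¹ := by ring
  · calc (∑ v ∈ lbox (δ n) R, |r v|) * ((1 + C2 * (1 + 2 * R)) * s⁻¹)
        ≤ (C1 * δ n) * ((1 + C2 * (1 + 2 * R)) * s⁻¹) := by gcongr
      _ = C1 * (1 + C2 * (1 + 2 * R)) * s := by
        rw [← hs2]
        field_simp

/-- **Law of exactly neutral lattice approximations.** -/
theorem law_lat (hP : IsState c P) (h : LawHyp A P) {δ : ℕ → ℝ} (hδ : Mesh δ)
    {a : ℕ → P2 → ℝ} {f : ℂ → ℝ} (ha : Lat δ a f) (hf : Test f) (hm : ∀ n, mass (a n) = 0) :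
    Tendsto (fun n => ∫ ω, eY (a n) ω ∂P) atTop
      (𝓝 ((Real.exp (-(A * plog f f) / 2) : ℝ) : ℂ)) := by
  have := hP.prob
  -- the mass of `f`
  have hf0 : ∫ z, f z = 0 := by
    obtain ⟨C, hC, h1⟩ := ha.mass hδ hf
    have h2 : Tendsto (fun n => C * δ n) atTop (𝓝 (C * 0)) := hδ.lim.const_mul C
    rw [mul_zero] at h2
    have h3 : |∫ z, f z| ≤ 0 := by
      refine ge_of_tendsto' h2 fun n => ?_
      have := h1 n
      rwa [hm n, zero_sub, abs_neg] at this
    exact abs_eq_zero.1 (le_antisymm h3 (abs_nonneg _))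
  have hδ' : Tendsto δ atTop (𝓝[>] 0) :=
    tendsto_nhdsWithin_iff.2 ⟨hδ.lim, Eventually.of_forall fun n => hδ.pos n⟩
  have h1 := (h.law f hf hf0).comp hδ'
  obtain ⟨C, hC, h2⟩ := lat_L1 hP h hδ ha
  have h3 : Tendsto (fun n => (∫ ω, eY (a n) ω ∂P) -
      ∫ ω, Complex.exp (Complex.I * (X (δ n) f ω : ℂ)) ∂P) atTop (𝓝 0) := by
    have h4 : Tendsto (fun n => C * √(δ n)) atTop (𝓝 0) := by
      have := (hδ.lim.sqrt).const_mul C
      rwa [Real.sqrt_zero, mul_zero] at this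
    refine squeeze_zero_norm (fun n => ?_) h4
    obtain ⟨R, hR, hR0⟩ := Test.exists_radius hf
    obtain ⟨C1, R1, hC1, hR1, h5⟩ := ha.sum_error hδ
    have hl1 : Loc ((lbox (δ n) R1 : Finset P2) : Set P2) (Yl (a n)) :=
      loc_Yl fun v hv => ((h5 n).1 v hv).1
    have hl2 : Loc ((lbox (δ n) R1 : Finset P2) : Set P2) (X (δ n) f) := by
      have : X (δ n) f = Yl (fun v => δ n ^ 2 * f (ptC (δ n) v)) := funext fun ω => X_eq _ _ ω
      rw [this]
      exact loc_Yl fun v hv => by rw [((h5 n).1 v hv).2, mul_zero]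
    have hi1 : Integrable (fun ω => eY (a n) ω) P :=
      loc_integrable hP (loc_comp hl1 fun x : ℝ => Complex.exp (Complex.I * (x : ℂ)))
    have hi2 : Integrable (fun ω => Complex.exp (Complex.I * (X (δ n) f ω : ℂ))) P :=
      loc_integrable hP (loc_comp hl2 fun x : ℝ => Complex.exp (Complex.I * (x : ℂ)))
    have hi3 : Integrable (fun ω => |Yl (a n) ω - X (δ n) f ω|) P :=
      ((loc_integrable hP hl1).sub (loc_integrable hP hl2)).abs
    rw [← integral_sub hi1 hi2]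
    calc ‖∫ ω, eY (a n) ω - Complex.exp (Complex.I * (X (δ n) f ω : ℂ)) ∂P‖
        ≤ ∫ ω, |Yl (a n) ω - X (δ n) f ω| ∂P :=
          norm_integral_le_of_norm_le hi3 (Eventually.of_forall fun ω => norm_exp_sub_le _ _)
      _ ≤ C * √(δ n) := h2 n
  have h6 := h1.add h3
  rw [add_zero] at h6
  refine h6.congr fun n => ?_
  simp only [Function.comp_apply]
  ring

end Crest.Agent.R161.Ward369
end
end

-- ▼ part R161/W3_369
section

/-!
R161, STEP 6 (helper369), part W3: calculus of the logarithmic energy form `plog`.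
-/

set_option autoImplicit false

noncomputable section

open Filter Topology MeasureTheory
open scoped ComplexConjugate

namespace Crest.Agent.R161.Ward369

open Crest.Agent.R161.Geo729 Crest.Agent.R161.Defs372 Crest.Agent.R161.Ifc372
open Crest.Agent.R161.Aut373 Crest.Agent.R161.Green722

theorem Test.tst {f : ℂ → ℝ} (hf : Test f) : ∃ R : ℝ, 0 < R ∧ Tst R f := by
  obtain ⟨R, hR, h⟩ := Test.exists_radius hf
  obtain ⟨M, hM, h'⟩ := Test.exists_bdd hf
  exact ⟨R, hR, ⟨hf.smooth.continuous.measurable, ⟨M, h'⟩, h⟩⟩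

/-- kernel -/
def kl (z w : ℂ) : ℝ := -(2 * Real.pi)⁻¹ * Real.log ‖z - w‖

theorem integrable_kl {r : ℝ} {f g : ℂ → ℝ} (hf : Tst r f) (hg : Tst r g) :
    Integrable (fun p : ℂ × ℂ => f p.1 * kl p.1 p.2 * g p.2) := by
  have h := (integrable_log_kernel hf hg).const_mul (-(2 * Real.pi)⁻¹)
  refine h.congr (Eventually.of_forall fun p => ?_)
  simp only [kl]
  ring

theorem plog_eq_prod {r : ℝ} {f g : ℂ → ℝ} (hf : Tst r f) (hg : Tst r g) :
    plog f g = ∫ p : ℂ × ℂ, f p.1 * kl p.1 p.2 * g p.2 :=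
  (integral_prod _ (integrable_kl hf hg)).symm

theorem plog_symm {r : ℝ} {f g : ℂ → ℝ} (hf : Tst r f) (hg : Tst r g) : plog f g = plog g f := by
  rw [plog_eq_prod hf hg, plog_eq_prod hg hf]
  have h := integral_prod_swap (μ := (volume : Measure ℂ)) (ν := (volume : Measure ℂ))
    (fun p : ℂ × ℂ => g p.1 * kl p.1 p.2 * f p.2)
  calc ∫ p : ℂ × ℂ, f p.1 * kl p.1 p.2 * g p.2
      = ∫ p : ℂ × ℂ, (fun p : ℂ × ℂ => g p.1 * kl p.1 p.2 * f p.2) p.swap := by
        congr 1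
        funext p
        simp only [Prod.fst_swap, Prod.snd_swap, kl, norm_sub_rev p.2 p.1]
        ring
    _ = _ := h

theorem plog_add_left {r : ℝ} {f f' g : ℂ → ℝ} (hf : Tst r f) (hf' : Tst r f') (hg : Tst r g) :
    plog (fun z => f z + f' z) g = plog f g + plog f' g := by
  rw [plog_eq_prod hf hg, plog_eq_prod hf' hg, plog_eq_prod (hf.add hf') hg,
    ← integral_add (integrable_kl hf hg) (integrable_kl hf' hg)]
  congr 1
  funext p
  ring

theorem plog_add_right {r : ℝ} {f g g' : ℂ → ℝ} (hf : Tst r f) (hg : Tst r g) (hg' : Tst r g') :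
    plog f (fun z => g z + g' z) = plog f g + plog f g' := by
  rw [plog_symm hf (hg.add hg'), plog_add_left hg hg' hf, plog_symm hg hf, plog_symm hg' hf]

theorem plog_smul_left (f g : ℂ → ℝ) (c : ℝ) : plog (fun z => c * f z) g = c * plog f g := by
  unfold plog
  rw [← integral_const_mul]
  congr 1
  funext z
  rw [← integral_const_mul]
  congr 1
  funext w
  ring

theorem plog_smul_right (f g : ℂ → ℝ) (c : ℝ) : plog f (fun z => c * g z) = c * plog f g := by
  unfold plog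
  rw [← integral_const_mul]
  congr 1
  funext z
  rw [← integral_const_mul]
  congr 1
  funext w
  ring

/-- expansion of the energy of `g + s a + t b` -/
theorem plog_expand {r : ℝ} {g a b : ℂ → ℝ} (hg : Tst r g) (ha : Tst r a) (hb : Tst r b) (s t : ℝ) :
    plog (fun z => g z + (s * a z + t * b z)) (fun z => g z + (s * a z + t * b z)) =
      plog g g + 2 * s * plog g a + 2 * t * plog g b + s ^ 2 * plog a a + t ^ 2 * plog b b +
        2 * s * t * plog a b := by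
  have hsa : Tst r (fun z => s * a z) := ha.const_mul s
  have htb : Tst r (fun z => t * b z) := hb.const_mul t
  have hs := hsa.add htb
  rw [plog_add_left hg hs (hg.add hs), plog_add_right hg hg hs, plog_add_right hs hg hs,
    plog_add_right hg hsa htb, plog_symm hs hg, plog_add_right hg hsa htb,
    plog_add_left hsa htb hs, plog_add_right hsa hsa htb, plog_add_right htb hsa htb]
  simp only [plog_smul_left, plog_smul_right]
  rw [plog_symm hb ha]
  ring

open Laplacian in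
/-- the logarithmic potential of `-Δψ` is `ψ` -/
theorem plog_lap (g : ℂ → ℝ) {ψ : ℂ → ℝ} (hψ : Test ψ) :
    plog g (fun z => -(Δ ψ) z) = ∫ z, g z * ψ z := by
  unfold plog
  congr 1
  funext z
  have h := LP_lap hψ.smooth hψ.supp z
  unfold LP at h
  calc ∫ w, g z * (-(2 * Real.pi)⁻¹ * Real.log ‖z - w‖) * (-(Δ ψ) w)
      = ∫ w, (g z * (1 / (2 * Real.pi))) * (Real.log ‖z - w‖ * (Δ ψ) w) := by
        congr 1
        funext w
        ring
    _ = g z * ((1 / (2 * Real.pi)) * ∫ w, Real.log ‖z - w‖ * (Δ ψ) w) := by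
        rw [integral_const_mul]
        ring
    _ = g z * ψ z := by rw [h]

/-! ### reflections -/

/-- reflection in the vertical line `re z = x` -/
def rf (x : ℝ) (z : ℂ) : ℂ := ((2 * x : ℝ) : ℂ) + -(conj z)

theorem rf_rf (x : ℝ) (z : ℂ) : rf x (rf x z) = z := by
  unfold rf
  rw [map_add, map_neg, Complex.conj_ofReal, Complex.conj_conj]
  ring

theorem rf_re (x : ℝ) (z : ℂ) : (rf x z).re = 2 * x - z.re := by
  simp [rf]
  ring

theorem rf_im (x : ℝ) (z : ℂ) : (rf x z).im = z.im := by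
  simp [rf]

theorem rf_sub (x : ℝ) (z w : ℂ) : ‖rf x z - rf x w‖ = ‖z - w‖ := by
  have : rf x z - rf x w = -(conj (z - w)) := by
    unfold rf
    simp
    ring
  rw [this, norm_neg, RCLike.norm_conj]

theorem rf_rf_sub (x y : ℝ) (z : ℂ) : ‖rf x z - rf y z‖ = 2 * |x - y| := by
  have : rf x z - rf y z = ((2 * (x - y) : ℝ) : ℂ) := by
    unfold rf
    push_cast
    ring
  rw [this, Complex.norm_real, Real.norm_eq_abs, abs_mul, abs_two]

theorem mp_rf (x : ℝ) : MeasurePreserving (rf x) := by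
  have h1 : MeasurePreserving (fun z : ℂ => -(conj z)) :=
    (Complex.conjLIE.trans (LinearIsometryEquiv.neg ℝ)).measurePreserving
  exact (measurePreserving_add_left (volume : Measure ℂ) ((2 * x : ℝ) : ℂ)).comp h1

/-- reflection as a measurable equivalence -/
def rfE (x : ℝ) : ℂ ≃ᵐ ℂ where
  toFun := rf x
  invFun := rf x
  left_inv := rf_rf x
  right_inv := rf_rf x
  measurable_toFun := (mp_rf x).measurable
  measurable_invFun := (mp_rf x).measurable

theorem integral_rf (x : ℝ) (F : ℂ → ℝ) : ∫ z, F (rf x z) = ∫ z, F z :=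
  (mp_rf x).integral_comp (rfE x).measurableEmbedding F

theorem plog_rf (x : ℝ) (f g : ℂ → ℝ) : plog (fun z => f (rf x z)) (fun z => g (rf x z)) =
    plog f g := by
  unfold plog
  have h1 : ∀ z, ∫ w, f (rf x z) * (-(2 * Real.pi)⁻¹ * Real.log ‖z - w‖) * g (rf x w) =
      ∫ w, f (rf x z) * (-(2 * Real.pi)⁻¹ * Real.log ‖rf x z - w‖) * g w := by
    intro z
    rw [← integral_rf x (fun w => f (rf x z) * (-(2 * Real.pi)⁻¹ * Real.log ‖rf x z - w‖) * g w)]
    congr 1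
    funext w
    rw [rf_sub]
  simp_rw [h1]
  exact integral_rf x (fun z => ∫ w, f z * (-(2 * Real.pi)⁻¹ * Real.log ‖z - w‖) * g w)

theorem Test.rf {f : ℂ → ℝ} (hf : Test f) (x : ℝ) : Test (fun z => f (rf x z)) where
  smooth := by
    have h1 : ContDiff ℝ (⊤ : ℕ∞) (Ward369.rf x) := by
      unfold Ward369.rf
      exact contDiff_const.add (Complex.conjCLE.contDiff.neg)
    exact hf.smooth.comp h1
  supp := by
    obtain ⟨R, hR, h⟩ := Test.exists_radius hf
    refine HasCompactSupport.intro (isCompact_closedBall (0 : ℂ) (R + 2 * |x|)) fun z hz => ?_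
    rw [Metric.mem_closedBall, dist_zero_right, not_le] at hz
    refine h _ ?_
    have h1 : ‖z‖ ≤ 2 * |x| + ‖Ward369.rf x z‖ := by
      have h2 : conj z = ((2 * x : ℝ) : ℂ) - Ward369.rf x z := by
        unfold Ward369.rf
        ring
      have h3 : ‖conj z‖ = ‖z‖ := RCLike.norm_conj z
      rw [← h3, h2]
      refine (norm_sub_le _ _).trans ?_
      rw [Complex.norm_real, Real.norm_eq_abs, abs_mul, abs_two]
    linarith

/-! ### small energies -/

theorem plog_small {ι : Type*} {l : Filter ι} [l.IsCountablyGenerated] {e : ι → ℂ → ℝ} {R M : ℝ}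
    (hm : ∀ i, Measurable (e i)) (hM : ∀ i z, |e i z| ≤ M) (hR : ∀ i z, R < ‖z‖ → e i z = 0)
    (h0 : ∀ᵐ z : ℂ, Tendsto (fun i => e i z) l (𝓝 0)) :
    Tendsto (fun i => plog (e i) (e i)) l (𝓝 0) := by
  classical
  rcases isEmpty_or_nonempty ι with hι | ⟨⟨i0⟩⟩
  · exact tendsto_of_isEmpty
  have hM0 : 0 ≤ M := (abs_nonneg _).trans (hM i0 0)
  have hT : ∀ i, Tst R (e i) := fun i => ⟨hm i, ⟨M, hM i⟩, hR i⟩
  set E0 : ℂ → ℝ := (Metric.closedBall (0 : ℂ) R).indicator fun _ => M with hE0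
  have hE : Tst R E0 := by
    refine ⟨measurable_const.indicator Metric.isClosed_closedBall.measurableSet, ⟨M, fun z => ?_⟩,
      fun z hz => ?_⟩
    · rw [hE0, Set.indicator_apply]
      split_ifs
      · rw [abs_of_nonneg hM0]
      · rw [abs_zero]; exact hM0
    · rw [hE0, Set.indicator_of_notMem]
      rw [Metric.mem_closedBall, dist_zero_right, not_le]
      exact hz
  have hle : ∀ i z, |e i z| ≤ |E0 z| := by
    intro i z
    by_cases hz : z ∈ Metric.closedBall (0 : ℂ) R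
    · rw [hE0, Set.indicator_of_mem hz, abs_of_nonneg hM0]
      exact hM i z
    · rw [Metric.mem_closedBall, dist_zero_right, not_le] at hz
      rw [hR i z hz, abs_zero]
      exact abs_nonneg _
  have h1 : ∀ i, plog (e i) (e i) = ∫ p : ℂ × ℂ, e i p.1 * kl p.1 p.2 * e i p.2 := fun i =>
    plog_eq_prod (hT i) (hT i)
  simp_rw [h1]
  have h2 : (0 : ℝ) = ∫ _p : ℂ × ℂ, (0 : ℝ) := by simp
  rw [h2]
  refine tendsto_integral_filter_of_dominated_convergence
    (fun p => |E0 p.1 * kl p.1 p.2 * E0 p.2|) ?_ ?_ ?_ ?_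
  · exact Eventually.of_forall fun i => (integrable_kl (hT i) (hT i)).aestronglyMeasurable
  · refine Eventually.of_forall fun i => Eventually.of_forall fun p => ?_
    rw [Real.norm_eq_abs, abs_mul, abs_mul, abs_mul, abs_mul]
    exact mul_le_mul (mul_le_mul_of_nonneg_right (hle i p.1) (abs_nonneg _)) (hle i p.2)
      (abs_nonneg _) (mul_nonneg (abs_nonneg _) (abs_nonneg _))
  · exact (integrable_kl hE hE).abs
  · have h3 : ∀ᵐ p : ℂ × ℂ, Tendsto (fun i => e i p.1) l (𝓝 0) :=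
      (Measure.quasiMeasurePreserving_fst (μ := (volume : Measure ℂ))
        (ν := (volume : Measure ℂ))).ae h0
    filter_upwards [h3] with p hp
    have h4 : ∀ i, ‖e i p.1 * kl p.1 p.2 * e i p.2‖ ≤ |e i p.1| * (|kl p.1 p.2| * M) := by
      intro i
      rw [Real.norm_eq_abs, abs_mul, abs_mul, mul_assoc]
      gcongr
      exact hM i p.2
    refine squeeze_zero_norm h4 ?_
    have h5 := (hp.abs).mul_const (|kl p.1 p.2| * M)
    rwa [abs_zero, zero_mul] at h5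

end Crest.Agent.R161.Ward369
end
end

-- ▼ part R161/W4_369
section

/-!
R161, STEP 5 (helper369), part W4: half-plane smallness of the observable
`e^{iY(a)} (e^{iY(dψ)} - κ₀)` about a vertical line to the left of the supports.
-/

set_option autoImplicit false

noncomputable section

open Filter Topology MeasureTheory
open scoped ComplexConjugate

namespace Crest.Agent.R161.Ward369

open Crest.Agent.R161.Geo729 Crest.Agent.R161.Defs372 Crest.Agent.R161.Ifc372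
open Crest.Agent.R161.Aut373 Crest.Agent.R161.Green722

/-- lattice reflection in the vertical line `x = ℓ` -/
def sg (ℓ : ℤ) : P2 ≃ P2 where
  toFun v := (2 * ℓ - v.1, v.2)
  invFun v := (2 * ℓ - v.1, v.2)
  left_inv v := by ext <;> simp
  right_inv v := by ext <;> simp

theorem sg_apply (ℓ : ℤ) (v : P2) : sg ℓ v = (2 * ℓ - v.1, v.2) := rfl

theorem ptC_sg (δ : ℝ) (ℓ : ℤ) (v : P2) : ptC δ (sg ℓ v) = rf (δ * ℓ) (ptC δ v) := by
  refine Complex.ext ?_ ?_
  · rw [rf_re, ptC_re, ptC_re, sg_apply]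
    push_cast
    ring
  · rw [rf_im, ptC_im, ptC_im, sg_apply]

theorem Lat.refl {δ : ℕ → ℝ} {a : ℕ → P2 → ℝ} {f : ℂ → ℝ} (hδ : Mesh δ) (h : Lat δ a f)
    (hf : Test f) {ℓ : ℕ → ℤ} {x C0 : ℝ} (hℓ : ∀ n, |δ n * ℓ n - x| ≤ C0 * δ n) :
    Lat δ (fun n v => a n (sg (ℓ n) v)) (fun z => f (rf x z)) where
  close := by
    obtain ⟨C, hC, h1⟩ := h.close
    obtain ⟨L, hL, hLip⟩ := Test.exists_lip hf
    have hC0 : 0 ≤ C0 := by
      have := (abs_nonneg _).trans (hℓ 0)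
      exact nonneg_of_mul_nonneg_left this (hδ.pos 0)
    refine ⟨C + L * (2 * C0), by positivity, fun n v => ?_⟩
    have hp := hδ.pos n
    have h2 := h1 n (sg (ℓ n) v)
    rw [ptC_sg] at h2
    have h3 := hLip (rf (δ n * ℓ n) (ptC (δ n) v)) (rf x (ptC (δ n) v))
    rw [rf_rf_sub] at h3
    have h4 : L * (2 * |δ n * ℓ n - x|) ≤ L * (2 * (C0 * δ n)) := by
      gcongr
      exact hℓ n
    calc |a n (sg (ℓ n) v) - δ n ^ 2 * f (rf x (ptC (δ n) v))|
        = |(a n (sg (ℓ n) v) - δ n ^ 2 * f (rf (δ n * ℓ n) (ptC (δ n) v))) +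
            δ n ^ 2 * (f (rf (δ n * ℓ n) (ptC (δ n) v)) - f (rf x (ptC (δ n) v)))| := by
          congr 1; ring
      _ ≤ C * δ n ^ 3 + δ n ^ 2 * (L * (2 * (C0 * δ n))) := by
          refine (abs_add_le _ _).trans (add_le_add h2 ?_)
          rw [abs_mul, abs_of_nonneg (by positivity : (0 : ℝ) ≤ δ n ^ 2)]
          gcongr
          exact h3.trans h4
      _ = (C + L * (2 * C0)) * δ n ^ 3 := by ring
  supp := by
    obtain ⟨R, hR, h1, h2⟩ := h.supp
    have hC0 : 0 ≤ C0 := by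
      have := (abs_nonneg _).trans (hℓ 0)
      exact nonneg_of_mul_nonneg_left this (hδ.pos 0)
    have key : ∀ (y : ℝ) (z : ℂ), ‖z‖ ≤ 2 * |y| + ‖rf y z‖ := by
      intro y z
      have h2 : conj z = ((2 * y : ℝ) : ℂ) - rf y z := by
        unfold rf
        ring
      have h3 : ‖conj z‖ = ‖z‖ := RCLike.norm_conj z
      rw [← h3, h2]
      refine (norm_sub_le _ _).trans ?_
      rw [Complex.norm_real, Real.norm_eq_abs, abs_mul, abs_two]
    refine ⟨R + 2 * (|x| + C0), by positivity, fun n v hv => h1 n _ ?_, fun z hz => h2 _ ?_⟩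
    · rw [ptC_sg]
      have h3 := key (δ n * ℓ n) (ptC (δ n) v)
      have h4 : |δ n * (ℓ n : ℝ)| ≤ |x| + C0 := by
        have h5 := hℓ n
        have h6 : C0 * δ n ≤ C0 * 1 := by gcongr; exact hδ.le_one n
        calc |δ n * (ℓ n : ℝ)| = |x + (δ n * ℓ n - x)| := by congr 1; ring
          _ ≤ |x| + |δ n * ℓ n - x| := abs_add_le _ _
          _ ≤ |x| + C0 := by linarith
      linarith
    · have h3 := key x z
      linarith

variable {c A : ℝ} {P : Measure Cfg} {δ : ℕ → ℝ}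

/-- the observable -/
def Obs (a d : P2 → ℝ) (κ₀ : ℝ) (ω : Cfg) : ℂ := eY a ω * (eY d ω - (κ₀ : ℂ))

theorem norm_Obs_le (a d : P2 → ℝ) {κ₀ : ℝ} (ω : Cfg) : ‖Obs a d κ₀ ω‖ ≤ 1 + |κ₀| := by
  unfold Obs
  rw [norm_mul, norm_eY, one_mul]
  refine (norm_sub_le _ _).trans ?_
  rw [norm_eY, Complex.norm_real, Real.norm_eq_abs]

/-- the Gaussian constant -/
def k0 (A : ℝ) (f ψ : ℂ → ℝ) : ℝ :=
  Real.exp (-(A * ((∫ z, f z * ψ z) + (∫ z, -(Laplacian.laplacian ψ) z * ψ z) / 2)))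

theorem int4 {F1 F2 F3 F4 : Cfg → ℂ} (h1 : Integrable F1 P) (h2 : Integrable F2 P)
    (h3 : Integrable F3 P) (h4 : Integrable F4 P) (k : ℂ) :
    ∫ ω, (F1 ω - k * F2 ω - k * F3 ω + k ^ 2 * F4 ω) ∂P =
      ∫ ω, F1 ω ∂P - k * ∫ ω, F2 ω ∂P - k * ∫ ω, F3 ω ∂P + k ^ 2 * ∫ ω, F4 ω ∂P := by
  have i2 : Integrable (fun ω => k * F2 ω) P := h2.const_mul k
  have i3 : Integrable (fun ω => k * F3 ω) P := h3.const_mul k
  have i4 : Integrable (fun ω => k ^ 2 * F4 ω) P := h4.const_mul _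
  have j1 : Integrable (fun ω => F1 ω - k * F2 ω) P := h1.sub i2
  have j2 : Integrable (fun ω => F1 ω - k * F2 ω - k * F3 ω) P := j1.sub i3
  rw [integral_add j2 i4, integral_sub j1 i3, integral_sub h1 i2, integral_const_mul,
    integral_const_mul, integral_const_mul]

/-- **Half-plane smallness.** -/
theorem half_small (hP : IsState c P) (h : LawHyp A P) (hδ : Mesh δ) {Θ : ℤ → Cfg → Cfg}
    (hΘ : ∀ ℓ ω v, (Θ ℓ ω).1 v = ω.1 (2 * ℓ - v.1, v.2))
    {a : ℕ → P2 → ℝ} {f ψ : ℂ → ℝ} (ha : Lat δ a f) (hf : Test f) (hψ : Test ψ) {x₀ C0 : ℝ}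
    (hfx : ∀ z : ℂ, z.re ≤ x₀ → f z = 0) (hψx : ∀ z ∈ tsupport ψ, x₀ < z.re)
    {ℓ : ℕ → ℤ} (hℓ : ∀ n, |δ n * ℓ n - x₀| ≤ C0 * δ n) :
    Tendsto (fun n => (∫ ω, conj (Obs (a n) (dL (δ n) ψ) (k0 A f ψ) (Θ (ℓ n) ω)) *
      Obs (a n) (dL (δ n) ψ) (k0 A f ψ) ω ∂P).re) atTop (𝓝 0) := by
  have := hP.prob
  set κ₀ := k0 A f ψ with hκ
  set D : ℂ → ℝ := fun z => -(Laplacian.laplacian ψ) z with hD
  have hDt : Test D := Test.neg (Test.lap hψ)
  have hd : Lat δ (fun n => dL (δ n) ψ) D := lat_dL hδ hψ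
  have har := ha.refl hδ hf hℓ
  have hdr := hd.refl hδ hDt hℓ
  set g : ℂ → ℝ := fun z => f z - f (rf x₀ z) with hg
  have hgt : Test g := Test.sub hf (Test.rf hf x₀)
  set b : ℂ → ℝ := fun z => D (rf x₀ z) with hb
  have hbt : Test b := Test.rf hDt x₀
  have hgn : Lat δ (fun n v => a n v - a n (sg (ℓ n) v)) g := ha.sub har
  -- the four terms
  set T : ℝ → ℝ → ℕ → ℂ := fun s t n => ∫ ω, eY (fun v => (a n v - a n (sg (ℓ n) v)) +
    (s * dL (δ n) ψ v + t * dL (δ n) ψ (sg (ℓ n) v))) ω ∂P with hT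
  have hlim : ∀ s t : ℝ, Tendsto (T s t) atTop
      (𝓝 ((Real.exp (-(A * plog (fun z => g z + (s * D z + t * b z))
        (fun z => g z + (s * D z + t * b z))) / 2) : ℝ) : ℂ)) := by
    intro s t
    refine law_lat hP h hδ (hgn.add ((hd.smul s).add (hdr.smul t)))
      (Test.add hgt (Test.add (Test.smul hDt s) (Test.smul hbt t))) fun n => ?_
    have f1 := ha.fin0 hδ n
    have f2 := har.fin0 hδ n
    have f3 := hd.fin0 hδ n
    have f4 := hdr.fin0 hδ n
    rw [mass_add (f1.sub f2) ((f3.mul_left _).add (f4.mul_left _)), mass_sub f1 f2,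
      mass_add (f3.mul_left _) (f4.mul_left _), mass_smul, mass_smul,
      mass_equiv (a n) (sg (ℓ n)), mass_equiv (dL (δ n) ψ) (sg (ℓ n)), mass_dL (hδ.pos n) hψ]
    ring
  -- energies
  obtain ⟨r1, _, t1⟩ := Test.tst hgt
  obtain ⟨r2, _, t2⟩ := Test.tst hDt
  obtain ⟨r3, _, t3⟩ := Test.tst hbt
  have t1' := t1.mono (le_max_left r1 (max r2 r3))
  have t2' := t2.mono ((le_max_left r2 r3).trans (le_max_right r1 _))
  have t3' := t3.mono ((le_max_right r2 r3).trans (le_max_right r1 _))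
  have hψ0 : ∀ z : ℂ, z.re ≤ x₀ → ψ z = 0 := fun z hz =>
    image_eq_zero_of_notMem_tsupport fun hcon => absurd (hψx z hcon) (not_lt.2 hz)
  have hD0 : ∀ z : ℂ, z.re ≤ x₀ → D z = 0 := fun z hz => by
    rw [hD]
    simp only
    rw [lapC_eq_zero fun hcon => absurd (hψx z hcon) (not_lt.2 hz), neg_zero]
  set F : ℝ := ∫ z, f z * ψ z with hF
  set DD : ℝ := ∫ z, D z * ψ z with hDD
  have e1 : plog g D = F := by
    rw [plog_lap g hψ]
    congr 1
    funext z
    rcases le_or_gt z.re x₀ with hz | hz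
    · rw [hψ0 z hz, mul_zero, mul_zero]
    · rw [hg]
      simp only
      rw [hfx (rf x₀ z) (by rw [rf_re]; linarith), sub_zero]
  have e2 : plog g b = -F := by
    have h1 : g = fun z => -g (rf x₀ z) := by
      funext z
      rw [hg]
      simp only
      rw [rf_rf]
      ring
    have h2 : plog (fun z => g (rf x₀ z)) b = plog g D := plog_rf x₀ g D
    rw [h1]
    have h3 : plog (fun z => -g (rf x₀ z)) b = -plog (fun z => g (rf x₀ z)) b := by
      have := plog_smul_left (fun z => g (rf x₀ z)) b (-1)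
      simpa only [neg_one_mul] using this
    rw [h3, h2, e1]
  have e3 : plog D D = DD := plog_lap D hψ
  have e4 : plog b b = DD := by rw [← e3]; exact plog_rf x₀ D D
  have e5 : plog D b = 0 := by
    rw [plog_symm t2' t3', plog_lap b hψ]
    have : ∀ z, b z * ψ z = 0 := by
      intro z
      rcases le_or_gt z.re x₀ with hz | hz
      · rw [hψ0 z hz, mul_zero]
      · rw [hb]
        simp only
        rw [hD0 (rf x₀ z) (by rw [rf_re]; linarith), zero_mul]
    simp_rw [this]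
    simp
  have hE : ∀ s t : ℝ, plog (fun z => g z + (s * D z + t * b z))
        (fun z => g z + (s * D z + t * b z)) =
      plog g g + 2 * s * F - 2 * t * F + (s ^ 2 + t ^ 2) * DD := by
    intro s t
    rw [plog_expand t1' t2' t3', e1, e2, e3, e4, e5]
    ring
  have hκ' : κ₀ = Real.exp (-(A * (F + DD / 2))) := rfl
  -- the combination
  have hcomb : Tendsto (fun n => T 1 (-1) n - (κ₀ : ℂ) * T 1 0 n - (κ₀ : ℂ) * T 0 (-1) n +
      (κ₀ : ℂ) ^ 2 * T 0 0 n) atTop (𝓝 0) := by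
    have h1 := (((hlim 1 (-1)).sub ((hlim 1 0).const_mul (κ₀ : ℂ))).sub
      ((hlim 0 (-1)).const_mul (κ₀ : ℂ))).add ((hlim 0 0).const_mul ((κ₀ : ℂ) ^ 2))
    have h2 : ((Real.exp (-(A * plog (fun z => g z + ((1 : ℝ) * D z + (-1 : ℝ) * b z))
        (fun z => g z + ((1 : ℝ) * D z + (-1 : ℝ) * b z))) / 2) : ℝ) : ℂ) -
        (κ₀ : ℂ) * ((Real.exp (-(A * plog (fun z => g z + ((1 : ℝ) * D z + (0 : ℝ) * b z))
        (fun z => g z + ((1 : ℝ) * D z + (0 : ℝ) * b z))) / 2) : ℝ) : ℂ) -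
        (κ₀ : ℂ) * ((Real.exp (-(A * plog (fun z => g z + ((0 : ℝ) * D z + (-1 : ℝ) * b z))
        (fun z => g z + ((0 : ℝ) * D z + (-1 : ℝ) * b z))) / 2) : ℝ) : ℂ) +
        (κ₀ : ℂ) ^ 2 * ((Real.exp (-(A * plog (fun z => g z + ((0 : ℝ) * D z + (0 : ℝ) * b z))
        (fun z => g z + ((0 : ℝ) * D z + (0 : ℝ) * b z))) / 2) : ℝ) : ℂ) = 0 := by
      rw [hE, hE, hE, hE]
      have e6 : Real.exp (-(A * (plog g g + 2 * 1 * F - 2 * -1 * F + (1 ^ 2 + (-1) ^ 2) * DD)) / 2) =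
          Real.exp (-(A * plog g g) / 2) * (κ₀ * κ₀) := by
        rw [hκ', ← Real.exp_add, ← Real.exp_add]
        congr 1
        ring
      have e7 : Real.exp (-(A * (plog g g + 2 * 1 * F - 2 * 0 * F + (1 ^ 2 + 0 ^ 2) * DD)) / 2) =
          Real.exp (-(A * plog g g) / 2) * κ₀ := by
        rw [hκ', ← Real.exp_add]
        congr 1
        ring
      have e8 : Real.exp (-(A * (plog g g + 2 * 0 * F - 2 * -1 * F + (0 ^ 2 + (-1) ^ 2) * DD)) / 2) =
          Real.exp (-(A * plog g g) / 2) * κ₀ := by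
        rw [hκ', ← Real.exp_add]
        congr 1
        ring
      have e9 : Real.exp (-(A * (plog g g + 2 * 0 * F - 2 * 0 * F + (0 ^ 2 + 0 ^ 2) * DD)) / 2) =
          Real.exp (-(A * plog g g) / 2) := by
        congr 1
        ring
      rw [e6, e7, e8, e9]
      push_cast
      ring
    rw [h2] at h1
    exact h1
  -- identification
  have hid : ∀ n, ∫ ω, conj (Obs (a n) (dL (δ n) ψ) κ₀ (Θ (ℓ n) ω)) *
      Obs (a n) (dL (δ n) ψ) κ₀ ω ∂P = T 1 (-1) n - (κ₀ : ℂ) * T 1 0 n -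
        (κ₀ : ℂ) * T 0 (-1) n + (κ₀ : ℂ) ^ 2 * T 0 0 n := by
    intro n
    have f1 := ha.fin0 hδ n
    have f2 := har.fin0 hδ n
    have f3 := hd.fin0 hδ n
    have f4 := hdr.fin0 hδ n
    have hE' : ∀ (s t : ℝ) (ω : Cfg), eY (fun v => (a n v - a n (sg (ℓ n) v)) +
        (s * dL (δ n) ψ v + t * dL (δ n) ψ (sg (ℓ n) v))) ω =
        Complex.exp (Complex.I * ((Yl (a n) ω - Yl (fun v => a n (sg (ℓ n) v)) ω + (s *
          Yl (dL (δ n) ψ) ω + t * Yl (fun v => dL (δ n) ψ (sg (ℓ n) v)) ω) : ℝ) : ℂ)) := by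
      intro s t ω
      unfold eY
      rw [Yl_add (f1.sub f2) ((f3.mul_left _).add (f4.mul_left _)), Yl_sub f1 f2,
        Yl_add (f3.mul_left _) (f4.mul_left _), Yl_smul, Yl_smul]
    have hint : ∀ s t : ℝ, Integrable (fun ω => eY (fun v => (a n v - a n (sg (ℓ n) v)) +
        (s * dL (δ n) ψ v + t * dL (δ n) ψ (sg (ℓ n) v))) ω) P := by
      intro s t
      have hfin := (f1.sub f2).add ((f3.mul_left (fun _ => s)).add (f4.mul_left (fun _ => t)))
      refine loc_integrable hP (S := hfin.toFinset) (loc_eY fun v hv => ?_)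
      by_contra hcon
      exact hv ((Set.Finite.mem_toFinset hfin).2 hcon)
    have hpt : ∀ ω, conj (Obs (a n) (dL (δ n) ψ) κ₀ (Θ (ℓ n) ω)) *
        Obs (a n) (dL (δ n) ψ) κ₀ ω = eY (fun v => (a n v - a n (sg (ℓ n) v)) +
        (1 * dL (δ n) ψ v + (-1) * dL (δ n) ψ (sg (ℓ n) v))) ω -
        (κ₀ : ℂ) * eY (fun v => (a n v - a n (sg (ℓ n) v)) +
        (1 * dL (δ n) ψ v + 0 * dL (δ n) ψ (sg (ℓ n) v))) ω -
        (κ₀ : ℂ) * eY (fun v => (a n v - a n (sg (ℓ n) v)) +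
        (0 * dL (δ n) ψ v + (-1) * dL (δ n) ψ (sg (ℓ n) v))) ω +
        (κ₀ : ℂ) ^ 2 * eY (fun v => (a n v - a n (sg (ℓ n) v)) +
        (0 * dL (δ n) ψ v + 0 * dL (δ n) ψ (sg (ℓ n) v))) ω := by
      intro ω
      rw [hE', hE', hE', hE']
      have h1 : ∀ u : P2 → ℝ, Yl u (Θ (ℓ n) ω) = Yl (fun v => u (sg (ℓ n) v)) ω := fun u =>
        Yl_equiv u (sg (ℓ n)) ω _ fun v => hΘ _ _ _
      unfold Obs eY
      rw [h1, h1, map_mul, map_sub, Complex.conj_ofReal, ← Complex.exp_conj, ← Complex.exp_conj,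
        map_mul, map_mul, Complex.conj_I, Complex.conj_ofReal, Complex.conj_ofReal]
      set p := Yl (a n) ω
      set q := Yl (fun v => a n (sg (ℓ n) v)) ω
      set u := Yl (dL (δ n) ψ) ω
      set w := Yl (fun v => dL (δ n) ψ (sg (ℓ n) v)) ω
      have x1 : Complex.exp (Complex.I * ((p - q + (1 * u + -1 * w) : ℝ) : ℂ)) =
          Complex.exp (-Complex.I * q) * Complex.exp (Complex.I * p) *
            (Complex.exp (-Complex.I * w) * Complex.exp (Complex.I * u)) := by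
        rw [← Complex.exp_add, ← Complex.exp_add, ← Complex.exp_add]
        congr 1
        push_cast
        ring
      have x2 : Complex.exp (Complex.I * ((p - q + (1 * u + 0 * w) : ℝ) : ℂ)) =
          Complex.exp (-Complex.I * q) * Complex.exp (Complex.I * p) *
            Complex.exp (Complex.I * u) := by
        rw [← Complex.exp_add, ← Complex.exp_add]
        congr 1
        push_cast
        ring
      have x3 : Complex.exp (Complex.I * ((p - q + (0 * u + -1 * w) : ℝ) : ℂ)) =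
          Complex.exp (-Complex.I * q) * Complex.exp (Complex.I * p) *
            Complex.exp (-Complex.I * w) := by
        rw [← Complex.exp_add, ← Complex.exp_add]
        congr 1
        push_cast
        ring
      have x4 : Complex.exp (Complex.I * ((p - q + (0 * u + 0 * w) : ℝ) : ℂ)) =
          Complex.exp (-Complex.I * q) * Complex.exp (Complex.I * p) := by
        rw [← Complex.exp_add]
        congr 1
        push_cast
        ring
      rw [x1, x2, x3, x4]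
      ring
    simp_rw [hpt]
    exact int4 (hint 1 (-1)) (hint 1 0) (hint 0 (-1)) (hint 0 0) _
  simp_rw [hid]
  have h1 := (Complex.continuous_re.tendsto 0).comp hcomb
  rw [Complex.zero_re] at h1
  exact h1

end Crest.Agent.R161.Ward369
end
end

-- ▼ part R161/W5_369
section

/-!
R161, STEP 6 (helper369), part W5: cutting in the corridors; the peeling theorem applied to a
block, for a fixed corridor width.
-/

set_option autoImplicit false

noncomputable section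

open Filter Topology MeasureTheory
open scoped ComplexConjugate

namespace Crest.Agent.R161.Ward369

open Crest.Agent.R161.Geo729 Crest.Agent.R161.Defs372 Crest.Agent.R161.Ifc372
open Crest.Agent.R161.Aut373 Crest.Agent.R161.Green722
open Crest.Agent.R161.PeelP369 (PGeo PProb RPHyp)

/-! ### one-dimensional cutoffs -/

/-- `0` for `t ≤ c + γ`, `1` for `t ≥ c + 2γ` -/
def cup (c γ t : ℝ) : ℝ := Real.smoothTransition ((t - c) / γ - 1)
/-- `0` for `t ≥ c - γ`, `1` for `t ≤ c - 2γ` -/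
def cdn (c γ t : ℝ) : ℝ := Real.smoothTransition ((c - t) / γ - 1)

section cut

variable {c γ t : ℝ}

theorem cup_nonneg : 0 ≤ cup c γ t := Real.smoothTransition.nonneg _
theorem cup_le_one : cup c γ t ≤ 1 := Real.smoothTransition.le_one _
theorem cdn_nonneg : 0 ≤ cdn c γ t := Real.smoothTransition.nonneg _
theorem cdn_le_one : cdn c γ t ≤ 1 := Real.smoothTransition.le_one _

theorem cup_zero (hγ : 0 < γ) (h : t ≤ c + γ) : cup c γ t = 0 := by
  refine Real.smoothTransition.zero_of_nonpos ?_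
  have : (t - c) / γ ≤ 1 := by rw [div_le_one hγ]; linarith
  linarith

theorem cup_one (hγ : 0 < γ) (h : c + 2 * γ ≤ t) : cup c γ t = 1 := by
  refine Real.smoothTransition.one_of_one_le ?_
  have : 2 ≤ (t - c) / γ := by rw [le_div_iff₀ hγ]; linarith
  linarith

theorem cdn_zero (hγ : 0 < γ) (h : c - γ ≤ t) : cdn c γ t = 0 := by
  refine Real.smoothTransition.zero_of_nonpos ?_
  have : (c - t) / γ ≤ 1 := by rw [div_le_one hγ]; linarith
  linarith

theorem cdn_one (hγ : 0 < γ) (h : t ≤ c - 2 * γ) : cdn c γ t = 1 := by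
  refine Real.smoothTransition.one_of_one_le ?_
  have : 2 ≤ (c - t) / γ := by rw [le_div_iff₀ hγ]; linarith
  linarith

theorem cup_ne (hγ : 0 < γ) (h : cup c γ t ≠ 0) : c + γ ≤ t := by
  by_contra hcon
  exact h (cup_zero hγ (not_le.1 hcon).le)

theorem cdn_ne (hγ : 0 < γ) (h : cdn c γ t ≠ 0) : t ≤ c - γ := by
  by_contra hcon
  exact h (cdn_zero hγ (not_le.1 hcon).le)

end cut

theorem contDiff_cup_re (c γ : ℝ) : ContDiff ℝ (⊤ : ℕ∞) (fun z : ℂ => cup c γ z.re) := by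
  unfold cup
  refine Real.smoothTransition.contDiff.comp ?_
  exact ((Complex.reCLM.contDiff.sub contDiff_const).div_const _).sub contDiff_const

theorem contDiff_cup_im (c γ : ℝ) : ContDiff ℝ (⊤ : ℕ∞) (fun z : ℂ => cup c γ z.im) := by
  unfold cup
  refine Real.smoothTransition.contDiff.comp ?_
  exact ((Complex.imCLM.contDiff.sub contDiff_const).div_const _).sub contDiff_const

theorem contDiff_cdn_re (c γ : ℝ) : ContDiff ℝ (⊤ : ℕ∞) (fun z : ℂ => cdn c γ z.re) := by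
  unfold cdn
  refine Real.smoothTransition.contDiff.comp ?_
  exact ((contDiff_const.sub Complex.reCLM.contDiff).div_const _).sub contDiff_const

theorem contDiff_cdn_im (c γ : ℝ) : ContDiff ℝ (⊤ : ℕ∞) (fun z : ℂ => cdn c γ z.im) := by
  unfold cdn
  refine Real.smoothTransition.contDiff.comp ?_
  exact ((contDiff_const.sub Complex.imCLM.contDiff).div_const _).sub contDiff_const

/-! ### cutoffs of the groups -/

/-- cutoff of group `i` -/
def chi (G : PGeo) (i : Fin 4) (z : ℂ) : ℝ :=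
  match i with
  | 0 => cup G.x₁ G.γ z.re
  | 1 => cdn G.x₁ G.γ z.re * cup G.y₁ G.γ z.im
  | 2 => cdn G.x₁ G.γ z.re * cdn G.y₀ G.γ z.im
  | 3 => cdn G.x₀ G.γ z.re * (cup G.y₀ G.γ z.im * cdn G.y₁ G.γ z.im)

/-- cutoff of the block -/
def chiB (G : PGeo) (z : ℂ) : ℝ :=
  (cup G.x₀ G.γ z.re * cdn G.x₁ G.γ z.re) * (cup G.y₀ G.γ z.im * cdn G.y₁ G.γ z.im)

/-- what is left: the corridors -/
def chiE (G : PGeo) (z : ℂ) : ℝ := 1 - ∑ i, chi G i z - chiB G z

theorem contDiff_chi (G : PGeo) (i : Fin 4) : ContDiff ℝ (⊤ : ℕ∞) (chi G i) := by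
  fin_cases i
  · exact contDiff_cup_re _ _
  · exact (contDiff_cdn_re _ _).mul (contDiff_cup_im _ _)
  · exact (contDiff_cdn_re _ _).mul (contDiff_cdn_im _ _)
  · exact (contDiff_cdn_re _ _).mul ((contDiff_cup_im _ _).mul (contDiff_cdn_im _ _))

theorem contDiff_chiB (G : PGeo) : ContDiff ℝ (⊤ : ℕ∞) (chiB G) :=
  ((contDiff_cup_re _ _).mul (contDiff_cdn_re _ _)).mul
    ((contDiff_cup_im _ _).mul (contDiff_cdn_im _ _))

theorem contDiff_chiE (G : PGeo) : ContDiff ℝ (⊤ : ℕ∞) (chiE G) := by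
  unfold chiE
  exact (contDiff_const.sub (ContDiff.sum fun i _ => contDiff_chi G i)).sub (contDiff_chiB G)

theorem chi_mem (G : PGeo) (i : Fin 4) (z : ℂ) : 0 ≤ chi G i z ∧ chi G i z ≤ 1 := by
  fin_cases i
  · exact ⟨cup_nonneg, cup_le_one⟩
  · exact ⟨mul_nonneg cdn_nonneg cup_nonneg, mul_le_one₀ cdn_le_one cup_nonneg cup_le_one⟩
  · exact ⟨mul_nonneg cdn_nonneg cdn_nonneg, mul_le_one₀ cdn_le_one cdn_nonneg cdn_le_one⟩
  · exact ⟨mul_nonneg cdn_nonneg (mul_nonneg cup_nonneg cdn_nonneg),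
      mul_le_one₀ cdn_le_one (mul_nonneg cup_nonneg cdn_nonneg)
        (mul_le_one₀ cup_le_one cdn_nonneg cdn_le_one)⟩

theorem chiB_mem (G : PGeo) (z : ℂ) : 0 ≤ chiB G z ∧ chiB G z ≤ 1 :=
  ⟨mul_nonneg (mul_nonneg cup_nonneg cdn_nonneg) (mul_nonneg cup_nonneg cdn_nonneg),
    mul_le_one₀ (mul_le_one₀ cup_le_one cdn_nonneg cdn_le_one)
      (mul_nonneg cup_nonneg cdn_nonneg) (mul_le_one₀ cup_le_one cdn_nonneg cdn_le_one)⟩


theorem chiB_abs_le (G : PGeo) (z : ℂ) : |chiB G z| ≤ 1 := by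
  rw [abs_of_nonneg (chiB_mem G z).1]
  exact (chiB_mem G z).2

theorem chiE_abs_le (G : PGeo) (z : ℂ) : |chiE G z| ≤ 4 := by
  have h0 := chi_mem G 0 z
  have h1 := chi_mem G 1 z
  have h2 := chi_mem G 2 z
  have h3 := chi_mem G 3 z
  have h4 := chiB_mem G z
  unfold chiE
  rw [Fin.sum_univ_four, abs_le]
  constructor <;> linarith [h0.1, h0.2, h1.1, h1.2, h2.1, h2.2, h3.1, h3.2, h4.1, h4.2]

theorem chi_reg (G : PGeo) (i : Fin 4) {z : ℂ} (h : chi G i z ≠ 0) (hL : ‖z‖ ≤ G.L) :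
    G.reg i z.re z.im := by
  have hγ := G.γpos
  have h1 := (Complex.abs_re_le_norm z).trans hL
  have h2 := (Complex.abs_im_le_norm z).trans hL
  rw [abs_le] at h1 h2
  fin_cases i
  · exact ⟨cup_ne hγ h, h1.2, h2.1, h2.2⟩
  · change cdn G.x₁ G.γ z.re * cup G.y₁ G.γ z.im ≠ 0 at h
    exact ⟨h1.1, cdn_ne hγ (left_ne_zero_of_mul h), cup_ne hγ (right_ne_zero_of_mul h), h2.2⟩
  · change cdn G.x₁ G.γ z.re * cdn G.y₀ G.γ z.im ≠ 0 at h
    exact ⟨h1.1, cdn_ne hγ (left_ne_zero_of_mul h), h2.1, cdn_ne hγ (right_ne_zero_of_mul h)⟩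
  · change cdn G.x₀ G.γ z.re * (cup G.y₀ G.γ z.im * cdn G.y₁ G.γ z.im) ≠ 0 at h
    have h3 := right_ne_zero_of_mul h
    exact ⟨h1.1, cdn_ne hγ (left_ne_zero_of_mul h), cup_ne hγ (left_ne_zero_of_mul h3),
      cdn_ne hγ (right_ne_zero_of_mul h3)⟩

theorem chiB_reg (G : PGeo) {z : ℂ} (h : chiB G z ≠ 0) : G.regO z.re z.im := by
  have hγ := G.γpos
  have h1 := left_ne_zero_of_mul h
  have h2 := right_ne_zero_of_mul h
  exact ⟨cup_ne hγ (left_ne_zero_of_mul h1), cdn_ne hγ (right_ne_zero_of_mul h1),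
    cup_ne hγ (left_ne_zero_of_mul h2), cdn_ne hγ (right_ne_zero_of_mul h2)⟩

theorem chiB_one (G : PGeo) {z : ℂ} (h1 : G.x₀ + 2 * G.γ ≤ z.re) (h2 : z.re ≤ G.x₁ - 2 * G.γ)
    (h3 : G.y₀ + 2 * G.γ ≤ z.im) (h4 : z.im ≤ G.y₁ - 2 * G.γ) : chiB G z = 1 := by
  have hγ := G.γpos
  unfold chiB
  rw [cup_one hγ h1, cdn_one hγ h2, cup_one hγ h3, cdn_one hγ h4]
  norm_num

/-- change of the margin -/
def PGeo.shr (G : PGeo) (γ : ℝ) (h0 : 0 < γ) (h : γ ≤ G.γ) : PGeo where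
  x₀ := G.x₀
  x₁ := G.x₁
  y₀ := G.y₀
  y₁ := G.y₁
  γ := γ
  L := G.L
  γpos := h0
  hx := by have := G.hx; linarith
  hy := by have := G.hy; linarith
  hx₀ := by have := G.hx₀; linarith
  hx₁ := by have := G.hx₁; linarith
  hy₀ := by have := G.hy₀; linarith
  hy₁ := by have := G.hy₁; linarith

theorem reg_shr (G : PGeo) (γ : ℝ) (h0 : 0 < γ) (h : γ ≤ G.γ) (i : Fin 4) {x y : ℝ}
    (hr : G.reg i x y) : (PGeo.shr G γ h0 h).reg i x y := by
  fin_cases i
  · obtain ⟨h1, h2, h3, h4⟩ := hr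
    exact ⟨by change G.x₁ + γ ≤ x; linarith, h2, h3, h4⟩
  · obtain ⟨h1, h2, h3, h4⟩ := hr
    exact ⟨h1, by change x ≤ G.x₁ - γ; linarith, by change G.y₁ + γ ≤ y; linarith, h4⟩
  · obtain ⟨h1, h2, h3, h4⟩ := hr
    exact ⟨h1, by change x ≤ G.x₁ - γ; linarith, h3, by change y ≤ G.y₀ - γ; linarith⟩
  · obtain ⟨h1, h2, h3, h4⟩ := hr
    exact ⟨h1, by change x ≤ G.x₀ - γ; linarith, by change G.y₀ + γ ≤ y; linarith,
      by change y ≤ G.y₁ - γ; linarith⟩

/-- the corridors shrink to the four lines -/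
theorem chiE_eventually (G : PGeo) (z : ℂ) (h1 : z.re ≠ G.x₀) (h2 : z.re ≠ G.x₁)
    (h3 : z.im ≠ G.y₀) (h4 : z.im ≠ G.y₁) : ∃ η : ℝ, 0 < η ∧ ∀ (γ : ℝ) (h0 : 0 < γ)
      (h : γ ≤ G.γ), γ < η → chiE (PGeo.shr G γ h0 h) z = 0 := by
  set η : ℝ := min (min |z.re - G.x₀| |z.re - G.x₁|) (min |z.im - G.y₀| |z.im - G.y₁|) / 2 with hη
  have p1 : 0 < |z.re - G.x₀| := abs_pos.2 (sub_ne_zero.2 h1)
  have p2 : 0 < |z.re - G.x₁| := abs_pos.2 (sub_ne_zero.2 h2)
  have p3 : 0 < |z.im - G.y₀| := abs_pos.2 (sub_ne_zero.2 h3)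
  have p4 : 0 < |z.im - G.y₁| := abs_pos.2 (sub_ne_zero.2 h4)
  refine ⟨η, by rw [hη]; have := lt_min (lt_min p1 p2) (lt_min p3 p4); positivity,
    fun γ h0 h hγ => ?_⟩
  have q1 : 2 * γ < |z.re - G.x₀| := by
    have : η * 2 ≤ |z.re - G.x₀| := by
      rw [hη, div_mul_cancel₀ _ two_ne_zero]
      exact (min_le_left _ _).trans (min_le_left _ _)
    linarith
  have q2 : 2 * γ < |z.re - G.x₁| := by
    have : η * 2 ≤ |z.re - G.x₁| := by
      rw [hη, div_mul_cancel₀ _ two_ne_zero]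
      exact (min_le_left _ _).trans (min_le_right _ _)
    linarith
  have q3 : 2 * γ < |z.im - G.y₀| := by
    have : η * 2 ≤ |z.im - G.y₀| := by
      rw [hη, div_mul_cancel₀ _ two_ne_zero]
      exact (min_le_right _ _).trans (min_le_left _ _)
    linarith
  have q4 : 2 * γ < |z.im - G.y₁| := by
    have : η * 2 ≤ |z.im - G.y₁| := by
      rw [hη, div_mul_cancel₀ _ two_ne_zero]
      exact (min_le_right _ _).trans (min_le_right _ _)
    linarith
  have key : ∀ t c : ℝ, 2 * γ < |t - c| →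
      (c < t ∧ cup c γ t = 1 ∧ cdn c γ t = 0) ∨ (t < c ∧ cup c γ t = 0 ∧ cdn c γ t = 1) := by
    intro t c hq
    rcases le_abs.1 hq.le with h5 | h5
    · left
      exact ⟨by linarith, cup_one h0 (by linarith), cdn_zero h0 (by linarith)⟩
    · right
      exact ⟨by linarith, cup_zero h0 (by linarith), cdn_one h0 (by linarith)⟩
  have hxx : G.x₀ < G.x₁ := by have := G.hx; have := G.γpos; linarith
  have hyy : G.y₀ < G.y₁ := by have := G.hy; have := G.γpos; linarith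
  unfold chiE
  rw [Fin.sum_univ_four]
  change 1 - (cup G.x₁ γ z.re + cdn G.x₁ γ z.re * cup G.y₁ γ z.im +
    cdn G.x₁ γ z.re * cdn G.y₀ γ z.im +
    cdn G.x₀ γ z.re * (cup G.y₀ γ z.im * cdn G.y₁ γ z.im)) -
    (cup G.x₀ γ z.re * cdn G.x₁ γ z.re) * (cup G.y₀ γ z.im * cdn G.y₁ γ z.im) = 0
  rcases key _ _ q1 with ⟨a1, a2, a3⟩ | ⟨a1, a2, a3⟩ <;>
  rcases key _ _ q2 with ⟨b1, b2, b3⟩ | ⟨b1, b2, b3⟩ <;>
  rcases key _ _ q3 with ⟨c1, c2, c3⟩ | ⟨c1, c2, c3⟩ <;>
  rcases key _ _ q4 with ⟨d1, d2, d3⟩ | ⟨d1, d2, d3⟩ <;>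
  first
    | (exfalso; linarith)
    | (rw [a2, a3, b2, b3, c2, c3, d2, d3]; norm_num)

end Crest.Agent.R161.Ward369
end
end

-- ▼ part R161/W6_369
section

/-!
R161, STEP 6 (helper369), part W6: the peeling theorem applied to a block, for a fixed corridor
width.
-/

set_option autoImplicit false

noncomputable section

open Filter Topology MeasureTheory
open scoped ComplexConjugate

namespace Crest.Agent.R161.Ward369

open Crest.Agent.R161.Geo729 Crest.Agent.R161.Defs372 Crest.Agent.R161.Ifc372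
open Crest.Agent.R161.Aut373 Crest.Agent.R161.Green722
open Crest.Agent.R161.PeelP369 (PGeo PProb RPHyp)

/-- Inputs of the Ward step: the state, its Gaussian law, reflection positivity. -/
structure WIn (c A : ℝ) (P : Measure Cfg) (κ : ℤ) (Θ : ℤ → Cfg → Cfg) : Prop where
  st : IsState c P
  law : LawHyp A P
  rp : RPHyp P κ Θ
  κ0 : 0 ≤ κ
  hΘ : ∀ ℓ ω v, (Θ ℓ ω).1 v = ω.1 (2 * ℓ - v.1, v.2)

/-- Patch functionals distributed over the four groups. -/
structure Patches (δ : ℕ → ℝ) (G : PGeo) (ι : Type*) [Fintype ι] where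
  Z : ℕ → ι → Cfg → ℂ
  grp : ι → Fin 4
  T : ℕ → ι → Finset P2
  α : ι → ℝ
  hZ : ∀ n j ω, ‖Z n j ω‖ ≤ 1
  loc : ∀ n j, Loc (T n j : Set P2) (Z n j)
  supp : ∀ n j, ∀ v ∈ T n j, G.reg (grp j) (δ n * v.1) (δ n * v.2)
  chg : ∀ n j, Aut373.Chg (α j) (Z n j)
  neutral : ∑ j, α j = 0

/-- Data for a fixed corridor width. -/
structure WDat (δ : ℕ → ℝ) (G : PGeo) (a : ℕ → P2 → ℝ) (f ψ b : ℂ → ℝ) : Prop where
  mesh : Mesh δ
  small : ∀ n, δ n ≤ G.γ
  lat : Lat δ a f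
  test : Test f
  mass0 : ∀ n, mass (a n) = 0
  suppa : ∀ n v, G.L < ‖ptC (δ n) v‖ → a n v = 0
  tψ : Test ψ
  suppψ : ∀ z, ψ z ≠ 0 → G.x₀ + 2 * G.γ ≤ z.re ∧ z.re ≤ G.x₁ - 2 * G.γ ∧
    G.y₀ + 2 * G.γ ≤ z.im ∧ z.im ≤ G.y₁ - 2 * G.γ
  tb : Test b
  suppb : ∀ z, b z ≠ 0 → G.x₁ + G.γ ≤ z.re ∧ ‖z‖ ≤ G.L
  massb : ∀ n, 1 / 2 ≤ mass (fun v => δ n ^ 2 * b (ptC (δ n) v))

section core

variable {δ : ℕ → ℝ} {G : PGeo} {a : ℕ → P2 → ℝ} {f ψ b : ℂ → ℝ}

/-- coefficient of the compensating bump -/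
def rho (δ : ℕ → ℝ) (G : PGeo) (a : ℕ → P2 → ℝ) (b : ℂ → ℝ) (n : ℕ) : ℝ :=
  mass (fun v => chiE G (ptC (δ n) v) * a n v) / mass (fun v => δ n ^ 2 * b (ptC (δ n) v))

/-- test function of group `i` -/
def aG (δ : ℕ → ℝ) (G : PGeo) (a : ℕ → P2 → ℝ) (b : ℂ → ℝ) (n : ℕ) (i : Fin 4) (v : P2) : ℝ :=
  chi G i (ptC (δ n) v) * a n v +
    (if i = 0 then rho δ G a b n else 0) * (δ n ^ 2 * b (ptC (δ n) v))

/-- test function of the block -/
def aB (δ : ℕ → ℝ) (G : PGeo) (a : ℕ → P2 → ℝ) (n : ℕ) (v : P2) : ℝ :=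
  chiB G (ptC (δ n) v) * a n v

/-- error function -/
def eN (δ : ℕ → ℝ) (G : PGeo) (a : ℕ → P2 → ℝ) (b : ℂ → ℝ) (n : ℕ) (v : P2) : ℝ :=
  chiE G (ptC (δ n) v) * a n v - rho δ G a b n * (δ n ^ 2 * b (ptC (δ n) v))

theorem sum_aG (n : ℕ) (v : P2) :
    ∑ i, aG δ G a b n i v + aB δ G a n v = a n v - eN δ G a b n v := by
  unfold aG aB eN chiE
  rw [Fin.sum_univ_four, Fin.sum_univ_four]
  simp only [Fin.isValue, ↓reduceIte, one_ne_zero, Fin.reduceEq, zero_mul, add_zero]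
  ring

variable (W : WDat δ G a f ψ b)

include W

theorem WDat.fa (n : ℕ) : Fin0 (a n) := W.lat.fin0 W.mesh n

theorem WDat.fb (n : ℕ) : Fin0 (fun v => δ n ^ 2 * b (ptC (δ n) v)) :=
  (fin0_test (W.mesh.pos n) W.tb).mul_left _

theorem WDat.fG (n : ℕ) (i : Fin 4) : Fin0 (aG δ G a b n i) :=
  ((W.fa n).mul_left _).add ((W.fb n).mul_left _)

theorem WDat.fB (n : ℕ) : Fin0 (aB δ G a n) := (W.fa n).mul_left _

theorem WDat.fE (n : ℕ) : Fin0 (eN δ G a b n) :=
  ((W.fa n).mul_left _).sub ((W.fb n).mul_left _)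

theorem WDat.mass_eN (n : ℕ) : mass (eN δ G a b n) = 0 := by
  have h1 := W.massb n
  have h2 : mass (fun v => δ n ^ 2 * b (ptC (δ n) v)) ≠ 0 := by linarith
  unfold eN
  rw [mass_sub ((W.fa n).mul_left _) ((W.fb n).mul_left _), mass_smul]
  unfold rho
  rw [div_mul_cancel₀ _ h2, sub_self]

theorem WDat.mass_sum (n : ℕ) : ∑ i, mass (aG δ G a b n i) + mass (aB δ G a n) = 0 := by
  have h1 : mass (fun v => ∑ i, aG δ G a b n i v + aB δ G a n v) =
      ∑ i, mass (aG δ G a b n i) + mass (aB δ G a n) := by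
    rw [Fin.sum_univ_four]
    simp only [Fin.sum_univ_four]
    rw [mass_add ((((W.fG n 0).add (W.fG n 1)).add (W.fG n 2)).add (W.fG n 3)) (W.fB n),
      mass_add (((W.fG n 0).add (W.fG n 1)).add (W.fG n 2)) (W.fG n 3),
      mass_add ((W.fG n 0).add (W.fG n 1)) (W.fG n 2), mass_add (W.fG n 0) (W.fG n 1)]
  rw [← h1]
  simp_rw [sum_aG]
  rw [mass_sub (W.fa n) (W.fE n), W.mass0 n, W.mass_eN n, sub_zero]

theorem WDat.eY_sum (n : ℕ) (ω : Cfg) :
    (∏ i, eY (aG δ G a b n i) ω) * eY (aB δ G a n) ω =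
      eY (fun v => a n v - eN δ G a b n v) ω := by
  have h : (fun v => a n v - eN δ G a b n v) =
      fun v => ((((aG δ G a b n 0 v + aG δ G a b n 1 v) + aG δ G a b n 2 v) +
        aG δ G a b n 3 v)) + aB δ G a n v := by
    funext v
    rw [← sum_aG, Fin.sum_univ_four]
  rw [h, eY_add ((((W.fG n 0).add (W.fG n 1)).add (W.fG n 2)).add (W.fG n 3)) (W.fB n),
    eY_add (((W.fG n 0).add (W.fG n 1)).add (W.fG n 2)) (W.fG n 3),
    eY_add ((W.fG n 0).add (W.fG n 1)) (W.fG n 2), eY_add (W.fG n 0) (W.fG n 1),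
    Fin.prod_univ_four]

theorem WDat.aG_supp (n : ℕ) (i : Fin 4) (v : P2) (hv : aG δ G a b n i v ≠ 0) :
    v ∈ lbox (δ n) G.L ∧ G.reg i (δ n * v.1) (δ n * v.2) := by
  have hp := W.mesh.pos n
  rw [← ptC_re, ← ptC_im]
  by_cases h1 : chi G i (ptC (δ n) v) * a n v = 0
  · unfold aG at hv
    rw [h1, zero_add] at hv
    have h2 : i = 0 := by
      by_contra hcon
      rw [if_neg hcon, zero_mul] at hv
      exact hv rfl
    subst h2
    have h3 := right_ne_zero_of_mul (right_ne_zero_of_mul hv)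
    obtain ⟨h4, h5⟩ := W.suppb _ h3
    refine ⟨mem_lbox hp h5, h4, ?_, ?_, ?_⟩
    · exact (Complex.re_le_norm _).trans h5
    · have := (abs_le.1 ((Complex.abs_im_le_norm _).trans h5)).1
      exact this
    · have := (abs_le.1 ((Complex.abs_im_le_norm _).trans h5)).2
      exact this
  · have h2 := left_ne_zero_of_mul h1
    have h3 := right_ne_zero_of_mul h1
    have h4 : ‖ptC (δ n) v‖ ≤ G.L := by
      by_contra hcon
      exact h3 (W.suppa n v (not_le.1 hcon))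
    exact ⟨mem_lbox hp h4, chi_reg G i h2 h4⟩

theorem WDat.aB_supp (n : ℕ) (v : P2) (hv : aB δ G a n v ≠ 0) :
    v ∈ lbox (δ n) G.L ∧ G.regO (δ n * v.1) (δ n * v.2) := by
  have hp := W.mesh.pos n
  rw [← ptC_re, ← ptC_im]
  have h2 := left_ne_zero_of_mul hv
  have h3 := right_ne_zero_of_mul hv
  have h4 : ‖ptC (δ n) v‖ ≤ G.L := by
    by_contra hcon
    exact h3 (W.suppa n v (not_le.1 hcon))
  exact ⟨mem_lbox hp h4, chiB_reg G h2⟩

theorem WDat.regO_lbox (n : ℕ) (v : P2) (h : G.regO (δ n * v.1) (δ n * v.2)) :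
    v ∈ lbox (δ n) (2 * G.L) := by
  have hp := W.mesh.pos n
  refine mem_lbox hp ?_
  obtain ⟨h1, h2, h3, h4⟩ := h
  have := G.hx₀; have := G.hx₁; have := G.hy₀; have := G.hy₁; have := G.γpos
  have h5 : |(ptC (δ n) v).re| ≤ G.L := by
    rw [ptC_re, abs_le]
    constructor <;> linarith
  have h6 : |(ptC (δ n) v).im| ≤ G.L := by
    rw [ptC_im, abs_le]
    constructor <;> linarith
  linarith [Complex.norm_le_abs_re_add_abs_im (ptC (δ n) v)]

theorem WDat.dL_supp (n : ℕ) (v : P2) (hv : dL (δ n) ψ v ≠ 0) :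
    G.regO (δ n * v.1) (δ n * v.2) := by
  have hp := W.mesh.pos n
  have hs := W.small n
  have key : ∀ w : P2, ψ (ptC (δ n) w) ≠ 0 → |(w.1 : ℝ) - v.1| ≤ 1 → |(w.2 : ℝ) - v.2| ≤ 1 →
      G.regO (δ n * v.1) (δ n * v.2) := by
    intro w hw h1 h2
    obtain ⟨g1, g2, g3, g4⟩ := W.suppψ _ hw
    rw [ptC_re] at g1 g2
    rw [ptC_im] at g3 g4
    rw [abs_le] at h1 h2
    have e1 : δ n * ((w.1 : ℝ) - v.1) ≤ δ n := by nlinarith
    have e2 : -δ n ≤ δ n * ((w.1 : ℝ) - v.1) := by nlinarith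
    have e3 : δ n * ((w.2 : ℝ) - v.2) ≤ δ n := by nlinarith
    have e4 : -δ n ≤ δ n * ((w.2 : ℝ) - v.2) := by nlinarith
    refine ⟨?_, ?_, ?_, ?_⟩ <;> nlinarith
  by_contra hcon
  apply hv
  have k0 : ∀ w : P2, |(w.1 : ℝ) - v.1| ≤ 1 → |(w.2 : ℝ) - v.2| ≤ 1 →
      ψ (ptC (δ n) w) = 0 := fun w h1 h2 => by
    by_contra h3
    exact hcon (key w h3 h1 h2)
  unfold dL
  rw [k0 v (by simp) (by simp), k0 (v.1 + 1, v.2) (by simp) (by simp),
    k0 (v.1 - 1, v.2) (by simp) (by simp), k0 (v.1, v.2 + 1) (by simp) (by simp),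
    k0 (v.1, v.2 - 1) (by simp) (by simp)]
  ring

end core

section main

variable {c A : ℝ} {P : Measure Cfg} {κ : ℤ} {Θ : ℤ → Cfg → Cfg} {δ : ℕ → ℝ} {G : PGeo}
  {a : ℕ → P2 → ℝ} {f ψ b : ℂ → ℝ} {ι : Type*} [Fintype ι]

open Classical in
/-- the peeling problem -/
def prob (I : WIn c A P κ Θ) (W : WDat δ G a f ψ b) (Q : Patches δ G ι) : PProb P κ Θ where
  G := G
  prob := I.st.prob
  rp := I.rp
  κ0 := I.κ0
  δ := δ
  δpos := W.mesh.pos
  δlim := W.mesh.lim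
  A := fun n i ω => eY (aG δ G a b n i) ω * ∏ j ∈ Finset.univ.filter (Q.grp · = i), Q.Z n j ω
  O := fun n => Obs (aB δ G a n) (dL (δ n) ψ) (k0 A f ψ)
  M := 1 + |k0 A f ψ|
  hA := fun n i ω => by
    rw [norm_mul, norm_eY, one_mul]
    exact PProb.norm_prod_le _ _ fun j _ => Q.hZ n j ω
  hO := fun n ω => norm_Obs_le _ _ ω
  S := fun n i => (lbox (δ n) G.L).filter (fun v => G.reg i (δ n * v.1) (δ n * v.2)) ∪
    (Finset.univ.filter (Q.grp · = i)).biUnion (Q.T n)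
  T := fun n => (lbox (δ n) (2 * G.L)).filter (fun v => G.regO (δ n * v.1) (δ n * v.2))
  locA := fun n i => by
    refine PeelP369.loc_mul ?_ ?_
    · refine loc_eY fun v hv => ?_
      by_contra hcon
      obtain ⟨h1, h2⟩ := W.aG_supp n i v hcon
      exact hv (Finset.mem_union_left _ (Finset.mem_filter.2 ⟨h1, h2⟩))
    · refine PeelP369.loc_prod _ fun j hj => PeelP369.loc_mono (Q.loc n j) ?_
      intro v hv
      exact Finset.mem_coe.2 (Finset.mem_union_right _ (Finset.mem_biUnion.2 ⟨j, hj, hv⟩))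
  locO := fun n => by
    refine PeelP369.loc_mul (loc_eY fun v hv => ?_) ?_
    · by_contra hcon
      obtain ⟨h1, h2⟩ := W.aB_supp n v hcon
      exact hv (Finset.mem_filter.2 ⟨W.regO_lbox n v h2, h2⟩)
    · refine loc_comp (f := eY (dL (δ n) ψ)) (loc_eY fun v hv => ?_)
        (fun x : ℂ => x - (k0 A f ψ : ℂ))
      by_contra hcon
      have h2 := W.dL_supp n v hcon
      exact hv (Finset.mem_filter.2 ⟨W.regO_lbox n v h2, h2⟩)
  suppA := fun n i v hv => by
    rcases Finset.mem_union.1 hv with h | h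
    · exact (Finset.mem_filter.1 h).2
    · obtain ⟨j, hj, hv⟩ := Finset.mem_biUnion.1 h
      have := Q.supp n j v hv
      rwa [(Finset.mem_filter.1 hj).2] at this
  suppO := fun n v hv => (Finset.mem_filter.1 hv).2
  α := fun n i => mass (aG δ G a b n i) + ∑ j ∈ Finset.univ.filter (Q.grp · = i), Q.α j
  β := fun n => mass (aB δ G a n)
  chgA := fun n i => (PeelP369.Chg.mul (chg_eY (W.fG n i))
    (PeelP369.Chg.prod _ fun j _ => Q.chg n j))
  chgO := fun n => by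
    have h1 : PeelP369.Chg 0 (fun ω => eY (dL (δ n) ψ) ω - (k0 A f ψ : ℂ)) := by
      have h2 := chg_eY (lat_dL W.mesh W.tψ |>.fin0 W.mesh n)
      rw [mass_dL (W.mesh.pos n) W.tψ] at h2
      intro ω hω t ht
      have h3 := h2 ω hω t ht
      simp only [zero_mul, Complex.ofReal_zero, mul_zero, Complex.exp_zero, one_mul] at h3 ⊢
      rw [h3]
    have h4 := PeelP369.Chg.mul (chg_eY (W.fB n)) h1
    rw [add_zero] at h4
    exact h4
  neutral := fun n => by
    rw [Finset.sum_add_distrib]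
    have h1 := W.mass_sum n
    have h2 : ∑ i, ∑ j ∈ Finset.univ.filter (Q.grp · = i), Q.α j = ∑ j, Q.α j :=
      Finset.sum_fiberwise _ _ _
    rw [h2, Q.neutral]
    linarith
  ℓ := fun n => ⌈G.x₀ / δ n⌉
  hℓ := by
    have h1 : ∀ n, |δ n * (⌈G.x₀ / δ n⌉ : ℝ) - G.x₀| ≤ 1 * δ n := fun n => by
      have hp := W.mesh.pos n
      have h2 := Int.le_ceil (G.x₀ / δ n)
      have h3 := Int.ceil_lt_add_one (G.x₀ / δ n)
      rw [div_le_iff₀ hp] at h2
      have h4 : (⌈G.x₀ / δ n⌉ : ℝ) * δ n < G.x₀ + δ n := by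
        calc (⌈G.x₀ / δ n⌉ : ℝ) * δ n < (G.x₀ / δ n + 1) * δ n := by gcongr
          _ = G.x₀ + δ n := by field_simp
      rw [abs_le]
      constructor <;> linarith
    rw [tendsto_iff_norm_sub_tendsto_zero]
    refine squeeze_zero (fun n => norm_nonneg _) (fun n => ?_) W.mesh.lim
    have := h1 n
    rw [one_mul] at this
    exact this
  hℓL := fun n => by
    have hp := W.mesh.pos n
    have h2 := Int.le_ceil (G.x₀ / δ n)
    rw [div_le_iff₀ hp] at h2
    linarith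
  small := by
    have h1 : ∀ n, |δ n * (⌈G.x₀ / δ n⌉ : ℝ) - G.x₀| ≤ 1 * δ n := fun n => by
      have hp := W.mesh.pos n
      have h2 := Int.le_ceil (G.x₀ / δ n)
      have h3 := Int.ceil_lt_add_one (G.x₀ / δ n)
      rw [div_le_iff₀ hp] at h2
      have h4 : (⌈G.x₀ / δ n⌉ : ℝ) * δ n < G.x₀ + δ n := by
        calc (⌈G.x₀ / δ n⌉ : ℝ) * δ n < (G.x₀ / δ n + 1) * δ n := by gcongr
          _ = G.x₀ + δ n := by field_simp
      rw [abs_le]
      constructor <;> linarith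
    have hγ := G.γpos
    have h2 := half_small I.st I.law W.mesh I.hΘ (W.lat.mul (chiB_abs_le G))
      (Test.smooth_mul W.test (contDiff_chiB G)) W.tψ (x₀ := G.x₀) (C0 := 1)
      (ℓ := fun n => ⌈G.x₀ / δ n⌉) ?_ ?_ h1
    · have h3 : k0 A (fun z => chiB G z * f z) ψ = k0 A f ψ := by
        unfold k0
        congr 5
        funext z
        by_cases hz : ψ z = 0
        · rw [hz, mul_zero, mul_zero]
        · obtain ⟨g1, g2, g3, g4⟩ := W.suppψ z hz
          change chiB G z * f z * ψ z = f z * ψ z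
          rw [chiB_one G g1 g2 g3 g4, one_mul]
      rw [h3] at h2
      exact h2
    · intro z hz
      have : chiB G z = 0 := by
        unfold chiB
        rw [cup_zero hγ (by linarith), zero_mul, zero_mul]
      rw [this, zero_mul]
    · intro z hz
      have hcl : IsClosed {z : ℂ | G.x₀ + 2 * G.γ ≤ z.re} :=
        isClosed_le continuous_const Complex.continuous_re
      have h4 : tsupport ψ ⊆ {z : ℂ | G.x₀ + 2 * G.γ ≤ z.re} :=
        closure_minimal (fun z hz => (W.suppψ z hz).1) hcl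
      have h5 : G.x₀ + 2 * G.γ ≤ z.re := h4 hz
      linarith

/-- **Ward step for a fixed corridor width.** -/
theorem ward_fixed (I : WIn c A P κ Θ) (W : WDat δ G a f ψ b) (Q : Patches δ G ι) :
    Tendsto (fun n => ∫ ω, eY (fun v => a n v - eN δ G a b n v) ω *
      (eY (dL (δ n) ψ) ω - (k0 A f ψ : ℂ)) * ∏ j, Q.Z n j ω ∂P) atTop (𝓝 0) := by
  classical
  refine (prob I W Q).tendsto.congr fun n => ?_
  refine integral_congr_ae (Eventually.of_forall fun ω => ?_)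
  change (∏ i, (eY (aG δ G a b n i) ω * ∏ j ∈ Finset.univ.filter (Q.grp · = i), Q.Z n j ω)) *
    (eY (aB δ G a n) ω * (eY (dL (δ n) ψ) ω - (k0 A f ψ : ℂ))) =
    eY (fun v => a n v - eN δ G a b n v) ω * (eY (dL (δ n) ψ) ω - (k0 A f ψ : ℂ)) *
      ∏ j, Q.Z n j ω
  rw [Finset.prod_mul_distrib, Finset.prod_fiberwise, ← W.eY_sum]
  ring

end main

end Crest.Agent.R161.Ward369
end
end

-- ▼ part R161/W7_369
section

/-!
R161, STEP 6 (helper369), part W7: the Ward step in a block (corridor width tending to zero).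
-/

set_option autoImplicit false

noncomputable section

open Filter Topology MeasureTheory
open scoped ComplexConjugate

namespace Crest.Agent.R161.Ward369

open Crest.Agent.R161.Geo729 Crest.Agent.R161.Defs372 Crest.Agent.R161.Ifc372
open Crest.Agent.R161.Aut373 Crest.Agent.R161.Green722
open Crest.Agent.R161.PeelP369 (PGeo PProb RPHyp)

variable {c A : ℝ} {P : Measure Cfg} {κ : ℤ} {Θ : ℤ → Cfg → Cfg} {δ : ℕ → ℝ} {G : PGeo}
  {a : ℕ → P2 → ℝ} {f ψ b : ℂ → ℝ} {ι : Type*} [Fintype ι]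

/-- the continuum error function -/
def eC (G : PGeo) (f b : ℂ → ℝ) (z : ℂ) : ℝ :=
  chiE G z * f z - (∫ w, chiE G w * f w) * b z

theorem test_eC (G : PGeo) (hf : Test f) (hb : Test b) : Test (eC G f b) :=
  Test.sub (Test.smooth_mul hf (contDiff_chiE G)) (Test.smul hb _)

/-- the lattice error function approximates the continuum one -/
theorem lat_eN (W : WDat δ G a f ψ b) (hb1 : ∫ z, b z = 1) :
    Lat δ (eN δ G a b) (eC G f b) := by
  set m : ℝ := ∫ w, chiE G w * f w with hm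
  have hfE : Test (fun z => chiE G z * f z) := Test.smooth_mul W.test (contDiff_chiE G)
  have hlE : Lat δ (fun n v => chiE G (ptC (δ n) v) * a n v) (fun z => chiE G z * f z) :=
    W.lat.mul (chiE_abs_le G)
  have hlb : Lat δ (fun n v => δ n ^ 2 * b (ptC (δ n) v)) b := Lat.of_test W.tb
  obtain ⟨C1, hC1, h1⟩ := hlE.mass W.mesh hfE
  obtain ⟨C2, hC2, h2⟩ := hlb.mass W.mesh W.tb
  have hr : ∀ n, |rho δ G a b n - m| ≤ (2 * (C1 + |m| * C2)) * δ n := by
    intro n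
    have h3 := W.massb n
    set β : ℝ := mass (fun v => δ n ^ 2 * b (ptC (δ n) v)) with hβ
    set mn : ℝ := mass (fun v => chiE G (ptC (δ n) v) * a n v) with hmn
    have h4 : |mn - m| ≤ C1 * δ n := h1 n
    have h5 : |β - 1| ≤ C2 * δ n := by rw [← hb1]; exact h2 n
    have hβ0 : 0 < β := by linarith
    have h6 : rho δ G a b n - m = ((mn - m) - m * (β - 1)) / β := by
      unfold rho
      rw [← hβ, ← hmn]
      field_simp
      ring
    rw [h6, abs_div, abs_of_pos hβ0, div_le_iff₀ hβ0]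
    have hp := W.mesh.pos n
    calc |(mn - m) - m * (β - 1)| ≤ |mn - m| + |m * (β - 1)| := abs_sub _ _
      _ ≤ C1 * δ n + |m| * (C2 * δ n) := by
          rw [abs_mul]
          gcongr
      _ = (C1 + |m| * C2) * δ n := by ring
      _ ≤ 2 * (C1 + |m| * C2) * δ n * β := by
          have : 0 ≤ (C1 + |m| * C2) * δ n := by positivity
          nlinarith
  exact hlE.sub (hlb.smul_seq W.mesh W.tb hr)

theorem err_lim (I : WIn c A P κ Θ) (W : WDat δ G a f ψ b) (hb1 : ∫ z, b z = 1) :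
    Tendsto (fun n => ∫ ω, eY (eN δ G a b n) ω ∂P) atTop
      (𝓝 ((Real.exp (-(A * plog (eC G f b) (eC G f b)) / 2) : ℝ) : ℂ)) :=
  law_lat I.st I.law W.mesh (lat_eN W hb1) (test_eC G W.test W.tb) W.mass_eN

theorem integrable_eY (hP : IsState c P) {u : P2 → ℝ} (hu : Fin0 u) :
    Integrable (fun ω => eY u ω) P := by
  refine loc_integrable hP (S := hu.toFinset) (loc_eY fun v hv => ?_)
  by_contra hcon
  exact hv ((Set.Finite.mem_toFinset hu).2 hcon)

/-- `∫ |e^{iY} - 1| ≤ √(2 - 2 Re ∫ e^{iY})` -/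
theorem int_eY_sub_one (hP : IsState c P) {u : P2 → ℝ} (hu : Fin0 u) :
    ∫ ω, ‖eY u ω - 1‖ ∂P ≤ √(2 - 2 * (∫ ω, eY u ω ∂P).re) := by
  have := hP.prob
  have hi := integrable_eY hP hu
  have h1 : ∀ ω, ‖eY u ω - 1‖ ^ 2 = 2 - 2 * (eY u ω).re := by
    intro ω
    have h2 : Complex.normSq (eY u ω) = 1 := by
      rw [Complex.normSq_eq_norm_sq, norm_eY, one_pow]
    rw [← Complex.normSq_eq_norm_sq, Complex.normSq_sub, h2]
    simp
    ring
  have h3 : Integrable (fun ω => ‖eY u ω - 1‖) P := (hi.sub (integrable_const _)).norm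
  have h4 : Integrable (fun ω => ‖eY u ω - 1‖ ^ 2) P := by
    simp_rw [h1]
    exact (integrable_const _).sub (hi.re.const_mul 2)
  have h5 : (∫ ω, ‖eY u ω - 1‖ ∂P) ^ 2 ≤ ∫ ω, ‖eY u ω - 1‖ ^ 2 ∂P := by
    set m := ∫ ω, ‖eY u ω - 1‖ ∂P with hm
    have h6 : 0 ≤ ∫ ω, (‖eY u ω - 1‖ - m) ^ 2 ∂P := integral_nonneg fun ω => sq_nonneg _
    have h7 : ∫ ω, (‖eY u ω - 1‖ - m) ^ 2 ∂P = ∫ ω, ‖eY u ω - 1‖ ^ 2 ∂P - m ^ 2 := by
      have h8 : ∀ ω, (‖eY u ω - 1‖ - m) ^ 2 = (‖eY u ω - 1‖ ^ 2 - 2 * m * ‖eY u ω - 1‖) + m ^ 2 :=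
        fun ω => by ring
      simp_rw [h8]
      have h9 : Integrable (fun ω => 2 * m * ‖eY u ω - 1‖) P := h3.const_mul _
      have h10 : Integrable (fun ω => ‖eY u ω - 1‖ ^ 2 - 2 * m * ‖eY u ω - 1‖) P := h4.sub h9
      rw [integral_add h10 (integrable_const _), integral_sub h4 h9, integral_const_mul,
        ← hm]
      simp
      ring
    linarith
  refine Real.le_sqrt_of_sq_le (h5.trans ?_)
  simp_rw [h1]
  have hre : Integrable (fun ω => (eY u ω).re) P := hi.re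
  rw [integral_sub (integrable_const _) (hre.const_mul 2), integral_const_mul]
  have h10 := integral_re hi
  simp only [RCLike.re_eq_complex_re] at h10
  rw [h10]
  simp

/-- the correlation -/
def Phi (P : Measure Cfg) (A : ℝ) (δ : ℕ → ℝ) (a : ℕ → P2 → ℝ) (f ψ : ℂ → ℝ)
    (Z : ℕ → ι → Cfg → ℂ) (n : ℕ) : ℂ :=
  ∫ ω, eY (a n) ω * (eY (dL (δ n) ψ) ω - (k0 A f ψ : ℂ)) * ∏ j, Z n j ω ∂P

theorem prod_le_one (Q : Patches δ G ι) (n : ℕ) (ω : Cfg) : ‖∏ j, Q.Z n j ω‖ ≤ 1 :=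
  PProb.norm_prod_le _ _ fun j _ => Q.hZ n j ω

theorem integrable_prod (hP : IsState c P) (Q : Patches δ G ι) (n : ℕ) :
    Integrable (fun ω => ∏ j, Q.Z n j ω) P := by
  classical
  refine loc_integrable hP (S := Finset.univ.biUnion (Q.T n))
    (PeelP369.loc_prod _ fun j _ => PeelP369.loc_mono (Q.loc n j) fun v hv => ?_)
  exact Finset.mem_coe.2 (Finset.mem_biUnion.2 ⟨j, Finset.mem_univ j, hv⟩)

theorem integrable_term (hP : IsState c P) (Q : Patches δ G ι) (n : ℕ) {u d : P2 → ℝ}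
    (hu : Fin0 u) (hd : Fin0 d) (k : ℂ) :
    Integrable (fun ω => eY u ω * (eY d ω - k) * ∏ j, Q.Z n j ω) P := by
  have := hP.prob
  have h1 := integrable_eY hP hu
  have h2 := (integrable_eY hP hd).sub (integrable_const k)
  have h3 := integrable_prod hP Q n
  refine Integrable.of_bound (C := 1 + ‖k‖)
    ((h1.aestronglyMeasurable.mul h2.aestronglyMeasurable).mul h3.aestronglyMeasurable) ?_
  refine Eventually.of_forall fun ω => ?_
  rw [norm_mul, norm_mul, norm_eY, one_mul]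
  calc _ ≤ (1 + ‖k‖) * 1 := by
        gcongr
        · refine (norm_sub_le _ _).trans ?_
          rw [norm_eY]
        · exact prod_le_one Q n ω
    _ = _ := mul_one _

/-- bound for a fixed corridor width -/
theorem ward_limsup (I : WIn c A P κ Θ) (W : WDat δ G a f ψ b) (Q : Patches δ G ι)
    (hb1 : ∫ z, b z = 1) {ε : ℝ} (hε : 0 < ε) : ∀ᶠ n in atTop,
      ‖Phi P A δ a f ψ Q.Z n‖ ≤ (1 + |k0 A f ψ|) *
        √(2 - 2 * Real.exp (-(A * plog (eC G f b) (eC G f b)) / 2)) + ε := by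
  have hprob := I.st.prob
  have h1 := ward_fixed I W Q
  have h2 := err_lim I W hb1
  set k := k0 A f ψ with hk
  have h3 : Tendsto (fun n => ‖∫ ω, eY (fun v => a n v - eN δ G a b n v) ω *
      (eY (dL (δ n) ψ) ω - (k : ℂ)) * ∏ j, Q.Z n j ω ∂P‖ +
      (1 + |k|) * √(2 - 2 * (∫ ω, eY (eN δ G a b n) ω ∂P).re)) atTop
      (𝓝 (0 + (1 + |k|) * √(2 - 2 * Real.exp (-(A * plog (eC G f b) (eC G f b)) / 2)))) := by
    refine Tendsto.add ?_ ?_
    · have := h1.norm
      rwa [norm_zero] at this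
    · have h4 := (Complex.continuous_re.tendsto _).comp h2
      rw [Complex.ofReal_re] at h4
      exact ((((h4.const_mul 2).const_sub 2).sqrt).const_mul (1 + |k|))
  rw [zero_add] at h3
  filter_upwards [h3.eventually (gt_mem_nhds (lt_add_of_pos_right _ hε))] with n hn
  refine le_trans ?_ hn.le
  -- comparison
  have hfa := W.fa n
  have hfe := W.fE n
  have hd : Fin0 (dL (δ n) ψ) := (lat_dL W.mesh W.tψ).fin0 W.mesh n
  have i1 := integrable_term I.st Q n hfa hd (k : ℂ)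
  have i2 := integrable_term I.st Q n (hfa.sub hfe) hd (k : ℂ)
  have e1 : Phi P A δ a f ψ Q.Z n - ∫ ω, eY (fun v => a n v - eN δ G a b n v) ω *
      (eY (dL (δ n) ψ) ω - (k : ℂ)) * ∏ j, Q.Z n j ω ∂P =
      ∫ ω, (eY (a n) ω * (eY (dL (δ n) ψ) ω - (k : ℂ)) * ∏ j, Q.Z n j ω -
        eY (fun v => a n v - eN δ G a b n v) ω *
      (eY (dL (δ n) ψ) ω - (k : ℂ)) * ∏ j, Q.Z n j ω) ∂P := (integral_sub i1 i2).symm
  have e2 : ∀ ω, ‖eY (a n) ω * (eY (dL (δ n) ψ) ω - (k : ℂ)) * ∏ j, Q.Z n j ω -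
        eY (fun v => a n v - eN δ G a b n v) ω *
      (eY (dL (δ n) ψ) ω - (k : ℂ)) * ∏ j, Q.Z n j ω‖ ≤
      (1 + |k|) * ‖eY (eN δ G a b n) ω - 1‖ := by
    intro ω
    have e3 : eY (a n) ω = eY (fun v => a n v - eN δ G a b n v) ω * eY (eN δ G a b n) ω := by
      rw [← eY_add (hfa.sub hfe) hfe]
      congr 1
      funext v
      ring
    have e4 : eY (a n) ω * (eY (dL (δ n) ψ) ω - (k : ℂ)) * ∏ j, Q.Z n j ω -
        eY (fun v => a n v - eN δ G a b n v) ω *
      (eY (dL (δ n) ψ) ω - (k : ℂ)) * ∏ j, Q.Z n j ω =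
      Obs (fun v => a n v - eN δ G a b n v) (dL (δ n) ψ) k ω *
        (eY (eN δ G a b n) ω - 1) * ∏ j, Q.Z n j ω := by
      rw [e3]
      unfold Obs
      ring
    rw [e4, norm_mul, norm_mul]
    calc _ ≤ (1 + |k|) * ‖eY (eN δ G a b n) ω - 1‖ * 1 := by
          gcongr
          · exact norm_Obs_le _ _ ω
          · exact prod_le_one Q n ω
      _ = _ := mul_one _
  have i3 : Integrable (fun ω => (1 + |k|) * ‖eY (eN δ G a b n) ω - 1‖) P :=
    (((integrable_eY I.st hfe).sub (integrable_const _)).norm).const_mul _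
  have e5 : ‖Phi P A δ a f ψ Q.Z n - ∫ ω, eY (fun v => a n v - eN δ G a b n v) ω *
      (eY (dL (δ n) ψ) ω - (k : ℂ)) * ∏ j, Q.Z n j ω ∂P‖ ≤
      (1 + |k|) * √(2 - 2 * (∫ ω, eY (eN δ G a b n) ω ∂P).re) := by
    rw [e1]
    refine (norm_integral_le_of_norm_le i3 (Eventually.of_forall e2)).trans ?_
    rw [integral_const_mul]
    gcongr
    exact int_eY_sub_one I.st hfe
  have e6 := norm_add_le (Phi P A δ a f ψ Q.Z n - ∫ ω, eY (fun v => a n v - eN δ G a b n v) ω *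
      (eY (dL (δ n) ψ) ω - (k : ℂ)) * ∏ j, Q.Z n j ω ∂P)
      (∫ ω, eY (fun v => a n v - eN δ G a b n v) ω *
      (eY (dL (δ n) ψ) ω - (k : ℂ)) * ∏ j, Q.Z n j ω ∂P)
  rw [sub_add_cancel] at e6
  linarith

/-! ### shifts and change of margin -/

theorem Mesh.shift (hδ : Mesh δ) (N : ℕ) : Mesh (fun n => δ (n + N)) :=
  ⟨fun n => hδ.pos _, fun n => hδ.le_one _, (tendsto_add_atTop_iff_nat N).2 hδ.lim⟩

theorem Lat.shift (h : Lat δ a f) (N : ℕ) : Lat (fun n => δ (n + N)) (fun n => a (n + N)) f where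
  close := by
    obtain ⟨C, hC, h1⟩ := h.close
    exact ⟨C, hC, fun n v => h1 _ v⟩
  supp := by
    obtain ⟨R, hR, h1, h2⟩ := h.supp
    exact ⟨R, hR, fun n v => h1 _ v, h2⟩

/-- shift of the patches -/
def Patches.shift (Q : Patches δ G ι) (N : ℕ) : Patches (fun n => δ (n + N)) G ι where
  Z := fun n => Q.Z (n + N)
  grp := Q.grp
  T := fun n => Q.T (n + N)
  α := Q.α
  hZ := fun n j ω => Q.hZ _ j ω
  loc := fun n j => Q.loc _ j
  supp := fun n j v hv => Q.supp _ j v hv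
  chg := fun n j => Q.chg _ j
  neutral := Q.neutral

/-- smaller margin -/
def Patches.shr (Q : Patches δ G ι) (γ : ℝ) (h0 : 0 < γ) (h : γ ≤ G.γ) :
    Patches δ (PGeo.shr G γ h0 h) ι where
  Z := Q.Z
  grp := Q.grp
  T := Q.T
  α := Q.α
  hZ := Q.hZ
  loc := Q.loc
  supp := fun n j v hv => reg_shr G γ h0 h _ (Q.supp n j v hv)
  chg := Q.chg
  neutral := Q.neutral

theorem ae_re_ne (x : ℝ) : ∀ᵐ z : ℂ, z.re ≠ x := by
  have h1 : ∀ᵐ t : ℝ, t ≠ x := by
    rw [ae_iff]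
    simp
  have h2 : ∀ᵐ p : ℝ × ℝ, p.1 ≠ x :=
    (Measure.quasiMeasurePreserving_fst (μ := (volume : Measure ℝ))
      (ν := (volume : Measure ℝ))).ae h1
  exact Complex.volume_preserving_equiv_real_prod.quasiMeasurePreserving.ae h2

theorem ae_im_ne (x : ℝ) : ∀ᵐ z : ℂ, z.im ≠ x := by
  have h1 : ∀ᵐ t : ℝ, t ≠ x := by
    rw [ae_iff]
    simp
  have h2 : ∀ᵐ p : ℝ × ℝ, p.2 ≠ x :=
    (Measure.quasiMeasurePreserving_snd (μ := (volume : Measure ℝ))
      (ν := (volume : Measure ℝ))).ae h1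
  exact Complex.volume_preserving_equiv_real_prod.quasiMeasurePreserving.ae h2

/-- margins tending to zero -/
def gk (G : PGeo) (k : ℕ) : ℝ := G.γ / (2 * (k + 1))

theorem gk_pos (G : PGeo) (k : ℕ) : 0 < gk G k := by
  have := G.γpos
  unfold gk
  positivity

theorem gk_le (G : PGeo) (k : ℕ) : 2 * gk G k ≤ G.γ := by
  have := G.γpos
  unfold gk
  have h : 2 * (G.γ / (2 * ((k : ℝ) + 1))) = G.γ / (k + 1) := by
    field_simp
  rw [h]
  exact div_le_self this.le (by linarith [(Nat.cast_nonneg k : (0 : ℝ) ≤ k)])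

theorem gk_le' (G : PGeo) (k : ℕ) : gk G k ≤ G.γ := by
  have := gk_le G k
  have := gk_pos G k
  linarith

theorem gk_lim (G : PGeo) : Tendsto (gk G) atTop (𝓝 0) := by
  have h1 : Tendsto (fun k : ℕ => G.γ / 2 * (1 / ((k : ℝ) + 1))) atTop (𝓝 (G.γ / 2 * 0)) :=
    tendsto_one_div_add_atTop_nhds_zero_nat.const_mul _
  rw [mul_zero] at h1
  refine h1.congr fun k => ?_
  unfold gk
  field_simp

/-- geometry with small margin -/
def Gk (G : PGeo) (k : ℕ) : PGeo := PGeo.shr G (gk G k) (gk_pos G k) (gk_le' G k)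

theorem chiE_lim (G : PGeo) : ∀ᵐ z : ℂ, Tendsto (fun k => chiE (Gk G k) z) atTop (𝓝 0) := by
  filter_upwards [ae_re_ne G.x₀, ae_re_ne G.x₁, ae_im_ne G.y₀, ae_im_ne G.y₁] with z h1 h2 h3 h4
  obtain ⟨η, hη, h⟩ := chiE_eventually G z h1 h2 h3 h4
  refine tendsto_const_nhds.congr' ?_
  filter_upwards [(gk_lim G).eventually (gt_mem_nhds hη)] with k hk
  exact (h _ _ _ hk).symm

theorem int_chiE_lim (G : PGeo) (hf : Test f) :
    Tendsto (fun k => ∫ w, chiE (Gk G k) w * f w) atTop (𝓝 0) := by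
  have h0 : (0 : ℝ) = ∫ _w : ℂ, (0 : ℝ) := by simp
  rw [h0]
  refine tendsto_integral_of_dominated_convergence (fun w => 4 * |f w|) ?_ ?_ ?_ ?_
  · intro k
    exact ((contDiff_chiE (Gk G k)).continuous.mul hf.smooth.continuous).aestronglyMeasurable
  · exact (Test.integrable hf).abs.const_mul 4
  · intro k
    refine Eventually.of_forall fun w => ?_
    rw [Real.norm_eq_abs, abs_mul]
    gcongr
    exact chiE_abs_le _ _
  · filter_upwards [chiE_lim G] with w hw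
    have := hw.mul_const (f w)
    rwa [zero_mul] at this

theorem plog_eC_lim (G : PGeo) (hf : Test f) (hb : Test b) :
    Tendsto (fun k => plog (eC (Gk G k) f b) (eC (Gk G k) f b)) atTop (𝓝 0) := by
  obtain ⟨Rf, hRf, hf0⟩ := Test.exists_radius hf
  obtain ⟨Rb, hRb, hb0⟩ := Test.exists_radius hb
  obtain ⟨Mf, hMf, hf1⟩ := Test.exists_bdd hf
  obtain ⟨Mb, hMb, hb1⟩ := Test.exists_bdd hb
  set J : ℝ := ∫ w, 4 * |f w| with hJ
  have hJ0 : 0 ≤ J := integral_nonneg fun w => by positivity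
  have hm : ∀ k, |∫ w, chiE (Gk G k) w * f w| ≤ J := by
    intro k
    rw [← Real.norm_eq_abs]
    refine norm_integral_le_of_norm_le ((Test.integrable hf).abs.const_mul 4)
      (Eventually.of_forall fun w => ?_)
    rw [Real.norm_eq_abs, abs_mul]
    gcongr
    exact chiE_abs_le _ _
  refine plog_small (R := max Rf Rb) (M := 4 * Mf + J * Mb) ?_ ?_ ?_ ?_
  · intro k
    exact (test_eC (Gk G k) hf hb).smooth.continuous.measurable
  · intro k z
    unfold eC
    refine (abs_sub _ _).trans ?_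
    rw [abs_mul, abs_mul]
    gcongr
    · exact chiE_abs_le _ _
    · exact hf1 z
    · exact hm k
    · exact hb1 z
  · intro k z hz
    unfold eC
    rw [hf0 z ((le_max_left _ _).trans_lt hz), hb0 z ((le_max_right _ _).trans_lt hz)]
    ring
  · filter_upwards [chiE_lim G] with z hz
    have h1 := (hz.mul_const (f z)).sub ((int_chiE_lim G hf).mul_const (b z))
    rw [zero_mul, zero_mul, sub_zero] at h1
    exact h1

/-- a normalised bump to the right of the block -/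
theorem exists_bump (G : PGeo) (hL : |G.x₁| + G.γ + 3 ≤ G.L) : ∃ b : ℂ → ℝ, Test b ∧
    ∫ z, b z = 1 ∧ ∀ z, b z ≠ 0 → G.x₁ + G.γ ≤ z.re ∧ ‖z‖ ≤ G.L := by
  set c0 : ℂ := ((G.x₁ + G.γ + 3 / 2 : ℝ) : ℂ) with hc0
  let B : ContDiffBump c0 := ⟨1 / 2, 1, by norm_num, by norm_num⟩
  refine ⟨B.normed volume, ⟨B.contDiff_normed, B.hasCompactSupport_normed⟩, B.integral_normed,
    fun z hz => ?_⟩
  have h1 : z ∈ Function.support (B.normed volume) := hz
  rw [B.support_normed_eq] at h1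
  have h2 : ‖z - c0‖ < 1 := by
    rw [← dist_eq_norm]
    exact h1
  have hγ := G.γpos
  constructor
  · have h3 := (Complex.abs_re_le_norm (z - c0)).trans_lt h2
    rw [Complex.sub_re, hc0, Complex.ofReal_re, abs_lt] at h3
    linarith [h3.1]
  · have h3 : ‖z‖ ≤ ‖z - c0‖ + ‖c0‖ := by
      have := norm_add_le (z - c0) c0
      rwa [sub_add_cancel] at this
    have h4 : ‖c0‖ ≤ |G.x₁| + G.γ + 3 / 2 := by
      rw [hc0, Complex.norm_real, Real.norm_eq_abs]
      calc |G.x₁ + G.γ + 3 / 2| = |G.x₁ + (G.γ + 3 / 2)| := by rw [add_assoc]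
        _ ≤ |G.x₁| + |G.γ + 3 / 2| := abs_add_le _ _
        _ = |G.x₁| + G.γ + 3 / 2 := by rw [abs_of_pos (by linarith : 0 < G.γ + 3 / 2)]; ring
    linarith

/-- **Ward step in a block.** -/
theorem ward_block (I : WIn c A P κ Θ) (hδ : Mesh δ) (ha : Lat δ a f) (hf : Test f)
    (hm : ∀ n, mass (a n) = 0) (hsa : ∀ n v, G.L < ‖ptC (δ n) v‖ → a n v = 0) (hψ : Test ψ)
    (hψG : ∀ z, ψ z ≠ 0 → G.regO z.re z.im) (hL : |G.x₁| + G.γ + 3 ≤ G.L)
    (Q : Patches δ G ι) : Tendsto (Phi P A δ a f ψ Q.Z) atTop (𝓝 0) := by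
  obtain ⟨b, hb, hb1, hbG⟩ := exists_bump G hL
  rw [Metric.tendsto_nhds]
  intro ε hε
  -- choice of the corridor width
  have h1 : Tendsto (fun k => (1 + |k0 A f ψ|) * √(2 - 2 * Real.exp (-(A * plog (eC (Gk G k) f b)
      (eC (Gk G k) f b)) / 2))) atTop (𝓝 0) := by
    have h2 := (((((((plog_eC_lim G hf hb).const_mul A).neg).div_const 2).rexp).const_mul
      2).const_sub 2).sqrt.const_mul (1 + |k0 A f ψ|)
    have h3 : (1 + |k0 A f ψ|) * √(2 - 2 * Real.exp (-(A * 0) / 2)) = 0 := by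
      simp
    rw [h3] at h2
    exact h2
  obtain ⟨k, hk⟩ := (h1.eventually (gt_mem_nhds (half_pos hε))).exists
  -- shift
  obtain ⟨C, hC, hCb⟩ := (Lat.of_test (δ := δ) hb).mass hδ hb
  have h4 : Tendsto (fun n => C * δ n) atTop (𝓝 0) := by
    have := hδ.lim.const_mul C
    rwa [mul_zero] at this
  obtain ⟨N, hN⟩ := eventually_atTop.1 ((h4.eventually (gt_mem_nhds (by norm_num :
    (0 : ℝ) < 1 / 2))).and (hδ.lim.eventually (gt_mem_nhds (gk_pos G k))))
  have W : WDat (fun n => δ (n + N)) (Gk G k) (fun n => a (n + N)) f ψ b :=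
    { mesh := Mesh.shift hδ N
      small := fun n => (hN (n + N) (Nat.le_add_left _ _)).2.le
      lat := Lat.shift ha N
      test := hf
      mass0 := fun n => hm _
      suppa := fun n v hv => hsa _ v hv
      tψ := hψ
      suppψ := fun z hz => by
        have h5 := gk_le G k
        obtain ⟨g1, g2, g3, g4⟩ := hψG z hz
        change G.x₀ + 2 * gk G k ≤ z.re ∧ z.re ≤ G.x₁ - 2 * gk G k ∧
          G.y₀ + 2 * gk G k ≤ z.im ∧ z.im ≤ G.y₁ - 2 * gk G k
        refine ⟨by linarith, by linarith, by linarith, by linarith⟩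
      tb := hb
      suppb := fun z hz => by
        have h5 := gk_le' G k
        obtain ⟨g1, g2⟩ := hbG z hz
        refine ⟨?_, g2⟩
        change G.x₁ + gk G k ≤ z.re
        linarith
      massb := fun n => by
        have h5 := (hN (n + N) (Nat.le_add_left _ _)).1
        have h6 := hCb (n + N)
        rw [hb1] at h6
        have h7 := (abs_le.1 (h6.trans h5.le)).1
        linarith }
  have h5 := ward_limsup I W ((Q.shr (gk G k) (gk_pos G k) (gk_le' G k)).shift N) hb1 (half_pos hε)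
  have h6 : ∀ᶠ n in atTop, ‖Phi P A δ a f ψ Q.Z (n + N)‖ < ε := by
    filter_upwards [h5] with n hn
    have h7 : Phi P A (fun n => δ (n + N)) (fun n => a (n + N)) f ψ
        ((Q.shr (gk G k) (gk_pos G k) (gk_le' G k)).shift N).Z n = Phi P A δ a f ψ Q.Z (n + N) := rfl
    rw [h7] at hn
    linarith
  have h8 : ∀ᶠ n in atTop, ‖Phi P A δ a f ψ Q.Z n‖ < ε := by
    rw [← Filter.map_add_atTop_eq_nat N, Filter.eventually_map]
    exact h6
  filter_upwards [h8] with n hn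
  rwa [dist_zero_right]

end Crest.Agent.R161.Ward369
end
end

-- ▼ part R161/W8_369

/-!
R161, STEP 6 (helper369), part W8: partition of unity over blocks of grid squares and the main
theorem of the peeling argument.
-/

set_option autoImplicit false

noncomputable section

open Filter Topology MeasureTheory
open scoped ComplexConjugate

namespace Crest.Agent.R161.Ward369

open Crest.Agent.R161.Geo729 Crest.Agent.R161.Defs372 Crest.Agent.R161.Ifc372
open Crest.Agent.R161.Aut373 Crest.Agent.R161.Green722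
open Crest.Agent.R161.PeelP369 (PGeo PProb RPHyp)

/-! ### one-dimensional partition of unity -/

/-- smooth step: `0` for `t ≤ -1/4`, `1` for `t ≥ 1/4` -/
def gst (t : ℝ) : ℝ := Real.smoothTransition (2 * t + 1 / 2)

/-- bump supported in `[-3/4, 3/4]` -/
def tht (t : ℝ) : ℝ := gst (t + 1 / 2) - gst (t - 1 / 2)

theorem gst_zero {t : ℝ} (h : t ≤ -(1 / 4)) : gst t = 0 :=
  Real.smoothTransition.zero_of_nonpos (by linarith)

theorem gst_one {t : ℝ} (h : 1 / 4 ≤ t) : gst t = 1 :=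
  Real.smoothTransition.one_of_one_le (by linarith)

theorem contDiff_gst : ContDiff ℝ (⊤ : ℕ∞) gst :=
  Real.smoothTransition.contDiff.comp ((contDiff_const.mul contDiff_id).add contDiff_const)

theorem contDiff_tht : ContDiff ℝ (⊤ : ℕ∞) tht :=
  (contDiff_gst.comp (contDiff_id.add contDiff_const)).sub
    (contDiff_gst.comp (contDiff_id.sub contDiff_const))

theorem tht_ne {t : ℝ} (h : tht t ≠ 0) : |t| < 3 / 4 := by
  by_contra hcon
  rw [not_lt] at hcon
  apply h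
  unfold tht
  rcases le_abs.1 hcon with h1 | h1
  · rw [gst_one (by linarith), gst_one (by linarith), sub_self]
  · rw [gst_zero (by linarith), gst_zero (by linarith), sub_self]

theorem sum_tht (K : ℕ) (t : ℝ) (ht : |t| ≤ K) :
    ∑ k ∈ Finset.Icc (-(K : ℤ)) K, tht (t - k) = 1 := by
  have h1 : ∀ K : ℕ, ∑ k ∈ Finset.Icc (-(K : ℤ)) K, tht (t - k) =
      gst (t + K + 1 / 2) - gst (t - K - 1 / 2) := by
    intro K
    induction K with
    | zero => simp [tht]
    | succ K ih =>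
      have h2 : Finset.Icc (-((K + 1 : ℕ) : ℤ)) ((K + 1 : ℕ) : ℤ) =
          insert (-((K + 1 : ℕ) : ℤ)) (insert (((K + 1 : ℕ) : ℤ)) (Finset.Icc (-(K : ℤ)) K)) := by
        ext x
        simp only [Finset.mem_insert, Finset.mem_Icc]
        push_cast
        omega
      rw [h2, Finset.sum_insert, Finset.sum_insert, ih]
      · unfold tht
        push_cast
        have e3 : t - (K + 1) + 1 / 2 = t - K - 1 / 2 := by ring
        have e0 : t - -((K : ℝ) + 1) + 1 / 2 = t + (K + 1) + 1 / 2 := by ring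
        have e0' : t - -((K : ℝ) + 1) - 1 / 2 = t + K + 1 / 2 := by ring
        rw [e0, e0', e3]
        ring
      · simp only [Finset.mem_Icc]
        push_cast
        omega
      · simp only [Finset.mem_insert, Finset.mem_Icc]
        push_cast
        omega
  rw [h1, gst_one (by linarith [(abs_le.1 ht).1]), gst_zero (by linarith [(abs_le.1 ht).2]),
    sub_zero]

/-- two-dimensional bump around the grid point `(r k, r l)` -/
def th2 (r : ℝ) (p : ℤ × ℤ) (z : ℂ) : ℝ := tht (z.re / r - p.1) * tht (z.im / r - p.2)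

theorem contDiff_th2 (r : ℝ) (p : ℤ × ℤ) : ContDiff ℝ (⊤ : ℕ∞) (th2 r p) := by
  unfold th2
  refine ContDiff.mul (contDiff_tht.comp ?_) (contDiff_tht.comp ?_)
  · exact (Complex.reCLM.contDiff.div_const _).sub contDiff_const
  · exact (Complex.imCLM.contDiff.div_const _).sub contDiff_const

theorem th2_ne {r : ℝ} (hr : 0 < r) {p : ℤ × ℤ} {z : ℂ} (h : th2 r p z ≠ 0) :
    |z.re - r * p.1| < 3 / 4 * r ∧ |z.im - r * p.2| < 3 / 4 * r := by
  have h1 := tht_ne (left_ne_zero_of_mul h)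
  have h2 := tht_ne (right_ne_zero_of_mul h)
  have key : ∀ (x : ℝ) (m : ℤ), |x / r - m| < 3 / 4 → |x - r * m| < 3 / 4 * r := by
    intro x m hx
    have e : x - r * m = (x / r - m) * r := by field_simp
    rw [e, abs_mul, abs_of_pos hr]
    gcongr
  exact ⟨key _ _ h1, key _ _ h2⟩

/-- the index set -/
def IK (K : ℕ) : Finset (ℤ × ℤ) := Finset.Icc (-(K : ℤ)) K ×ˢ Finset.Icc (-(K : ℤ)) K

theorem sum_th2 {r : ℝ} (K : ℕ) (z : ℂ) (h1 : |z.re / r| ≤ K) (h2 : |z.im / r| ≤ K) :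
    ∑ p ∈ IK K, th2 r p z = 1 := by
  unfold IK th2
  rw [Finset.sum_product]
  simp only
  simp_rw [← Finset.mul_sum]
  rw [sum_tht K _ h2]
  simp only [mul_one]
  exact sum_tht K _ h1

/-! ### patches in grid squares -/

/-- Patch functionals supported in grid squares of side `r`, with margin `γ`. -/
structure SqPatches (δ : ℕ → ℝ) (r γ : ℝ) (ι : Type*) [Fintype ι] where
  Z : ℕ → ι → Cfg → ℂ
  sq : ι → ℤ × ℤ
  T : ℕ → ι → Finset P2
  α : ι → ℝ
  hZ : ∀ n j ω, ‖Z n j ω‖ ≤ 1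
  loc : ∀ n j, Loc (T n j : Set P2) (Z n j)
  supp : ∀ n j, ∀ v ∈ T n j,
    (r * (sq j).1 + γ ≤ δ n * v.1 ∧ δ n * v.1 ≤ r * ((sq j).1 + 1) - γ) ∧
    (r * (sq j).2 + γ ≤ δ n * v.2 ∧ δ n * v.2 ≤ r * ((sq j).2 + 1) - γ)
  chg : ∀ n j, Aut373.Chg (α j) (Z n j)
  neutral : ∑ j, α j = 0

/-- `z` is away from all the patches -/
def Away {δ : ℕ → ℝ} {r γ : ℝ} {ι : Type*} [Fintype ι] (Q : SqPatches δ r γ ι) (z : ℂ) : Prop :=
  ∀ j, 5 / 4 * r ≤ |z.re - r * ((Q.sq j).1 + 1 / 2)| ∨ 5 / 4 * r ≤ |z.im - r * ((Q.sq j).2 + 1 / 2)|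

variable {c A : ℝ} {P : Measure Cfg} {κ : ℤ} {Θ : ℤ → Cfg → Cfg} {δ : ℕ → ℝ} {r γ : ℝ}
  {ι : Type*} [Fintype ι]

/-- group of a square relative to the block centred at the grid point `p` -/
def grpOf (p s : ℤ × ℤ) : Fin 4 :=
  if p.1 + 1 ≤ s.1 then 0 else if p.2 + 1 ≤ s.2 then 1 else if s.2 + 2 ≤ p.2 then 2 else 3

/-- block geometry -/
def blk (r γ L : ℝ) (p : ℤ × ℤ) (hγ : 0 < γ) (hr : γ ≤ r / 4)
    (hL : r * (|(p.1 : ℝ)| + |(p.2 : ℝ)| + 2) + γ ≤ L) : PGeo where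
  x₀ := r * (p.1 - 1)
  x₁ := r * (p.1 + 1)
  y₀ := r * (p.2 - 1)
  y₁ := r * (p.2 + 1)
  γ := γ
  L := L
  γpos := hγ
  hx := by linarith
  hy := by linarith
  hx₀ := by
    have hr0 : 0 < r := by linarith
    have h1 := neg_abs_le (p.1 : ℝ)
    have h2 := abs_nonneg (p.2 : ℝ)
    nlinarith
  hx₁ := by
    have hr0 : 0 < r := by linarith
    have h1 := le_abs_self (p.1 : ℝ)
    have h2 := abs_nonneg (p.2 : ℝ)
    nlinarith
  hy₀ := by
    have hr0 : 0 < r := by linarith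
    have h1 := neg_abs_le (p.2 : ℝ)
    have h2 := abs_nonneg (p.1 : ℝ)
    nlinarith
  hy₁ := by
    have hr0 : 0 < r := by linarith
    have h1 := le_abs_self (p.2 : ℝ)
    have h2 := abs_nonneg (p.1 : ℝ)
    nlinarith

/-- the square `s` is not in the block of `p` -/
def OffBlk (p s : ℤ × ℤ) : Prop := ¬((s.1 = p.1 - 1 ∨ s.1 = p.1) ∧ (s.2 = p.2 - 1 ∨ s.2 = p.2))

theorem offBlk_of_away {Q : SqPatches δ r γ ι} {z : ℂ} (hr : 0 < r) (h : Away Q z) {p : ℤ × ℤ}
    (hp : th2 r p z ≠ 0) (j : ι) : OffBlk p (Q.sq j) := by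
  obtain ⟨h1, h2⟩ := th2_ne hr hp
  rintro ⟨h3, h4⟩
  have key : ∀ (x : ℝ) (m s : ℤ), |x - r * m| < 3 / 4 * r → (s = m - 1 ∨ s = m) →
      |x - r * (s + 1 / 2)| < 5 / 4 * r := by
    intro x m s hx hs
    have e : |r * (m : ℝ) - r * (s + 1 / 2)| = r / 2 := by
      rcases hs with rfl | rfl
      · push_cast
        have : r * (m : ℝ) - r * ((m : ℝ) - 1 + 1 / 2) = r / 2 := by ring
        rw [this, abs_of_pos (by positivity)]
      · have : r * (s : ℝ) - r * ((s : ℝ) + 1 / 2) = -(r / 2) := by ring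
        rw [this, abs_neg, abs_of_pos (by positivity)]
    calc |x - r * (s + 1 / 2)| = |(x - r * m) + (r * (m : ℝ) - r * (s + 1 / 2))| := by
          congr 1; ring
      _ ≤ |x - r * m| + |r * (m : ℝ) - r * (s + 1 / 2)| := abs_add_le _ _
      _ < 3 / 4 * r + r / 2 := by rw [e]; linarith
      _ = 5 / 4 * r := by ring
  rcases h j with h5 | h5
  · exact absurd (key _ _ _ h1 h3) (not_lt.2 h5)
  · exact absurd (key _ _ _ h2 h4) (not_lt.2 h5)

/-- the squares distributed over the four groups -/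
def SqPatches.toPatches (Q : SqPatches δ r γ ι) {L : ℝ} (p : ℤ × ℤ) (hγ : 0 < γ) (hr : γ ≤ r / 4)
    (hL : r * (|(p.1 : ℝ)| + |(p.2 : ℝ)| + 2) + γ ≤ L)
    (hL2 : ∀ j, r * (|((Q.sq j).1 : ℝ)| + |((Q.sq j).2 : ℝ)| + 1) ≤ L)
    (hoff : ∀ j, OffBlk p (Q.sq j)) : Patches δ (blk r γ L p hγ hr hL) ι where
  Z := Q.Z
  grp := fun j => grpOf p (Q.sq j)
  T := Q.T
  α := Q.α
  hZ := Q.hZ
  loc := Q.loc
  supp := by
    intro n j v hv
    obtain ⟨⟨h1, h2⟩, h3, h4⟩ := Q.supp n j v hv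
    have hr0 : 0 < r := by linarith
    set s := Q.sq j with hs
    have hL' := hL2 j
    rw [← hs] at hL'
    have o := hoff j
    rw [← hs] at o
    unfold OffBlk at o
    have a1 := neg_abs_le (s.1 : ℝ)
    have a2 := le_abs_self (s.1 : ℝ)
    have a3 := neg_abs_le (s.2 : ℝ)
    have a4 := le_abs_self (s.2 : ℝ)
    have b1 := abs_nonneg (s.1 : ℝ)
    have b2 := abs_nonneg (s.2 : ℝ)
    have c1 : -L ≤ δ n * v.1 := by nlinarith
    have c2 : δ n * v.1 ≤ L := by nlinarith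
    have c3 : -L ≤ δ n * v.2 := by nlinarith
    have c4 : δ n * v.2 ≤ L := by nlinarith
    have mono : ∀ m m' : ℤ, m ≤ m' → r * (m : ℝ) ≤ r * (m' : ℝ) := by
      intro m m' h
      have : (m : ℝ) ≤ m' := by exact_mod_cast h
      gcongr
    unfold grpOf
    split_ifs with g1 g2 g3
    · have := mono _ _ g1
      push_cast at this
      exact ⟨by change r * ((p.1 : ℝ) + 1) + γ ≤ _; linarith, c2, c3, c4⟩
    · have e1 := mono s.1 p.1 (by omega)
      have e2 := mono _ _ g2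
      push_cast at e1 e2
      exact ⟨c1, by change _ ≤ r * ((p.1 : ℝ) + 1) - γ; linarith,
        by change r * ((p.2 : ℝ) + 1) + γ ≤ _; linarith, c4⟩
    · have e1 := mono s.1 p.1 (by omega)
      have e2 := mono _ _ g3
      push_cast at e1 e2
      exact ⟨c1, by change _ ≤ r * ((p.1 : ℝ) + 1) - γ; linarith, c3,
        by change _ ≤ r * ((p.2 : ℝ) - 1) - γ; linarith⟩
    · have e1 := mono (s.1 + 2) p.1 (by omega)
      have e2 := mono s.2 p.2 (by omega)
      have e3 := mono (p.2 - 1) s.2 (by omega)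
      push_cast at e1 e2 e3
      exact ⟨c1, by change _ ≤ r * ((p.1 : ℝ) - 1) - γ; linarith,
        by change r * ((p.2 : ℝ) - 1) + γ ≤ _; linarith,
        by change _ ≤ r * ((p.2 : ℝ) + 1) - γ; linarith⟩
  chg := Q.chg
  neutral := Q.neutral

/-! ### energies -/

/-- Dirichlet energy `∫ (-Δψ) ψ` -/
def En (ψ : ℂ → ℝ) : ℝ := ∫ z, -(Laplacian.laplacian ψ) z * ψ z

theorem lap_add {φ χ : ℂ → ℝ} (hφ : Test φ) (hχ : Test χ) (z : ℂ) :
    (Laplacian.laplacian (fun z => φ z + χ z)) z =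
      (Laplacian.laplacian φ) z + (Laplacian.laplacian χ) z := by
  have h1 : ContDiffAt ℝ 2 φ z := (contDiff_infty.mp hφ.smooth 2).contDiffAt
  have h2 : ContDiffAt ℝ 2 χ z := (contDiff_infty.mp hχ.smooth 2).contDiffAt
  exact h1.laplacian_add h2

theorem En_eq_plog {ψ : ℂ → ℝ} (hψ : Test ψ) :
    En ψ = plog (fun z => -(Laplacian.laplacian ψ) z) (fun z => -(Laplacian.laplacian ψ) z) :=
  (plog_lap _ hψ).symm

theorem En_add {φ χ : ℂ → ℝ} (hφ : Test φ) (hχ : Test χ) :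
    En (fun z => φ z + χ z) = En φ + 2 * (∫ z, -(Laplacian.laplacian φ) z * χ z) + En χ := by
  obtain ⟨r1, _, t1⟩ := Test.tst (Test.neg (Test.lap hφ))
  obtain ⟨r2, _, t2⟩ := Test.tst (Test.neg (Test.lap hχ))
  have t1' := t1.mono (le_max_left r1 r2)
  have t2' := t2.mono (le_max_right r1 r2)
  rw [En_eq_plog (Test.add hφ hχ)]
  have h1 : (fun z => -(Laplacian.laplacian (fun z => φ z + χ z)) z) =
      fun z => -(Laplacian.laplacian φ) z + -(Laplacian.laplacian χ) z := by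
    funext z
    rw [lap_add hφ hχ]
    ring
  rw [h1, plog_add_left t1' t2' (t1'.add t2'), plog_add_right t1' t1' t2',
    plog_add_right t2' t1' t2', plog_symm t2' t1', ← En_eq_plog hφ, ← En_eq_plog hχ,
    plog_lap _ hχ]
  ring

theorem dL_add (δ : ℝ) (φ χ : ℂ → ℝ) : dL δ (fun z => φ z + χ z) =
    fun v => dL δ φ v + dL δ χ v := by
  funext v
  unfold dL
  ring

/-- the statement for one test function -/
def TT (P : Measure Cfg) (A : ℝ) (Q : SqPatches δ r γ ι) (φ : ℂ → ℝ) : Prop :=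
  Tendsto (fun n => ∫ ω, (eY (dL (δ n) φ) ω - ((Real.exp (-(A * En φ) / 2) : ℝ) : ℂ)) *
    ∏ j, Q.Z n j ω ∂P) atTop (𝓝 0)

theorem TT_zero (Q : SqPatches δ r γ ι) : TT P A Q (fun _ => 0) := by
  unfold TT
  have h1 : ∀ n ω, (eY (dL (δ n) (fun _ => 0)) ω -
      ((Real.exp (-(A * En (fun _ => (0 : ℝ))) / 2) : ℝ) : ℂ)) * ∏ j, Q.Z n j ω = 0 := by
    intro n ω
    have h2 : dL (δ n) (fun _ => 0) = fun _ => 0 := by
      funext v
      unfold dL
      ring
    have h3 : En (fun _ => (0 : ℝ)) = 0 := by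
      unfold En
      simp
    rw [h2, eY_zero, h3]
    simp
  simp_rw [h1]
  simp

theorem integrable_prodSq (hP : IsState c P) (Q : SqPatches δ r γ ι) (n : ℕ) :
    Integrable (fun ω => ∏ j, Q.Z n j ω) P := by
  classical
  refine loc_integrable hP (S := Finset.univ.biUnion (Q.T n))
    (PeelP369.loc_prod _ fun j _ => PeelP369.loc_mono (Q.loc n j) fun v hv => ?_)
  exact Finset.mem_coe.2 (Finset.mem_biUnion.2 ⟨j, Finset.mem_univ j, hv⟩)

theorem integrable_termSq (hP : IsState c P) (Q : SqPatches δ r γ ι) (n : ℕ) {u : P2 → ℝ}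
    (hu : Fin0 u) (k : ℂ) :
    Integrable (fun ω => (eY u ω - k) * ∏ j, Q.Z n j ω) P := by
  have := hP.prob
  have h2 := (integrable_eY hP hu).sub (integrable_const k)
  have h3 := integrable_prodSq hP Q n
  refine Integrable.of_bound (C := 1 + ‖k‖)
    (h2.aestronglyMeasurable.mul h3.aestronglyMeasurable) ?_
  refine Eventually.of_forall fun ω => ?_
  rw [norm_mul]
  calc _ ≤ (1 + ‖k‖) * 1 := by
        gcongr
        · refine (norm_sub_le _ _).trans ?_
          rw [norm_eY]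
        · exact PProb.norm_prod_le _ _ fun j _ => Q.hZ n j ω
    _ = _ := mul_one _

/-- telescoping step -/
theorem TT_step (I : WIn c A P κ Θ) (hδ : Mesh δ) (hγ : 0 < γ) (hr : γ ≤ r / 4)
    (Q : SqPatches δ r γ ι) {φ χ : ℂ → ℝ} (hφ : Test φ) (hχ : Test χ) (p : ℤ × ℤ)
    (hχp : ∀ z, χ z ≠ 0 → |z.re - r * p.1| < 3 / 4 * r ∧ |z.im - r * p.2| < 3 / 4 * r)
    (hoff : ∀ j, OffBlk p (Q.sq j)) (h : TT P A Q φ) : TT P A Q (fun z => φ z + χ z) := by
  have hprob := I.st.prob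
  have hr0 : 0 < r := by linarith
  obtain ⟨R, hR, hR1, -⟩ := (lat_dL hδ hφ).supp
  set B : ℝ := ∑ j, r * (|((Q.sq j).1 : ℝ)| + |((Q.sq j).2 : ℝ)| + 1) with hB
  have hB0 : 0 ≤ B := Finset.sum_nonneg fun j _ => by positivity
  set L : ℝ := R + r * (|(p.1 : ℝ)| + |(p.2 : ℝ)| + 2) + γ + 3 + B with hL
  have hL1 : r * (|(p.1 : ℝ)| + |(p.2 : ℝ)| + 2) + γ ≤ L := by rw [hL]; linarith
  have hL2 : ∀ j, r * (|((Q.sq j).1 : ℝ)| + |((Q.sq j).2 : ℝ)| + 1) ≤ L := by
    intro j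
    have h1 : r * (|((Q.sq j).1 : ℝ)| + |((Q.sq j).2 : ℝ)| + 1) ≤ B :=
      Finset.single_le_sum (f := fun j => r * (|((Q.sq j).1 : ℝ)| + |((Q.sq j).2 : ℝ)| + 1))
        (fun j _ => by positivity) (Finset.mem_univ j)
    have h2 : 0 ≤ r * (|(p.1 : ℝ)| + |(p.2 : ℝ)| + 2) := by positivity
    rw [hL]
    linarith
  set f : ℂ → ℝ := fun z => -(Laplacian.laplacian φ) z with hf
  have key := ward_block (G := blk r γ L p hγ hr hL1) I hδ (a := fun n => dL (δ n) φ) (f := f)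
    (lat_dL hδ hφ) (Test.neg (Test.lap hφ)) (fun n => mass_dL (hδ.pos n) hφ) ?_ hχ ?_ ?_
    (Q.toPatches p hγ hr hL1 hL2 hoff)
  · -- combination
    set k : ℝ := k0 A f χ with hk
    set k1 : ℝ := Real.exp (-(A * En φ) / 2) with hk1
    have hkk : Real.exp (-(A * En (fun z => φ z + χ z)) / 2) = k * k1 := by
      rw [hk, hk1, k0, ← Real.exp_add, En_add hφ hχ]
      congr 1
      have : En χ = ∫ z, -(Laplacian.laplacian χ) z * χ z := rfl
      rw [this]
      ring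
    have h1 := key.add (h.const_mul (k : ℂ))
    rw [mul_zero, add_zero] at h1
    refine h1.congr fun n => ?_
    have f1 : Fin0 (dL (δ n) φ) := (lat_dL hδ hφ).fin0 hδ n
    have f2 : Fin0 (dL (δ n) χ) := (lat_dL hδ hχ).fin0 hδ n
    have i1 : Integrable (fun ω => eY (dL (δ n) φ) ω * (eY (dL (δ n) χ) ω - (k : ℂ)) *
        ∏ j, Q.Z n j ω) P :=
      integrable_term I.st (Q.toPatches p hγ hr hL1 hL2 hoff) n f1 f2 (k : ℂ)
    have i2 := (integrable_termSq I.st Q n f1 (k1 : ℂ)).const_mul (k : ℂ)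
    change (∫ ω, eY (dL (δ n) φ) ω * (eY (dL (δ n) χ) ω - (k : ℂ)) * ∏ j, Q.Z n j ω ∂P) +
      (k : ℂ) * (∫ ω, (eY (dL (δ n) φ) ω - (k1 : ℂ)) * ∏ j, Q.Z n j ω ∂P) = _
    rw [← integral_const_mul, ← integral_add i1 i2]
    refine integral_congr_ae (Eventually.of_forall fun ω => ?_)
    simp only
    rw [hkk, dL_add, eY_add f1 f2]
    push_cast
    change eY (dL (δ n) φ) ω * (eY (dL (δ n) χ) ω - (k : ℂ)) * ∏ j, Q.Z n j ω +
      (k : ℂ) * ((eY (dL (δ n) φ) ω - (k1 : ℂ)) * ∏ j, Q.Z n j ω) = _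
    ring
  · intro n v hv
    refine hR1 n v ?_
    have h2 : 0 ≤ r * (|(p.1 : ℝ)| + |(p.2 : ℝ)| + 2) := by positivity
    change L < _ at hv
    rw [hL] at hv
    linarith
  · intro z hz
    obtain ⟨h1, h2⟩ := hχp z hz
    rw [abs_lt] at h1 h2
    change r * ((p.1 : ℝ) - 1) + γ ≤ z.re ∧ z.re ≤ r * ((p.1 : ℝ) + 1) - γ ∧
      r * ((p.2 : ℝ) - 1) + γ ≤ z.im ∧ z.im ≤ r * ((p.2 : ℝ) + 1) - γ
    refine ⟨by linarith [h1.1], by linarith [h1.2], by linarith [h2.1], by linarith [h2.2]⟩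
  · change |r * ((p.1 : ℝ) + 1)| + γ + 3 ≤ L
    have h1 : |r * ((p.1 : ℝ) + 1)| ≤ r * (|(p.1 : ℝ)| + |(p.2 : ℝ)| + 2) := by
      rw [abs_mul, abs_of_pos hr0]
      gcongr
      have h2 := abs_add_le (p.1 : ℝ) 1
      rw [abs_one] at h2
      have h3 := abs_nonneg (p.2 : ℝ)
      linarith
    rw [hL]
    linarith

/-- **Main theorem of the peeling argument (STEP 6).** For every test function `ψ` supported away
from the patches, conditionally on any product of neutral patch functionals the field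
`-Δψ` is Gaussian with the Dirichlet energy as variance. -/
theorem ward_main (I : WIn c A P κ Θ) (hδ : Mesh δ) (hγ : 0 < γ) (hr : γ ≤ r / 4)
    (Q : SqPatches δ r γ ι) {ψ : ℂ → ℝ} (hψ : Test ψ) (hfar : ∀ z, ψ z ≠ 0 → Away Q z) :
    TT P A Q ψ := by
  have hr0 : 0 < r := by linarith
  obtain ⟨R, hR, hR0⟩ := Test.exists_radius hψ
  obtain ⟨K, hK⟩ := exists_nat_ge (R / r)
  -- partial sums
  have hsum : ∀ s : Finset (ℤ × ℤ), Test (fun z => ∑ p ∈ s, th2 r p z * ψ z) ∧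
      TT P A Q (fun z => ∑ p ∈ s, th2 r p z * ψ z) := by
    intro s
    induction s using Finset.induction_on with
    | empty => exact ⟨by simpa using test_zero, by simpa using TT_zero Q⟩
    | insert p s hp ih =>
      have hχ : Test (fun z => th2 r p z * ψ z) := Test.smooth_mul hψ (contDiff_th2 r p)
      have e1 : (fun z => ∑ p ∈ insert p s, th2 r p z * ψ z) =
          fun z => (∑ p ∈ s, th2 r p z * ψ z) + th2 r p z * ψ z := by
        funext z
        rw [Finset.sum_insert hp, add_comm]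
      rw [e1]
      refine ⟨Test.add ih.1 hχ, ?_⟩
      by_cases hz : ∃ z, th2 r p z * ψ z ≠ 0
      · obtain ⟨z, hz⟩ := hz
        refine TT_step I hδ hγ hr Q ih.1 hχ p (fun z hz => th2_ne hr0 (left_ne_zero_of_mul hz))
          (fun j => ?_) ih.2
        exact offBlk_of_away hr0 (hfar z (right_ne_zero_of_mul hz)) (left_ne_zero_of_mul hz) j
      · push Not at hz
        have e2 : (fun z => (∑ p ∈ s, th2 r p z * ψ z) + th2 r p z * ψ z) =
            fun z => ∑ p ∈ s, th2 r p z * ψ z := by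
          funext z
          rw [hz z, add_zero]
        rw [e2]
        exact ih.2
  have h1 := (hsum (IK K)).2
  have e : (fun z => ∑ p ∈ IK K, th2 r p z * ψ z) = ψ := by
    funext z
    rw [← Finset.sum_mul]
    by_cases hz : ψ z = 0
    · rw [hz, mul_zero]
    · have hzR : ‖z‖ ≤ R := by
        by_contra hcon
        exact hz (hR0 z (not_le.1 hcon))
      rw [sum_th2 K z, one_mul]
      · rw [abs_div, abs_of_pos hr0]
        exact (div_le_div_of_nonneg_right ((Complex.abs_re_le_norm z).trans hzR) hr0.le).trans hK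
      · rw [abs_div, abs_of_pos hr0]
        exact (div_le_div_of_nonneg_right ((Complex.abs_im_le_norm z).trans hzR) hr0.le).trans hK
  rw [e] at h1
  exact h1

end Crest.Agent.R161.Ward369
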