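import Crest.Agent.R161.Blk3_696
import Crest.Agent.R161.BlkDef_868
import Crest.Agent.R161.Asm_695
import Crest.Agent.R161.HtStmt_132
import Crest.Agent.R161.Ifc_372
import Crest.Agent.R161.Asm2_695
import Crest.Agent.R161.Csq4_472_Mg
import Crest.Agent.R161.Tas5_682
import Crest.Agent.R161.Iso_760
import Crest.Agent.R161.ZCv_760
import Crest.Agent.R161.Qb_760
import Crest.Agent.R161.QbT_760
import Crest.Agent.R161.H7_689_Mg
import Crest.Agent.R161.Sand_375
import Crest.Agent.R161.RIn_770_Mg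
import Crest.Agent.R161.LkG_159_Mg
import Crest.Agent.R161.NoInf_123
import Crest.Agent.R161.InsQ_863
import Crest.Agent.R161.Top_729
import Crest.Agent.R161.Fin_760_Mg
import Crest.Agent.R161.Ring2_421
import Crest.Agent.R161.Clo_389
import Crest.Agent.R161.Dmp2_341
import Crest.Agent.R161.Aut_373
import Crest.Agent.R161.CloR_389_Mg
import Crest.Agent.R161.War3_682
import Crest.Agent.R161.Rect_597
import Crest.Agent.R161.RPsys_695
import Crest.Agent.R161.RPB_369
import Crest.Agent.R161.PeelP_369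
import Crest.Agent.R161.W8_369
import Crest.Agent.R150.Top4_772

-- ▼ part R161/Row_372
section

/-!
Row 161: composition of the row (captain's file).  Everything is derived from
`Lk159.PlaneIn c P` (output of row R150) and the remaining inputs, literally.
-/

set_option autoImplicit false

noncomputable section

namespace Crest.Agent.R161.Row372

open Filter Topology MeasureTheory
open Crest.Agent.R161.Geo729 Crest.Agent.R161.Defs372 Crest.Agent.R161.Ifc372
open Crest.Agent.R150.Hgt989 Crest.Agent.R150.Pls989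

/-- All properties of the plane state used by the row, for one measure. -/
structure StateData (c : ℝ) (Q : Measure Cfg) : Prop where
  st : IsState c Q
  pg : PlaneGauss c Q
  vb : VBound Q
  ci : Csq472.CondIndep c Q
  sw : Csq472.SwapInv Q

variable {c : ℝ} {Q : Measure Cfg}

theorem deloc (hc : 1 ≤ c) (h : StateData c Q) : Mod991.Deloc c := fun ε hε => by
  obtain ⟨n, hn⟩ := Dloc132.deloc_box' hc h.st h.pg hε
  exact ⟨n, fun F hF hb => hn F hF hb 0⟩

open Classical in
theorem inc_indE {A : Set (Edge → Bool)} (hA : Ring421.IncEv A) : ZCv760.Inc (Mod991.indE A) := by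
  intro ω ω' h
  have key : plusMap ω ∈ A → plusMap ω' ∈ A := hA _ _ fun e he => by
    unfold plusMap at he ⊢
    exact decide_eq_true (h.p e (of_decide_eq_true he))
  unfold Mod991.indE Mod991.PEv
  by_cases h1 : plusMap ω ∈ A
  · rw [if_pos (show ω ∈ {ω | plusMap ω ∈ A} from h1),
      if_pos (show ω' ∈ {ω | plusMap ω ∈ A} from key h1)]
  · rw [if_neg (show ω ∉ {ω | plusMap ω ∈ A} from h1)]
    split_ifs <;> norm_num

theorem assocFin (hc : 1 ≤ c) : Mod991.AssocFin c := by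
  classical
  intro F hF A B hA hB hA' hB'
  rw [Mod991.Pr_eq_indE, Mod991.Pr_eq_indE, Mod991.Pr_eq_indE]
  refine (AtFkG729.assoc' hc hF (inc_indE hA') (inc_indE hB')).trans (le_of_eq ?_)
  congr 1
  funext ω
  unfold Mod991.indE Mod991.PEv
  by_cases h1 : plusMap ω ∈ A <;> by_cases h2 : plusMap ω ∈ B <;> simp [h1, h2]

theorem fkg (hc : 1 ≤ c) (h : StateData c Q) : Ring421.FKGLoc (nu Q) :=
  Mod991.fkgLoc_nu hc h.st (deloc hc h) (assocFin hc)

theorem rinv (h : StateData c Q) : Tas682.RInv (nu Q) := by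
  intro R _
  exact NuInv421.nu_map_refl h.st R

theorem rsw (hc : 1 ≤ c) (hc2 : c ≤ 2) (h : StateData c Q) : RSWc (nu Q) := by
  have := h.st.prob
  have hprob : IsProbabilityMeasure (nu Q) := NuInv421.nu_prob
  have sq := Csq472.sq_crossing hc hc2 h.st h.ci h.sw
  exact (Tas682.tassion (nu Q) (fkg hc h) (rinv h) sq (Blk868.blockX hc h.st h.pg (fkg hc h))).1

theorem rIn (hc : 1 ≤ c) (h : StateData c Q) : Blk696.RIn c Q :=
  Ann770.rIn hc h.st (fkg hc h) h.pg

theorem unifCirc (hc : 1 ≤ c) (hc2 : c ≤ 2) (h : StateData c Q) : UnifCirc c :=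
  Blk696.unifCirc_of hc (AtFkG729.atFk hc) h.st (rIn hc h) (rsw hc hc2 h)

theorem lemU (hc : 1 ≤ c) (hc2 : c ≤ 2) (h : StateData c Q) : LemU c :=
  Arc389.lemU_of_unifCirc hc (unifCirc hc hc2 h)

theorem hBd (hc : 1 ≤ c) (hc2 : c ≤ 2) (h : StateData c Q) : Asm695.HBd c :=
  HBd228.hBd_lemU hc (Ha702.ha hc h.st h.vb (lemU hc hc2 h)) (lemU hc hc2 h)

theorem uiprop (hc : 1 ≤ c) (hc2 : c ≤ 2) (h : StateData c Q) : Asm695.UIprop c :=
  H689.uiprop hc (unifCirc hc hc2 h) h.st h.pg h.vb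

/-- The plane data of the measure `Qb c P` built from the output `P` of row R150. -/
theorem stateData (hc : 1 < c) {P : Measure Conf} (h : Lk159.PlaneIn c P) :
    StateData c (Qb760.Qb c P) := by
  have hc1 := hc.le
  have hprob := h.plane.prob
  have hfst : (Qb760.Qb c P).map Prod.fst = P.map Lk159.kmap := Qb760.map_fst_Qb c P
  exact
    { st := Fin760.isState_Qb hc1 h.plane (AtFkG729.domMono hc1) (Flat123.no_inf_Qb hc h)
      pg := Lk159.planeGauss_of h hfst
      vb := Lk159.vBound_of h hfst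
      ci := Qb760.condIndep_Qb hc1 P
      sw := ExInv792.swapInv_of h.plane (Qb760.map_hts_Qb c P) }

theorem one_lt_c (U : ℝ) : 1 < (Crest.ProbabilityR.AshkinTeller.tParam U)⁻¹ :=
  (one_lt_inv₀ (Top729.tParam_pos U)).2 (Top729.tParam_lt_one U)

open scoped ContDiff in
/-- **The row** from the plane state of R150 and the remaining inputs. -/
theorem s0242_of (U : ℝ) {P : Measure Conf}
    (h : Lk159.PlaneIn (Crest.ProbabilityR.AshkinTeller.tParam U)⁻¹ P)
    (hRing : ∀ (c : ℝ) (Q : Measure Cfg), 1 ≤ c → StateData c Q → LemU c → RSWc (nu Q) →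
      Asm695.RingProp c (kap c))
    (φ : ℂ → ℝ) (hφ : ContDiff ℝ ∞ φ) (hφc : HasCompactSupport φ)
    (hφD : tsupport φ ⊆ Metric.ball (0 : ℂ) 1) (s : ℝ) :
    Filter.Tendsto (fun δ : ℝ => Crest.ProbabilityR.AshkinTeller.atExpect δ U
        (fun cfg => Complex.exp
          (Complex.I * (s * Crest.ProbabilityR.AshkinTeller.atPairing φ cfg : ℝ))))
      (nhdsWithin 0 (Set.Ioi 0))
      (nhds (Complex.exp (-(2 * Crest.ProbabilityR.DiscGreen.discGreenForm φ /
        (Real.pi * Crest.ProbabilityR.AshkinTeller.gParam U) * s ^ 2 / 2 : ℝ)))) := by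
  have hc1 := (one_lt_c U).le
  have hc2 := h.cle
  have hD := stateData (one_lt_c U) h
  exact Asm695.s0242 U (kap := kap _) rfl (Brg722.sandwich hc1) (Brg722.mono2 hc1)
    (hRing _ _ hc1 hD (lemU hc1 hc2 hD) (rsw hc1 hc2 hD))
    (hBd hc1 hc2 hD) (uiprop hc1 hc2 hD) φ hφ hφc hφD s

end Crest.Agent.R161.Row372
end
end

-- ▼ part R161/Ring3_421
section

/-!
# Row 161, leaf L4 (helper421): all thick annuli of the region have circuits with positive probability

`circ_all_pos`: for a translation invariant, positively associated percolation with the RSW property, for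
every `R` there are `p > 0`, `g0` such that for `g ≥ g0`, with probability at least `p`, ALL annuli
`ball x m \ ball x n` with `m - n ≥ g` and `ball x n ⊆ [-Rg, Rg]²` contain a circuit (simultaneously).
-/

set_option autoImplicit false

noncomputable section

namespace Crest.Agent.R161.Ring421

open MeasureTheory
open Crest.Agent.R161.Geo729 Crest.Agent.R161.Defs372 Crest.Agent.R161.Dual374
open Crest.Agent.R161.Hull374 Crest.Agent.R161.Ifc372

/-- all annuli of thickness `≥ g` in the region `[-Rg, Rg]²` have a circuit -/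
def AllCirc (Z : Edge → Prop) (g R : ℕ) : Prop :=
  ∀ (x : P2) (n m : ℕ), n + g ≤ m → |x.1| + n ≤ (R : ℤ) * g → |x.2| + n ≤ (R : ℤ) * g → Circ Z x n m

theorem Good.allCirc {Z : Edge → Prop} {n Q g R : ℕ} (hn : 1 ≤ n) (hg : 3 * n ≤ g)
    (hQ : (R : ℤ) * g ≤ Q * n) (h : Good Z n Q) : AllCirc Z g R := by
  intro x k m hkm hx1 hx2
  refine h.reach_subset hn ?_ ?_
  · intro f hf
    simp only [ball, Finset.coe_product, Set.mem_prod, Finset.coe_Icc, Set.mem_Icc] at hf
    obtain ⟨⟨f1, f2⟩, ⟨f3, f4⟩⟩ := hf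
    have := neg_abs_le x.1
    have := le_abs_self x.1
    have := neg_abs_le x.2
    have := le_abs_self x.2
    refine ⟨⟨?_, ?_⟩, ⟨?_, ?_⟩⟩ <;> linarith
  · intro f hf f' hf'
    simp only [ball, Finset.coe_product, Set.mem_prod, Finset.coe_Icc, Set.mem_Icc] at hf ⊢
    obtain ⟨⟨f1, f2⟩, ⟨f3, f4⟩⟩ := hf
    unfold Near at hf'
    rw [abs_le, abs_le] at hf'
    obtain ⟨⟨g1, g2⟩, ⟨g3, g4⟩⟩ := hf'
    have h1 : (k : ℤ) + 3 * n ≤ m := by exact_mod_cast (by omega : k + 3 * n ≤ m)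
    refine ⟨⟨?_, ?_⟩, ⟨?_, ?_⟩⟩ <;> linarith

/-- **Ring probability, universal form.** -/
theorem circ_all_pos {ν : Measure (Edge → Bool)} [IsProbabilityMeasure ν] (hF : FKGLoc ν)
    (hT : TInv ν) (hR : RSWc ν) (R : ℕ) :
    ∃ (p : ℝ) (g0 : ℕ), 0 < p ∧ ∀ g : ℕ, g0 ≤ g → ∀ A : Set (Edge → Bool),
      (∀ z, AllCirc (fun e => z e = true) g R → z ∈ A) → p ≤ (ν A).toReal := by
  obtain ⟨q, n0, hq, hn0⟩ := hR
  set Q : ℕ := 6 * R with hQ
  refine ⟨q ^ ((2 * Q + 1) ^ 2), 3 * (n0 + 1), by positivity, ?_⟩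
  intro g hg A hA
  set n : ℕ := g / 3 with hn
  have h1 := goodZ_ge hF hT hq.le (hn0 n (by omega)) Q
  refine h1.trans (ENNReal.toReal_mono (measure_ne_top _ _) (measure_mono ?_))
  intro z hz
  rw [mem_goodZ] at hz
  refine hA z (hz.allCirc (by omega) (by omega) ?_)
  have h2 : (g : ℤ) ≤ 6 * (n : ℤ) := by omega
  have hR0 : (0 : ℤ) ≤ R := Int.natCast_nonneg R
  calc (R : ℤ) * g ≤ R * (6 * n) := mul_le_mul_of_nonneg_left h2 hR0
    _ = (Q : ℤ) * n := by rw [hQ]; push_cast; ring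


end Crest.Agent.R161.Ring421
end
end

-- ▼ part R161/Ring4_421
section

/-!
# Row 161, leaf L4 (helper421): input (R2) of the ring assembly (helper695)

`ep_pos`: for the literal ring of helper389 (`Clo_389`: `Ep M g 𝒱 (plusE ω)`), for every coarse region `𝒱`
and every ratio `lam` there are `p > 0`, `g0` with
`p ≤ ∫ (1_{Ep}(ω) + 1_{Ep}(ω + 2)) dP` for all `g ≥ g0`, `2 g < M ≤ lam g`.
-/

set_option autoImplicit false

noncomputable section

namespace Crest.Agent.R161.Ring421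

open MeasureTheory
open Crest.Agent.R161.Geo729 Crest.Agent.R161.Defs372 Crest.Agent.R161.Dual374
open Crest.Agent.R161.Hull374 Crest.Agent.R161.Ifc372 Crest.Agent.R161.NuInv421

/-- the ring event of helper389 as an event of the percolation -/
def EpSet (M g : ℕ) (𝒱 : Finset P2) : Set (Edge → Bool) :=
  {z | Clo389.Ep M g 𝒱 (fun e => z e = true)}

theorem epSet_eq (M g : ℕ) (𝒱 : Finset P2) :
    EpSet M g 𝒱 = ⋂ a ∈ Clo389.ringCells 𝒱, CircZ (Clo389.ctr M a) (M - 2 * g) (M - g) := by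
  ext z
  simp only [EpSet, Clo389.Ep, Set.mem_setOf_eq, Set.mem_iInter, CircZ]

theorem locEv_epSet (M g : ℕ) (𝒱 : Finset P2) : LocEv (EpSet M g 𝒱) := by
  rw [epSet_eq]
  exact locEv_iInter _ _ fun _ _ => locEv_circZ _ _ _

theorem mem_epSet {M g : ℕ} {𝒱 : Finset P2} {ω : Cfg} :
    plusMap ω ∈ EpSet M g 𝒱 ↔ Clo389.Ep M g 𝒱 (plusE ω) := by
  have he : (fun e => plusMap ω e = true) = plusE ω := by
    funext e
    simp [plusMap]
  unfold EpSet
  rw [Set.mem_setOf_eq, he]

/-- coarse radius of a finite set of coarse vertices -/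
def crad (𝒱 : Finset P2) : ℕ := 𝒱.sup fun v => max v.1.natAbs v.2.natAbs

theorem le_crad {𝒱 : Finset P2} {v : P2} (hv : v ∈ 𝒱) :
    |v.1| ≤ (crad 𝒱 : ℤ) ∧ |v.2| ≤ (crad 𝒱 : ℤ) := by
  have h : max v.1.natAbs v.2.natAbs ≤ crad 𝒱 :=
    Finset.le_sup (f := fun v : P2 => max v.1.natAbs v.2.natAbs) hv
  have h1 : v.1.natAbs ≤ crad 𝒱 := (le_max_left _ _).trans h
  have h2 : v.2.natAbs ≤ crad 𝒱 := (le_max_right _ _).trans h
  rw [Int.abs_eq_natAbs, Int.abs_eq_natAbs]
  exact ⟨by exact_mod_cast h1, by exact_mod_cast h2⟩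

theorem ringCells_bound {𝒱 : Finset P2} {a : P2} (ha : a ∈ Clo389.ringCells 𝒱) :
    |a.1| ≤ (crad (Clo389.ringCells 𝒱) : ℤ) ∧ |a.2| ≤ (crad (Clo389.ringCells 𝒱) : ℤ) := le_crad ha

/-- the ring event follows from `AllCirc` -/
theorem ep_of_allCirc {Z : Edge → Prop} {M g lam : ℕ} {𝒱 : Finset P2} (hM : 2 * g < M)
    (hlam : M ≤ lam * g) (h : AllCirc Z g ((2 * crad (Clo389.ringCells 𝒱) + 2) * lam)) :
    Clo389.Ep M g 𝒱 Z := by
  intro a ha
  obtain ⟨h1, h2⟩ := ringCells_bound ha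
  set C : ℕ := crad (Clo389.ringCells 𝒱) with hC
  have hM' : (M : ℤ) ≤ lam * g := by exact_mod_cast hlam
  have hn : ((M - 2 * g : ℕ) : ℤ) ≤ M := by omega
  have hM0 : (0 : ℤ) ≤ M := Int.natCast_nonneg M
  have hC0 : (0 : ℤ) ≤ C := Int.natCast_nonneg C
  have key : ∀ t : ℤ, |t| ≤ C → |2 * (M : ℤ) * t + M| + ((M - 2 * g : ℕ) : ℤ) ≤
      (((2 * C + 2) * lam : ℕ) : ℤ) * g := by
    intro t ht
    have h3 : |2 * (M : ℤ) * t + M| ≤ 2 * M * C + M := by
      refine (abs_add_le _ _).trans ?_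
      rw [abs_mul, abs_of_nonneg hM0, abs_of_nonneg (by positivity : (0 : ℤ) ≤ 2 * M)]
      have := mul_le_mul_of_nonneg_left ht (by positivity : (0 : ℤ) ≤ 2 * M)
      linarith
    have h4 : (2 * C + 2) * (M : ℤ) ≤ (2 * C + 2) * (lam * g) :=
      mul_le_mul_of_nonneg_left hM' (by positivity)
    push_cast at h4 ⊢
    calc |2 * (M : ℤ) * t + M| + ((M - 2 * g : ℕ) : ℤ) ≤ (2 * M * C + M) + M := add_le_add h3 hn
      _ = (2 * C + 2) * (M : ℤ) := by ring
      _ ≤ (2 * C + 2) * (lam * g) := h4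
      _ = (2 * C + 2) * lam * g := by ring
  exact h (Clo389.ctr M a) (M - 2 * g) (M - g) (by omega) (key a.1 h1) (key a.2 h2)

/-- **(R2)**: the literal ring of helper389 has positive probability under the symmetrised state. -/
theorem ep_pos {c : ℝ} {P : Measure Cfg} (hP : IsState c P) (hF : FKGLoc (nu P))
    (hR : RSWc (nu P)) (𝒱 : Finset P2) (lam : ℕ) :
    ∃ (p : ℝ) (g0 : ℕ), 0 < p ∧ ∀ g M : ℕ, g0 ≤ g → 2 * g < M → M ≤ lam * g →
      p ≤ ∫ ω, (indP (fun ω => Clo389.Ep M g 𝒱 (plusE ω)) ω +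
        indP (fun ω => Clo389.Ep M g 𝒱 (plusE ω)) (addH 2 ω)) ∂P := by
  classical
  have := hP.prob
  obtain ⟨p, g0, hp, h⟩ := circ_all_pos hF (tInv_nu hP) hR
    ((2 * crad (Clo389.ringCells 𝒱) + 2) * lam)
  refine ⟨p, g0, hp, ?_⟩
  intro g M hg hM hlam
  have h1 := h g hg (EpSet M g 𝒱) fun z hz => ep_of_allCirc hM hlam hz
  have h2 := nu_real (P := P) (locEv_epSet M g 𝒱).measurableSet
  unfold Measure.real at h2
  rw [h2] at h1
  have h3 : ∀ ω : Cfg, indP (fun ω => Clo389.Ep M g 𝒱 (plusE ω)) ω +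
        indP (fun ω => Clo389.Ep M g 𝒱 (plusE ω)) (addH 2 ω) = 2 * GA (EpSet M g 𝒱) ω := by
    intro ω
    unfold GA indP
    simp only [mem_epSet]
    ring
  simp only [h3]
  rw [integral_const_mul]
  linarith


end Crest.Agent.R161.Ring421
end
end

-- ▼ part R161/Dmp3_341
section

/-!
# Row 161: mixtures of zero boundary condition laws (helper341)

Let `W` be a random hull and `g ≥ 0` a weight (indicator of `ring ∧ CLOSED`) under the gradient state `P`.
If for the admissible hulls `D` the functional `1_{W = D} g` is local, neutral and depends only on the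
outside of `D`, and if `g ≠ 0` implies `W ∈ 𝒟` and that the boundary of `W` is cut, then
`∫ g Φ dP = Σ_D (∫ 1_{W = D} g dP) E_D (f D)` whenever `Φ = f W (insL W ·)` where `g ≠ 0`.
-/

set_option autoImplicit false

noncomputable section

namespace Crest.Agent.R161.Dmp341

open Finset hiding box
open Crest.Agent.R161.Geo729 Crest.Agent.R161.Defs372 Crest.Agent.R161.Aut373 MeasureTheory









/-! ### linear functionals -/

theorem lin_insL {D S : Finset P2} {a : P2 → ℝ} (ha : ∀ v ∈ S, a v ≠ 0 → v ∈ intVerts D) (ω : Cfg) :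
    Asm695.Lin S a (insL D ω) = Asm695.Lin S a ω - level D ω * ∑ v ∈ S, a v := by
  unfold Asm695.Lin
  rw [Finset.mul_sum, ← Finset.sum_sub_distrib]
  refine Finset.sum_congr rfl fun v hv => ?_
  by_cases h : a v = 0
  · simp [h]
  · rw [insL_K (ha v hv h)]
    push_cast
    ring

theorem lin_insL_neutral {D S : Finset P2} {a : P2 → ℝ} (ha : ∀ v ∈ S, a v ≠ 0 → v ∈ intVerts D)
    (hsum : ∑ v ∈ S, a v = 0) (ω : Cfg) :
    Asm695.Lin S a (insL D ω) = Asm695.Lin S a ω := by
  rw [lin_insL ha, hsum, mul_zero, sub_zero]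



end Crest.Agent.R161.Dmp341
end
end

-- ▼ part R161/Ring_695
section

/-!
R161, block I (helper695): RingProp from the closed ring (389), its positive probability (421) and the
Ward identity on the ring event (`WardRing`).
-/

set_option autoImplicit false

noncomputable section

namespace Crest.Agent.R161.Ring695

open Finset Filter Topology MeasureTheory
open Crest.Agent.R161.Geo729 Crest.Agent.R161.Defs372 Crest.Agent.R161.Asm695
open Crest.Agent.R161.Lap695 Crest.Agent.R161.Clo389 Crest.Agent.R161.RingGeo695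
open Crest.Agent.R161.Mix695
open Crest.Agent.R161.Ifc372 (nu RSWc LemU)
open Crest.Agent.R161.Ring421 (FKGLoc)
open Crest.ProbabilityR.AshkinTeller
open scoped ContDiff Laplacian

/-- Gaussian value -/
def gv (kap : ℝ) (ψ : ℂ → ℝ) (s : ℝ) : ℝ :=
  Real.exp (-(s ^ 2 * (kap * ∫ z, ψ z * (-(Δ ψ) z)) / 2))

/-- correlation of the ring event with the centred exponential functional -/
def wardInt (P : Measure Cfg) (kap R1 : ℝ) (lam g : ℕ) (ψ : ℂ → ℝ) (s δ : ℝ) (T : Finset P2) : ℝ :=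
  ∫ u, sym (ind (EpC (lam * g) g (disc 1 R1))) u *
    (Real.cos (s * Lin T (fun v => -lap5 δ ψ (pos δ v)) u) -
      Real.exp (-(s ^ 2 * (kap * ∫ z, ψ z * (-(Δ ψ) z)) / 2))) ∂P

/-- **Ward identity on the ring event** (output of block G): the height paired with the five point
Laplacian of a function supported inside the ring is asymptotically Gaussian on the ring event. -/
def WardRing (P : Measure Cfg) (kap : ℝ) : Prop :=
  ∀ (r R1 : ℝ) (lam : ℕ), 0 < r → 8 ≤ R1 → 16 ≤ lam →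
  ∀ (ψ : ℂ → ℝ) (s : ℝ), ContDiff ℝ ∞ ψ → HasCompactSupport ψ →
    (∀ z, r * (R1 - 6) ≤ ‖z‖ → ψ z = 0) →
  ∀ (dl : ℕ → ℝ) (g : ℕ → ℕ), (∀ n, 0 < dl n) → Tendsto dl atTop (𝓝 0) →
    Tendsto (fun n => dl n * (2 * lam * g n)) atTop (𝓝 r) →
  ∀ T : ℕ → Finset P2, (∀ n v, lap5 (dl n) ψ (pos (dl n) v) ≠ 0 → v ∈ T n) →
    Tendsto (fun n => wardInt P kap R1 lam (g n) ψ s (dl n) (T n)) atTop (𝓝 0)

/-! ### the lattice scale -/

/-- margin of the ring at mesh `δ` -/
def gg (r : ℝ) (lam : ℕ) (δ : ℝ) : ℕ := ⌊r / (2 * lam * δ)⌋₊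

theorem gg_le {r : ℝ} (hr : 0 < r) {lam : ℕ} (hlam : 16 ≤ lam) {δ : ℝ} (hδ : 0 < δ) :
    r - 2 * lam * δ ≤ δ * (2 * lam * gg r lam δ) ∧ δ * (2 * lam * gg r lam δ) ≤ r := by
  have hl : (0 : ℝ) < lam := by
    have : 0 < lam := by omega
    exact_mod_cast this
  have h1 := Nat.floor_le (a := r / (2 * lam * δ)) (by positivity)
  have h2 := Nat.lt_floor_add_one (r / (2 * lam * δ))
  have h3 : r / (2 * lam * δ) * (2 * lam * δ) = r := by field_simp
  unfold gg
  set n : ℝ := (⌊r / (2 * lam * δ)⌋₊ : ℝ)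
  have hp : (0 : ℝ) < 2 * lam * δ := by positivity
  constructor
  · have : r / (2 * lam * δ) * (2 * lam * δ) ≤ (n + 1) * (2 * lam * δ) :=
      mul_le_mul_of_nonneg_right h2.le hp.le
    linarith
  · have : n * (2 * lam * δ) ≤ r / (2 * lam * δ) * (2 * lam * δ) :=
      mul_le_mul_of_nonneg_right h1 hp.le
    linarith

theorem tendsto_side {r : ℝ} (hr : 0 < r) {lam : ℕ} (hlam : 16 ≤ lam) :
    Tendsto (fun δ : ℝ => δ * (2 * lam * gg r lam δ)) (𝓝[>] 0) (𝓝 r) := by
  have h1 : Tendsto (fun δ : ℝ => r - 2 * lam * δ) (𝓝[>] 0) (𝓝 r) := by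
    have : Tendsto (fun δ : ℝ => r - 2 * lam * δ) (𝓝 0) (𝓝 (r - 2 * lam * 0)) :=
      Continuous.tendsto (by fun_prop) 0
    rw [mul_zero, sub_zero] at this
    exact this.mono_left nhdsWithin_le_nhds
  refine tendsto_of_tendsto_of_tendsto_of_le_of_le' h1 tendsto_const_nhds ?_ ?_
  · filter_upwards [self_mem_nhdsWithin] with δ hδ using (gg_le hr hlam hδ).1
  · filter_upwards [self_mem_nhdsWithin] with δ hδ using (gg_le hr hlam hδ).2

theorem tendsto_gg {r : ℝ} (hr : 0 < r) {lam : ℕ} (hlam : 16 ≤ lam) :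
    Tendsto (gg r lam) (𝓝[>] 0) atTop := by
  have hl : (0 : ℝ) < lam := by
    have : 0 < lam := by omega
    exact_mod_cast this
  refine tendsto_nat_floor_atTop.comp ?_
  have h1 : Tendsto (fun δ : ℝ => r / (2 * lam) * δ⁻¹) (𝓝[>] 0) atTop :=
    tendsto_inv_nhdsGT_zero.const_mul_atTop (by positivity)
  refine h1.congr' ?_
  filter_upwards [self_mem_nhdsWithin] with δ hδ
  have : (0 : ℝ) < δ := hδ
  field_simp

theorem WardRing.filter {P : Measure Cfg} {kap : ℝ} (hW : WardRing P kap) {r R1 : ℝ} {lam : ℕ}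
    (hr : 0 < r) (hR1 : 8 ≤ R1) (hlam : 16 ≤ lam) {ψ : ℂ → ℝ} (hψ : ContDiff ℝ ∞ ψ)
    (hψc : HasCompactSupport ψ) (hψ0 : ∀ z, r * (R1 - 6) ≤ ‖z‖ → ψ z = 0) (s : ℝ)
    (T : ℝ → Finset P2)
    (hT : ∀ᶠ δ : ℝ in 𝓝[>] 0, ∀ v, lap5 δ ψ (pos δ v) ≠ 0 → v ∈ T δ) :
    Tendsto (fun δ : ℝ => wardInt P kap R1 lam (gg r lam δ) ψ s δ (T δ)) (𝓝[>] 0) (𝓝 0) := by
  refine tendsto_of_seq_tendsto fun x hx => ?_
  have hx0 : ∀ᶠ n in atTop, 0 < x n := hx.eventually self_mem_nhdsWithin
  have hxs : ∀ᶠ n in atTop, ∀ v, lap5 (x n) ψ (pos (x n) v) ≠ 0 → v ∈ T (x n) := hx.eventually hT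
  obtain ⟨N, hN⟩ := eventually_atTop.1 (hx0.and hxs)
  have h1 := hW r R1 lam hr hR1 hlam ψ s hψ hψc hψ0
    (fun n => x (n + N)) (fun n => gg r lam (x (n + N))) (fun n => (hN _ (by omega)).1)
    ((tendsto_add_atTop_iff_nat (f := x) N).2 (hx.mono_right nhdsWithin_le_nhds))
    ((tendsto_add_atTop_iff_nat (f := fun n => x n * (2 * lam * gg r lam (x n))) N).2
      ((tendsto_side hr hlam).comp hx))
    (fun n => T (x (n + N))) (fun n => (hN _ (by omega)).2)
  exact (tendsto_add_atTop_iff_nat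
    (f := fun n => wardInt P kap R1 lam (gg r lam (x n)) ψ s (x n) (T (x n))) N).1 h1

/-! ### the functional -/

theorem loc_lin (T : Finset P2) (a : P2 → ℝ) : Loc (T : Set P2) (Lin T a) := by
  intro u u' h
  unfold Lin
  exact Finset.sum_congr rfl fun v hv => by rw [(h v (Finset.mem_coe.2 hv)).1]

theorem measurable_cos_lin (T : Finset P2) (a : P2 → ℝ) (s : ℝ) :
    Measurable (fun u : Cfg => Real.cos (s * Lin T a u)) :=
  Real.measurable_cos.comp ((Aut373.loc_measurable (loc_lin T a)).const_mul s)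

/-- **RingProp.** -/
theorem ringProp {c kap : ℝ} (hc : 1 ≤ c) {P : Measure Cfg} (hP : IsState c P)
    (hdel : Mod991.Deloc c) (hF : FKGLoc (nu P)) (hR : RSWc (nu P)) (hU : LemU c)
    (hW : WardRing P kap) : RingProp c kap := by
  intro ρ ζ hζ hζρ J _ ψ s hψ ε hε
  classical
  have hprob := hP.prob
  -- parameters
  set r : ℝ := ζ / 40 with hr
  have hr0 : 0 < r := by positivity
  set R1 : ℝ := ρ / r with hR1
  have hρ : 0 < ρ := hζ.trans hζρ
  have hR1r : r * R1 = ρ := by rw [hR1]; field_simp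
  have hR40 : 40 < R1 := by
    rw [hR1, lt_div_iff₀ hr0, hr]
    linarith
  set R2 : ℝ := R1 - 4 with hR2
  set ε' : ℝ := min (ε / 16) (1 / 2) with hε'
  have hε'0 : 0 < ε' := lt_min (by positivity) (by norm_num)
  have hε'1 : 8 * ε' ≤ ε / 2 := by
    have := min_le_left (ε / 16) (1 / 2 : ℝ)
    linarith
  have hε'2 : ε' ≤ 1 / 2 := min_le_right _ _
  have h0in : ((0, 0) : P2) ∈ disc 1 R2 := zero_mem_coarse (by linarith)
  obtain ⟨lam, g0, h16, hg0, hbad⟩ := bad_le hc hP hdel hF hU (disc 1 R1) (disc 1 R2)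
    (inner_coarse (by linarith)) (coarse_conn (by linarith)) h0in hε'0
  obtain ⟨p, g1, hp, hpos⟩ := Ring421.ep_pos hP hF hR (disc 1 R1) lam
  have hl0 : (0 : ℝ) < lam := by
    have : 0 < lam := by omega
    exact_mod_cast this
  set G : ℝ → ℕ := gg r lam with hG
  set T : ℝ → Finset P2 := fun δ => regF (lam * G δ) (disc 1 R2) with hT
  have hside := tendsto_side hr0 h16
  have hGtop := tendsto_gg hr0 h16
  have hcast : ∀ δ : ℝ, ((lam * G δ : ℕ) : ℝ) = lam * G δ := fun δ => by push_cast; ring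
  -- eventual facts
  have ev0 : ∀ᶠ δ : ℝ in 𝓝[>] 0, 0 < δ := self_mem_nhdsWithin
  have evδ1 : ∀ᶠ δ : ℝ in 𝓝[>] 0, δ ≤ 1 :=
    (eventually_le_nhds one_pos).filter_mono nhdsWithin_le_nhds
  have evG : ∀ᶠ δ : ℝ in 𝓝[>] 0, g0 ≤ G δ ∧ g1 ≤ G δ :=
    (hGtop.eventually_ge_atTop g0).and (hGtop.eventually_ge_atTop g1)
  have hδ0 : Tendsto (fun δ : ℝ => δ) (𝓝[>] 0) (𝓝 0) := tendsto_id'.2 nhdsWithin_le_nhds
  have evOut : ∀ᶠ δ : ℝ in 𝓝[>] 0,
      δ * (2 * (lam * G δ : ℕ) * R1 + 2 * (lam * G δ : ℕ) + 2) ≤ ρ + ζ / 4 := by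
    have h1 : Tendsto (fun δ : ℝ => δ * (2 * lam * G δ) * R1 + δ * (2 * lam * G δ) + δ * 2)
        (𝓝[>] 0) (𝓝 (r * R1 + r + 0 * 2)) :=
      ((hside.mul_const R1).add hside).add (hδ0.mul_const 2)
    have h2 : r * R1 + r + 0 * 2 < ρ + ζ / 4 := by rw [hR1r, hr]; linarith
    filter_upwards [h1.eventually_le_const h2] with δ h3
    rw [hcast]
    calc _ = δ * (2 * lam * G δ) * R1 + δ * (2 * lam * G δ) + δ * 2 := by ring
      _ ≤ _ := h3
  have evIn : ∀ᶠ δ : ℝ in 𝓝[>] 0, ρ - ζ / 4 ≤ δ * (2 * (lam * G δ : ℕ) * (R2 - 3)) ∧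
      ρ - ζ + 3 * δ ≤ δ * (2 * (lam * G δ : ℕ) * (R2 - 3)) := by
    have h1 : Tendsto (fun δ : ℝ => δ * (2 * lam * G δ) * (R2 - 3)) (𝓝[>] 0)
        (𝓝 (r * (R2 - 3))) := hside.mul_const _
    have h1' : Tendsto (fun δ : ℝ => δ * (2 * lam * G δ) * (R2 - 3) - 3 * δ) (𝓝[>] 0)
        (𝓝 (r * (R2 - 3) - 3 * 0)) := h1.sub (hδ0.const_mul 3)
    have h2 : r * (R2 - 3) = ρ - 7 * r := by rw [hR2, ← hR1r]; ring
    have h3 : ρ - ζ / 4 < r * (R2 - 3) := by rw [h2, hr]; linarith
    have h4 : ρ - ζ < r * (R2 - 3) - 3 * 0 := by rw [h2, hr]; linarith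
    filter_upwards [h1.eventually_const_le h3, h1'.eventually_const_le h4] with δ h5 h6
    have e : δ * (2 * (lam * G δ : ℕ) * (R2 - 3)) = δ * (2 * lam * G δ) * (R2 - 3) := by
      rw [hcast]; ring
    rw [e]
    exact ⟨h5, by linarith⟩
  have evSupp : ∀ᶠ δ : ℝ in 𝓝[>] 0, ∀ j v, lap5 δ (ψ j) (pos δ v) ≠ 0 →
      v ∈ intVerts (T δ) := by
    filter_upwards [ev0, evIn, hGtop.eventually_ge_atTop 1] with δ h1 h2 h3 j v hv
    have hM0 : 0 < lam * G δ := Nat.mul_pos (by omega) h3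
    refine mem_intVerts_of hM0 h1 ?_
    refine le_trans ?_ h2.2
    by_contra hcon
    apply hv
    refine lap5_eq_zero (R := ρ - ζ) h1.le (hψ j).2.2 ?_
    linarith
  -- Ward identity along the filter
  have hward : ∀ j, Tendsto (fun δ : ℝ => wardInt P kap R1 lam (G δ) (ψ j) (s j) δ (T δ))
      (𝓝[>] 0) (𝓝 0) := by
    intro j
    refine hW.filter hr0 (by linarith) h16 (hψ j).1 (hψ j).2.1 ?_ (s j) T ?_
    · intro z hz
      refine (hψ j).2.2 z (le_trans ?_ hz)
      have : r * (R1 - 6) = ρ - 6 * r := by rw [← hR1r]; ring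
      rw [this, hr]
      linarith
    · filter_upwards [evSupp] with δ h1 v hv
      exact (Finset.mem_filter.1 (h1 j v hv)).1
  have evW : ∀ᶠ δ : ℝ in 𝓝[>] 0, ∀ j,
      |wardInt P kap R1 lam (G δ) (ψ j) (s j) δ (T δ)| ≤ ε' * p := by
    refine eventually_all.2 fun j => ?_
    have h1 := (Metric.tendsto_nhds.1 (hward j)) (ε' * p) (by positivity)
    filter_upwards [h1] with δ h2
    rw [Real.dist_eq, sub_zero] at h2
    exact h2.le
  -- comparison with the continuum Laplacian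
  choose C hC0 hC using fun j => X_sub_lap5 (hψ j).1 (hψ j).2.1 (show 0 < ρ + ζ / 4 by positivity)
  have evC : ∀ᶠ δ : ℝ in 𝓝[>] 0, ∀ j, |s j| * (C j * δ) ≤ ε / 2 := by
    refine eventually_all.2 fun j => ?_
    have h1 : Tendsto (fun δ : ℝ => |s j| * (C j * δ)) (𝓝[>] 0) (𝓝 (|s j| * (C j * 0))) :=
      (hδ0.const_mul _).const_mul _
    rw [mul_zero, mul_zero] at h1
    exact h1.eventually_le_const (by positivity)
  filter_upwards [ev0, evδ1, evG, evOut, evIn, evSupp, evW, evC] with δ hδ hδ1 hGδ hOut hIn hSupp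
    hWδ hCδ
  have hg1 : 1 ≤ G δ := hg0.trans hGδ.1
  have hM0 : 0 < lam * G δ := Nat.mul_pos (by omega) hg1
  have hM2 : 2 * G δ < lam * G δ := by
    have : 16 * G δ ≤ lam * G δ := Nat.mul_le_mul_right _ h16
    omega
  have hRE : RingEv (EpC (lam * G δ) (G δ) (disc 1 R1)) (WW (lam * G δ) (G δ) (disc 1 R1))
      (regF (lam * G δ) (disc 1 R2)) (regF (lam * G δ) (disc 1 R1))
      (sitesF (lam * G δ) (G δ) (disc 1 R1)) :=
    ringEv hM2 (coarse_compl_conn (by linarith)) h0in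
  obtain ⟨w, hw0, hw1, hmix⟩ := mixture hc hP hRE hε'0.le hε'2 hp
    (hpos (G δ) (lam * G δ) hGδ.2 hM2 le_rfl) (hbad (G δ) (lam * G δ) hGδ.1 le_rfl)
  refine ⟨Idx (regF (lam * G δ) (disc 1 R2)) (regF (lam * G δ) (disc 1 R1)), w,
    ⟨hw0, hw1, fun D hD => ?_⟩, fun j => ?_⟩
  · obtain ⟨h1, h2, h3⟩ := mem_Idx.1 hD
    exact ⟨h3, (subset_regF hM0 hδ hIn.1).trans h2, h1.trans (regF_subset hM0 hδ hOut)⟩
  · -- the functional
    set a : P2 → ℝ := fun v => -lap5 δ (ψ j) (pos δ v) with ha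
    have ha_supp : ∀ v, a v ≠ 0 → v ∈ intVerts (T δ) := by
      intro v hv
      refine hSupp j v fun h0 => hv ?_
      simp only [ha, h0, neg_zero]
    have hneut : ∑ v ∈ T δ, a v = 0 := by
      simp only [ha, Finset.sum_neg_distrib]
      rw [sum_lap5 hδ (hψ j).2.2 (S := T δ)
        (fun v hv => (Finset.mem_filter.1 (hSupp j v hv)).1), neg_zero]
    have hins : ∀ D ∈ Idx (regF (lam * G δ) (disc 1 R2)) (regF (lam * G δ) (disc 1 R1)), ∀ u,
        Real.cos (s j * Lin (T δ) a (Dmp341.insL D u)) = Real.cos (s j * Lin (T δ) a u) := by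
      intro D hD u
      obtain ⟨h1, h2, h3⟩ := mem_Idx.1 hD
      rw [Dmp341.lin_insL_neutral (fun v _ hv => Dmp341.intVerts_mono h2 (ha_supp v hv)) hneut]
    have h1 := hmix (fun u => Real.cos (s j * Lin (T δ) a u)) (gv kap (ψ j) (s j))
      (measurable_cos_lin _ _ _) (fun u => Real.abs_cos_le_one _) hins (hWδ j)
    change |_ - gv kap (ψ j) (s j)| ≤ ε
    -- comparison
    have h2 : ∀ D ∈ Idx (regF (lam * G δ) (disc 1 R2)) (regF (lam * G δ) (disc 1 R1)),
        |E c D (fun u => Real.cos (s j * X δ D (fun z => -(Δ (ψ j)) z) u)) -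
          E c D (fun u => Real.cos (s j * Lin (T δ) a u))| ≤ ε / 2 := by
      intro D hD
      obtain ⟨h3, h4, h5⟩ := mem_Idx.1 hD
      rw [← E_sub]
      refine (abs_E_le hc D _).trans ?_
      refine (E_mono hc (g := fun _ => ε / 2) fun u hu => ?_).trans (le_of_eq (E_const hc _ _))
      refine (abs_cos_sub_cos_le _ _).trans ?_
      rw [← mul_sub, abs_mul]
      refine le_trans (mul_le_mul_of_nonneg_left ?_ (abs_nonneg _)) (hCδ j)
      have h6 := hC j δ hδ hδ1 D (h3.trans (regF_subset hM0 hδ hOut)) u hu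
      have h7 : Lin (T δ) a u = Lin D a u := by
        unfold Lin
        refine Finset.sum_subset h4 fun v _ hv => ?_
        by_cases h0 : a v = 0
        · rw [h0, mul_zero]
        · exact absurd (Finset.mem_filter.1 (ha_supp v h0)).1 hv
      rw [h7]
      exact h6
    have h3 := mix_close hw0 hw1 h2
    generalize (∑ D ∈ Idx (regF (lam * G δ) (disc 1 R2)) (regF (lam * G δ) (disc 1 R1)),
      w D * E c D (fun u => Real.cos (s j * X δ D (fun z => -(Δ (ψ j)) z) u))) = x at h3 ⊢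
    generalize (∑ D ∈ Idx (regF (lam * G δ) (disc 1 R2)) (regF (lam * G δ) (disc 1 R1)),
      w D * E c D (fun u => Real.cos (s j * Lin (T δ) a u))) = y at h3 h1
    rw [abs_le] at *
    constructor <;> linarith [h1.1, h1.2, h3.1, h3.2]

end Crest.Agent.R161.Ring695
end
end

-- ▼ part R161/War4_682
section

/-!
# Row 161, Ward step (helper682), part 4: the Ward identity on the ring event

* `wardRing : WIn c A P κ Θ → Ring695.WardRing P A`, from `Ward369.ward_main` and the expansion of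
  the ring event in charged cell functionals.
-/

set_option autoImplicit false

noncomputable section

namespace Crest.Agent.R161.War682

open Finset MeasureTheory Filter Topology
open Crest.Agent.R161.Geo729 Crest.Agent.R161.Defs372 Crest.Agent.R161.Ifc372
open Crest.Agent.R161.Dual374 Crest.Agent.R161.Hull374 Crest.Agent.R161.Clo389
open Crest.Agent.R161.Ward369
open Crest.Agent.R161.Asm695 (disc)
open Crest.Agent.R161.Lap695 (lap5)
open Crest.Agent.R161.Mix695 (sym ind Per4)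
open Crest.ProbabilityR.AshkinTeller (pos)

/-! ### geometry -/

theorem away_of {δ : ℕ → ℝ} {r γ R1 : ℝ} {ι : Type*} [Fintype ι] (hr : 0 < r)
    (Q : SqPatches δ r γ ι) (hsq : ∀ j, Q.sq j ∈ ringCells (disc 1 R1)) {z : ℂ}
    (hz : ‖z‖ < r * (R1 - 6)) : Away Q z := by
  intro j
  by_contra hcon
  rw [not_or, not_le, not_le] at hcon
  obtain ⟨h1, h2⟩ := hcon
  set a : P2 := Q.sq j with ha
  have key : ∀ (x : ℝ) (m : ℤ), |x - r * ((m : ℝ) + 1 / 2)| < 5 / 4 * r →
      ∃ e : ℤ, (e = 0 ∨ e = 1) ∧ |x - r * ((m + e : ℤ) : ℝ)| ≤ 3 / 4 * r := by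
    intro x m hx
    rw [abs_lt] at hx
    rcases le_total x (r * ((m : ℝ) + 1 / 2)) with h | h
    · refine ⟨0, Or.inl rfl, ?_⟩
      rw [abs_le]
      push_cast
      constructor <;> nlinarith [hx.1, hx.2]
    · refine ⟨1, Or.inr rfl, ?_⟩
      rw [abs_le]
      push_cast
      constructor <;> nlinarith [hx.1, hx.2]
  obtain ⟨e1, he1, h1'⟩ := key _ _ h1
  obtain ⟨e2, he2, h2'⟩ := key _ _ h2
  set u : P2 := (a.1 + e1, a.2 + e2) with hu
  have hc : Geo729.IsCorner u a := by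
    unfold Geo729.IsCorner
    rcases he1 with rfl | rfl <;> rcases he2 with rfl | rfl <;> simp [hu]
  have h3 := (RingGeo695.ringCell_norm (hsq j) hc).1
  have h4 : ‖z - (r : ℂ) * pos 1 u‖ ≤ 3 / 2 * r := by
    refine (Complex.norm_le_abs_re_add_abs_im _).trans ?_
    have e1' : (z - (r : ℂ) * pos 1 u).re = z.re - r * ((a.1 + e1 : ℤ) : ℝ) := by
      simp [pos, hu]
    have e2' : (z - (r : ℂ) * pos 1 u).im = z.im - r * ((a.2 + e2 : ℤ) : ℝ) := by
      simp [pos, hu]
    rw [e1', e2']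
    linarith
  have h5 : r * ‖pos 1 u‖ ≤ ‖z‖ + 3 / 2 * r := by
    have h6 := norm_sub_norm_le ((r : ℂ) * pos 1 u) z
    rw [norm_sub_rev, norm_mul, Complex.norm_real, Real.norm_eq_abs, abs_of_pos hr] at h6
    linarith
  nlinarith

/-! ### the functional -/

theorem dL_eq (δ : ℝ) (ψ : ℂ → ℝ) (v : P2) : dL δ ψ v = -lap5 δ ψ (pos δ v) := by
  unfold dL lap5 ptC pos
  have e1 : (δ : ℂ) * ((v.1 : ℂ) + (v.2 : ℂ) * Complex.I) + δ =
      (δ : ℂ) * (((v.1 + 1 : ℤ) : ℂ) + (v.2 : ℂ) * Complex.I) := by push_cast; ring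
  have e2 : (δ : ℂ) * ((v.1 : ℂ) + (v.2 : ℂ) * Complex.I) - δ =
      (δ : ℂ) * (((v.1 - 1 : ℤ) : ℂ) + (v.2 : ℂ) * Complex.I) := by push_cast; ring
  have e3 : (δ : ℂ) * ((v.1 : ℂ) + (v.2 : ℂ) * Complex.I) + δ * Complex.I =
      (δ : ℂ) * ((v.1 : ℂ) + ((v.2 + 1 : ℤ) : ℂ) * Complex.I) := by push_cast; ring
  have e4 : (δ : ℂ) * ((v.1 : ℂ) + (v.2 : ℂ) * Complex.I) - δ * Complex.I =
      (δ : ℂ) * ((v.1 : ℂ) + ((v.2 - 1 : ℤ) : ℂ) * Complex.I) := by push_cast; ring
  rw [e1, e2, e3, e4]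
  ring

theorem Yl_dL {δ : ℝ} {ψ : ℂ → ℝ} {T : Finset P2} (s : ℝ)
    (hT : ∀ v, lap5 δ ψ (pos δ v) ≠ 0 → v ∈ T) (ω : Cfg) :
    Yl (dL δ (fun z => s * ψ z)) ω = s * Asm695.Lin T (fun v => -lap5 δ ψ (pos δ v)) ω := by
  have h1 : dL δ (fun z => s * ψ z) = fun v => s * dL δ ψ v := by
    funext v
    unfold dL
    ring
  rw [h1, Yl_smul, Yl_eq_sum (S := T)]
  · unfold Asm695.Lin
    congr 1
    refine Finset.sum_congr rfl fun v _ => ?_
    rw [dL_eq]
    ring
  · intro v hv
    rw [dL_eq]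
    by_contra hne
    exact hv (hT v fun h => hne (by rw [h, neg_zero]))

theorem En_smul {ψ : ℂ → ℝ} (hψ : ContDiff ℝ (⊤ : ℕ∞) ψ) (s : ℝ) :
    En (fun z => s * ψ z) = s ^ 2 * ∫ z, ψ z * (-(Laplacian.laplacian ψ) z) := by
  unfold En
  rw [← integral_const_mul]
  congr 1
  funext z
  have h1 : (Laplacian.laplacian (fun z => s * ψ z)) z = s * (Laplacian.laplacian ψ) z := by
    have := InnerProductSpace.laplacian_smul (f := ψ) (x := z) s
      ((contDiff_infty.mp hψ 2).contDiffAt)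
    exact this
  rw [h1]
  ring

/-! ### the Ward identity -/

/-- **The Ward identity on the ring event.** -/
theorem wardRing {c A : ℝ} {P : Measure Cfg} {κ : ℤ} {Θ : ℤ → Cfg → Cfg} (I : WIn c A P κ Θ) :
    Ring695.WardRing P A := by
  classical
  intro r R1 lam hr hR1 hlam ψ s hψ hψc hψ0 dl g hdl hdl0 hg T hT
  have := I.st.prob
  set V : Finset P2 := disc 1 R1 with hV
  set γ : ℝ := r / (4 * lam) with hγ
  have hlam' : (16 : ℝ) ≤ lam := by exact_mod_cast hlam
  have hγ0 : 0 < γ := by positivity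
  have hγr : γ ≤ r / 4 := by
    rw [hγ]
    apply div_le_div_of_nonneg_left hr.le (by norm_num)
    linarith
  -- large `n`
  have hev := (supp_ev V (by omega) hr hdl hdl0 hg).and
    (hdl0.eventually_le_const (zero_lt_one))
  obtain ⟨N0, hN0⟩ := eventually_atTop.1 hev
  -- shifted sequences
  set d : ℕ → ℝ := fun n => dl (n + N0) with hd
  have hmesh : Mesh d :=
    { pos := fun n => hdl _
      le_one := fun n => (hN0 (n + N0) (by omega)).2
      lim := hdl0.comp (tendsto_add_atTop_nat N0) }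
  have hs : ∀ n, SuppOk V (d n) r γ (lam * g (n + N0)) (g (n + N0)) :=
    fun n => (hN0 (n + N0) (by omega)).1
  set φ : ℂ → ℝ := fun z => s * ψ z with hφ
  have hTφ : Test φ := Test.smul (⟨hψ, hψc⟩ : Test ψ) s
  set k : ℝ := Real.exp (-(s ^ 2 * (A * ∫ z, ψ z * (-(Laplacian.laplacian ψ) z)) / 2)) with hk
  have hkk : Real.exp (-(A * En φ) / 2) = k := by
    rw [hk, hφ, En_smul hψ]
    congr 1
    ring
  set L : ℕ → Cfg → ℝ := fun n ω =>
    s * Asm695.Lin (T n) (fun v => -lap5 (dl n) ψ (pos (dl n) v)) ω with hL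
  -- the real functional of one term
  set Fz : Finset P2 → ℕ → Cfg → ℝ := fun S n ω =>
    (Real.cos (L n ω) - k) * ∏ a ∈ ringCells V, zf S (lam * g n) (g n) a ω with hFz
  have fin0 : ∀ n, Fin0 (dL (d n) φ) := fun n => (lat_dL hmesh hTφ).fin0 hmesh n
  have hYl : ∀ n ω, Yl (dL (d n) φ) ω = L (n + N0) ω := fun n ω =>
    Yl_dL s (hT (n + N0)) ω
  have hre : ∀ (x : ℝ) (y : ℝ), ((Complex.exp (Complex.I * (x : ℂ)) - (k : ℂ)) * (y : ℂ)).re =
      (Real.cos x - k) * y := by
    intro x y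
    rw [Complex.re_mul_ofReal, Complex.sub_re, Complex.ofReal_re, mul_comm Complex.I,
      Complex.exp_ofReal_mul_I_re]
  -- one even term
  have hterm : ∀ S ∈ (ringCells V).powerset, Even S.card →
      (∀ n, Integrable (Fz S (n + N0)) P) ∧
        Tendsto (fun n => ∫ ω, Fz S (n + N0) ω ∂P) atTop (𝓝 0) := by
    intro S hS he
    have hS' := Finset.mem_powerset.1 hS
    set Q := qT hS' he d r γ (fun n => lam * g (n + N0)) (fun n => g (n + N0)) hs with hQ
    have hfar : ∀ z, φ z ≠ 0 → Away Q z := by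
      intro z hz
      refine away_of hr Q (fun j => j.2) ?_
      by_contra hcon
      apply hz
      rw [hφ]
      simp only
      rw [hψ0 z (not_lt.1 hcon), mul_zero]
    have hmain := ward_main I hmesh hγ0 hγr Q hTφ hfar
    unfold TT at hmain
    rw [hkk] at hmain
    have hprod : ∀ n ω, ∏ j, Q.Z n j ω =
        ((∏ a ∈ ringCells V, zf S (lam * g (n + N0)) (g (n + N0)) a ω : ℝ) : ℂ) := by
      intro n ω
      rw [Complex.ofReal_prod]
      exact Finset.prod_coe_sort (ringCells V)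
        (fun a => ((zf S (lam * g (n + N0)) (g (n + N0)) a ω : ℝ) : ℂ))
    have hint : ∀ n, Integrable (fun ω => (eY (dL (d n) φ) ω - (k : ℂ)) * ∏ j, Q.Z n j ω) P :=
      fun n => integrable_termSq I.st Q n (fin0 n) (k : ℂ)
    have heq : ∀ n ω, ((eY (dL (d n) φ) ω - (k : ℂ)) * ∏ j, Q.Z n j ω).re = Fz S (n + N0) ω := by
      intro n ω
      rw [hprod]
      unfold eY
      rw [hYl, hre]
    refine ⟨fun n => ?_, ?_⟩
    · have := (hint n).re
      refine this.congr (Eventually.of_forall fun ω => ?_)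
      exact heq n ω
    · have h1 := (Complex.continuous_re.tendsto _).comp hmain
      rw [Complex.zero_re] at h1
      refine h1.congr fun n => ?_
      have h2 := integral_re (hint n)
      change (∫ ω, (eY (dL (d n) φ) ω - (k : ℂ)) * ∏ j, Q.Z n j ω ∂P).re = _
      rw [← RCLike.re_eq_complex_re, ← h2]
      refine integral_congr_ae (Eventually.of_forall fun ω => ?_)
      exact heq n ω
  -- the sum
  rw [← tendsto_add_atTop_iff_nat N0]
  have hsum : ∀ n, Ring695.wardInt P A R1 lam (g (n + N0)) ψ s (dl (n + N0)) (T (n + N0)) =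
      ∑ S ∈ (ringCells V).powerset.filter (fun S => Even S.card),
        2 * ∫ ω, Fz S (n + N0) ω ∂P := by
    intro n
    have h1 : ∀ ω, sym (ind (EpC (lam * g (n + N0)) (g (n + N0)) (disc 1 R1))) ω *
        (Real.cos (s * Asm695.Lin (T (n + N0)) (fun v => -lap5 (dl (n + N0)) ψ
          (pos (dl (n + N0)) v)) ω) - k) =
        ∑ S ∈ (ringCells V).powerset.filter (fun S => Even S.card), 2 * Fz S (n + N0) ω := by
      intro ω
      have h2 := sym_ind_Ep (V := V) (lam * g (n + N0)) (g (n + N0)) ω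
      change sym (ind (fun ω => Ep (lam * g (n + N0)) (g (n + N0)) V (plusE ω))) ω * _ = _
      rw [h2, Finset.sum_mul, Finset.sum_filter]
      refine Finset.sum_congr rfl fun S _ => ?_
      split_ifs with he
      · rw [he.neg_one_pow]
        simp only [hFz, hL]
        ring
      · rw [(Nat.not_even_iff_odd.1 he).neg_one_pow]
        ring
    unfold Ring695.wardInt
    rw [← hk]
    rw [integral_congr_ae (Eventually.of_forall h1), integral_finsetSum]
    · refine Finset.sum_congr rfl fun S _ => ?_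
      rw [integral_const_mul]
    · intro S hS
      rw [Finset.mem_filter] at hS
      exact ((hterm S hS.1 hS.2).1 n).const_mul 2
  refine Tendsto.congr (fun n => (hsum n).symm) ?_
  have h0 : (0 : ℝ) = ∑ S ∈ (ringCells V).powerset.filter (fun S => Even S.card), 2 * (0 : ℝ) := by
    simp
  rw [h0]
  refine tendsto_finsetSum _ fun S hS => ?_
  rw [Finset.mem_filter] at hS
  exact ((hterm S hS.1 hS.2).2).const_mul 2

end Crest.Agent.R161.War682
end
end

-- ▼ part R161/RPlim_373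
section

/-!
R161, block F (helper373): reflection positivity of the infinite state.

* `NN` : neutral local functionals, `VV R α` : local functionals of charge `α` of the closed right
  side of `R`
* `rp_state : 0 ≤ re ∫ conj (F ∘ θ) F dP`
* `sys` : the reflection positive system (`RPSys`, helper695) of the state for every
  `Step R R' a` (8 directions, all lines) and every charge `α`
* `sys_B_le : re B(F,F) ≤ ∫ ‖F‖²`
* `mem_VV` : membership from the sites of a functional, `left_mem` for left functionals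
-/

set_option autoImplicit false

noncomputable section

namespace Crest.Agent.R161.RPlim373

open Finset MeasureTheory
open Crest.Agent.R161.Geo729 Crest.Agent.R161.Defs372 Crest.Agent.R161.Sym597
open Crest.Agent.R161.RPconc597 Crest.Agent.R161.Rect597 Crest.Agent.R161.Aut373
open Crest.Agent.R161.RPsys695
open scoped ComplexConjugate

/-- the functional depends on finitely many sites -/
def FinLoc {β : Type*} (F : Cfg → β) : Prop := ∃ S : Finset P2, Loc (S : Set P2) F

theorem FinLoc.comp {β γ : Type*} {F : Cfg → β} (h : FinLoc F) (g : β → γ) :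
    FinLoc (fun ω => g (F ω)) := by
  obtain ⟨S, hS⟩ := h
  exact ⟨S, loc_comp hS g⟩

theorem FinLoc.map₂ {β γ δ : Type*} {F : Cfg → β} {G : Cfg → γ} (hF : FinLoc F) (hG : FinLoc G)
    (m : β → γ → δ) : FinLoc (fun ω => m (F ω) (G ω)) := by
  classical
  obtain ⟨S, hS⟩ := hF
  obtain ⟨T, hT⟩ := hG
  refine ⟨S ∪ T, ?_⟩
  rw [Finset.coe_union]
  exact loc_map₂ hS hT m

theorem FinLoc.cfg {β : Type*} {F : Cfg → β} (h : FinLoc F) (σ : Aut) :
    FinLoc (fun ω => F (σ.cfg ω)) := by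
  obtain ⟨S, hS⟩ := h
  exact ⟨_, loc_cfg hS σ⟩

theorem FinLoc.act {β : Type*} {F : Cfg → β} (h : FinLoc F) (R : Refl) :
    FinLoc (fun ω => F (act R ω)) := h.cfg (Aut.ofRefl R)

theorem FinLoc.trans {β : Type*} {F : Cfg → β} (h : FinLoc F) (a : P2) :
    FinLoc (fun ω => F (trans a ω)) := h.cfg (Aut.tr a)

theorem FinLoc.const {β : Type*} (b : β) : FinLoc (fun _ : Cfg => b) :=
  ⟨∅, fun _ _ _ => rfl⟩


theorem FinLoc.integrable {β : Type*} [NormedAddCommGroup β] [MeasurableSpace β] [BorelSpace β]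
    [SecondCountableTopology β] {c : ℝ} {P : Measure Cfg} (hP : IsState c P) {F : Cfg → β}
    (h : FinLoc F) : Integrable F P := by
  obtain ⟨S, hS⟩ := h
  exact loc_integrable hP hS

theorem _root_.Crest.Agent.R161.Aut373.Neut.act {β : Type*} {f : Cfg → β} (h : Neut f) (R : Refl) :
    Neut (fun ω => f (RPconc597.act R ω)) := h.cfg (Aut.ofRefl R)

theorem _root_.Crest.Agent.R161.Aut373.Chg.act {α : ℝ} {f : Cfg → ℂ} (h : Chg α f) (R : Refl) :
    Chg α (fun ω => f (RPconc597.act R ω)) := h.cfg (Aut.ofRefl R)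

theorem _root_.Crest.Agent.R161.Aut373.Chg.trans {α : ℝ} {f : Cfg → ℂ} (h : Chg α f) (a : P2) :
    Chg α (fun ω => f (Defs372.trans a ω)) := h.cfg (Aut.tr a)

theorem _root_.Crest.Agent.R161.Aut373.Neut.trans {β : Type*} {f : Cfg → β} (h : Neut f) (a : P2) :
    Neut (fun ω => f (Defs372.trans a ω)) := h.cfg (Aut.tr a)

/-- neutral local functionals -/
def NN : Submodule ℂ (Cfg → ℂ) where
  carrier := {F | FinLoc F ∧ Neut F}
  add_mem' {F G} hF hG :=
    ⟨hF.1.map₂ hG.1 (· + ·), fun ω hω a ha => by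
      simp only [Pi.add_apply]
      rw [hF.2 ω hω a ha, hG.2 ω hω a ha]⟩
  zero_mem' := ⟨FinLoc.const 0, fun _ _ _ _ => rfl⟩
  smul_mem' r F hF := ⟨hF.1.comp (r • ·), hF.2.comp (r • ·)⟩


theorem rloc_add {R : Refl} {F G : Cfg → ℂ} (hF : RLoc R F) (hG : RLoc R G) : RLoc R (F + G) :=
  fun ω ω' h => by
    simp only [Pi.add_apply]
    rw [hF ω ω' h, hG ω ω' h]

theorem rloc_comp {β γ : Type*} {R : Refl} {F : Cfg → β} (hF : RLoc R F) (g : β → γ) :
    RLoc R (fun ω => g (F ω)) :=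
  fun ω ω' h => by
    simp only
    rw [hF ω ω' h]

/-- local functionals of charge `α` of the closed right side of the line -/
def VV (R : Refl) (α : ℝ) : Submodule ℂ (Cfg → ℂ) where
  carrier := {F | FinLoc F ∧ RLoc R F ∧ Chg α F}
  add_mem' {F G} hF hG := ⟨hF.1.map₂ hG.1 (· + ·), rloc_add hF.2.1 hG.2.1, hF.2.2.add hG.2.2⟩
  zero_mem' := ⟨FinLoc.const 0, fun _ _ _ => rfl, fun _ _ _ _ => by simp⟩
  smul_mem' r F hF := ⟨hF.1.comp (r • ·), rloc_comp hF.2.1 (r • ·), hF.2.2.smul r⟩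


variable {c : ℝ} {P : Measure Cfg}

/-- complex form of the limit -/
theorem limC_neut (hP : IsState c P) {f : Cfg → ℝ} (hf : FinLoc f)
    (hn : Neut f) {ε : ℝ} (hε : 0 < ε) : ∃ n : ℕ, ∀ F : Finset P2, Dom F → Defs372.box n ⊆ F →
      |Defs372.E c F f - ∫ ω, f ω ∂P| < ε := by
  obtain ⟨S, hS⟩ := hf
  exact lim_neut hP hS hn hε

theorem EC_re (F : Finset P2) (f : Cfg → ℂ) : (EC c F f).re = Defs372.E c F (fun ω => (f ω).re) := by
  unfold EC Defs372.E
  rw [Complex.re_sum]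
  refine Finset.sum_congr rfl fun ω _ => ?_
  rw [Complex.re_ofReal_mul]

theorem integral_re {f : Cfg → ℂ} (hf : Integrable f P) : (∫ ω, f ω ∂P).re = ∫ ω, (f ω).re ∂P := by
  have := _root_.integral_re hf (𝕜 := ℂ)
  simpa using this.symm

/-- charge bookkeeping -/
theorem pair_neut {α : ℝ} {F G : Cfg → ℂ} (hF : Chg α F) (hG : Chg α G) (R : Refl) :
    Neut (fun ω => conj (F (act R ω)) * G ω) := by
  have h := ((hF.act R).conj.mul hG)
  rw [neg_add_cancel] at h
  exact h.neut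

/-- **Reflection positivity of the state.** -/
theorem rp_state (hc : 1 ≤ c) (hP : IsState c P) {R : Refl} (hR : SymDom R) {α : ℝ}
    {F : Cfg → ℂ} (hF : F ∈ VV R α) : 0 ≤ (∫ ω, conj (F (act R ω)) * F ω ∂P).re := by
  obtain ⟨h1, h2, h3⟩ := hF
  have hloc : FinLoc (fun ω => conj (F (act R ω)) * F ω) :=
    ((h1.act R).comp conj).map₂ h1 (· * ·)
  have hneut := pair_neut h3 h3 R
  rw [integral_re (hloc.integrable hP)]
  refine le_of_forall_pos_le_add fun ε hε => ?_
  obtain ⟨n, hn⟩ := limC_neut hP (hloc.comp Complex.re) (hneut.comp Complex.re) hε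
  obtain ⟨D, hD1, hD2, hD3⟩ := hR n
  have h4 := hn D hD1 hD2
  obtain ⟨r, hr0, hr⟩ := rp_fin hc hD3 h2
  have h5 : Defs372.E c D (fun ω => (conj (F (act R ω)) * F ω).re) = r := by
    rw [← EC_re, hr, Complex.ofReal_re]
  rw [h5] at h4
  have := (abs_lt.1 h4).2
  linarith

theorem integral_act (hP : IsState c P) (R : Refl) {f : Cfg → ℂ}
    (hf : FinLoc f) (hn : Neut f) : ∫ ω, f (act R ω) ∂P = ∫ ω, f ω ∂P := by
  obtain ⟨S, hS⟩ := hf
  exact integral_aut_complex hP (Aut.ofRefl R) hS hn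

theorem integral_trans (hP : IsState c P) (a : P2) {f : Cfg → ℂ}
    (hf : FinLoc f) (hn : Neut f) : ∫ ω, f (trans a ω) ∂P = ∫ ω, f ω ∂P := by
  obtain ⟨S, hS⟩ := hf
  exact integral_aut_complex hP (Aut.tr a) hS hn

theorem integral_act_real (hP : IsState c P) (R : Refl) {f : Cfg → ℝ}
    (hf : FinLoc f) (hn : Neut f) : ∫ ω, f (act R ω) ∂P = ∫ ω, f ω ∂P := by
  obtain ⟨S, hS⟩ := hf
  exact integral_aut hP (Aut.ofRefl R) hS hn

theorem integral_trans_real (hP : IsState c P) (a : P2) {f : Cfg → ℝ}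
    (hf : FinLoc f) (hn : Neut f) : ∫ ω, f (trans a ω) ∂P = ∫ ω, f ω ∂P := by
  obtain ⟨S, hS⟩ := hf
  exact integral_aut hP (Aut.tr a) hS hn

theorem trans_iterate (a : P2) (n : ℕ) (ω : Cfg) : (trans a)^[n] ω = trans (n • a) ω := by
  induction n generalizing ω with
  | zero => simp [trans_zero]
  | succ n ih =>
    rw [Function.iterate_succ_apply, ih, trans_trans, succ_nsmul]

/-- elementary bound `|∫ conj A B| ≤ (∫ |A|² + ∫ |B|²) / 2` -/
theorem norm_integral_le (hP : IsState c P) {A B : Cfg → ℂ} (hA : FinLoc A) (hB : FinLoc B) :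
    ‖∫ ω, conj (A ω) * B ω ∂P‖ ≤ ((∫ ω, ‖A ω‖ ^ 2 ∂P) + ∫ ω, ‖B ω‖ ^ 2 ∂P) / 2 := by
  have hA2 : Integrable (fun ω => ‖A ω‖ ^ 2) P := (hA.comp (fun z => ‖z‖ ^ 2)).integrable hP
  have hB2 : Integrable (fun ω => ‖B ω‖ ^ 2) P := (hB.comp (fun z => ‖z‖ ^ 2)).integrable hP
  have hAB : Integrable (fun ω => conj (A ω) * B ω) P :=
    (FinLoc.map₂ hA hB (fun x y => conj x * y)).integrable hP
  calc ‖∫ ω, conj (A ω) * B ω ∂P‖ ≤ ∫ ω, ‖conj (A ω) * B ω‖ ∂P := norm_integral_le_integral_norm _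
    _ ≤ ∫ ω, (‖A ω‖ ^ 2 + ‖B ω‖ ^ 2) / 2 ∂P := by
        refine integral_mono hAB.norm ((hA2.add hB2).div_const 2) fun ω => ?_
        simp only [norm_mul, RCLike.norm_conj]
        nlinarith [sq_nonneg (‖A ω‖ - ‖B ω‖)]
    _ = ((∫ ω, ‖A ω‖ ^ 2 ∂P) + ∫ ω, ‖B ω‖ ^ 2 ∂P) / 2 := by
        rw [integral_div, integral_add hA2 hB2]

/-- **The reflection positive system of the state** (direction `a`, line `R`, charge `α`). -/
def sys (hc : 1 ≤ c) (hP : IsState c P) {R R' : Refl} {a : P2} (h : Step R R' a)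
    (hR : SymDom R) (hR' : SymDom R') (α : ℝ) : RPSys Cfg where
  E F := ∫ ω, F ω ∂P
  N := NN
  V := VV R α
  θ := act R
  τ := trans a
  θθ := act_act R
  τθτ := h.τθτ
  mem_N F hF G hG := ⟨((hF.1.act R).comp conj).map₂ hG.1 (· * ·), pair_neut hF.2.2 hG.2.2 R⟩
  mem_V F hF := ⟨hF.1.trans a, h.rloc hF.2.1, hF.2.2.trans a⟩
  E_add F hF G hG := integral_add (hF.1.integrable hP) (hG.1.integrable hP)
  E_smul r F _ := by
    simp only [Pi.smul_apply, smul_eq_mul]
    exact integral_const_mul r F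
  E_conj F _ G _ := integral_conj
  E_θ F hF G hG := by
    have h1 := integral_act hP R (f := fun ω => conj (F ω) * G (act R ω))
      ((hF.1.comp conj).map₂ (hG.1.act R) (· * ·))
      (by
        have := (hF.2.2.conj.mul (hG.2.2.act R))
        rw [neg_add_cancel] at this
        exact this.neut)
    rw [← h1]
    refine integral_congr_ae (Filter.Eventually.of_forall fun ω => ?_)
    simp only [act_act]
  E_τ F hF := integral_trans hP a hF.1 hF.2
  rp0 F hF := rp_state hc hP hR hF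
  rp1 F hF := by
    have h1 := rp_state hc hP hR' (F := fun ω => F (trans a ω)) (α := α)
      ⟨hF.1.trans a, h.rloc' hF.2.1, hF.2.2.trans a⟩
    simp only [h.trans_act] at h1
    exact h1
  bdd F hF := by
    refine ⟨∫ ω, ‖F ω‖ ^ 2 ∂P, fun n => ?_⟩
    have hF1 : FinLoc F := hF.1
    have hF3 : Chg α F := hF.2.2
    have e1 : ∀ ω, (trans a)^[n] ω = trans (n • a) ω := trans_iterate a n
    simp only [e1]
    have hA : FinLoc (fun ω => F (trans (n • a) (act R ω))) := (hF1.trans _).act R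
    have hB : FinLoc (fun ω => F (trans (n • a) ω)) := hF1.trans _
    have hsq : FinLoc (fun ω => ‖F ω‖ ^ 2) := hF1.comp (fun z => ‖z‖ ^ 2)
    have hnq : Neut (fun ω => ‖F ω‖ ^ 2) := hF3.neut_norm.comp (fun x => x ^ 2)
    have h1 := norm_integral_le hP hA hB
    have h2 : ∫ ω, ‖F (trans (n • a) ω)‖ ^ 2 ∂P = ∫ ω, ‖F ω‖ ^ 2 ∂P :=
      integral_trans_real hP (n • a) hsq hnq
    have h3 : ∫ ω, ‖F (trans (n • a) (act R ω))‖ ^ 2 ∂P = ∫ ω, ‖F ω‖ ^ 2 ∂P := by
      rw [← h2]
      exact integral_act_real hP R (hsq.trans _) (hnq.trans _)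
    rw [h2, h3] at h1
    refine (Complex.re_le_norm _).trans (h1.trans (le_of_eq (by ring)))

section
variable (hc : 1 ≤ c) (hP : IsState c P) {R R' : Refl} {a : P2} (h : Step R R' a)
    (hR : SymDom R) (hR' : SymDom R') (α : ℝ)

@[simp] theorem sys_E (F : Cfg → ℂ) : (sys hc hP h hR hR' α).E F = ∫ ω, F ω ∂P := rfl
@[simp] theorem sys_N : (sys hc hP h hR hR' α).N = NN := rfl
@[simp] theorem sys_V : (sys hc hP h hR hR' α).V = VV R α := rfl
@[simp] theorem sys_θ : (sys hc hP h hR hR' α).θ = act R := rfl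
@[simp] theorem sys_τ : (sys hc hP h hR hR' α).τ = trans a := rfl

theorem sys_B (F G : Cfg → ℂ) :
    (sys hc hP h hR hR' α).B F G = ∫ ω, conj (F (act R ω)) * G ω ∂P := rfl

end

/-- the form is bounded by the `L²` norm -/
theorem B_le (hP : IsState c P) (R : Refl) {α : ℝ} {F : Cfg → ℂ} (hF : FinLoc F) (hα : Chg α F) :
    (∫ ω, conj (F (act R ω)) * F ω ∂P).re ≤ ∫ ω, ‖F ω‖ ^ 2 ∂P := by
  have h1 := norm_integral_le hP (hF.act R) hF
  have h3 : ∫ ω, ‖F (act R ω)‖ ^ 2 ∂P = ∫ ω, ‖F ω‖ ^ 2 ∂P :=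
    integral_act_real hP R (hF.comp (fun z => ‖z‖ ^ 2)) (hα.neut_norm.comp (fun x => x ^ 2))
  rw [h3] at h1
  exact (Complex.re_le_norm _).trans (h1.trans (le_of_eq (by ring)))

/-! ### membership from sites -/

/-- all the data at the site `v` (vertex, face, two edges) is on the right side of the line -/
def RSite (R : Refl) (v : P2) : Prop := 0 ≤ R.sv v ∧ 0 ≤ R.sf v ∧ ∀ b : Bool, Keep R (v, b)

theorem rloc_of_loc {β : Type*} {R : Refl} {S : Set P2} {F : Cfg → β} (hF : Loc S F)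
    (hS : ∀ v ∈ S, RSite R v) : RLoc R F := by
  intro ω ω' h
  refine hF ω ω' fun v hv => ?_
  obtain ⟨h1, h2, h3⟩ := hS v hv
  exact ⟨h.1 v h1, h.2.1 v h2, fun b => h.2.2 _ (h3 b)⟩

/-- a functional of the left side, reflected -/
theorem rloc_act_of_loc {β : Type*} {R : Refl} {S : Set P2} {F : Cfg → β} (hF : Loc S F)
    (hS : ∀ v ∈ S, 0 ≤ R.sv (R.V v) ∧ 0 ≤ R.sf (R.Fc v) ∧ ∀ b : Bool, Keep R (R.E (v, b))) :
    RLoc R (fun ω => F (act R ω)) := by
  intro ω ω' h
  refine hF _ _ fun v hv => ?_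
  obtain ⟨h1, h2, h3⟩ := hS v hv
  exact ⟨h.1 _ h1, h.2.1 _ h2, fun b => h.2.2 _ (h3 b)⟩

end Crest.Agent.R161.RPlim373
end
end

-- ▼ part R161/Lines_373
section

/-!
R161, block F (helper373): reflection lines in the eight directions, `RPHyp` (helper369) for the
infinite state.
-/

set_option autoImplicit false

noncomputable section

namespace Crest.Agent.R161.Lines373

open Finset MeasureTheory
open Crest.Agent.R161.Geo729 Crest.Agent.R161.Defs372 Crest.Agent.R161.Sym597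
open Crest.Agent.R161.RPconc597 Crest.Agent.R161.Rect597
open Crest.Agent.R161.RPlim373 Crest.Agent.R161.Peel369 Crest.Agent.R161.Ray369
open scoped ComplexConjugate

/-- the reflected data at the site `v` is on the right side -/
def LSite (R : Refl) (v : P2) : Prop :=
  0 ≤ R.sv (R.V v) ∧ 0 ≤ R.sf (R.Fc v) ∧ ∀ b : Bool, Keep R (R.E (v, b))

theorem exists_line {e : ℤ × ℤ} (he : e ∈ Dir8) (m : ℤ) :
    ∃ R R' : Refl, Step R R' e ∧ SymDom R ∧ SymDom R' ∧
      (∀ v : P2, m + 2 ≤ dot e v → RSite R v) ∧ (∀ v : P2, dot e v ≤ m - 2 → LSite R v) := by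
  obtain ⟨e1, e2⟩ := e
  obtain ⟨h0, h1, h2⟩ := he
  simp only at h1 h2
  rw [abs_le] at h1 h2
  have hne : ¬ (e1 = 0 ∧ e2 = 0) := fun h => h0 (by rw [h.1, h.2]; rfl)
  have h1' : e1 = -1 ∨ e1 = 0 ∨ e1 = 1 := by omega
  have h2' : e2 = -1 ∨ e2 = 0 ∨ e2 = 1 := by omega
  rcases h1' with rfl | rfl | rfl <;> rcases h2' with rfl | rfl | rfl
  · -- (-1,-1)
    refine ⟨(Refl.anti (-m)).neg, (Refl.anti (-m - 1)).neg, step_anti_neg _, symDom_anti _,
      symDom_anti _, ?_, ?_⟩
    · rintro ⟨x, y⟩ hv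
      simp only [dot] at hv
      refine ⟨?_, ?_, fun b => ?_⟩
      · simp [Refl.anti, Refl.neg]; omega
      · simp [Refl.anti, Refl.neg]; omega
      · cases b <;> simp [Refl.anti, Refl.neg, Keep] <;> omega
    · rintro ⟨x, y⟩ hv
      simp only [dot] at hv
      refine ⟨?_, ?_, fun b => ?_⟩
      · simp [Refl.anti, Refl.neg]; omega
      · simp [Refl.anti, Refl.neg]; omega
      · cases b <;> simp [Refl.anti, Refl.neg, Keep] <;> omega
  · -- (-1,0)
    refine ⟨(Refl.vert (-(2 * m))).neg, (Refl.vert (-(2 * m) - 1)).neg, step_vert_neg _,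
      symDom_vert _, symDom_vert _, ?_, ?_⟩
    · rintro ⟨x, y⟩ hv
      simp only [dot] at hv
      refine ⟨?_, ?_, fun b => ?_⟩
      · simp [Refl.vert, Refl.neg]; omega
      · simp [Refl.vert, Refl.neg]; omega
      · cases b <;> simp [Refl.vert, Refl.neg, Keep] <;> omega
    · rintro ⟨x, y⟩ hv
      simp only [dot] at hv
      refine ⟨?_, ?_, fun b => ?_⟩
      · simp [Refl.vert, Refl.neg]; omega
      · simp [Refl.vert, Refl.neg]; omega
      · cases b <;> simp [Refl.vert, Refl.neg, Keep] <;> omega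
  · -- (-1,1)
    refine ⟨Refl.diag m, Refl.diag (m + 1), step_diag _, symDom_diag _, symDom_diag _, ?_, ?_⟩
    · rintro ⟨x, y⟩ hv
      simp only [dot] at hv
      refine ⟨?_, ?_, fun b => ?_⟩
      · simp [Refl.diag]; omega
      · simp [Refl.diag]; omega
      · cases b <;> simp [Refl.diag, Keep] <;> omega
    · rintro ⟨x, y⟩ hv
      simp only [dot] at hv
      refine ⟨?_, ?_, fun b => ?_⟩
      · simp [Refl.diag]; omega
      · simp [Refl.diag]; omega
      · cases b <;> simp [Refl.diag, Keep] <;> omega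
  · -- (0,-1)
    refine ⟨(Refl.horiz (-(2 * m))).neg, (Refl.horiz (-(2 * m) - 1)).neg, step_horiz_neg _,
      symDom_horiz _, symDom_horiz _, ?_, ?_⟩
    · rintro ⟨x, y⟩ hv
      simp only [dot] at hv
      refine ⟨?_, ?_, fun b => ?_⟩
      · simp [Refl.horiz, Refl.neg]; omega
      · simp [Refl.horiz, Refl.neg]; omega
      · cases b <;> simp [Refl.horiz, Refl.neg, Keep] <;> omega
    · rintro ⟨x, y⟩ hv
      simp only [dot] at hv
      refine ⟨?_, ?_, fun b => ?_⟩
      · simp [Refl.horiz, Refl.neg]; omega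
      · simp [Refl.horiz, Refl.neg]; omega
      · cases b <;> simp [Refl.horiz, Refl.neg, Keep] <;> omega
  · exact absurd ⟨rfl, rfl⟩ hne
  · -- (0,1)
    refine ⟨Refl.horiz (2 * m), Refl.horiz (2 * m + 1), step_horiz _,
      symDom_horiz _, symDom_horiz _, ?_, ?_⟩
    · rintro ⟨x, y⟩ hv
      simp only [dot] at hv
      refine ⟨?_, ?_, fun b => ?_⟩
      · simp [Refl.horiz]; omega
      · simp [Refl.horiz]; omega
      · cases b <;> simp [Refl.horiz, Keep] <;> omega
    · rintro ⟨x, y⟩ hv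
      simp only [dot] at hv
      refine ⟨?_, ?_, fun b => ?_⟩
      · simp [Refl.horiz]; omega
      · simp [Refl.horiz]; omega
      · cases b <;> simp [Refl.horiz, Keep] <;> omega
  · -- (1,-1)
    refine ⟨(Refl.diag (-m)).neg, (Refl.diag (-m - 1)).neg, step_diag_neg _, symDom_diag _,
      symDom_diag _, ?_, ?_⟩
    · rintro ⟨x, y⟩ hv
      simp only [dot] at hv
      refine ⟨?_, ?_, fun b => ?_⟩
      · simp [Refl.diag, Refl.neg]; omega
      · simp [Refl.diag, Refl.neg]; omega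
      · cases b <;> simp [Refl.diag, Refl.neg, Keep] <;> omega
    · rintro ⟨x, y⟩ hv
      simp only [dot] at hv
      refine ⟨?_, ?_, fun b => ?_⟩
      · simp [Refl.diag, Refl.neg]; omega
      · simp [Refl.diag, Refl.neg]; omega
      · cases b <;> simp [Refl.diag, Refl.neg, Keep] <;> omega
  · -- (1,0)
    refine ⟨Refl.vert (2 * m), Refl.vert (2 * m + 1), step_vert _, symDom_vert _,
      symDom_vert _, ?_, ?_⟩
    · rintro ⟨x, y⟩ hv
      simp only [dot] at hv
      refine ⟨?_, ?_, fun b => ?_⟩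
      · simp [Refl.vert]; omega
      · simp [Refl.vert]; omega
      · cases b <;> simp [Refl.vert, Keep] <;> omega
    · rintro ⟨x, y⟩ hv
      simp only [dot] at hv
      refine ⟨?_, ?_, fun b => ?_⟩
      · simp [Refl.vert]; omega
      · simp [Refl.vert]; omega
      · cases b <;> simp [Refl.vert, Keep] <;> omega
  · -- (1,1)
    refine ⟨Refl.anti m, Refl.anti (m + 1), step_anti _, symDom_anti _, symDom_anti _, ?_, ?_⟩
    · rintro ⟨x, y⟩ hv
      simp only [dot] at hv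
      refine ⟨?_, ?_, fun b => ?_⟩
      · simp [Refl.anti]; omega
      · simp [Refl.anti]; omega
      · cases b <;> simp [Refl.anti, Keep] <;> omega
    · rintro ⟨x, y⟩ hv
      simp only [dot] at hv
      refine ⟨?_, ?_, fun b => ?_⟩
      · simp [Refl.anti]; omega
      · simp [Refl.anti]; omega
      · cases b <;> simp [Refl.anti, Keep] <;> omega

variable {c : ℝ} {P : Measure Cfg}

/-- the reflection in the vertical line `x = ℓ` -/
def Θ (ℓ : ℤ) (ω : Cfg) : Cfg := act (Refl.vert (2 * ℓ)) ω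

theorem left_mem {R : Refl} {S : Finset P2} {A : Cfg → ℂ} {α : ℝ} (hA : Loc (S : Set P2) A)
    (hS : ∀ v ∈ S, LSite R v) (hα : Aut373.Chg (-α) A) :
    (fun ω => conj (A (act R ω))) ∈ VV R α := by
  refine ⟨(FinLoc.act ⟨S, hA⟩ R).comp conj, ?_, ?_⟩
  · exact rloc_comp (rloc_act_of_loc hA fun v hv => hS v hv) conj
  · have := (hα.act R).conj
    rw [neg_neg] at this
    exact this

theorem right_mem {R : Refl} {S : Finset P2} {B : Cfg → ℂ} {α : ℝ} (hB : Loc (S : Set P2) B)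
    (hS : ∀ v ∈ S, RSite R v) (hα : Aut373.Chg α B) : B ∈ VV R α :=
  ⟨⟨S, hB⟩, rloc_of_loc hB fun v hv => hS v hv, hα⟩

/-- the form of the reflected left functional is bounded by its `L²` norm -/
theorem B_left_le (hP : IsState c P) (R : Refl) {S : Finset P2} {A : Cfg → ℂ} {α : ℝ}
    (hA : Loc (S : Set P2) A) (hα : Aut373.Chg (-α) A) :
    (∫ ω, conj ((fun ω => conj (A (act R ω))) (act R ω)) * (fun ω => conj (A (act R ω))) ω ∂P).re
      ≤ ∫ ω, ‖A ω‖ ^ 2 ∂P := by
  have h0 : FinLoc (fun ω => conj (A (act R ω))) := (FinLoc.act ⟨S, hA⟩ R).comp conj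
  have h1 := B_le hP R h0 (hα.act R).conj
  refine h1.trans (le_of_eq ?_)
  simp only [RCLike.norm_conj]
  exact integral_act_real hP R (f := fun ω => ‖A ω‖ ^ 2)
    (FinLoc.comp ⟨S, hA⟩ (fun z => ‖z‖ ^ 2)) (hα.neut_norm.comp (fun x => x ^ 2))


/-- **`RPHyp` for the infinite state.** -/
theorem rpHyp (hc : 1 ≤ c) (hP : IsState c P) : PeelP369.RPHyp P 4 Θ where
  pb := by
    intro e he a b S T A B α hA hB hS hT hab hαA hαB
    obtain ⟨R, R', h, hR, hR', h1, h2⟩ := exists_line he (a + 2)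
    have hAm := left_mem (R := R) hA (fun v hv => h2 v (by have := hS v hv; omega)) hαA
    have hBm := right_mem (R := R) hB (fun v hv => h1 v (by have := hT v hv; omega)) hαB
    have key := (sys hc hP h hR hR' α).polyBound hAm hBm
    have e1 : (fun k : ℕ => (sys hc hP h hR hR' α).E (fun ω =>
        conj ((fun ω => conj (A (act R ω))) ((sys hc hP h hR hR' α).θ ω)) *
          B ((sys hc hP h hR hR' α).τ^[k] ω))) =
        fun k : ℕ => ∫ ω, A ω * B (trans ((k : ℤ) • e) ω) ∂P := by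
      funext k
      rw [sys_E]
      refine integral_congr_ae (Filter.Eventually.of_forall fun ω => ?_)
      simp only [sys_θ, sys_τ, act_act, Complex.conj_conj, trans_iterate, natCast_zsmul]
    rw [e1] at key
    refine key.mono ?_
    have hA2 := B_left_le hP R hA hαA
    have hB2 := B_le hP R ⟨T, hB⟩ hαB
    exact mul_le_mul (Real.sqrt_le_sqrt hA2) (Real.sqrt_le_sqrt hB2) (Real.sqrt_nonneg _)
      (Real.sqrt_nonneg _)
  cs := by
    intro ℓ S T A B α hA hB hS hT hαA hαB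
    have h := step_vert (2 * ℓ)
    have hR := symDom_vert (2 * ℓ)
    have hR' := symDom_vert (2 * ℓ + 1)
    have hAm := left_mem (R := Refl.vert (2 * ℓ)) hA (fun v hv => by
      obtain ⟨x, y⟩ := v
      have := hS _ hv
      simp only at this
      refine ⟨?_, ?_, fun b => ?_⟩
      · simp [Refl.vert]; omega
      · simp [Refl.vert]; omega
      · cases b <;> simp [Refl.vert, Keep] <;> omega) hαA
    have hBm := right_mem (R := Refl.vert (2 * ℓ)) hB (fun v hv => by
      obtain ⟨x, y⟩ := v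
      have := hT _ hv
      simp only at this
      refine ⟨?_, ?_, fun b => ?_⟩
      · simp [Refl.vert]; omega
      · simp [Refl.vert]; omega
      · cases b <;> simp [Refl.vert, Keep] <;> omega) hαB
    have key := (sys hc hP h hR hR' α).cauchy_schwarz hAm hBm
    rw [sys_B, sys_B, sys_B] at key
    have e1 : ∫ ω, conj ((fun ω => conj (A (act (Refl.vert (2 * ℓ)) ω)))
        (act (Refl.vert (2 * ℓ)) ω)) * B ω ∂P = ∫ ω, A ω * B ω ∂P := by
      refine integral_congr_ae (Filter.Eventually.of_forall fun ω => ?_)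
      simp only [act_act, Complex.conj_conj]
    rw [e1] at key
    refine key.trans ?_
    exact mul_le_mul_of_nonneg_right
      (Real.sqrt_le_sqrt (B_left_le hP (Refl.vert (2 * ℓ)) hA hαA)) (Real.sqrt_nonneg _)

end Crest.Agent.R161.Lines373
end
end

-- ▼ part R161/Neg_373
section

/-!
R161 (helper373): flip invariance of the state, neutral local functionals.
-/

set_option autoImplicit false

noncomputable section

namespace Crest.Agent.R161.Neg373

open Finset MeasureTheory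
open Crest.Agent.R161.Geo729 Crest.Agent.R161.Defs372
open Crest.Agent.R161.Aut373 Crest.Agent.R161.RPlim373
open scoped ComplexConjugate

/-- flipped heights -/
def neg (ω : Cfg) : Cfg := (fun v => - ω.1 v, fun f => - ω.2.1 f, ω.2.2)

@[simp] theorem neg_k (ω : Cfg) (v : P2) : (neg ω).1 v = - ω.1 v := rfl
@[simp] theorem neg_h (ω : Cfg) (v : P2) : (neg ω).2.1 v = - ω.2.1 v := rfl
@[simp] theorem neg_z (ω : Cfg) (e : Edge) : (neg ω).2.2 e = ω.2.2 e := rfl


theorem par_neg {ω : Cfg} (h : Par ω) : Par (neg ω) := fun v => (h v).neg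

theorem addH_neg (a : ℤ) (ω : Cfg) : neg (addH a ω) = addH (-a) (neg ω) := by
  refine Prod.ext ?_ (Prod.ext ?_ rfl) <;> funext v <;> simp [neg, addH] <;> ring

theorem neut_neg {β : Type*} {f : Cfg → β} (h : Neut f) : Neut (fun ω => f (neg ω)) := by
  intro ω hω a ha
  simp only
  rw [addH_neg]
  exact h _ (par_neg hω) (-a) ha.neg

theorem loc_neg {β : Type*} {S : Set P2} {f : Cfg → β} (h : Loc S f) :
    Loc S (fun ω => f (neg ω)) := by
  intro ω ω' hω
  refine h _ _ fun v hv => ?_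
  obtain ⟨h1, h2, h3⟩ := hω v hv
  exact ⟨by simp [h1], by simp [h2], h3⟩


variable {c : ℝ} {P : Measure Cfg}

/-- **flip invariance of the state** -/
theorem integral_neg (hP : IsState c P) {f : Cfg → ℝ} (hf : FinLoc f) (hn : Neut f) :
    ∫ ω, f (neg ω) ∂P = ∫ ω, f ω ∂P := by
  obtain ⟨S, hS⟩ := hf
  refine eq_of_abs_sub_le_all fun ε hε => ?_
  obtain ⟨n1, h1⟩ := lim_neut hP hS hn (half_pos hε)
  obtain ⟨n2, h2⟩ := lim_neut hP (loc_neg hS) (neut_neg hn) (half_pos hε)
  obtain ⟨m, hm⟩ := Aut373.exists_box (Defs372.box n2 ∪ Defs372.box n1 ∪ S)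
  have hmm := hm m le_rfl
  have h3 := h1 (Defs372.box m) (Aut373.dom_box m)
    ((Finset.subset_union_right.trans Finset.subset_union_left).trans hmm)
  have h5 := h2 (Defs372.box m) (Aut373.dom_box m)
    ((Finset.subset_union_left.trans Finset.subset_union_left).trans hmm)
  have h4 : S ⊆ Defs372.box m := Finset.subset_union_right.trans hmm
  have h6 : Defs372.E c (Defs372.box m) (fun ω => f (neg ω)) = Defs372.E c (Defs372.box m) f := by
    rw [← Dmp341.E_neg c (Defs372.box m) f]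
    congr 1
    funext ω
    refine hS _ _ fun v hv => ⟨rfl, ?_, fun b => rfl⟩
    have : v ∈ Defs372.box m := h4 hv
    simp [neg, Dmp341.negC, this]
  rw [h6] at h5
  have := abs_sub_le (∫ ω, f (neg ω) ∂P) (Defs372.E c (Defs372.box m) f) (∫ ω, f ω ∂P)
  rw [abs_sub_comm (∫ ω, f (neg ω) ∂P) (Defs372.E c (Defs372.box m) f)] at this
  linarith


/-- the characteristic function of an odd neutral local real functional is real -/
theorem integral_exp_of_odd (hP : IsState c P) {X : Cfg → ℝ} (hf : FinLoc X) (hn : Neut X)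
    (hodd : ∀ ω, X (neg ω) = - X ω) :
    ∫ ω, Complex.exp (Complex.I * (X ω : ℂ)) ∂P = ((∫ ω, Real.cos (X ω) ∂P : ℝ) : ℂ) := by
  have h1 : ∫ ω, Real.sin (X ω) ∂P = 0 := by
    have h2 := integral_neg hP (hf.comp Real.sin) (hn.comp Real.sin)
    simp only [hodd, Real.sin_neg] at h2
    have h3 : ∫ ω, -Real.sin (X ω) ∂P = -∫ ω, Real.sin (X ω) ∂P := MeasureTheory.integral_neg _
    rw [h3] at h2
    linarith
  have hint : Integrable (fun ω => Complex.exp (Complex.I * (X ω : ℂ))) P :=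
    (hf.comp (fun x : ℝ => Complex.exp (Complex.I * (x : ℂ)))).integrable hP
  rw [integral_re_im hint]
  have e1 : ∀ ω, (Complex.exp (Complex.I * (X ω : ℂ))).re = Real.cos (X ω) := by
    intro ω
    rw [mul_comm, Complex.exp_ofReal_mul_I_re]
  have e2 : ∀ ω, (Complex.exp (Complex.I * (X ω : ℂ))).im = Real.sin (X ω) := by
    intro ω
    rw [mul_comm, Complex.exp_ofReal_mul_I_im]
  simp only [e1, e2, h1, Complex.ofReal_zero, zero_mul, add_zero]

end Crest.Agent.R161.Neg373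
end
end

-- ▼ part R161/Sm_373
section

/-!
R161 (helper373): smeared heights of lattice functions and their second moments.

* `XL a ω = Σ a v K(v)`, `mass a` for `a : P2 →₀ ℝ`
* `integral_XL_sq` : `∫ (XL a)² = -½ Σ Σ a_x a_y VV (x-y)` for mass zero
* `sm_bound` : for mass zero densities of size `β / N²` in the box of size `N`,
  `∫ (XL a)² ≤ C β²` uniformly (from `VBound`).
* `VV_le` : `VV P p ≤ C (1 + log (nrm p))`
-/

set_option autoImplicit false

noncomputable section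

namespace Crest.Agent.R161.Sm373

open Finset MeasureTheory
open Crest.Agent.R161.Geo729 Crest.Agent.R161.Defs372 Crest.Agent.R161.Ifc372
open Crest.Agent.R161.Aut373 Crest.Agent.R161.RPlim373


/-- total mass -/
def mass (a : P2 →₀ ℝ) : ℝ := a.sum fun _ x => x



















variable {c : ℝ} {P : Measure Cfg}

/-! ### second moments -/





theorem VV_zero (P : Measure Cfg) : Ifc372.VV P 0 = 0 := by
  unfold Ifc372.VV
  have : ∀ ω : Cfg, ((ω.1 (0 : P2) : ℝ) - ω.1 (0, 0)) ^ 2 = 0 := by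
    intro ω
    rw [show (0 : P2) = (0, 0) from rfl]
    ring
  simp only [this, integral_zero]

theorem VV_nonneg (P : Measure Cfg) (p : P2) : 0 ≤ Ifc372.VV P p := integral_nonneg fun _ => sq_nonneg _

/-! ### sums -/


/-- `max |j| 1` -/
def m1 (j : ℤ) : ℝ := max |(j : ℝ)| 1











/-- logarithmic upper bound of the variance -/
theorem VV_le (hV : VBound P) : ∃ C : ℝ, 0 ≤ C ∧ ∀ N : ℕ, 1 ≤ N → ∀ p : P2,
    |p.1| ≤ 2 * N → |p.2| ≤ 2 * N → Ifc372.VV P p ≤ C * (1 + Real.log N) := by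
  obtain ⟨C, hC0, hC⟩ := hV
  have he : ((1, 0) : P2) ≠ 0 := by
    intro h
    have := congrArg Prod.fst h
    simp at this
  refine ⟨Ifc372.VV P (1, 0) + 3 * C, add_nonneg (VV_nonneg _ _) (by positivity), fun N hN p h1 h2 => ?_⟩
  have hN' : (1 : ℝ) ≤ N := by exact_mod_cast hN
  have hlog : 0 ≤ Real.log N := Real.log_nonneg hN'
  by_cases hp : p = 0
  · rw [hp, VV_zero]
    have := VV_nonneg P (1, 0)
    positivity
  · have h3 := hC p (1, 0) hp he
    have hn : nrm ((1, 0) : P2) = 1 := by simp [nrm]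
    rw [hn, div_one] at h3
    have h1' : |(p.1 : ℝ)| ≤ 2 * N := by exact_mod_cast h1
    have h2' : |(p.2 : ℝ)| ≤ 2 * N := by exact_mod_cast h2
    have hn1 : 1 ≤ nrm p := by
      unfold nrm
      rw [Real.one_le_sqrt]
      have h3 : p.1 ≠ 0 ∨ p.2 ≠ 0 := by
        by_contra hcon
        push Not at hcon
        exact hp (Prod.ext hcon.1 hcon.2)
      rcases h3 with h3 | h3
      · have : (1 : ℝ) ≤ (p.1 : ℝ) ^ 2 := by
          have : (1 : ℤ) ≤ p.1 ^ 2 := by
            have := sq_pos_of_ne_zero (a := p.1) h3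
            omega
          exact_mod_cast this
        nlinarith [sq_nonneg (p.2 : ℝ)]
      · have : (1 : ℝ) ≤ (p.2 : ℝ) ^ 2 := by
          have : (1 : ℤ) ≤ p.2 ^ 2 := by
            have := sq_pos_of_ne_zero (a := p.2) h3
            omega
          exact_mod_cast this
        nlinarith [sq_nonneg (p.1 : ℝ)]
    have hup : nrm p ≤ 4 * N := by
      unfold nrm
      rw [Real.sqrt_le_left (by positivity)]
      have e1 : (p.1 : ℝ) ^ 2 ≤ (2 * N) ^ 2 :=
        sq_le_sq' (by linarith [(abs_le.1 h1').1]) (abs_le.1 h1').2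
      have e2 : (p.2 : ℝ) ^ 2 ≤ (2 * N) ^ 2 :=
        sq_le_sq' (by linarith [(abs_le.1 h2').1]) (abs_le.1 h2').2
      nlinarith
    have hl0 : 0 ≤ Real.log (nrm p) := Real.log_nonneg hn1
    have hl1 : Real.log (nrm p) ≤ 2 + Real.log N := by
      calc Real.log (nrm p) ≤ Real.log (4 * N) := Real.log_le_log (by linarith) hup
        _ = Real.log 4 + Real.log N := Real.log_mul (by norm_num) (by positivity)
        _ ≤ 2 + Real.log N := by
          have e2 : Real.log 4 ≤ 2 := by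
            rw [show (4 : ℝ) = 2 ^ 2 by norm_num, Real.log_pow]
            have := Real.log_two_lt_d9
            push_cast
            linarith
          linarith
    rw [abs_of_nonneg hl0] at h3
    have h4 := (abs_le.1 h3).2
    have h5 := VV_nonneg P (1, 0)
    nlinarith [mul_nonneg h5 hlog, mul_nonneg hC0 hlog]


end Crest.Agent.R161.Sm373
end
end

-- ▼ part R161/W9_369
section

/-!
R161, STEP 6 (helper369), part W9: the inputs `WIn` of the Ward step for the infinite state.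
-/

set_option autoImplicit false

noncomputable section

open Filter Topology MeasureTheory
open scoped ComplexConjugate

namespace Crest.Agent.R161.Ward369

open Crest.Agent.R161.Geo729 Crest.Agent.R161.Defs372 Crest.Agent.R161.Ifc372
open Crest.Agent.R161.Aut373 Crest.Agent.R161.Green722 Crest.Agent.R161.RPlim373

variable {c : ℝ} {P : Measure Cfg}

theorem samp_fin {f : ℂ → ℝ} (hf : Test f) {δ : ℝ} (hδ : 0 < δ) :
    ∃ S : Finset P2, ∀ v, v ∉ S → δ ^ 2 * f (ptC δ v) = 0 := by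
  obtain ⟨R, hR0, hR⟩ := Test.exists_radius hf
  refine ⟨lbox δ R, fun v hv => ?_⟩
  by_contra hne
  have h1 : f (ptC δ v) ≠ 0 := right_ne_zero_of_mul hne
  refine hv (mem_lbox hδ ?_)
  by_contra hcon
  exact h1 (hR _ (not_le.1 hcon))

/-- the characteristic function of a smeared height is real -/
theorem integral_exp_X (hP : IsState c P) {f : ℂ → ℝ} (hf : Test f) {δ : ℝ} (hδ : 0 < δ) :
    ∫ ω, Complex.exp (Complex.I * (X δ f ω : ℂ)) ∂P = ((∫ ω, Real.cos (X δ f ω) ∂P : ℝ) : ℂ) := by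
  obtain ⟨S, hS⟩ := samp_fin hf hδ
  set a : P2 → ℝ := fun v => δ ^ 2 * f (ptC δ v) with ha
  have hfin : Fin0 a := fin0_of_subset hS
  set Y : Cfg → ℝ := fun ω => Yl a ω - mass a * (ω.1 (0, 0) : ℝ) with hY
  have hloc : FinLoc Y := by
    refine ⟨S ∪ {(0, 0)}, ?_⟩
    intro ω ω' hag
    have h1 : Yl a ω = Yl a ω' := loc_Yl hS ω ω' fun v hv => hag v (by
      simp only [Finset.coe_union, Set.mem_union]; exact Or.inl hv)
    have h2 := (hag (0, 0) (by simp)).1
    simp only [hY, h1, h2]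
  have hneut : Neut Y := by
    intro ω _ t _
    simp only [hY]
    rw [Yl_addH hfin]
    simp only [addH]
    push_cast
    ring
  have hodd : ∀ ω, Y (Neg373.neg ω) = -Y ω := by
    intro ω
    simp only [hY, Neg373.neg_k]
    have : Yl a (Neg373.neg ω) = -Yl a ω := by
      rw [Yl_eq_sum hS, Yl_eq_sum hS, ← Finset.sum_neg_distrib]
      refine Finset.sum_congr rfl fun v _ => ?_
      simp only [Neg373.neg_k]
      push_cast
      ring
    rw [this]
    push_cast
    ring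
  have hae : ∀ᵐ ω ∂P, X δ f ω = Y ω := by
    filter_upwards [hP.valid] with ω hω
    simp only [hY]
    rw [hω.zero, X_eq]
    simp [ha]
  have h1 := Neg373.integral_exp_of_odd hP hloc hneut hodd
  have h2 : ∫ ω, Complex.exp (Complex.I * (X δ f ω : ℂ)) ∂P =
      ∫ ω, Complex.exp (Complex.I * (Y ω : ℂ)) ∂P :=
    integral_congr_ae (hae.mono fun ω hω => by simp only [hω])
  have h3 : ∫ ω, Real.cos (X δ f ω) ∂P = ∫ ω, Real.cos (Y ω) ∂P :=
    integral_congr_ae (hae.mono fun ω hω => by simp only [hω])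
  rw [h2, h1, h3]

theorem lin_of_vbound (hP : IsState c P) (hV : VBound P) :
    ∃ C : ℝ, 0 ≤ C ∧ ∀ v : P2, ∫ ω, (ω.1 v : ℝ) ^ 2 ∂P ≤ C * (1 + |(v.1 : ℝ)| + |(v.2 : ℝ)|) := by
  obtain ⟨C, hC0, hC⟩ := Sm373.VV_le hV
  refine ⟨C, hC0, fun v => ?_⟩
  have e1 : ∫ ω, (ω.1 v : ℝ) ^ 2 ∂P = Ifc372.VV P v := by
    unfold Ifc372.VV
    refine integral_congr_ae ?_
    filter_upwards [hP.valid] with ω hω
    rw [hω.zero]
    simp
  rw [e1]
  have h1 := hC (v.1.natAbs + v.2.natAbs + 1) (by omega) v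
    (by push_cast; have := abs_nonneg v.1; have := abs_nonneg v.2; linarith)
    (by push_cast; have := abs_nonneg v.1; have := abs_nonneg v.2; linarith)
  refine h1.trans (mul_le_mul_of_nonneg_left ?_ hC0)
  have h2 : (((v.1.natAbs + v.2.natAbs + 1 : ℕ)) : ℝ) = |(v.1 : ℝ)| + |(v.2 : ℝ)| + 1 := by
    push_cast
    rw [Nat.cast_natAbs, Nat.cast_natAbs]
    push_cast
    ring
  rw [h2]
  have h3 := Real.log_le_sub_one_of_pos
    (by positivity : 0 < |(v.1 : ℝ)| + |(v.2 : ℝ)| + 1)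
  linarith

theorem lawHyp_of (hP : IsState c P) (hG : PlaneGauss c P) (hV : VBound P) :
    LawHyp (kap c) P where
  law f hf h0 := by
    have h1 := hG.law f hf h0 1
    have h2 : Tendsto (fun δ : ℝ => ((∫ ω, Real.cos (1 * X δ f ω) ∂P : ℝ) : ℂ)) (𝓝[>] 0)
        (𝓝 ((Real.exp (-(1 ^ 2 * (kap c * plog f f) / 2)) : ℝ) : ℂ)) :=
      (Complex.continuous_ofReal.tendsto _).comp h1
    have e : Real.exp (-(1 ^ 2 * (kap c * plog f f) / 2)) = Real.exp (-(kap c * plog f f) / 2) := by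
      congr 1; ring
    rw [e] at h2
    refine h2.congr' ?_
    filter_upwards [self_mem_nhdsWithin] with δ hδ
    simp only [one_mul]
    exact (integral_exp_X hP hf hδ).symm
  lin := lin_of_vbound hP hV

/-- **The inputs of the Ward step hold for the infinite state.** -/
theorem wIn_of (hc : 1 ≤ c) (hP : IsState c P) (hG : PlaneGauss c P) (hV : VBound P) :
    WIn c (kap c) P 4 Lines373.Θ where
  st := hP
  law := lawHyp_of hP hG hV
  rp := Lines373.rpHyp hc hP
  κ0 := by norm_num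
  hΘ ℓ ω v := by
    simp [Lines373.Θ, Sym597.Refl.vert]

end Crest.Agent.R161.Ward369
end
end

-- ▼ part R161/War5_682
section

/-!
# Row 161, Ward step (helper682), part 5: literal instance

* `wardRing_of` : `WardRing P (kap c)` from `IsState`, `PlaneGauss`, `VBound`.
-/

set_option autoImplicit false

namespace Crest.Agent.R161.War682

open MeasureTheory
open Crest.Agent.R161.Defs372 Crest.Agent.R161.Ifc372

theorem wardRing_of {c : ℝ} (hc : 1 ≤ c) {P : Measure Cfg} (hP : IsState c P)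
    (hG : PlaneGauss c P) (hV : VBound P) : Ring695.WardRing P (Ifc372.kap c) :=
  wardRing (Ward369.wIn_of hc hP hG hV)

end Crest.Agent.R161.War682
end

-- ▼ part R161/Fin_682
section

/-!
# Row 161 (helper682): `RingProp` from the state data, and the row from `PlaneIn`

* `ringProp_of` : literal hypothesis `hRing` of `Row372.s0242_of`
* `s0242_of_plane` : the statement of S0242 from `Lk159.PlaneIn c P`, `c = (tParam U)⁻¹` (row R150).
-/

set_option autoImplicit false

noncomputable section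

namespace Crest.Agent.R161.Fin682

open Filter Topology MeasureTheory
open Crest.Agent.R161.Defs372 Crest.Agent.R161.Ifc372 Crest.Agent.R161.Row372
open Crest.Agent.R150.Hgt989 Crest.Agent.R150.Pls989

theorem ringProp_of {c : ℝ} {Q : Measure Cfg} (hc : 1 ≤ c) (h : StateData c Q) (hU : LemU c)
    (hR : RSWc (nu Q)) : Asm695.RingProp c (kap c) :=
  Ring695.ringProp hc h.st (deloc hc h) (fkg hc h) hR hU (War682.wardRing_of hc h.st h.pg h.vb)

open scoped ContDiff in
/-- **Row 161 from the plane state of row 150.** -/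
theorem s0242_of_plane (U : ℝ) {P : Measure Conf}
    (h : Lk159.PlaneIn (Crest.ProbabilityR.AshkinTeller.tParam U)⁻¹ P)
    (φ : ℂ → ℝ) (hφ : ContDiff ℝ ∞ φ) (hφc : HasCompactSupport φ)
    (hφD : tsupport φ ⊆ Metric.ball (0 : ℂ) 1) (s : ℝ) :
    Filter.Tendsto (fun δ : ℝ => Crest.ProbabilityR.AshkinTeller.atExpect δ U
        (fun cfg => Complex.exp
          (Complex.I * (s * Crest.ProbabilityR.AshkinTeller.atPairing φ cfg : ℝ))))
      (nhdsWithin 0 (Set.Ioi 0))
      (nhds (Complex.exp (-(2 * Crest.ProbabilityR.DiscGreen.discGreenForm φ /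
        (Real.pi * Crest.ProbabilityR.AshkinTeller.gParam U) * s ^ 2 / 2 : ℝ)))) :=
  s0242_of U h (fun _ _ hc hD hU hR => ringProp_of hc hD hU hR) φ hφ hφc hφD s

end Crest.Agent.R161.Fin682
end
end

-- ▼ part R161/In_372

/-!
# Row 161: the input `PlaneIn` from the output `PlaneAll` of row 150

* `planeIn_of` : `PlaneIn c P` from `Top772.PlaneAll c`
* `s0242_of_planeAll` : the statement of S0242 from `Top772.PlaneAll (tParam U)⁻¹`
-/

set_option autoImplicit false

noncomputable section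

open Filter Topology MeasureTheory
open Crest.ProbabilityR.SixVertex
open Crest.Agent.R150.Hgt989 Crest.Agent.R150.Pln989 Crest.Agent.R150.Pls989

namespace Crest.Agent.R161.In372

theorem planeIn_of {c : ℝ} (hc0 : 0 < c) (hc2 : c ≤ 2) (h : Crest.Agent.R150.Top772.PlaneAll c) :
    ∃ P : Measure Conf, Lk159.PlaneIn c P := by
  obtain ⟨P, hP, law, mom⟩ := h
  exact ⟨P, { cpos := hc0, cle := hc2, plane := hP, law := law, mom := mom }⟩

theorem c_le_two {U : ℝ} (hU : U ≤ Real.log 3 / 4) :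
    (Crest.ProbabilityR.AshkinTeller.tParam U)⁻¹ ≤ 2 := by
  have h1 := Top729.one_half_le_tParam hU
  have h2 := Top729.tParam_pos U
  rw [inv_le_comm₀ h2 (by norm_num)]
  linarith

open scoped ContDiff in
/-- **Row 161 from the end theorem of row 150.** -/
theorem s0242_of_planeAll (U : ℝ) (hU : U ≤ Real.log 3 / 4)
    (h : Crest.Agent.R150.Top772.PlaneAll (Crest.ProbabilityR.AshkinTeller.tParam U)⁻¹)
    (φ : ℂ → ℝ) (hφ : ContDiff ℝ ∞ φ) (hφc : HasCompactSupport φ)
    (hφD : tsupport φ ⊆ Metric.ball (0 : ℂ) 1) (s : ℝ) :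
    Filter.Tendsto (fun δ : ℝ => Crest.ProbabilityR.AshkinTeller.atExpect δ U
        (fun cfg => Complex.exp
          (Complex.I * (s * Crest.ProbabilityR.AshkinTeller.atPairing φ cfg : ℝ))))
      (nhdsWithin 0 (Set.Ioi 0))
      (nhds (Complex.exp (-(2 * Crest.ProbabilityR.DiscGreen.discGreenForm φ /
        (Real.pi * Crest.ProbabilityR.AshkinTeller.gParam U) * s ^ 2 / 2 : ℝ)))) := by
  obtain ⟨P, hP⟩ := planeIn_of (inv_pos.2 (Top729.tParam_pos U)) (c_le_two hU) h
  exact Fin682.s0242_of_plane U hP φ hφ hφc hφD s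

end Crest.Agent.R161.In372
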