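import Crest.Agent.R161.HaP_228_Mg
import Crest.Agent.R161.AtFkF_729
import Crest.Agent.R161.Blk3_696
import Crest.Agent.R161.ZCv_760
import Crest.Agent.R161.Mono_375
import Crest.Agent.R161.Fac_770
import Crest.Agent.R161.Sm_868
import Crest.Agent.R161.Spr2_868

-- ▼ part R161/Ha3_702
section

/-!
# Block H-a (helper702, R161): `HA c` from `IsState c P`, `VBound P` and `LemU c`.
-/

set_option autoImplicit false

noncomputable section

namespace Crest.Agent.R161.Ha702

open MeasureTheory Crest.Agent.R161.Defs372 Crest.Agent.R161.Ifc372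

/-- **(H-a)** -/
theorem ha {c : ℝ} (hc : 1 ≤ c) {P : Measure Cfg} (hP : IsState c P) (hV : VBound P)
    (hU : LemU c) : BdI228.HA c :=
  ha_of_planeSq hc hP hU (HaP228.plane_sq hc hP hV)

end Crest.Agent.R161.Ha702
end
end

-- ▼ part R161/AtFkG_729
section

/-!
Row 161: literal interfaces: `Blk696.AtFk c`, `ZCv760.DomMono c`, association for `ZCv760.Inc`.
-/

set_option autoImplicit false

namespace Crest.Agent.R161.AtFkG729

open Crest.Agent.R161.Geo729 Crest.Agent.R161.Defs372 Crest.Agent.R161.Ifc372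
  Crest.Agent.R161.AtFkE729 Crest.Agent.R161.AtFkF729

theorem incP_of_incC {f : Cfg → ℝ} (hf : Blk696.IncC f) : IncP f :=
  fun _ _ h => hf _ _ h.p h.m

theorem incP_of_inc {f : Cfg → ℝ} (hf : ZCv760.Inc f) : IncP f :=
  fun _ _ h => hf _ _ ⟨h.v, h.p, h.m⟩

/-- comparison inequalities in the form of helper696 -/
theorem atFk {c : ℝ} (hc : 1 ≤ c) : Blk696.AtFk c where
  low := fun _ _ hF hB _ _ hf hin hg0 hg => low hc hF.sc hB.sc (incP_of_incC hf) hin hg0 hg
  up := fun _ _ hF hB hBF _ _ hf hin hg0 hg =>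
    up hc hF.sc hB.sc hBF (incP_of_incC hf) hin hg0 hg

/-- domain monotonicity in the form of helper760 -/
theorem domMono {c : ℝ} (hc : 1 ≤ c) : ZCv760.DomMono c :=
  fun _ _ hF hF' hFF _ hf => dom_mono hc hF.sc hF'.sc hFF (incP_of_inc hf)

/-- association for `ZCv760.Inc` -/
theorem assoc' {c : ℝ} (hc : 1 ≤ c) {F : Finset P2} (hF : Dom F) {f g : Cfg → ℝ}
    (hf : ZCv760.Inc f) (hg : ZCv760.Inc g) : E c F f * E c F g ≤ E c F (fun ω => f ω * g ω) :=
  assoc hc hF.sc (incP_of_inc hf) (incP_of_inc hg)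

end Crest.Agent.R161.AtFkG729
end

-- ▼ part R161/Rho_375
section

/-!
# Ratio monotonicity `ρ' = z'_2 / z'_0 ≤ z_2 / z_0 = ρ` (helper375, R161 STEP 1)
-/

set_option autoImplicit false
set_option linter.unusedSectionVars false
set_option linter.unnecessarySeqFocus false
set_option linter.unusedVariables false

open Finset
open Crest.Agent.R161.Lsm375 Crest.Agent.R161.Gks375 Crest.Agent.R161.Hts375
open Crest.Agent.R161.Abs375 Crest.Agent.R161.Pol375 Crest.Agent.R161.Mono375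

namespace Crest.Agent.R161.Rho375

variable {V F P : Type*} [Fintype V] [Fintype F] [Fintype P]
  [DecidableEq V] [DecidableEq F] [DecidableEq P]

open Classical in
/-- Partition function over the box `|h| ≤ M` with the vertices of `B` pinned at `0` and `p h`. -/
noncomputable def Zabs (G : Geo V F P) (c : P → ℝ) (M : V ⊕ F → ℤ) (B : Set V)
    (p : (V ⊕ F → ℤ) → Prop) : ℝ :=
  ∑ h ∈ (Finset.Icc (-M) M).filter (fun h => (∀ v ∈ B, h (.inl v) = 0) ∧ p h), G.W c h

open Classical in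
/-- pin weight with a ceiling at `x` -/
noncomputable def pinU (B : Set V) (x : V) (q : ℤ) (a : V ⊕ F → ℤ) : ℝ :=
  if 0 ≤ a ∧ (∀ v ∈ B, a (.inl v) = 0) ∧ a (.inl x) ≤ q then 1 else 0

lemma dom_pinU {B B' : Set V} (hB : B ⊆ B') (x : V) (q : ℤ) :
    Dom (pinU (F := F) B' x q) (pinU B x q) := by
  classical
  have nn : ∀ (B : Set V) (a : V ⊕ F → ℤ), 0 ≤ pinU B x q a := fun B a => by
    unfold pinU; split_ifs <;> norm_num
  refine ⟨nn B', nn B, fun a b => ?_⟩
  by_cases ha : 0 ≤ a ∧ (∀ v ∈ B', a (.inl v) = 0) ∧ a (.inl x) ≤ q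
  · by_cases hb : 0 ≤ b ∧ (∀ v ∈ B, b (.inl v) = 0) ∧ b (.inl x) ≤ q
    · obtain ⟨a0, a1, a2⟩ := ha
      obtain ⟨b0, b1, b2⟩ := hb
      have h1 : pinU B' x q (a ⊓ b) = 1 := by
        unfold pinU
        refine if_pos ⟨le_inf a0 b0, fun v hv => ?_, ?_⟩
        · have : 0 ≤ b (.inl v) := b0 _
          simp [a1 v hv, this]
        · exact inf_le_of_left_le a2
      have h2 : pinU B x q (a ⊔ b) = 1 := by
        unfold pinU
        refine if_pos ⟨le_sup_of_le_left a0, fun v hv => ?_, sup_le a2 b2⟩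
        simp [a1 v (hB hv), b1 v hv]
      rw [h1, h2]
      have h3 : pinU B' x q a = 1 := by unfold pinU; exact if_pos ⟨a0, a1, a2⟩
      have h4 : pinU B x q b = 1 := by unfold pinU; exact if_pos ⟨b0, b1, b2⟩
      rw [h3, h4]
    · have : pinU B x q b = 0 := by unfold pinU; exact if_neg hb
      rw [this, mul_zero]
      exact mul_nonneg (nn _ _) (nn _ _)
  · have : pinU B' x q a = 0 := by unfold pinU; exact if_neg ha
    rw [this, zero_mul]
    exact mul_nonneg (nn _ _) (nn _ _)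

lemma S_pinU (G : Geo V F P) (c : P → ℝ) (M : V ⊕ F → ℤ) (B : Set V) (x : V) (q : ℤ)
    (p : (V ⊕ F → ℤ) → Prop) [DecidablePred p] :
    S G c (pinU B x q) M (fun h => if p h then 1 else 0) =
      Zabs G c M B (fun h => |h (.inl x)| ≤ q ∧ p h) := by
  classical
  unfold S Zabs
  rw [Finset.sum_filter]
  refine Finset.sum_congr rfl fun h _ => ?_
  have e : (0 ≤ ab h ∧ (∀ v ∈ B, ab h (.inl v) = 0) ∧ ab h (.inl x) ≤ q) ↔
      ((∀ v ∈ B, h (.inl v) = 0) ∧ |h (.inl x)| ≤ q) := by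
    constructor
    · rintro ⟨_, h1, h2⟩
      exact ⟨fun v hv => abs_eq_zero.mp (h1 v hv), h2⟩
    · rintro ⟨h1, h2⟩
      exact ⟨fun y => abs_nonneg _, fun v hv => by simp [ab, h1 v hv], h2⟩
  unfold pinU
  beta_reduce
  by_cases h1 : (∀ v ∈ B, h (.inl v) = 0) ∧ |h (.inl x)| ≤ q
  · rw [if_pos (e.2 h1)]
    by_cases h2 : p h
    · rw [if_pos h2, if_pos ⟨h1.1, h1.2, h2⟩]; ring
    · rw [if_neg h2, if_neg (fun h' => h2 h'.2.2)]; ring
  · have h3 : ¬ ((∀ v ∈ B, h (.inl v) = 0) ∧ |h (.inl x)| ≤ q ∧ p h) :=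
      fun h' => h1 ⟨h'.1, h'.2.1⟩
    rw [if_neg (fun h' => h1 (e.1 h')), if_neg h3]; ring

/-- General ratio monotonicity for a threshold at one vertex: with `q` a ceiling and `r` a level,
`P'(|h_x| ≥ r | |h_x| ≤ q) ≤ P(|h_x| ≥ r | |h_x| ≤ q)`. -/
theorem ratio_mono (G : Geo V F P) {c c' : P → ℝ} (hc' : ∀ p, 1 ≤ c' p) (hcc : ∀ p, c' p ≤ c p)
    {B B' : Set V} (hB : B ⊆ B')
    (hpin : ∀ p, c' p ≠ c p → G.v₁ p ∈ B' ∧ G.v₂ p ∈ B')
    (M : V ⊕ F → ℤ) (hM : 0 ≤ M) (x : V) (q r : ℤ) :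
    Zabs G c' M B' (fun h => |h (.inl x)| ≤ q ∧ r ≤ |h (.inl x)|) *
        Zabs G c M B (fun h => |h (.inl x)| ≤ q) ≤
      Zabs G c' M B' (fun h => |h (.inl x)| ≤ q) *
        Zabs G c M B (fun h => |h (.inl x)| ≤ q ∧ r ≤ |h (.inl x)|) := by
  classical
  have hΦ : MPos (fun h : V ⊕ F → ℤ => if r ≤ |h (.inl x)| then (1:ℝ) else 0) :=
    (MPos.abs (g := fun a : V ⊕ F → ℤ => if r ≤ a (.inl x) then (1:ℝ) else 0)
      (fun a _ => by split_ifs <;> norm_num)
      (fun a b _ hab => by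
        have : a (.inl x) ≤ b (.inl x) := hab _
        split_ifs with h1 h2
        · exact le_rfl
        · exact absurd (h1.trans this) h2
        · norm_num
        · exact le_rfl)).congr fun h => rfl
  have key := mono_heights G hc' hcc (dom_pinU hB x q) (by
    intro p hp a ha
    have : 0 ≤ a ∧ (∀ v ∈ B', a (.inl v) = 0) ∧ a (.inl x) ≤ q := by
      by_contra h
      exact ha (by unfold pinU; exact if_neg h)
    exact ⟨this.2.1 _ (hpin p hp).1, this.2.1 _ (hpin p hp).2⟩) M hM (IncAv.of_mpos G hΦ)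
  have e1 : ∀ (c : P → ℝ) (B : Set V), S G c (pinU B x q) M (fun _ => 1) =
      Zabs G c M B (fun h => |h (.inl x)| ≤ q) := by
    intro c B
    have := S_pinU G c M B x q (fun _ => True)
    simpa using this
  rw [e1, e1, S_pinU, S_pinU] at key
  exact key

/-- **`ρ' ≤ ρ`** : `Z'(|h_x| = 2) Z(h_x = 0) ≤ Z'(h_x = 0) Z(|h_x| = 2)`. -/
theorem rho_mono (G : Geo V F P) {c c' : P → ℝ} (hc' : ∀ p, 1 ≤ c' p) (hcc : ∀ p, c' p ≤ c p)
    {B B' : Set V} (hB : B ⊆ B')
    (hpin : ∀ p, c' p ≠ c p → G.v₁ p ∈ B' ∧ G.v₂ p ∈ B')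
    (M : V ⊕ F → ℤ) (hM : 0 ≤ M) (x : V) :
    Zabs G c' M B' (fun h => |h (.inl x)| = 2) * Zabs G c M B (fun h => h (.inl x) = 0) ≤
      Zabs G c' M B' (fun h => h (.inl x) = 0) * Zabs G c M B (fun h => |h (.inl x)| = 2) := by
  classical
  have key := ratio_mono G hc' hcc hB hpin M hM x 2 2
  have split : ∀ (c : P → ℝ) (B : Set V), Zabs G c M B (fun h => |h (.inl x)| ≤ 2) =
      Zabs G c M B (fun h => h (.inl x) = 0) + Zabs G c M B (fun h => |h (.inl x)| = 2) := by
    intro c B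
    unfold Zabs
    rw [Finset.sum_filter, Finset.sum_filter, Finset.sum_filter, ← Finset.sum_add_distrib]
    refine Finset.sum_congr rfl fun h _ => ?_
    beta_reduce
    by_cases hv : G.Valid h
    swap
    · have : G.W c h = 0 := by unfold Geo.W; rw [if_neg hv]
      simp [this]
    have hev := hv.1 x
    by_cases hb : ∀ v ∈ B, h (.inl v) = 0
    swap
    · rw [if_neg (fun h' => hb h'.1), if_neg (fun h' => hb h'.1), if_neg (fun h' => hb h'.1)]; ring
    by_cases h0 : h (.inl x) = 0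
    · rw [if_pos ⟨hb, by rw [h0]; norm_num⟩, if_pos ⟨hb, h0⟩, if_neg (fun h' => by
        have := h'.2; rw [h0] at this; norm_num at this)]
      ring
    · by_cases h2 : |h (.inl x)| = 2
      · rw [if_pos ⟨hb, h2.le⟩, if_neg (fun h' => h0 h'.2), if_pos ⟨hb, h2⟩]; ring
      · rw [if_neg (fun h' => ?_), if_neg (fun h' => h0 h'.2), if_neg (fun h' => h2 h'.2)]
        · ring
        · obtain ⟨r, hr⟩ := hev
          have h3 := h'.2
          rw [abs_le] at h3
          rcases abs_cases (h (.inl x)) with ⟨h4, h5⟩ | ⟨h4, h5⟩ <;> omega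
  have eq2 : ∀ (c : P → ℝ) (B : Set V),
      Zabs G c M B (fun h => |h (.inl x)| ≤ 2 ∧ 2 ≤ |h (.inl x)|) =
      Zabs G c M B (fun h => |h (.inl x)| = 2) := by
    intro c B
    have : (fun h : V ⊕ F → ℤ => |h (.inl x)| ≤ 2 ∧ 2 ≤ |h (.inl x)|) =
        (fun h => |h (.inl x)| = 2) := by
      funext h
      exact propext ⟨fun h' => le_antisymm h'.1 h'.2, fun h' => ⟨h'.le, h'.ge⟩⟩
    rw [this]
  rw [split, split, eq2, eq2] at key
  nlinarith [key]

end Crest.Agent.R161.Rho375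
end

-- ▼ part R161/Rho_770
section

/-!
# Monotonicity of `ρ = z_2 / z_0` in the annulus (helper770, R161 block E: E3)

* `sum_cutB` : factorisation of `confB F b` at a cut set `C` at height `0`.
* `rho_sub` : removing a face set `C` attached to the zero boundary class decreases `z_2/z_0`.
* `rho_annulus` : `ρ (D₀ \ H) ≤ ρ (F \ D')` for `D' ⊆ H`, `D₀ ⊆ F`.
-/

set_option autoImplicit false

noncomputable section

namespace Crest.Agent.R161.Ann770

open Finset Crest.Agent.R161.Geo729 Crest.Agent.R161.Defs372 Crest.Agent.R161.Dmp341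
open Crest.Agent.R161.Hts375 Crest.Agent.R161.Rho375

/-! ### factorisation at a zero cut set -/

open Classical in
/-- boundary heights after removing `C` -/
def bC (C : Finset P2) (b : P2 → ℤ) (v : P2) : ℤ := if tch C v then 0 else b v

section fac

variable {A C : Finset P2} {b : P2 → ℤ}

/-- hypothesis: vertices touching `C` are interior to `A` or have zero boundary height -/
def Att (C A : Finset P2) (b : P2 → ℤ) : Prop :=
  C ⊆ A ∧ ∀ v, tch C v = true → v ∉ intVerts A → b v = 0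

theorem cutAt_confC {α : Cfg} (hα : ValidB (A \ C) (bC C b) α) : CutAt C 0 α where
  even := Even.zero
  cut := fun e he => hα.cut e fun h => by
    rw [mem_intEdges, Finset.mem_sdiff, Finset.mem_sdiff] at h
    rw [mem_bdE] at he
    tauto
  ht := fun v hv => by
    have ht : tch C v = true := tch_iff.2 (mem_bdV.1 hv).1
    rw [hα.bdry v (fun h => not_tch_of_intVerts_sdiff h ht)]
    simp [bC, ht]

theorem validB_glueC (hatt : Att C A b) {α β : Cfg} (hα : ValidB (A \ C) (bC C b) α)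
    (hβ : Valid C β) : ValidB A b (glue C 0 α β) where
  bdry := fun v hv => by
    have hv' : v ∉ intVerts C := fun h' => hv (intVerts_mono hatt.1 h')
    simp only [glue, hv', if_false]
    have hv'' : v ∉ intVerts (A \ C) := fun h => hv (intVerts_mono Finset.sdiff_subset h)
    rw [hα.bdry v hv'']
    unfold bC
    split_ifs with ht
    · exact (hatt.2 v ht hv).symm
    · rfl
  even := fun v => by
    by_cases hv : v ∈ intVerts C
    · simp only [glue, hv, if_true]
      simpa using hβ.even v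
    · simp only [glue, hv, if_false]
      exact hα.even v
  off := fun f hf => by
    have hf' : f ∉ C := fun h' => hf (hatt.1 h')
    have hf'' : f ∉ A \ C := fun h => hf (Finset.mem_sdiff.1 h).1
    simp only [glue, hf', if_false]
    exact hα.off f hf''
  corner := fun f hf v hv => by
    by_cases hf' : f ∈ C
    · by_cases hv' : v ∈ intVerts C
      · simp only [glue, hv', hf', if_true]
        have := hβ.corner f hf' v hv
        simpa using this
      · simp only [glue, hv', hf', if_true, if_false]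
        have h1 := hβ.corner f hf' v hv
        rw [hβ.zero v hv'] at h1
        rw [(cutAt_confC hα).ht v (mem_bdV.2 ⟨⟨f, hf', hv⟩, hv'⟩)]
        simpa using h1
    · have hv' : v ∉ intVerts C := fun h' => hf' (corner_mem_of_int h' hv)
      simp only [glue, hv', hf', if_false]
      exact hα.corner f (Finset.mem_sdiff.2 ⟨hf, hf'⟩) v hv
  cut := fun e he => by
    have he' : e ∉ intEdges C := fun h' => he (intEdges_mono hatt.1 h')
    simp only [glue, he', if_false]
    exact hα.cut e fun h => he (intEdges_mono Finset.sdiff_subset h)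

/-- the outer part of a configuration -/
def outC (C A : Finset P2) (b : P2 → ℤ) (ω : Cfg) : Cfg :=
  (fun v => if v ∈ intVerts (A \ C) then ω.1 v else bC C b v,
   fun f => if f ∈ A \ C then ω.2.1 f else 1,
   fun e => if e ∈ intEdges (A \ C) then ω.2.2 e else true)

theorem validB_outC (hb : ∀ v, Even (b v)) {ω : Cfg} (h : ValidB A b ω) (hc : CutAt C 0 ω) :
    ValidB (A \ C) (bC C b) (outC C A b ω) where
  bdry := fun v hv => by simp only [outC, hv, if_false]
  even := fun v => by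
    by_cases hv : v ∈ intVerts (A \ C)
    · simp only [outC, hv, if_true]; exact h.even v
    · simp only [outC, hv, if_false]
      unfold bC
      split_ifs
      · exact Even.zero
      · exact hb v
  off := fun f hf => by simp only [outC, hf, if_false]
  corner := fun f hf v hv => by
    obtain ⟨hfF, hfD⟩ := Finset.mem_sdiff.1 hf
    by_cases hv' : v ∈ intVerts (A \ C)
    · simp only [outC, hv', hf, if_true]
      exact h.corner f hfF v hv
    · simp only [outC, hv', hf, if_true, if_false]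
      have h1 := h.corner f hfF v hv
      by_cases ht : tch C v = true
      · have hvD : v ∉ intVerts C := fun h' => hfD (corner_mem_of_int h' hv)
        rw [hc.ht v (mem_bdV.2 ⟨tch_iff.1 ht, hvD⟩)] at h1
        simpa [bC, ht] using h1
      · have hvF : v ∉ intVerts A := fun h' => hv' (intVerts_sdiff_of h' ht)
        rw [h.bdry v hvF] at h1
        simpa [bC, ht] using h1
  cut := fun e he => by simp only [outC, he, if_false]

theorem valid_insC (hatt : Att C A b) {ω : Cfg} (h : ValidB A b ω) (hc : CutAt C 0 ω) :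
    Valid C (ins C 0 ω) where
  zero := fun v hv => by simp [ins, hv]
  even := fun v => by
    by_cases hv : v ∈ intVerts C
    · simp only [ins, hv, if_true]
      simpa using h.even v
    · simp [ins, hv]
  off := fun f hf => by simp [ins, hf]
  corner := fun f hf v hv => by
    by_cases hv' : v ∈ intVerts C
    · simp only [ins, hv', hf, if_true]
      have := h.corner f (hatt.1 hf) v hv
      simpa using this
    · simp only [ins, hv', hf, if_true, if_false]
      have h1 := h.corner f (hatt.1 hf) v hv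
      rw [hc.ht v (mem_bdV.2 ⟨⟨f, hf, hv⟩, hv'⟩)] at h1
      simpa using h1
  cut := fun e he => by simp [ins, he]

theorem glue_outC {ω : Cfg} (h : ValidB A b ω) (hc : CutAt C 0 ω) :
    glue C 0 (outC C A b ω) (ins C 0 ω) = ω := by
  refine Prod.ext ?_ (Prod.ext ?_ ?_)
  · funext v
    by_cases hv : v ∈ intVerts C
    · simp [ins, glue, hv]
    · by_cases hv' : v ∈ intVerts (A \ C)
      · simp [glue, hv, outC, hv']
      · simp only [glue, hv, outC, hv', if_false]
        by_cases ht : tch C v = true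
        · rw [hc.ht v (mem_bdV.2 ⟨tch_iff.1 ht, hv⟩)]
          simp [bC, ht]
        · rw [h.bdry v (fun h' => hv' (intVerts_sdiff_of h' ht))]
          simp [bC, ht]
  · funext f
    by_cases hf : f ∈ C
    · simp [ins, glue, hf]
    · by_cases hf' : f ∈ A
      · simp [glue, hf, outC, hf']
      · simp [glue, hf, outC, hf', h.off f hf']
  · funext e
    by_cases he : e ∈ intEdges C
    · simp [ins, glue, he]
    · by_cases he' : e ∈ intEdges (A \ C)
      · simp [glue, he, outC, he']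
      · simp only [glue, he, outC, he', if_false]
        by_cases heF : e ∈ intEdges A
        · have hb : e ∈ bdE C := by
            rw [mem_bdE]
            rw [mem_intEdges] at he he' heF
            simp only [Finset.mem_sdiff] at he'
            tauto
          rw [hc.cut e hb]
        · rw [h.cut e heF]

theorem outC_glue {α : Cfg} (β : Cfg) (hα : ValidB (A \ C) (bC C b) α) :
    outC C A b (glue C 0 α β) = α := by
  refine Prod.ext ?_ (Prod.ext ?_ ?_)
  · funext v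
    by_cases hv : v ∈ intVerts (A \ C)
    · have hv' : v ∉ intVerts C := fun h => not_tch_of_intVerts_sdiff hv (tch_of_intVerts h)
      simp [outC, glue, hv, hv']
    · simp only [outC, hv, if_false]
      exact (hα.bdry v hv).symm
  · funext f
    by_cases hf : f ∈ A \ C
    · have hf' : f ∉ C := (Finset.mem_sdiff.1 hf).2
      simp only [outC, hf, if_true, glue, hf', if_false]
    · simp only [outC, hf, if_false]
      exact (hα.off f hf).symm
  · funext e
    by_cases he : e ∈ intEdges (A \ C)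
    · have he' : e ∉ intEdges C := by
        rw [mem_intEdges] at he ⊢
        simp only [Finset.mem_sdiff] at he
        tauto
      simp only [outC, he, if_true, glue, he', if_false]
    · simp only [outC, he, if_false]
      exact (hα.cut e he).symm

theorem bdE_ends {C : Finset P2} {e : Edge} (hb : e ∈ bdE C) : src e ∈ bdV C ∧ tgt e ∈ bdV C := by
  have h0 : e ∉ intEdges C := not_intEdges_of_bdE hb
  rw [mem_bdE] at hb
  constructor
  · rw [mem_bdV]
    refine ⟨?_, (not_int_of_not_intEdges h0).1⟩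
    by_cases h1 : fA e ∈ C
    · exact ⟨_, h1, Dmp341.isCorner_src_fA e⟩
    · exact ⟨fB e, by tauto, Dmp341.isCorner_src_fB e⟩
  · rw [mem_bdV]
    refine ⟨?_, (not_int_of_not_intEdges h0).2⟩
    by_cases h1 : fA e ∈ C
    · exact ⟨_, h1, Dmp341.isCorner_tgt_fA e⟩
    · exact ⟨fB e, by tauto, Dmp341.isCorner_tgt_fB e⟩

theorem wtOut_eqC {c : ℝ} {α : Cfg} (hα : ValidB (A \ C) (bC C b) α) :
    wtOut c A C α = wt c (A \ C) α := by
  have hsub : intEdges (A \ C) ⊆ intEdges A \ intEdges C := by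
    intro e he
    rw [Finset.mem_sdiff]
    refine ⟨intEdges_mono Finset.sdiff_subset he, ?_⟩
    rw [mem_intEdges] at he ⊢
    simp only [Finset.mem_sdiff] at he
    tauto
  unfold wtOut wt
  symm
  refine Finset.prod_subset hsub fun e he he' => ?_
  rw [Finset.mem_sdiff] at he
  have hb : e ∈ bdE C := by
    rw [mem_bdE]
    rw [mem_intEdges] at he'
    rw [mem_intEdges, mem_intEdges] at he
    simp only [Finset.mem_sdiff] at he'
    tauto
  have hc := cutAt_confC hα
  obtain ⟨hs, ht⟩ := bdE_ends hb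
  unfold ew
  rw [hc.cut e hb, hc.ht _ hs, hc.ht _ ht]
  simp

open Classical in
/-- configurations with boundary heights `b` which are cut at height `0` along `∂C` -/
def cutB (A C : Finset P2) (b : P2 → ℤ) : Finset Cfg := (confB A b).filter (CutAt C 0)

theorem mem_cutB {ω : Cfg} : ω ∈ cutB A C b ↔ ValidB A b ω ∧ CutAt C 0 ω := by
  simp [cutB, mem_confB]

theorem sum_cutB (c : ℝ) (hb : ∀ v, Even (b v)) (hatt : Att C A b) :
    ∑ ω ∈ cutB A C b, wt c A ω = ZB c (A \ C) (bC C b) * Z c C := by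
  unfold ZB Z
  rw [Finset.sum_mul_sum, ← Finset.sum_product']
  symm
  refine Finset.sum_nbij' (fun p => glue C 0 p.1 p.2) (fun ω => (outC C A b ω, ins C 0 ω))
    ?_ ?_ ?_ ?_ ?_
  · rintro ⟨α, β⟩ h
    rw [Finset.mem_product, mem_confB, mem_conf] at h
    exact mem_cutB.2 ⟨validB_glueC hatt h.1 h.2, cutAt_glue β (cutAt_confC h.1)⟩
  · intro ω h
    rw [mem_cutB] at h
    rw [Finset.mem_product, mem_confB, mem_conf]
    exact ⟨validB_outC hb h.1 h.2, valid_insC hatt h.1 h.2⟩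
  · rintro ⟨α, β⟩ h
    rw [Finset.mem_product, mem_confB, mem_conf] at h
    refine Prod.ext ?_ ?_
    · exact outC_glue β h.1
    · exact ins_glue α h.2
  · intro ω h
    rw [mem_cutB] at h
    exact glue_outC h.1 h.2
  · rintro ⟨α, β⟩ h
    rw [Finset.mem_product, mem_confB, mem_conf] at h
    rw [wt_glue hatt.1 (cutAt_confC h.1) h.2, wtOut_eqC h.1]

end fac

/-! ### relation with helper375's sums -/

/-- couplings equal to `1` on the cut edges -/
def cC (c : ℝ) (A C : Finset P2) (e : ↥(intEdges A)) : ℝ := if e.1 ∈ bdE C then 1 else c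

theorem sum_cutB_eq (c : ℝ) (A C : Finset P2) (b : P2 → ℤ) :
    ∑ ω ∈ cutB A C b, wt c A ω =
      ∑ w ∈ (HB A b).filter (fun w => ∀ v ∈ bdV C, w.1 v = 0),
        ∏ e ∈ intEdges A, if e ∈ bdE C then 1 else pw c w.1 w.2 e := by
  classical
  have key : ∀ w ∈ (HB A b).filter (fun w => ∀ v ∈ bdV C, w.1 v = 0),
      (∏ e ∈ intEdges A, if e ∈ bdE C then 1 else pw c w.1 w.2 e) =
      ∑ S ∈ (intEdges A \ bdE C).powerset, wt c A (w.1, w.2, fun e => decide (e ∉ S)) := by
    intro w hw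
    rw [Finset.mem_filter] at hw
    have hv := mem_HB.1 hw.1
    have h1 : (∏ e ∈ intEdges A, if e ∈ bdE C then 1 else pw c w.1 w.2 e) =
        ∏ e ∈ intEdges A \ bdE C, pw c w.1 w.2 e := by
      rw [Finset.prod_ite, Finset.prod_const_one, one_mul]
      refine Finset.prod_congr ?_ fun _ _ => rfl
      ext e
      simp only [Finset.mem_filter, Finset.mem_sdiff]
    have h2 : ∏ e ∈ intEdges A \ bdE C, pw c w.1 w.2 e = ∏ e ∈ intEdges A \ bdE C,
        (ew c (w.1, w.2, fun _ => false) e + ew c (w.1, w.2, fun _ => true) e) := by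
      refine Finset.prod_congr rfl fun e he => ?_
      rw [add_comm, ew_add c (b := b) (F := A) hv (Finset.mem_sdiff.1 he).1 (fun _ => true)
        (fun _ => false) rfl rfl]
    rw [h1, h2, Finset.prod_add]
    refine Finset.sum_congr rfl fun S hS => ?_
    rw [Finset.mem_powerset] at hS
    unfold wt
    have hS' : S ⊆ intEdges A := hS.trans Finset.sdiff_subset
    rw [← Finset.prod_sdiff hS', mul_comm]
    congr 1
    · -- edges not in `S`
      have hsub : (intEdges A \ bdE C) \ S ⊆ intEdges A \ S :=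
        Finset.sdiff_subset_sdiff Finset.sdiff_subset subset_rfl
      rw [← Finset.prod_subset hsub]
      · refine Finset.prod_congr rfl fun e he => ?_
        have : e ∉ S := (Finset.mem_sdiff.1 he).2
        unfold ew
        simp [this]
      · intro e he he'
        simp only [Finset.mem_sdiff, not_and, not_not] at he he'
        have hb : e ∈ bdE C := by
          by_contra hb
          exact he.2 (he' ⟨he.1, hb⟩)
        obtain ⟨hs, ht⟩ := bdE_ends hb
        unfold ew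
        simp [he.2, hw.2 _ hs, hw.2 _ ht]
    · refine Finset.prod_congr rfl fun e he => ?_
      unfold ew
      simp [he]
  rw [Finset.sum_congr rfl key, ← Finset.sum_product']
  refine Finset.sum_bij' (fun ω _ => ((ω.1, ω.2.1), (intEdges A).filter fun e => ω.2.2 e = false))
    (fun p _ => (p.1.1, p.1.2, fun e => decide (e ∉ p.2))) ?_ ?_ ?_ ?_ ?_
  · intro ω hω
    obtain ⟨hω1, hω2⟩ := mem_cutB.1 hω
    rw [Finset.mem_product]
    obtain ⟨h1, h2, h3, h4, _⟩ := hω1
    refine ⟨Finset.mem_filter.2 ⟨mem_HB.2 ⟨h1, h2, h3, h4⟩, hω2.ht⟩, Finset.mem_powerset.2 ?_⟩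
    intro e he
    rw [Finset.mem_filter] at he
    rw [Finset.mem_sdiff]
    refine ⟨he.1, fun hb => ?_⟩
    rw [hω2.cut e hb] at he
    exact absurd he.2 (by simp)
  · rintro ⟨w, S⟩ hp
    rw [Finset.mem_product] at hp
    obtain ⟨hp1, hp2⟩ := hp
    rw [Finset.mem_filter] at hp1
    rw [Finset.mem_powerset] at hp2
    obtain ⟨h1, h2, h3, h4⟩ := mem_HB.1 hp1.1
    refine mem_cutB.2 ⟨⟨h1, h2, h3, h4, fun e he => ?_⟩, Even.zero, fun e he => ?_, hp1.2⟩
    · have : e ∉ S := fun h => he (Finset.mem_sdiff.1 (hp2 h)).1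
      simp [this]
    · have : e ∉ S := fun h => (Finset.mem_sdiff.1 (hp2 h)).2 he
      simp [this]
  · intro ω hω
    have hc := (mem_cutB.1 hω).1.cut
    refine Prod.ext rfl (Prod.ext rfl ?_)
    funext e
    by_cases he : e ∈ intEdges A
    · cases hz : ω.2.2 e
      · simp [he, hz]
      · simp [he, hz]
    · simp [he, hc e he]
  · rintro ⟨w, S⟩ hp
    rw [Finset.mem_product] at hp
    refine Prod.ext rfl ?_
    ext e
    simp only [Finset.mem_filter, decide_eq_false_iff_not, not_not]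
    exact ⟨fun h => h.2, fun h => ⟨(Finset.mem_sdiff.1 (Finset.mem_powerset.1 hp.2 h)).1, h⟩⟩
  · intro ω hω
    have hc := (mem_cutB.1 hω).1.cut
    congr 1
    refine Prod.ext rfl (Prod.ext rfl ?_)
    funext e
    by_cases he : e ∈ intEdges A
    · cases hz : ω.2.2 e
      · simp [he, hz]
      · simp [he, hz]
    · simp [he, hc e he]

end Crest.Agent.R161.Ann770
end
end

-- ▼ part R161/Rho2_770
section

/-!
# Monotonicity of `ρ = z_2 / z_0`, continued (helper770, R161 block E: E3)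
-/

set_option autoImplicit false

noncomputable section

namespace Crest.Agent.R161.Ann770

open Finset Crest.Agent.R161.Geo729 Crest.Agent.R161.Defs372 Crest.Agent.R161.Dmp341
open Crest.Agent.R161.Hts375 Crest.Agent.R161.Rho375

/-- boundary heights: `Q` on the class `true`, `0` on the class `false` -/
def bQ (β : P2 → Bool) (Q : ℤ) (v : P2) : ℤ := if β v then Q else 0


theorem bQ_even {β : P2 → Bool} {Q : ℤ} (hQ : Even Q) (v : P2) : Even (bQ β Q v) := by
  unfold bQ
  split_ifs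
  · exact hQ
  · exact Even.zero

/-- pinned sites: the class `false` and the interior vertices on `∂C` -/
def Bpin (A C : Finset P2) : Set (↥(intVerts A) ⊕ Bool) :=
  {x | x = Sum.inr false ∨ ∃ v : ↥(intVerts A), x = Sum.inl v ∧ v.1 ∈ bdV C}

theorem zabs_eq (c : ℝ) (A C : Finset P2) (β : P2 → Bool)
    (hC : ∀ v ∈ bdV C, v ∉ intVerts A → β v = false) {Q : ℤ} (hQ : Even Q) {N : ℤ}
    (hN : hbB A (bQ β Q) ≤ N) (hQN : |Q| ≤ N) :
    Zabs (geo A β) (cC c A C) (fun _ => N) (Bpin A C) (fun h => h (Sum.inl (Sum.inr true)) = Q) =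
      ∑ ω ∈ cutB A C (bQ β Q), wt c A ω := by
  classical
  rw [sum_cutB_eq]
  unfold Zabs
  have hN0 : 0 ≤ N := (abs_nonneg Q).trans hQN
  set q : Bool → ℤ := fun x => if x then Q else 0 with hq
  have hbq : ∀ v, bQ β Q v = q (β v) := fun v => rfl
  have h1 : ∀ h : (↥(intVerts A) ⊕ Bool) ⊕ ↥A → ℤ, (geo A β).W (cC c A C) h =
      if (geo A β).Valid h then ∏ p, (geo A β).wp (cC c A C) h p else 0 := fun h => by
    unfold Geo.W
    congr
  simp only [h1]
  rw [← Finset.sum_filter]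
  symm
  refine Finset.sum_bij' (fun w _ => ofH A q w) (fun h _ => toH A β h) ?_ ?_ ?_ ?_ ?_
  · intro w hw
    rw [Finset.mem_filter] at hw
    obtain ⟨hw, hw0⟩ := hw
    have hv := mem_HB.1 hw
    have hω : ValidB A (bQ β Q) (w.1, w.2, fun _ => true) :=
      ⟨hv.bdry, hv.even, hv.off, hv.corner, fun _ _ => rfl⟩
    have key : ∀ u, (ofH A q w) (Sum.inl (vm A β u)) = w.1 u := by
      intro u
      by_cases hu : u ∈ intVerts A
      · rw [vm_of_mem A β hu]; rfl
      · rw [vm_of_not_mem A β hu, hv.bdry u hu]; rfl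
    rw [Finset.mem_filter, Finset.mem_filter, Finset.mem_Icc]
    have hb : ∀ x, |ofH A q w x| ≤ N := by
      intro x
      rcases x with (x | x) | x
      · exact (hω.abs_vert (mem_cornV_of_mem (Finset.mem_filter.1 x.2).1)).trans hN
      · show |q x| ≤ N
        cases x
        · simpa [hq] using hN0
        · simpa [hq] using hQN
      · exact (hω.abs_face x.1).trans hN
    refine ⟨⟨⟨fun x => (abs_le.1 (hb x)).1, fun x => (abs_le.1 (hb x)).2⟩, ?_, ?_⟩, ?_, ?_, ?_⟩
    · rintro x (rfl | ⟨v, rfl, hv'⟩)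
      · simp [ofH, hq]
      · exact hw0 _ hv'
    · simp [ofH, hq]
    · rintro (x | x)
      · exact hv.even _
      · show Even (q x)
        cases x
        · simp [hq]
        · simpa [hq] using hQ
    · intro f
      have h2 := hv.corner f.1 f.2 f.1 (by simp [Geo729.IsCorner])
      have h3 := hv.even f.1
      show Odd (w.2 f.1)
      rw [abs_eq (by norm_num)] at h2
      obtain ⟨r, hr⟩ := h3
      rcases h2 with h2 | h2
      · exact ⟨r - 1, by omega⟩
      · exact ⟨r, by omega⟩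
    · rintro v f ⟨u, hu, rfl⟩
      rw [key]
      exact hv.corner f.1 f.2 u hu
  · intro h hh
    rw [Finset.mem_filter, Finset.mem_filter] at hh
    obtain ⟨⟨_, h2, h2'⟩, h3, h4, h5⟩ := hh
    have hfalse : h (Sum.inl (Sum.inr false)) = 0 := h2 _ (Or.inl rfl)
    rw [Finset.mem_filter]
    refine ⟨mem_HB.2 ⟨fun v hv => ?_, fun v => h3 _, fun f hf => ?_, fun f hf v hv => ?_⟩,
      fun v hv => ?_⟩
    · show h (Sum.inl (vm A β v)) = bQ β Q v
      rw [vm_of_not_mem A β hv, hbq]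
      cases β v
      · simpa [hq] using hfalse
      · simpa [hq] using h2'
    · show (if hf : f ∈ A then h (Sum.inr ⟨f, hf⟩) else 1) = 1
      rw [dif_neg hf]
    · show |h (Sum.inl (vm A β v)) - (if hf : f ∈ A then h (Sum.inr ⟨f, hf⟩) else 1)| = 1
      rw [dif_pos hf]
      exact h5 _ _ ⟨v, hv, rfl⟩
    · show h (Sum.inl (vm A β v)) = 0
      by_cases hvi : v ∈ intVerts A
      · rw [vm_of_mem A β hvi]
        exact h2 _ (Or.inr ⟨⟨v, hvi⟩, rfl, hv⟩)
      · rw [vm_of_not_mem A β hvi, hC v hv hvi]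
        exact hfalse
  · intro w hw
    rw [Finset.mem_filter] at hw
    have hv := mem_HB.1 hw.1
    refine Prod.ext ?_ ?_
    · funext u
      show (ofH A q w) (Sum.inl (vm A β u)) = w.1 u
      by_cases hu : u ∈ intVerts A
      · rw [vm_of_mem A β hu]; rfl
      · rw [vm_of_not_mem A β hu, hv.bdry u hu]; rfl
    · funext f
      show (if hf : f ∈ A then ofH A q w (Sum.inr ⟨f, hf⟩) else 1) = w.2 f
      by_cases hf : f ∈ A
      · rw [dif_pos hf]; rfl
      · rw [dif_neg hf, hv.off f hf]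
  · intro h hh
    rw [Finset.mem_filter, Finset.mem_filter] at hh
    obtain ⟨⟨_, h2, h2'⟩, _⟩ := hh
    have hfalse : h (Sum.inl (Sum.inr false)) = 0 := h2 _ (Or.inl rfl)
    funext x
    rcases x with (x | x) | x
    · show h (Sum.inl (vm A β x.1)) = h (Sum.inl (Sum.inl x))
      rw [vm_of_mem A β x.2]
    · show q x = h (Sum.inl (Sum.inr x))
      cases x
      · simpa [hq] using hfalse.symm
      · simpa [hq] using h2'.symm
    · show (if hf : x.1 ∈ A then h (Sum.inr ⟨x.1, hf⟩) else 1) = h (Sum.inr x)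
      rw [dif_pos x.2]
  · intro w hw
    rw [Finset.mem_filter] at hw
    have hv := mem_HB.1 hw.1
    have key : ∀ u, (ofH A q w) (Sum.inl (vm A β u)) = w.1 u := by
      intro u
      by_cases hu : u ∈ intVerts A
      · rw [vm_of_mem A β hu]; rfl
      · rw [vm_of_not_mem A β hu, hv.bdry u hu]; rfl
    rw [← Finset.prod_coe_sort]
    refine Finset.prod_congr rfl fun e _ => ?_
    unfold Geo.wp pw cC
    have : (geo A β).Flat (ofH A q w) e ↔ w.1 (src e.1) = w.1 (tgt e.1) ∧ w.2 (fA e.1) = w.2 (fB e.1) := by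
      unfold Geo.Flat
      show (ofH A q w) (Sum.inl (vm A β (src e.1))) = (ofH A q w) (Sum.inl (vm A β (tgt e.1))) ∧ _ ↔ _
      rw [key, key]
      rfl
    by_cases hfl : w.1 (src e.1) = w.1 (tgt e.1) ∧ w.2 (fA e.1) = w.2 (fB e.1)
    · rw [if_pos hfl, if_pos (this.2 hfl)]
    · rw [if_neg hfl, if_neg (fun h => hfl (this.1 h))]
      simp

theorem cutB_empty (A : Finset P2) (b : P2 → ℤ) : cutB A ∅ b = confB A b := by
  classical
  ext ω
  rw [mem_cutB, mem_confB]
  refine ⟨fun h => h.1, fun h => ⟨h, Even.zero, fun e he => ?_, fun v hv => ?_⟩⟩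
  · rw [mem_bdE] at he; simp at he
  · rw [mem_bdV] at hv; simp at hv

theorem Zabs_two {V F P : Type*} [Fintype V] [Fintype F] [Fintype P] [DecidableEq V]
    [DecidableEq F] [DecidableEq P] (G : Geo V F P) (c : P → ℝ) (M : V ⊕ F → ℤ) (B : Set V) (x : V) :
    Zabs G c M B (fun h => |h (.inl x)| = 2) =
      Zabs G c M B (fun h => h (.inl x) = 2) + Zabs G c M B (fun h => h (.inl x) = -2) := by
  classical
  unfold Zabs
  rw [Finset.sum_filter, Finset.sum_filter, Finset.sum_filter, ← Finset.sum_add_distrib]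
  refine Finset.sum_congr rfl fun h _ => ?_
  beta_reduce
  have e : |h (.inl x)| = 2 ↔ h (.inl x) = 2 ∨ h (.inl x) = -2 := abs_eq (by norm_num)
  by_cases hb : ∀ v ∈ B, h (.inl v) = 0
  swap
  · rw [if_neg (fun h' => hb h'.1), if_neg (fun h' => hb h'.1), if_neg (fun h' => hb h'.1)]; ring
  by_cases h1 : h (.inl x) = 2
  · rw [if_pos ⟨hb, e.2 (Or.inl h1)⟩, if_pos ⟨hb, h1⟩, if_neg (fun h' => by
      have := h'.2; rw [h1] at this; norm_num at this)]
    ring
  · by_cases h2 : h (.inl x) = -2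
    · rw [if_pos ⟨hb, e.2 (Or.inr h2)⟩, if_neg (fun h' => h1 h'.2), if_pos ⟨hb, h2⟩]; ring
    · rw [if_neg (fun h' => (e.1 h'.2).elim h1 h2), if_neg (fun h' => h1 h'.2),
        if_neg (fun h' => h2 h'.2)]; ring

/-- **Removing a face set attached to the zero class decreases `z_2 / z_0`.** -/
theorem rho_sub {c : ℝ} (hc : 1 ≤ c) {A C : Finset P2} {β : P2 → Bool} (hCA : C ⊆ A)
    (hatt : ∀ v, tch C v = true → v ∉ intVerts A → β v = false) :
    zQ c (A \ C) (fun v => β v && !tch C v) 2 * zQ c A β 0 ≤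
      zQ c (A \ C) (fun v => β v && !tch C v) 0 * zQ c A β 2 := by
  classical
  set N : ℤ := hbB A (bQ β 0) + hbB A (bQ β 2) + hbB A (bQ β (-2)) + 2 with hN
  have hh : ∀ b : P2 → ℤ, 0 ≤ hbB A b := fun b => by
    unfold hbB
    have := bS_nonneg A b
    positivity
  have a1 := hh (bQ β 0)
  have a2 := hh (bQ β 2)
  have a3 := hh (bQ β (-2))
  have hbdV : ∀ v ∈ bdV C, v ∉ intVerts A → β v = false := fun v hv hvi =>
    hatt v (tch_iff.2 (mem_bdV.1 hv).1) hvi
  have hAtt : ∀ Q, Att C A (bQ β Q) := fun Q => ⟨hCA, fun v hv hvi => by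
    unfold bQ; simp [hatt v hv hvi]⟩
  -- values with `C`
  have v1 : ∀ Q : ℤ, Even Q → hbB A (bQ β Q) ≤ N → |Q| ≤ N →
      Zabs (geo A β) (cC c A C) (fun _ => N) (Bpin A C)
        (fun h => h (Sum.inl (Sum.inr true)) = Q) =
        zQ c (A \ C) (fun v => β v && !tch C v) Q * Z c C := by
    intro Q hQ h1 h2
    rw [zabs_eq c A C β hbdV hQ h1 h2, sum_cutB c (fun v => bQ_even hQ v) (hAtt Q)]
    congr 1
    unfold zQ
    congr 1
    funext v
    unfold bC bQ
    beta_reduce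
    cases tch C v <;> cases β v <;> simp
  -- values without `C`
  have v2 : ∀ Q : ℤ, Even Q → hbB A (bQ β Q) ≤ N → |Q| ≤ N →
      Zabs (geo A β) (cC c A ∅) (fun _ => N) (Bpin A ∅)
        (fun h => h (Sum.inl (Sum.inr true)) = Q) = zQ c A β Q := by
    intro Q hQ h1 h2
    rw [zabs_eq c A ∅ β (fun v hv => by rw [mem_bdV] at hv; simp at hv) hQ h1 h2, cutB_empty]
    rfl
  have key := rho_mono (geo A β) (c := cC c A ∅) (c' := cC c A C)
    (fun p => by unfold cC; split_ifs <;> first | exact le_rfl | exact hc)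
    (fun p => by
      have hp : p.1 ∉ bdE (∅ : Finset P2) := by rw [mem_bdE]; simp
      unfold cC
      rw [if_neg hp]
      split_ifs
      · exact hc
      · exact le_rfl)
    (B := Bpin A ∅) (B' := Bpin A C)
    (fun x hx => by
      rcases hx with hx | ⟨v, hx, hv⟩
      · exact Or.inl hx
      · rw [mem_bdV] at hv; simp at hv)
    (fun p hp => by
      have hb : p.1 ∈ bdE C := by
        by_contra hb
        apply hp
        have hp' : p.1 ∉ bdE (∅ : Finset P2) := by rw [mem_bdE]; simp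
        unfold cC
        rw [if_neg hb, if_neg hp']
      obtain ⟨hs, ht⟩ := bdE_ends hb
      have aux : ∀ v, v ∈ bdV C → vm A β v ∈ Bpin A C := by
        intro v hv
        by_cases hvi : v ∈ intVerts A
        · rw [vm_of_mem A β hvi]
          exact Or.inr ⟨⟨v, hvi⟩, rfl, hv⟩
        · rw [vm_of_not_mem A β hvi, hbdV v hv hvi]
          exact Or.inl rfl
      exact ⟨aux _ hs, aux _ ht⟩)
    (fun _ => N) (fun _ => by show (0 : ℤ) ≤ N; linarith) (Sum.inr true)
  rw [Zabs_two, Zabs_two, v1 2 even_two (by linarith) (by norm_num; linarith),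
    v1 (-2) even_two.neg (by linarith) (by norm_num; linarith),
    v1 0 Even.zero (by linarith) (by norm_num; linarith),
    v2 2 even_two (by linarith) (by norm_num; linarith),
    v2 (-2) even_two.neg (by linarith) (by norm_num; linarith),
    v2 0 Even.zero (by linarith) (by norm_num; linarith), zQ_neg, zQ_neg] at key
  have hZ := Z_pos hc C
  have h4 : (zQ c (A \ C) (fun v => β v && !tch C v) 2 * zQ c A β 0) * (2 * Z c C) ≤
      (zQ c (A \ C) (fun v => β v && !tch C v) 0 * zQ c A β 2) * (2 * Z c C) := by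
    linarith
  exact le_of_mul_le_mul_right h4 (by linarith)

theorem zQ_congr (c : ℝ) (A : Finset P2) {β β' : P2 → Bool} {Q : ℤ} (hQ : Even Q)
    (h : ∀ v ∈ cornV A, v ∉ intVerts A → β v = β' v) : zQ c A β Q = zQ c A β' Q :=
  ZB_congr c A (fun v => bQ_even hQ v) (fun v => bQ_even hQ v) fun v hv hvi => by
    show (if β v then Q else 0) = (if β' v then Q else 0)
    rw [h v hv hvi]

/-- exchanging the two classes -/
theorem zQ_swap (c : ℝ) (A : Finset P2) (β : P2 → Bool) {Q : ℤ} (hQ : Even Q) :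
    zQ c A (fun v => !β v) Q = zQ c A β Q := by
  have h1 : zQ c A β Q = ZB c A (fun v => (if β v then Q else 0) + -Q) := (ZB_shift c A _ hQ.neg).symm
  have h2 : (fun v => (if β v then Q else 0) + -Q) = fun v => -(if (!β v) = true then Q else 0) := by
    funext v
    cases β v <;> simp
  rw [h1, h2, ZB_neg]
  rfl

/-- outer step -/
theorem rho_outer {c : ℝ} (hc : 1 ≤ c) {H D F : Finset P2} (hHD : Sep H D) (hDF : D ⊆ F) :
    zQ c (D \ H) (tch H) 2 * zQ c (F \ H) (tch H) 0 ≤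
      zQ c (D \ H) (tch H) 0 * zQ c (F \ H) (tch H) 2 := by
  have hsub : F \ D ⊆ F \ H := Finset.sdiff_subset_sdiff subset_rfl hHD.sub
  have key := rho_sub hc (A := F \ H) (C := F \ D) (β := tch H) hsub (by
    intro v hv _
    by_contra hne
    have hH : tch H v = true := by simpa using hne
    obtain ⟨f, hf, hvf⟩ := tch_iff.1 hv
    exact (Finset.mem_sdiff.1 hf).2 (corner_mem_of_int (hHD v hH) hvf))
  have e1 : (F \ H) \ (F \ D) = D \ H := by
    ext f
    simp only [Finset.mem_sdiff]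
    constructor
    · rintro ⟨⟨h1, h2⟩, h3⟩
      exact ⟨by by_contra h4; exact h3 ⟨h1, h4⟩, h2⟩
    · rintro ⟨h1, h2⟩
      exact ⟨⟨hDF h1, h2⟩, fun h3 => h3.2 h1⟩
  have e2 : (fun v => tch H v && !tch (F \ D) v) = tch H := by
    funext v
    cases hH : tch H v
    · rfl
    · have : tch (F \ D) v = false := by
        by_contra hne
        have h1 : tch (F \ D) v = true := by simpa using hne
        obtain ⟨f, hf, hvf⟩ := tch_iff.1 h1
        exact (Finset.mem_sdiff.1 hf).2 (corner_mem_of_int (hHD v hH) hvf)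
      rw [this]; rfl
  rw [e1, e2] at key
  exact key

/-- inner step -/
theorem rho_inner {c : ℝ} (hc : 1 ≤ c) {D' H F : Finset P2} (hDH : D' ⊆ H) (hHF : Sep H F) :
    zQ c (F \ H) (tch H) 2 * zQ c (F \ D') (tch D') 0 ≤
      zQ c (F \ H) (tch H) 0 * zQ c (F \ D') (tch D') 2 := by
  have hsub : H \ D' ⊆ F \ D' := Finset.sdiff_subset_sdiff hHF.sub subset_rfl
  have tmono : ∀ {S T : Finset P2}, S ⊆ T → ∀ {v}, tch S v = true → tch T v = true := by
    intro S T hST v hv
    obtain ⟨f, hf, hvf⟩ := tch_iff.1 hv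
    exact tch_iff.2 ⟨f, hST hf, hvf⟩
  have key := rho_sub hc (A := F \ D') (C := H \ D') (β := fun v => !tch D' v) hsub (by
    intro v hv hvi
    by_contra hne
    have hD : tch D' v = false := by simpa using hne
    have hH : tch H v = true := tmono Finset.sdiff_subset hv
    exact hvi (intVerts_sdiff_of (hHF v hH) (by rw [hD]; simp)))
  have e1 : (F \ D') \ (H \ D') = F \ H := by
    ext f
    simp only [Finset.mem_sdiff]
    constructor
    · rintro ⟨⟨h1, h2⟩, h3⟩
      exact ⟨h1, fun h4 => h3 ⟨h4, h2⟩⟩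
    · rintro ⟨h1, h2⟩
      exact ⟨⟨h1, fun h3 => h2 (hDH h3)⟩, fun h3 => h2 h3.1⟩
  rw [e1] at key
  -- replace the class functions
  have cls : ∀ Q : ℤ, Even Q → zQ c (F \ H) (fun v => (!tch D' v) && !tch (H \ D') v) Q =
      zQ c (F \ H) (tch H) Q := by
    intro Q hQ
    rw [← zQ_swap c (F \ H) (tch H) hQ]
    refine zQ_congr c _ hQ fun v hv hvi => ?_
    have : tch H v = (tch D' v || tch (H \ D') v) := by
      cases hH : tch H v
      · have h1 : tch D' v = false := by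
          by_contra hne
          have := tmono hDH (v := v) (by simpa using hne)
          rw [hH] at this; exact absurd this (by simp)
        have h2 : tch (H \ D') v = false := by
          by_contra hne
          have := tmono (Finset.sdiff_subset : H \ D' ⊆ H) (v := v) (by simpa using hne)
          rw [hH] at this; exact absurd this (by simp)
        rw [h1, h2]; rfl
      · obtain ⟨f, hf, hvf⟩ := tch_iff.1 hH
        by_cases hfD : f ∈ D'
        · rw [tch_iff.2 ⟨f, hfD, hvf⟩]; rfl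
        · rw [tch_iff.2 ⟨f, Finset.mem_sdiff.2 ⟨hf, hfD⟩, hvf⟩]; simp
    rw [this]
    cases tch D' v <;> cases tch (H \ D') v <;> rfl
  rw [cls 2 even_two, cls 0 Even.zero, zQ_swap c (F \ D') (tch D') even_two,
    zQ_swap c (F \ D') (tch D') Even.zero] at key
  exact key

/-- **(E3)** `ρ (D \ H) ≤ ρ (F \ D')` for `D' ⊆ H`, `D ⊆ F`. -/
theorem rho_annulus {c : ℝ} (hc : 1 ≤ c) {D' H D F : Finset P2} (hDH : D' ⊆ H) (hHD : Sep H D)
    (hDF : D ⊆ F) :
    zQ c (D \ H) (tch H) 2 * zQ c (F \ D') (tch D') 0 ≤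
      zQ c (D \ H) (tch H) 0 * zQ c (F \ D') (tch D') 2 := by
  have hHF : Sep H F := fun v hv => intVerts_mono hDF (hHD v hv)
  have h1 := rho_outer hc hHD hDF
  have h2 := rho_inner hc hDH hHF
  have p0 := zQ_zero_pos hc (F \ H) (tch H)
  have n1 := zQ_nonneg hc (D \ H) (tch H) 0
  have n2 := zQ_nonneg hc (F \ D') (tch D') 0
  have h3 : (zQ c (D \ H) (tch H) 2 * zQ c (F \ D') (tch D') 0) * zQ c (F \ H) (tch H) 0 ≤
      (zQ c (D \ H) (tch H) 0 * zQ c (F \ D') (tch D') 2) * zQ c (F \ H) (tch H) 0 := by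
    calc (zQ c (D \ H) (tch H) 2 * zQ c (F \ D') (tch D') 0) * zQ c (F \ H) (tch H) 0
        = (zQ c (D \ H) (tch H) 2 * zQ c (F \ H) (tch H) 0) * zQ c (F \ D') (tch D') 0 := by ring
      _ ≤ (zQ c (D \ H) (tch H) 0 * zQ c (F \ H) (tch H) 2) * zQ c (F \ D') (tch D') 0 :=
          mul_le_mul_of_nonneg_right h1 n2
      _ = zQ c (D \ H) (tch H) 0 * (zQ c (F \ H) (tch H) 2 * zQ c (F \ D') (tch D') 0) := by ring
      _ ≤ zQ c (D \ H) (tch H) 0 * (zQ c (F \ H) (tch H) 0 * zQ c (F \ D') (tch D') 2) :=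
          mul_le_mul_of_nonneg_left h2 n1
      _ = _ := by ring
  exact le_of_mul_le_mul_right h3 p0

end Crest.Agent.R161.Ann770
end
end

-- ▼ part R161/Two_770
section

/-!
# Two-sided factorisation and the good pair (helper770, R161 block E: F2)

* `two_sided` : `P_F (DF = D, DI = D', level D' - level D = Q) = P_F (DF = D) · P_{D'} (DI = D') ·
  zQ c (D \ D') (tch D') Q · Z c D' / Z c D`.
* `good_pair` : if the heights of the inner and of the outer hull agree with conditional probability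
  `≤ θ`, then for some pair of hulls `z_0 ≤ θ ∑ z_{2k}`.
-/

set_option autoImplicit false

noncomputable section

namespace Crest.Agent.R161.Ann770

open Finset hiding box
open Crest.Agent.R161.Geo729 Crest.Agent.R161.Defs372 Crest.Agent.R161.Dmp341
open Crest.Agent.R161.Hull374 Crest.Agent.R161.Dual374 Crest.Agent.R161.Ifc372
open Crest.Agent.R161.Exp760 (DF doms mem_doms)
open Crest.Agent.R161.Out868

/-! ### geometry of nested hulls -/

theorem sep_of_balls {x : P2} {m n : ℕ} (hmn : m + 1 ≤ n) {D' D : Finset P2} (hD' : D' ⊆ ball x m)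
    (hD : ball x n ⊆ D) : Sep D' D := by
  intro v hv
  obtain ⟨f, hf, hvf⟩ := tch_iff.1 hv
  have h1 := hD' hf
  rw [Out868.mem_ball] at h1
  rw [mem_intVerts, intV_iff]
  intro g hg
  refine Finset.mem_coe.2 (hD ?_)
  rw [Out868.mem_ball]
  obtain ⟨a, b⟩ := v
  obtain ⟨f1, f2⟩ := f
  obtain ⟨g1, g2⟩ := g
  simp only [Geo729.IsCorner, Prod.mk.injEq] at hvf hg
  simp only at h1 ⊢
  omega

theorem bdV_sub_int {D' D : Finset P2} (h : Sep D' D) {v : P2} (hv : v ∈ bdV D') : v ∈ intVerts D :=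
  h v (tch_iff.2 (mem_bdV.1 hv).1)

theorem bdE_sub_int {D' D : Finset P2} (h : Sep D' D) {e : Edge} (he : e ∈ bdE D') :
    e ∈ intEdges D := by
  obtain ⟨h1, _⟩ := bdE_ends he
  have h2 := bdV_sub_int h h1
  exact mem_intEdges.2 ⟨corner_mem_of_int h2 (Dmp341.isCorner_src_fA e),
    corner_mem_of_int h2 (Dmp341.isCorner_src_fB e)⟩

theorem cutE_insL {D' D : Finset P2} (h : Sep D' D) (ω : Cfg) :
    CutE D' (insL D ω) ↔ CutE D' ω := by
  unfold CutE
  refine forall₂_congr fun e he => ?_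
  rw [insL_z, if_pos (bdE_sub_int h he)]

theorem DI_congr {x : P2} {n m : ℕ} {ω ω' : Cfg} (h : ∀ e, ω.2.2 e = ω'.2.2 e) :
    DI x n m ω = DI x n m ω' := by
  have : cutE ω = cutE ω' := by
    funext e
    unfold cutE
    rw [h e]
  unfold DI
  rw [this]

theorem DI_insL_insL {x : P2} {n m : ℕ} {D' D : Finset P2} (h : D' ⊆ D) (ω : Cfg) :
    DI x n m (insL D' (insL D ω)) = DI x n m (insL D' ω) := by
  refine DI_congr fun e => ?_
  have e1 := insL_z (D := D') (insL D ω) e
  have e2 := insL_z (D := D') ω e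
  rw [e1, e2]
  by_cases he : e ∈ intEdges D'
  · rw [if_pos he, if_pos he, insL_z, if_pos (intEdges_mono h he)]
  · rw [if_neg he, if_neg he]

theorem DI_insL {x : P2} {n m : ℕ} (hn : 1 ≤ n) {D' D : Finset P2} (h : Sep D' D)
    (hne : D'.Nonempty) (ω : Cfg) : DI x n m (insL D ω) = D' ↔ DI x n m ω = D' := by
  rw [DI_iff hn hne, DI_iff hn hne ω, cutE_insL h, DI_insL_insL h.sub]

theorem bdV_nonempty {D : Finset P2} (h : D.Nonempty) : (bdV D).Nonempty :=
  let ⟨v, hv⟩ := Exp760.exists_bdV h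
  ⟨v, hv⟩

theorem level_insL {D' D : Finset P2} (h : Sep D' D) (hne : D'.Nonempty) (ω : Cfg) :
    level D' (insL D ω) = level D' ω - level D ω := by
  have hb := bdV_nonempty hne
  unfold level
  rw [dif_pos hb, dif_pos hb]
  have h1 := bdV_sub_int h hb.choose_spec
  show (insL D ω).1 hb.choose = _
  unfold insL ins
  simp only [h1, if_true]
  rfl

/-! ### the factorisation -/

open Classical in
/-- weight of a pair of hulls -/
def pairW (c : ℝ) (F : Finset P2) (x : P2) (n₁ m₁ m₂ : ℕ) (D' D : Finset P2) : ℝ :=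
  E c F (fun ω => if DF (ball x m₂) x ω = D then (1 : ℝ) else 0) * (Z c D' / Z c D) *
    E c D' (fun β => if DI x n₁ m₁ β = D' then (1 : ℝ) else 0)

theorem pairW_nonneg {c : ℝ} (hc : 1 ≤ c) (F : Finset P2) (x : P2) (n₁ m₁ m₂ : ℕ)
    (D' D : Finset P2) : 0 ≤ pairW c F x n₁ m₁ m₂ D' D := by
  classical
  unfold pairW
  refine mul_nonneg (mul_nonneg (E_nonneg hc fun ω _ => ?_)
    (div_nonneg (Z_pos hc _).le (Z_pos hc _).le)) (E_nonneg hc fun ω _ => ?_)
  · split_ifs <;> norm_num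
  · split_ifs <;> norm_num

open Classical in
theorem two_sided {c : ℝ} (hc : 1 ≤ c) {F : Finset P2} {x : P2} {n₁ m₁ n₂ m₂ : ℕ} (h1 : 1 ≤ n₁)
    (h12 : m₁ + 1 ≤ n₂) (hF : ball x m₂ ⊆ F) {D' D : Finset P2} (hD' : D' ∈ hulls x n₁ m₁)
    (hD : D ∈ hulls x n₂ m₂) {Q : ℤ} (hQ : Even Q) :
    E c F (fun ω => if DF (ball x m₂) x ω = D ∧ DI x n₁ m₁ ω = D' ∧
      level D' ω - level D ω = Q then 1 else 0) =
      pairW c F x n₁ m₁ m₂ D' D * zQ c (D \ D') (tch D') Q := by
  have hn2 : 1 ≤ n₂ := by omega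
  obtain ⟨hD'1, hD'2, hD'3⟩ := mem_doms.1 hD'
  obtain ⟨hD1, hD2, hD3⟩ := mem_doms.1 hD
  have hsep : Sep D' D := sep_of_balls h12 hD'1 hD2
  have hne : D'.Nonempty := ⟨x, hD'2 (self_mem_ball h1)⟩
  have hout := outer_isHull c (F := F) (x := x) hn2 hF
  have hinn := inner_isHull c (F := D) (x := x) (n := n₁) (m := m₁) h1
    ((ball_mono x (by omega)).trans hD2)
  -- condition on the outer hull
  have s1 : E c F (fun ω => if DF (ball x m₂) x ω = D ∧ DI x n₁ m₁ ω = D' ∧
      level D' ω - level D ω = Q then (1 : ℝ) else 0) =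
      E c F (fun ω => if CutE D ω then (if DF (ball x m₂) x ω = D then (1 : ℝ) else 0) *
        (fun β => if DI x n₁ m₁ β = D' ∧ level D' β = Q then (1 : ℝ) else 0) (insL D ω) else 0) := by
    refine E_congr' fun ω hω hok => ?_
    have e1 := hout.iff D hD ω hω hok
    have e2 := DI_insL (x := x) (m := m₁) h1 hsep hne ω
    have e3 := level_insL hsep hne ω
    beta_reduce
    simp only [e2, e3]
    by_cases h3 : DF (ball x m₂) x ω = D
    · have h4 : CutE D ω := (e1.1 h3).1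
      simp only [h3, h4, true_and, if_true, one_mul]
    · simp [h3]
  have hg : OutLoc D (fun ω => if DF (ball x m₂) x ω = D then (1 : ℝ) else 0) := by
    intro ω ω' a1 a2 a3
    have := hout.out D hD ω ω' a1 a2 a3
    simp only [this]
  have s2 := E_cutE hc (hout.sub D hD) (hout.dom D hD) hg
    (f := fun β => if DI x n₁ m₁ β = D' ∧ level D' β = Q then (1 : ℝ) else 0)
  have s3 : E c F (fun ω => if CutE D ω then (if DF (ball x m₂) x ω = D then (1 : ℝ) else 0)
      else 0) = E c F (fun ω => if DF (ball x m₂) x ω = D then (1 : ℝ) else 0) := by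
    refine E_congr' fun ω hω hok => ?_
    have e1 := hout.iff D hD ω hω hok
    by_cases h3 : DF (ball x m₂) x ω = D
    · have h4 : CutE D ω := (e1.1 h3).1
      simp [h3, h4]
    · simp [h3]
  -- the inner hull inside `D`
  have s4 : E c D (fun β => if DI x n₁ m₁ β = D' ∧ level D' β = Q then (1 : ℝ) else 0) =
      E c D (fun β => if CutAt D' Q β then (1 : ℝ) *
        (fun γ => if DI x n₁ m₁ γ = D' then (1 : ℝ) else 0) (ins D' Q β) else 0) := by
    refine E_congr' fun β hβ hok => ?_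
    have e1 := hinn.iff D' hD' β hβ hok
    by_cases h3 : CutAt D' Q β
    · have h4 : level D' β = Q := h3.level_eq (bdV_nonempty hne)
      have h5 : insL D' β = ins D' Q β := by unfold insL; rw [h4]
      have h6 : (DI x n₁ m₁ β = D') ↔ DI x n₁ m₁ (ins D' Q β) = D' := by
        rw [e1, h5]
        simp [h3.cutE]
      simp only [h3, h4, h6, and_true, if_true, one_mul]
    · rw [if_neg h3, if_neg]
      rintro ⟨h4, h5⟩
      apply h3
      have h6 : CutE D' β := (e1.1 h4).1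
      have := cutAt_level (hinn.dom D' hD') hβ.even h6 hok
      rwa [h5] at this
  have s5 := E_cut hc hsep.sub Q (g := fun _ => (1 : ℝ))
    (f := fun γ => if DI x n₁ m₁ γ = D' then (1 : ℝ) else 0) (fun _ _ _ _ _ => rfl)
  have s6 : E c D (fun β => if CutAt D' Q β then (1 : ℝ) else 0) =
      zQ c (D \ D') (tch D') Q * Z c D' / Z c D := by
    rw [← pr_cutAt c hsep hQ]
    unfold Pr
    refine E_congr fun β _ => ?_
    by_cases h : CutAt D' Q β <;> simp [h]
  rw [s1, s2, s3, s4, s5, s6]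
  unfold pairW
  ring

/-! ### the good pair -/

open Classical in
/-- **Good pair.** -/
theorem good_pair {c : ℝ} (hc : 1 ≤ c) {F : Finset P2} {x : P2} {n₁ m₁ n₂ m₂ : ℕ} (h1 : 1 ≤ n₁)
    (h12 : m₁ + 1 ≤ n₂) (hF : ball x m₂ ⊆ F) {θ : ℝ}
    (hpos : 0 < E c F (fun ω => if DI x n₁ m₁ ω ∈ hulls x n₁ m₁ ∧ DF (ball x m₂) x ω ∈ hulls x n₂ m₂
      then 1 else 0))
    (hle : E c F (fun ω => if (DI x n₁ m₁ ω ∈ hulls x n₁ m₁ ∧ DF (ball x m₂) x ω ∈ hulls x n₂ m₂) ∧
      level (DI x n₁ m₁ ω) ω = level (DF (ball x m₂) x ω) ω then 1 else 0) ≤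
      θ * E c F (fun ω => if DI x n₁ m₁ ω ∈ hulls x n₁ m₁ ∧ DF (ball x m₂) x ω ∈ hulls x n₂ m₂
      then 1 else 0)) :
    ∃ D' ∈ hulls x n₁ m₁, ∃ D ∈ hulls x n₂ m₂, ∃ N : ℕ,
      zQ c (D \ D') (tch D') 0 ≤ θ * ∑ k ∈ Finset.Icc (-(N : ℤ)) N, zQ c (D \ D') (tch D') (2 * k) := by
  by_contra hcon
  push Not at hcon
  set N : ℕ := (hb F).toNat with hN
  have hbF : 0 ≤ hb F := by unfold hb; positivity
  have hNb : (N : ℤ) = hb F := Int.toNat_of_nonneg hbF
  -- decomposition of the total probability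
  have t1 : E c F (fun ω => if DI x n₁ m₁ ω ∈ hulls x n₁ m₁ ∧ DF (ball x m₂) x ω ∈ hulls x n₂ m₂
      then (1 : ℝ) else 0) = ∑ D' ∈ hulls x n₁ m₁, ∑ D ∈ hulls x n₂ m₂,
        pairW c F x n₁ m₁ m₂ D' D *
          ∑ k ∈ Finset.Icc (-(N : ℤ)) N, zQ c (D \ D') (tch D') (2 * k) := by
    have e1 : ∀ D' ∈ hulls x n₁ m₁, ∀ D ∈ hulls x n₂ m₂, pairW c F x n₁ m₁ m₂ D' D *
          ∑ k ∈ Finset.Icc (-(N : ℤ)) N, zQ c (D \ D') (tch D') (2 * k) =
        E c F (fun ω => ∑ k ∈ Finset.Icc (-(N : ℤ)) N, if DF (ball x m₂) x ω = D ∧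
          DI x n₁ m₁ ω = D' ∧ level D' ω - level D ω = 2 * k then (1 : ℝ) else 0) := by
      intro D' hD' D hD
      rw [E_sum, Finset.mul_sum]
      exact Finset.sum_congr rfl fun k _ => (two_sided hc h1 h12 hF hD' hD (even_two_mul k)).symm
    have e2 : ∑ D' ∈ hulls x n₁ m₁, ∑ D ∈ hulls x n₂ m₂,
        pairW c F x n₁ m₁ m₂ D' D *
          ∑ k ∈ Finset.Icc (-(N : ℤ)) N, zQ c (D \ D') (tch D') (2 * k) =
        ∑ D' ∈ hulls x n₁ m₁, ∑ D ∈ hulls x n₂ m₂,
        E c F (fun ω => ∑ k ∈ Finset.Icc (-(N : ℤ)) N, if DF (ball x m₂) x ω = D ∧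
          DI x n₁ m₁ ω = D' ∧ level D' ω - level D ω = 2 * k then (1 : ℝ) else 0) :=
      Finset.sum_congr rfl fun D' hD' => Finset.sum_congr rfl fun D hD => e1 D' hD' D hD
    rw [e2]
    simp only [← E_sum]
    refine E_congr fun ω hω => ?_
    by_cases hA : DI x n₁ m₁ ω ∈ hulls x n₁ m₁ ∧ DF (ball x m₂) x ω ∈ hulls x n₂ m₂
    · rw [if_pos hA, Finset.sum_eq_single (DI x n₁ m₁ ω), Finset.sum_eq_single (DF (ball x m₂) x ω)]
      · -- the level difference
        have hev : Even (level (DI x n₁ m₁ ω) ω - level (DF (ball x m₂) x ω) ω) :=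
          (even_level hω.even).sub (even_level hω.even)
        obtain ⟨r, hr⟩ := hev
        have hlev : ∀ D : Finset P2, |level D ω| ≤ hb F := by
          intro D
          unfold level
          split_ifs with h
          · exact hω.abs_vert _
          · simpa using hbF
        rw [Finset.sum_eq_single r]
        · rw [if_pos ⟨rfl, rfl, by rw [hr]; ring⟩]
        · intro k _ hk
          rw [if_neg]
          rintro ⟨_, _, h3⟩
          apply hk
          omega
        · intro hr'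
          exfalso
          apply hr'
          rw [Finset.mem_Icc, hNb]
          have a1 := abs_le.1 (hlev (DI x n₁ m₁ ω))
          have a2 := abs_le.1 (hlev (DF (ball x m₂) x ω))
          omega
      · intro D _ hD
        refine Finset.sum_eq_zero fun k _ => ?_
        rw [if_neg (fun h => hD h.1.symm)]
      · intro h; exact absurd hA.2 h
      · intro D' _ hD'
        refine Finset.sum_eq_zero fun D _ => Finset.sum_eq_zero fun k _ => ?_
        rw [if_neg (fun h => hD' h.2.1.symm)]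
      · intro h; exact absurd hA.1 h
    · rw [if_neg hA]
      symm
      refine Finset.sum_eq_zero fun D' hD' => Finset.sum_eq_zero fun D hD =>
        Finset.sum_eq_zero fun k _ => ?_
      rw [if_neg]
      rintro ⟨h3, h4, _⟩
      exact hA ⟨by rw [h4]; exact hD', by rw [h3]; exact hD⟩
  have t0 : E c F (fun ω => if (DI x n₁ m₁ ω ∈ hulls x n₁ m₁ ∧ DF (ball x m₂) x ω ∈ hulls x n₂ m₂) ∧
      level (DI x n₁ m₁ ω) ω = level (DF (ball x m₂) x ω) ω then (1 : ℝ) else 0) =
      ∑ D' ∈ hulls x n₁ m₁, ∑ D ∈ hulls x n₂ m₂,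
        pairW c F x n₁ m₁ m₂ D' D * zQ c (D \ D') (tch D') 0 := by
    have e2 : ∑ D' ∈ hulls x n₁ m₁, ∑ D ∈ hulls x n₂ m₂,
        pairW c F x n₁ m₁ m₂ D' D * zQ c (D \ D') (tch D') 0 =
        ∑ D' ∈ hulls x n₁ m₁, ∑ D ∈ hulls x n₂ m₂,
        E c F (fun ω => if DF (ball x m₂) x ω = D ∧
          DI x n₁ m₁ ω = D' ∧ level D' ω - level D ω = 0 then (1 : ℝ) else 0) :=
      Finset.sum_congr rfl fun D' hD' => Finset.sum_congr rfl fun D hD =>
        (two_sided hc h1 h12 hF hD' hD Even.zero).symm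
    rw [e2]
    simp only [← E_sum]
    refine E_congr fun ω hω => ?_
    by_cases hA : DI x n₁ m₁ ω ∈ hulls x n₁ m₁ ∧ DF (ball x m₂) x ω ∈ hulls x n₂ m₂
    · rw [Finset.sum_eq_single (DI x n₁ m₁ ω), Finset.sum_eq_single (DF (ball x m₂) x ω)]
      · by_cases hl : level (DI x n₁ m₁ ω) ω = level (DF (ball x m₂) x ω) ω
        · rw [if_pos ⟨hA, hl⟩, if_pos ⟨rfl, rfl, by rw [hl, sub_self]⟩]
        · rw [if_neg (fun h => hl h.2), if_neg (fun h => hl (sub_eq_zero.1 h.2.2))]
      · intro D _ hD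
        rw [if_neg (fun h => hD h.1.symm)]
      · intro h; exact absurd hA.2 h
      · intro D' _ hD'
        refine Finset.sum_eq_zero fun D _ => ?_
        rw [if_neg (fun h => hD' h.2.1.symm)]
      · intro h; exact absurd hA.1 h
    · rw [if_neg (fun h => hA h.1)]
      symm
      refine Finset.sum_eq_zero fun D' hD' => Finset.sum_eq_zero fun D hD => ?_
      rw [if_neg]
      rintro ⟨h3, h4, _⟩
      exact hA ⟨by rw [h4]; exact hD', by rw [h3]; exact hD⟩
  rw [t0, t1] at hle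
  rw [t1] at hpos
  -- some pair has positive weight
  have hlt : θ * ∑ D' ∈ hulls x n₁ m₁, ∑ D ∈ hulls x n₂ m₂, pairW c F x n₁ m₁ m₂ D' D *
      ∑ k ∈ Finset.Icc (-(N : ℤ)) N, zQ c (D \ D') (tch D') (2 * k) <
      ∑ D' ∈ hulls x n₁ m₁, ∑ D ∈ hulls x n₂ m₂,
        pairW c F x n₁ m₁ m₂ D' D * zQ c (D \ D') (tch D') 0 := by
    obtain ⟨D'₀, hD'₀, hp⟩ := Finset.exists_lt_of_sum_lt (s := hulls x n₁ m₁)
      (f := fun _ => (0 : ℝ)) (by simpa using hpos)
    obtain ⟨D₀, hD₀, hp2⟩ := Finset.exists_lt_of_sum_lt (s := hulls x n₂ m₂)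
      (f := fun _ => (0 : ℝ)) (by simpa using hp)
    have hw : 0 < pairW c F x n₁ m₁ m₂ D'₀ D₀ := by
      rcases (pairW_nonneg hc F x n₁ m₁ m₂ D'₀ D₀).lt_or_eq with h | h
      · exact h
      · rw [← h, zero_mul] at hp2; exact absurd hp2 (lt_irrefl _)
    rw [Finset.mul_sum]
    refine Finset.sum_lt_sum (fun D' hD' => ?_) ⟨D'₀, hD'₀, ?_⟩
    · rw [Finset.mul_sum]
      refine Finset.sum_le_sum fun D hD => ?_
      have := mul_le_mul_of_nonneg_left (hcon D' hD' D hD N).le (pairW_nonneg hc F x n₁ m₁ m₂ D' D)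
      linarith
    · rw [Finset.mul_sum]
      refine Finset.sum_lt_sum (fun D hD => ?_) ⟨D₀, hD₀, ?_⟩
      · have := mul_le_mul_of_nonneg_left (hcon D'₀ hD'₀ D hD N).le
          (pairW_nonneg hc F x n₁ m₁ m₂ D'₀ D)
        linarith
      · have := mul_lt_mul_of_pos_left (hcon D'₀ hD'₀ D₀ hD₀ N) hw
        linarith
  exact absurd hle (not_le.2 hlt)

end Crest.Agent.R161.Ann770
end
end

-- ▼ part R161/RPar_770
section

/-!
# From the good pair to (R) at one scale (helper770, R161 block E: F3)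

* `pr_cut_sum` : `P_F(∃ q, CutAt D q ∧ p q) = ∑_k 1_{p (2k)} zQ (2k) * Z D / Z F`;
* `r_of_ratio` : `z_2 ≥ z_0 / 2` implies the odd part is at least a third;
* `rAt_of_pair` : a good pair at larger scale gives `RAt`.
-/

set_option autoImplicit false

noncomputable section

namespace Crest.Agent.R161.Ann770

open Finset hiding box
open Crest.Agent.R161.Geo729 Crest.Agent.R161.Defs372 Crest.Agent.R161.Dmp341
open Crest.Agent.R161.Hull374 Crest.Agent.R161.Dual374 Crest.Agent.R161.Ifc372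
open Crest.Agent.R161.Exp760 (DF doms mem_doms)
open Crest.Agent.R161.Out868 Crest.Agent.R161.Blk696

/-! ### sums over symmetric windows -/

theorem sum_sym {a : ℤ → ℝ} (ha : ∀ k, a (-k) = a k) (n : ℕ) :
    ∑ k ∈ Finset.Icc (-(n : ℤ)) n, a k = a 0 + 2 * ∑ k ∈ Finset.range n, a ((k : ℤ) + 1) := by
  induction n with
  | zero => simp
  | succ n ih =>
    have e1 : Finset.Icc (-((n + 1 : ℕ) : ℤ)) ((n + 1 : ℕ) : ℤ) =
        insert (-((n + 1 : ℕ) : ℤ)) (insert ((n + 1 : ℕ) : ℤ) (Finset.Icc (-(n : ℤ)) n)) := by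
      ext x
      simp only [Finset.mem_Icc, Finset.mem_insert, Nat.cast_add, Nat.cast_one]
      omega
    rw [e1, Finset.sum_insert, Finset.sum_insert, ih, Finset.sum_range_succ, ha]
    · push_cast
      ring
    · simp
    · simp only [Finset.mem_insert, Finset.mem_Icc, Nat.cast_add, Nat.cast_one]
      omega

theorem sum_even_range (a : ℤ → ℝ) (n : ℕ) :
    ∑ k ∈ Finset.range (2 * n + 1), (if Even ((k : ℤ) + 1) then a ((k : ℤ) + 1) else 0) =
      ∑ k ∈ Finset.range n, a (2 * (k : ℤ) + 2) := by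
  induction n with
  | zero => simp
  | succ n ih =>
    rw [show 2 * (n + 1) + 1 = (2 * n + 1) + 1 + 1 by ring, Finset.sum_range_succ,
      Finset.sum_range_succ, ih, Finset.sum_range_succ]
    have h1 : Even (((2 * n + 1 : ℕ) : ℤ) + 1) := ⟨(n : ℤ) + 1, by push_cast; ring⟩
    have h2 : ¬ Even (((2 * n + 1 + 1 : ℕ) : ℤ) + 1) := by
      rw [Int.not_even_iff_odd]
      exact ⟨(n : ℤ) + 1, by push_cast; ring⟩
    rw [if_pos h1, if_neg h2, add_zero]
    have h3 : ((2 * n + 1 : ℕ) : ℤ) + 1 = 2 * (n : ℤ) + 2 := by push_cast; ring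
    rw [h3]

theorem sum_odd_range (a : ℤ → ℝ) (n : ℕ) :
    ∑ k ∈ Finset.range (2 * n + 1), (if ¬ Even ((k : ℤ) + 1) then a ((k : ℤ) + 1) else 0) =
      ∑ k ∈ Finset.range (n + 1), a (2 * (k : ℤ) + 1) := by
  induction n with
  | zero => simp
  | succ n ih =>
    rw [show 2 * (n + 1) + 1 = (2 * n + 1) + 1 + 1 by ring, Finset.sum_range_succ,
      Finset.sum_range_succ, ih, Finset.sum_range_succ _ (n + 1)]
    have h1 : Even (((2 * n + 1 : ℕ) : ℤ) + 1) := ⟨(n : ℤ) + 1, by push_cast; ring⟩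
    have h2 : ¬ Even (((2 * n + 1 + 1 : ℕ) : ℤ) + 1) := by
      rw [Int.not_even_iff_odd]
      exact ⟨(n : ℤ) + 1, by push_cast; ring⟩
    rw [if_neg (not_not.2 h1), if_pos h2, add_zero]
    have h3 : ((2 * n + 1 + 1 : ℕ) : ℤ) + 1 = 2 * ((n + 1 : ℕ) : ℤ) + 1 := by push_cast; ring
    rw [h3]

theorem sum_even_window {a : ℤ → ℝ} (ha : ∀ k, a (-k) = a k) (n : ℕ) :
    ∑ k ∈ Finset.Icc (-((2 * n + 1 : ℕ) : ℤ)) ((2 * n + 1 : ℕ) : ℤ), (if Even k then a k else 0) =
      a 0 + 2 * ∑ k ∈ Finset.range n, a (2 * (k : ℤ) + 2) := by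
  have h := sum_sym (a := fun k => if Even k then a k else 0)
    (fun k => by simp only [even_neg, ha]) (2 * n + 1)
  beta_reduce at h
  rw [h, sum_even_range, if_pos Even.zero]

theorem sum_odd_window {a : ℤ → ℝ} (ha : ∀ k, a (-k) = a k) (n : ℕ) :
    ∑ k ∈ Finset.Icc (-((2 * n + 1 : ℕ) : ℤ)) ((2 * n + 1 : ℕ) : ℤ), (if ¬ Even k then a k else 0) =
      2 * ∑ k ∈ Finset.range (n + 1), a (2 * (k : ℤ) + 1) := by
  have h := sum_sym (a := fun k => if ¬ Even k then a k else 0)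
    (fun k => by simp only [even_neg, ha]) (2 * n + 1)
  beta_reduce at h
  rw [h, sum_odd_range, if_neg (not_not.2 Even.zero), zero_add]

/-! ### the law of the level -/

open Classical in
theorem pr_cut_sum {c : ℝ} {F D : Finset P2} (hne : D.Nonempty) (hsep : Sep D F)
    (p : ℤ → Prop) {n : ℕ} (hn : hb F ≤ 2 * (n : ℤ)) :
    Pr c F {ω | ∃ q, CutAt D q ω ∧ p q} = ∑ k ∈ Finset.Icc (-(n : ℤ)) n,
      if p (2 * k) then zQ c (F \ D) (tch D) (2 * k) * Z c D / Z c F else 0 := by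
  have h1 : ∀ k ∈ Finset.Icc (-(n : ℤ)) n,
      (if p (2 * k) then zQ c (F \ D) (tch D) (2 * k) * Z c D / Z c F else 0) =
      E c F (fun ω => if p (2 * k) ∧ CutAt D (2 * k) ω then 1 else 0) := by
    intro k _
    by_cases hp : p (2 * k)
    · rw [if_pos hp, ← pr_cutAt c hsep (even_two_mul k)]
      unfold Pr
      refine E_congr fun ω _ => ?_
      simp only [Set.mem_setOf_eq, hp, true_and]
    · rw [if_neg hp]
      simp only [hp, false_and, if_false]
      unfold E
      simp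
  rw [Finset.sum_congr rfl h1, ← E_sum]
  unfold Pr
  refine E_congr fun ω hω => ?_
  simp only [Set.mem_setOf_eq]
  by_cases h : ∃ q, CutAt D q ω ∧ p q
  · obtain ⟨q, hq, hpq⟩ := h
    rw [if_pos ⟨q, hq, hpq⟩]
    obtain ⟨r, hr⟩ := hq.even
    have hr2 : q = 2 * r := by rw [hr]; ring
    have hb := bdV_nonempty hne
    have hlev : level D ω = q := hq.level_eq hb
    rw [Finset.sum_eq_single r]
    · rw [if_pos ⟨by rw [← hr2]; exact hpq, by rw [← hr2]; exact hq⟩]
    · intro k _ hk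
      rw [if_neg]
      rintro ⟨_, h3⟩
      apply hk
      have h4 := h3.level_eq hb
      omega
    · intro hr'
      exfalso
      apply hr'
      obtain ⟨v, hv, hlv⟩ := level_of_mem hb ω
      have h5 := abs_le.1 (hω.abs_vert v)
      rw [Finset.mem_Icc]
      omega
  · rw [if_neg h]
    symm
    refine Finset.sum_eq_zero fun k _ => ?_
    rw [if_neg]
    rintro ⟨h3, h4⟩
    exact h ⟨_, h4, h3⟩

/-- `z_2 ≥ z_0 / 2` implies: the odd part of the level law is at least a third. -/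
theorem r_of_ratio {c : ℝ} (hc : 1 ≤ c) {F D : Finset P2} (hne : D.Nonempty) (hsep : Sep D F)
    (h : 1 / 2 * zQ c (F \ D) (tch D) 0 ≤ zQ c (F \ D) (tch D) 2) :
    1 / 3 * Pr c F {ω | ∃ q, CutAt D q ω} ≤ Pr c F {ω | ∃ q, CutAt D q ω ∧ ¬ (4 : ℤ) ∣ q} := by
  classical
  set a : ℤ → ℝ := fun k => zQ c (F \ D) (tch D) (2 * k) with ha
  have hS : SLC a := slc_zQ hc (F \ D) (tch D)
  set N : ℕ := (hb F).toNat with hN
  have hbF : 0 ≤ hb F := by unfold hb; positivity
  have hNb : (N : ℤ) = hb F := Int.toNat_of_nonneg hbF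
  have hn : hb F ≤ 2 * ((2 * N + 1 : ℕ) : ℤ) := by push_cast; omega
  set w : ℝ := Z c D / Z c F with hw
  have hw0 : 0 ≤ w := div_nonneg (Z_pos hc _).le (Z_pos hc _).le
  have hpar : ∀ k : ℤ, (4 : ℤ) ∣ 2 * k ↔ Even k := by
    intro k
    constructor
    · rintro ⟨m, hm⟩; exact ⟨m, by omega⟩
    · rintro ⟨m, hm⟩; exact ⟨m, by omega⟩
  have e1 : Pr c F {ω | ∃ q, CutAt D q ω ∧ ¬ (4 : ℤ) ∣ q} =
      (2 * ∑ k ∈ Finset.range (N + 1), a (2 * (k : ℤ) + 1)) * w := by
    rw [pr_cut_sum hne hsep (fun q => ¬ (4 : ℤ) ∣ q) hn, ← sum_odd_window hS.symm, Finset.sum_mul]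
    refine Finset.sum_congr rfl fun k _ => ?_
    simp only [hpar]
    by_cases hk : Even k
    · simp only [hk, not_true, if_false, zero_mul]
    · simp only [hk, not_false_iff, if_true]
      rw [hw]
      ring
  have e2 : Pr c F {ω | ∃ q, CutAt D q ω} =
      (a 0 + 2 * ∑ k ∈ Finset.range N, a (2 * (k : ℤ) + 2)) * w +
      (2 * ∑ k ∈ Finset.range (N + 1), a (2 * (k : ℤ) + 1)) * w := by
    have e3 : {ω : Cfg | ∃ q, CutAt D q ω} = {ω | ∃ q, CutAt D q ω ∧ True} := by simp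
    rw [e3, pr_cut_sum hne hsep (fun _ => True) hn, ← sum_odd_window hS.symm,
      ← sum_even_window hS.symm, Finset.sum_mul, Finset.sum_mul, ← Finset.sum_add_distrib]
    refine Finset.sum_congr rfl fun k _ => ?_
    by_cases hk : Even k
    · simp only [hk, not_true, if_false, if_true, zero_mul, add_zero]
      rw [hw]
      ring
    · simp only [hk, not_false_iff, if_true, if_false, zero_mul, zero_add]
      rw [hw]
      ring
  have h2 := hS.parity (r := 1 / 2) (by norm_num) (by simpa [ha] using h) N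
  rw [e1, e2]
  have h3 : 1 / 3 * (a 0 + 2 * ∑ k ∈ Finset.range N, a (2 * (k : ℤ) + 2)) +
      1 / 3 * (2 * ∑ k ∈ Finset.range (N + 1), a (2 * (k : ℤ) + 1)) ≤
      2 * ∑ k ∈ Finset.range (N + 1), a (2 * (k : ℤ) + 1) := by
    linarith
  nlinarith [mul_le_mul_of_nonneg_right h3 hw0]

/-- A good pair at larger scales gives `RAt`. -/
theorem rAt_of_pair {c : ℝ} (hc : 1 ≤ c) {x : P2} {n n₁ m₁ n₂ m₂ K : ℕ} (h0 : 1 ≤ n)
    (h1 : 2 * n ≤ n₁) (h12 : m₁ + 1 ≤ n₂) (h2 : m₂ ≤ K) (hK : 2 * n + 1 ≤ K) {D₁ D₂ : Finset P2}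
    (hD₁ : D₁ ∈ hulls x n₁ m₁) (hD₂ : D₂ ∈ hulls x n₂ m₂) {N : ℕ}
    (hgood : zQ c (D₂ \ D₁) (tch D₁) 0 ≤ 1 / 3 * ∑ k ∈ Finset.Icc (-(N : ℤ)) N,
      zQ c (D₂ \ D₁) (tch D₁) (2 * k)) :
    RAt c (ball x K) x n (2 * n) (1 / 3) := by
  intro D hD hn hm
  obtain ⟨a1, a2, a3⟩ := mem_doms.1 hD₁
  obtain ⟨b1, b2, b3⟩ := mem_doms.1 hD₂
  have hsep : Sep D₁ D₂ := sep_of_balls h12 a1 b2
  have hsep2 : Sep D (ball x K) := sep_of_balls hK hm subset_rfl
  have hne : D.Nonempty := ⟨x, hn (self_mem_ball h0)⟩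
  refine r_of_ratio hc hne hsep2 ?_
  have hS : SLC (fun k : ℤ => zQ c (D₂ \ D₁) (tch D₁) (2 * k)) := slc_zQ hc _ _
  have hp : 0 < zQ c (D₂ \ D₁) (tch D₁) 0 := zQ_zero_pos hc _ _
  have h3 := hS.ratio (by simpa using hp) (θ := 1 / 3) (by norm_num) N (by simpa using hgood)
  have h4 : 1 / 2 * zQ c (D₂ \ D₁) (tch D₁) 0 ≤ zQ c (D₂ \ D₁) (tch D₁) 2 := by
    have : ((1 : ℝ) - 1 / 3) / (1 + 1 / 3) = 1 / 2 := by norm_num
    rw [this] at h3
    simpa using h3
  have h5 := rho_annulus hc (D' := D) (H := D₁) (D := D₂) (F := ball x K)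
    (hm.trans ((ball_mono x h1).trans a2)) hsep (b1.trans (ball_mono x h2))
  have hq : 0 < zQ c (ball x K \ D) (tch D) 0 := zQ_zero_pos hc _ _
  have h6 : 1 / 2 * zQ c (D₂ \ D₁) (tch D₁) 0 * zQ c (ball x K \ D) (tch D) 0 ≤
      zQ c (D₂ \ D₁) (tch D₁) 0 * zQ c (ball x K \ D) (tch D) 2 :=
    (mul_le_mul_of_nonneg_right h4 hq.le).trans h5
  have h7 : zQ c (D₂ \ D₁) (tch D₁) 0 * (1 / 2 * zQ c (ball x K \ D) (tch D) 0) ≤
      zQ c (D₂ \ D₁) (tch D₁) 0 * zQ c (ball x K \ D) (tch D) 2 := by linarith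
  exact le_of_mul_le_mul_left h7 hp

end Crest.Agent.R161.Ann770
end
end

-- ▼ part R161/Spr3_770
section

/-!
# Spread at scales at least `M1` (helper770; the proof is helper868's, with a lower bound on `M`)
-/

set_option autoImplicit false

noncomputable section

namespace Crest.Agent.R161.Spr868

open Filter Topology MeasureTheory Set Metric
open Crest.Agent.R161.Green722 Crest.Agent.R161.Dnv132
open Crest.Agent.R161.Geo729 Crest.Agent.R161.Defs372 Crest.Agent.R161.Ifc372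
open Crest.Agent.R161.Flip228 (Lin)

variable {c : ℝ} {P : Measure Cfg}

/-- **Spread.** -/
theorem spread_ge [IsProbabilityMeasure P] (hc : 0 < c) (hP : PlaneGauss c P) {L η : ℝ} (hL : 0 < L)
    (hη : 0 < η) (M1 : ℕ) : ∃ M : ℕ, M1 ≤ M ∧ 1 ≤ M ∧ ∃ N0 : ℕ, ∀ N : ℕ, N0 ≤ N →
      P.real {ω | |XN N ω - XN (M * N) ω| ≤ L} ≤ η := by
  -- the number of terms
  obtain ⟨J, hJ⟩ := exists_nat_gt (16 / η)
  have hJ0 : (0 : ℝ) < J := lt_trans (by positivity) hJ
  have hJ1 : 1 ≤ J := by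
    rcases Nat.eq_zero_or_pos J with h | h
    · rw [h] at hJ0; simp at hJ0
    · exact h
  set h : ℝ := (J * L)⁻¹ with hh
  have hh0 : 0 < h := by positivity
  -- the required variance
  have hk := kap_pos hc
  obtain ⟨M0, hM0, hM⟩ := plog_gt (2 * (16 / η) / (h ^ 2 * kap c))
  obtain ⟨M, hMdef⟩ : ∃ M, M = max M0 M1 := ⟨_, rfl⟩
  have hM1 : 1 ≤ M := by omega
  refine ⟨M, by omega, hM1, ?_⟩
  have hr : (0 : ℝ) < (M : ℝ)⁻¹ := inv_pos.2 (by exact_mod_cast hM1)
  have hr1 : (M : ℝ)⁻¹ ≤ 1 := inv_le_one_of_one_le₀ (by exact_mod_cast hM1)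
  have hpl := hM M (by omega)
  set v := kap c * plog (fr (M : ℝ)⁻¹) (fr (M : ℝ)⁻¹) with hv
  have hvb : 16 / η < h ^ 2 * v / 2 := by
    rw [hv]
    rw [div_lt_iff₀ (by positivity)] at hpl
    nlinarith
  -- limits of the cosines
  have hlim : ∀ s : ℝ, Tendsto (fun N : ℕ => ∫ ω, Real.cos (s * (XN N ω - XN (M * N) ω)) ∂P) atTop
      (𝓝 (Real.exp (-(s ^ 2 * v / 2)))) := by
    intro s
    have h1 := hP.law _ (fr_test hr) (fr_integral hr hr1) s
    have h2 : Tendsto (fun N : ℕ => ((M * N : ℕ) : ℝ)⁻¹) atTop (𝓝[>] 0) :=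
      tendsto_inv_nat.comp (tendsto_id.const_mul_atTop' (by omega))
    refine ((h1.comp h2).congr' ?_)
    filter_upwards [eventually_ge_atTop 1] with N hN
    simp only [Function.comp]
    congr 1
    funext ω
    rw [X_fr hN hM1]
  have hlim2 : Tendsto (fun N : ℕ => 4 * ((J : ℝ)⁻¹ ^ 2 * ∑ j ∈ Finset.range J,
      ∑ k ∈ Finset.range J, ∫ ω, Real.cos ((((j : ℝ) - k) * h) * (XN N ω - XN (M * N) ω)) ∂P)) atTop
      (𝓝 (4 * ((J : ℝ)⁻¹ ^ 2 * ∑ j ∈ Finset.range J, ∑ k ∈ Finset.range J,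
        Real.exp (-((((j : ℝ) - k) * h) ^ 2 * v / 2))))) := by
    refine Tendsto.const_mul _ (Tendsto.const_mul _ ?_)
    exact tendsto_finsetSum _ fun j _ => tendsto_finsetSum _ fun k _ => hlim _
  have hbound : 4 * ((J : ℝ)⁻¹ ^ 2 * ∑ j ∈ Finset.range J, ∑ k ∈ Finset.range J,
        Real.exp (-((((j : ℝ) - k) * h) ^ 2 * v / 2))) < η := by
    have hv0 : 0 < v := by
      by_contra hcon
      push Not at hcon
      have : h ^ 2 * v / 2 ≤ 0 := by
        have := mul_nonpos_of_nonneg_of_nonpos (sq_nonneg h) hcon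
        linarith
      have h16 : 0 < 16 / η := by positivity
      linarith
    have h1 : ∀ j ∈ Finset.range J, ∑ k ∈ Finset.range J,
        Real.exp (-((((j : ℝ) - k) * h) ^ 2 * v / 2)) ≤ 1 + J * (η / 16) := by
      intro j hj
      rw [← Finset.add_sum_erase _ _ hj]
      refine add_le_add ?_ ?_
      · rw [sub_self]
        simp
      · have h3 : ∀ k ∈ (Finset.range J).erase j,
            Real.exp (-((((j : ℝ) - k) * h) ^ 2 * v / 2)) ≤ η / 16 := by
          intro k hk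
          have hne : j ≠ k := fun h => (Finset.mem_erase.1 hk).1 h.symm
          have h4 : (1 : ℝ) ≤ ((j : ℝ) - k) ^ 2 := by
            have h5 : (1 : ℤ) ≤ ((j : ℤ) - k) ^ 2 := by
              have : (j : ℤ) - k ≠ 0 := by omega
              have := sq_pos_of_ne_zero this
              omega
            exact_mod_cast h5
          have h5 : 16 / η ≤ (((j : ℝ) - k) * h) ^ 2 * v / 2 := by
            rw [mul_pow]
            have h6 : h ^ 2 * v ≤ ((j : ℝ) - k) ^ 2 * h ^ 2 * v := by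
              have : 0 ≤ h ^ 2 * v := by positivity
              nlinarith
            linarith
          have h7 : Real.exp (-((((j : ℝ) - k) * h) ^ 2 * v / 2)) ≤ Real.exp (-(16 / η)) :=
            Real.exp_le_exp.2 (by linarith)
          refine h7.trans ?_
          rw [Real.exp_neg]
          have h8 : 16 / η ≤ Real.exp (16 / η) := by
            have := Real.add_one_le_exp (16 / η)
            linarith
          have h9 : η / 16 = (16 / η)⁻¹ := by rw [inv_div]
          rw [h9]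
          exact inv_anti₀ (by positivity) h8
        have h10 := Finset.sum_le_card_nsmul _ _ _ h3
        refine h10.trans ?_
        rw [nsmul_eq_mul]
        apply mul_le_mul_of_nonneg_right _ (by positivity)
        have h11 := Finset.card_erase_le (s := Finset.range J) (a := j)
        rw [Finset.card_range] at h11
        exact_mod_cast h11
    have h2 := Finset.sum_le_sum h1
    rw [Finset.sum_const, Finset.card_range, nsmul_eq_mul] at h2
    calc 4 * ((J : ℝ)⁻¹ ^ 2 * ∑ j ∈ Finset.range J, ∑ k ∈ Finset.range J,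
        Real.exp (-((((j : ℝ) - k) * h) ^ 2 * v / 2)))
        ≤ 4 * ((J : ℝ)⁻¹ ^ 2 * (J * (1 + J * (η / 16)))) := by gcongr
      _ = 4 / J + η / 4 := by
          field_simp
          ring
      _ < η / 4 + η / 4 + η / 4 + η / 4 := by
          have : 4 / (J : ℝ) < η / 4 := by
            rw [div_lt_div_iff₀ hJ0 (by norm_num)]
            rw [div_lt_iff₀ hη] at hJ
            linarith
          linarith
      _ = η := by ring
  obtain ⟨N0, hN0⟩ := (hlim2.eventually_lt_const hbound).exists_forall_of_atTop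
  refine ⟨N0, fun N hN => ?_⟩
  have h1 := prob_le (P := P) (Z := fun ω => XN N ω - XN (M * N) ω)
    ((measurable_XN N).sub (measurable_XN (M * N))) hL hJ1
  exact h1.trans (hN0 N hN).le

end Crest.Agent.R161.Spr868
end
end

-- ▼ part R161/RIn_770

/-!
# Input (R) (helper770, R161 block E)

`rIn : 1 ≤ c → IsState c P → FKGLoc (nu P) → PlaneGauss c P → RIn c P`.
-/

set_option autoImplicit false

noncomputable section

namespace Crest.Agent.R161.Ann770

open Finset hiding box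
open MeasureTheory
open Crest.Agent.R161.Geo729 Crest.Agent.R161.Defs372 Crest.Agent.R161.Dmp341
open Crest.Agent.R161.Hull374 Crest.Agent.R161.Dual374 Crest.Agent.R161.Ifc372
open Crest.Agent.R161.Exp760 (DF doms mem_doms)
open Crest.Agent.R161.Out868 Crest.Agent.R161.Blk696
open Crest.Agent.R161.Ring421 Crest.Agent.R161.NuInv421 Crest.Agent.R161.Spr868
open Crest.Agent.R161.Flip228 (Lin)
open Crest.Agent.R161.Aut373 (Neut lim_neut loc_integrable)

variable {c : ℝ} {P : Measure Cfg}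

/-! ### local neutral functionals -/

theorem loc_Lin (S : Finset P2) (a : P2 → ℝ) : Loc (S : Set P2) (Lin S a) := by
  intro ω ω' h
  unfold Lin
  exact Finset.sum_congr rfl fun v hv => by rw [(h v (by exact_mod_cast hv)).1]

theorem Lin_addH (S : Finset P2) (a : P2 → ℝ) (ω : Cfg) (r : ℤ) :
    Lin S a (addH r ω) = Lin S a ω + (∑ v ∈ S, a v) * r := by
  unfold Lin addH
  rw [Finset.sum_mul, ← Finset.sum_add_distrib]
  refine Finset.sum_congr rfl fun v _ => ?_
  push_cast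
  ring

/-- difference of two averages -/
theorem neut_sub {S T : Finset P2} {a b : P2 → ℝ} (ha : ∑ v ∈ S, a v = 1) (hb : ∑ v ∈ T, b v = 1) :
    Neut (fun ω => Lin S a ω - Lin T b ω) := by
  intro ω _ r _
  simp only [Lin_addH, ha, hb]
  ring

theorem loc_sub (S T : Finset P2) (a b : P2 → ℝ) :
    Loc ((S ∪ T : Finset P2) : Set P2) (fun ω => Lin S a ω - Lin T b ω) := by
  intro ω ω' h
  have h1 := loc_Lin S a ω ω' (fun v hv => h v (by
    rw [Finset.coe_union]; exact Or.inl hv))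
  have h2 := loc_Lin T b ω ω' (fun v hv => h v (by
    rw [Finset.coe_union]; exact Or.inr hv))
  simp only [h1, h2]

theorem loc_comp {α β : Type*} {S : Set P2} {f : Cfg → α} (h : Loc S f) (g : α → β) :
    Loc S (fun ω => g (f ω)) := fun ω ω' hh => by simp only [h ω ω' hh]

theorem neut_comp {α β : Type*} {f : Cfg → α} (h : Neut f) (g : α → β) :
    Neut (fun ω => g (f ω)) := fun ω hω a ha => by simp only [h ω hω a ha]

/-- the event depends on the cut edges only -/
theorem loc_z {S : Finset Edge} {A : Set (Edge → Bool)} (hA : LocOn S A) :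
    Loc ((S.image Prod.fst : Finset P2) : Set P2) (indP fun ω => ω.2.2 ∈ A) := by
  intro ω ω' h
  refine indP_congr (hA _ _ ?_)
  rintro ⟨v, b⟩ he
  exact (h v (by
    simp only [Finset.coe_image, Set.mem_image, Finset.mem_coe]
    exact ⟨(v, b), he, rfl⟩)).2.2 b

theorem neut_z (A : Set (Edge → Bool)) : Neut (indP fun ω => ω.2.2 ∈ A) := fun _ _ _ _ => rfl

/-- limits along boxes -/
theorem lim_box (hP : IsState c P) {S : Finset P2} {f : Cfg → ℝ} (hf : Loc (S : Set P2) f)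
    (hn : Neut f) {ε : ℝ} (hε : 0 < ε) : ∃ n0 : ℕ, ∀ n : ℕ, n0 ≤ n →
      |E c (box n) f - ∫ ω, f ω ∂P| < ε := by
  obtain ⟨n0, h⟩ := lim_neut hP hf hn hε
  exact ⟨n0, fun n hn => h (box n) (dom_box n) (box_mono hn)⟩

open Classical in
/-- plus-cut edges are cut edges -/
theorem nu_le_z [IsProbabilityMeasure P] (hP : IsState c P) {A : Set (Edge → Bool)} (hA : LocEv A)
    (hI : IncEv A) : (nu P).real A ≤ ∫ ω, indP (fun ω => ω.2.2 ∈ A) ω ∂P := by
  obtain ⟨S, hS⟩ := hA
  rw [nu_real (LocEv.measurableSet ⟨S, hS⟩)]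
  refine integral_mono (loc_integrable hP (loc_GA hS)) (loc_integrable hP (loc_z hS)) fun ω => ?_
  have key : ∀ ω' : Cfg, ω'.2.2 = ω.2.2 → (if plusMap ω' ∈ A then (1 : ℝ) else 0) ≤
      indP (fun ω => ω.2.2 ∈ A) ω := by
    intro ω' h
    split_ifs with h1
    · rw [indP_of]
      refine hI (plusMap ω') _ (fun e he => ?_) h1
      rw [← h]
      exact ((plusMap_true _ e).1 he).1
    · exact indP_nonneg _ _
  have k1 := key ω rfl
  have k2 := key (addH 2 ω) rfl
  unfold GA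
  linarith

/-! ### the second moment error -/

theorem VN_sub_int {N : ℕ} {D : Finset P2} (h : ball (0, 0) N ⊆ D) : VN N ⊆ intVerts D := by
  intro v hv
  rw [mem_VN] at hv
  rw [mem_intVerts, intV_iff]
  intro f hf
  refine Finset.mem_coe.2 (h ?_)
  rw [Out868.mem_ball]
  obtain ⟨a, b⟩ := v
  obtain ⟨f1, f2⟩ := f
  simp only [Geo729.IsCorner, Prod.mk.injEq] at hf
  simp only at hv ⊢
  omega

theorem WN_not_int {N : ℕ} {D : Finset P2} (h : D ⊆ ball (0, 0) (2 * N)) {v : P2}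
    (hv : v ∈ WN N) : v ∉ intVerts D := by
  intro hv'
  rw [mem_intVerts] at hv'
  rw [mem_WN] at hv
  have h1 := h (Finset.mem_coe.1 hv'.1)
  rw [Out868.mem_ball] at h1
  push_cast at h1
  omega

open Classical in
/-- second moment bound for the two hulls at scale `N` -/
theorem sm_at {F : Finset P2} (hc : 1 ≤ c) {H : Cfg → Finset P2} {N : ℕ} (hN : 1 ≤ N)
    {A B : Finset P2 → Cfg → Prop} (hH : IsHull c F H (hulls (0, 0) N (2 * N)) A B) :
    E c F (fun ω => if H ω ∈ hulls (0, 0) N (2 * N) then (XN N ω - level (H ω) ω) ^ 2 else 0) ≤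
      E c F (fun ω => (XN N ω - YN N ω) ^ 2) := by
  refine le_trans ?_ (sm_hull hc hH (V := VN N) (W := WN N) (a := aN N) (b := bN N) ?_ (sum_aN hN) ?_)
  · refine E_mono hc fun ω _ => ?_
    split_ifs
    · have := sq_nonneg ((level (H ω) ω : ℝ) - Lin (WN N) (bN N) ω)
      unfold XN
      linarith
    · exact le_rfl
  · intro D hD
    exact VN_sub_int (mem_doms.1 hD).2.1
  · intro D hD v hv
    exact WN_not_int (mem_doms.1 hD).1 hv

open Classical in
/-- the levels of two hulls agree only if the averages are close or far from a level -/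
theorem eq_le {F : Finset P2} (hc : 1 ≤ c) {H₁ H₂ : Cfg → Finset P2} {𝒟₁ 𝒟₂ : Finset (Finset P2)}
    {X₁ X₂ : Cfg → ℝ} {L : ℝ} (hL : 0 < L) :
    E c F (fun ω => if (H₁ ω ∈ 𝒟₁ ∧ H₂ ω ∈ 𝒟₂) ∧ level (H₁ ω) ω = level (H₂ ω) ω then 1 else 0) ≤
      E c F (indP fun ω => |X₁ ω - X₂ ω| ≤ 2 * L) +
      (E c F (fun ω => if H₁ ω ∈ 𝒟₁ then (X₁ ω - level (H₁ ω) ω) ^ 2 else 0) +
        E c F (fun ω => if H₂ ω ∈ 𝒟₂ then (X₂ ω - level (H₂ ω) ω) ^ 2 else 0)) / L ^ 2 := by
  have h1 : (E c F (fun ω => if H₁ ω ∈ 𝒟₁ then (X₁ ω - level (H₁ ω) ω) ^ 2 else 0) +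
        E c F (fun ω => if H₂ ω ∈ 𝒟₂ then (X₂ ω - level (H₂ ω) ω) ^ 2 else 0)) / L ^ 2 =
      E c F (fun ω => (L ^ 2)⁻¹ * ((if H₁ ω ∈ 𝒟₁ then (X₁ ω - level (H₁ ω) ω) ^ 2 else 0) +
        (if H₂ ω ∈ 𝒟₂ then (X₂ ω - level (H₂ ω) ω) ^ 2 else 0))) := by
    rw [E_smul, E_add]
    ring
  rw [h1, ← E_add]
  refine E_mono hc fun ω _ => ?_
  have hL2 : 0 < L ^ 2 := by positivity
  have hn1 : 0 ≤ (if H₁ ω ∈ 𝒟₁ then (X₁ ω - level (H₁ ω) ω) ^ 2 else 0) := by
    split_ifs
    · exact sq_nonneg _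
    · exact le_rfl
  have hn2 : 0 ≤ (if H₂ ω ∈ 𝒟₂ then (X₂ ω - level (H₂ ω) ω) ^ 2 else 0) := by
    split_ifs
    · exact sq_nonneg _
    · exact le_rfl
  by_cases h : (H₁ ω ∈ 𝒟₁ ∧ H₂ ω ∈ 𝒟₂) ∧ level (H₁ ω) ω = level (H₂ ω) ω
  · rw [if_pos h]
    by_cases hX : |X₁ ω - X₂ ω| ≤ 2 * L
    · rw [indP_of (A := fun ω => |X₁ ω - X₂ ω| ≤ 2 * L) hX]
      have : 0 ≤ (L ^ 2)⁻¹ * ((if H₁ ω ∈ 𝒟₁ then (X₁ ω - level (H₁ ω) ω) ^ 2 else 0) +
        (if H₂ ω ∈ 𝒟₂ then (X₂ ω - level (H₂ ω) ω) ^ 2 else 0)) := by positivity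
      linarith
    · rw [indP_of_not (A := fun ω => |X₁ ω - X₂ ω| ≤ 2 * L) hX, zero_add, if_pos h.1.1,
        if_pos h.1.2, h.2]
      push Not at hX
      set l : ℝ := (level (H₂ ω) ω : ℝ) with hl
      rw [inv_mul_eq_div, le_div_iff₀ hL2, one_mul]
      have h2 : (2 * L) ^ 2 < (X₁ ω - X₂ ω) ^ 2 := by
        rw [← sq_abs (X₁ ω - X₂ ω)]
        exact pow_lt_pow_left₀ hX (by positivity) two_ne_zero
      nlinarith [sq_nonneg ((X₁ ω - l) + (X₂ ω - l))]
  · rw [if_neg h]
    have := indP_nonneg (fun ω => |X₁ ω - X₂ ω| ≤ 2 * L) ω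
    positivity

/-! ### (R) -/

open Classical in
/-- **(R).** -/
theorem rIn (hc : 1 ≤ c) (hP : IsState c P) (hF : FKGLoc (nu P)) (hG : PlaneGauss c P) :
    RIn c P := by
  have := hP.prob
  intro c3 hc3
  obtain ⟨K0, hK0, Nv, hNv⟩ := second_moment hG
  set t : ℝ := c3 ^ 2 / 24 with ht
  have ht0 : 0 < t := by positivity
  set L0 : ℝ := 1 + 2 * (K0 + 1) / t with hL0
  have hL1 : 1 ≤ L0 := by
    have : 0 ≤ 2 * (K0 + 1) / t := by positivity
    linarith
  have hLp : 0 < L0 := by linarith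
  have hLt : 2 * (K0 + 1) / L0 ^ 2 ≤ t := by
    rw [div_le_iff₀ (by positivity)]
    have h1 : t * L0 = t + 2 * (K0 + 1) := by
      rw [hL0]
      field_simp
    have h2 : t * L0 ≤ t * L0 ^ 2 := mul_le_mul_of_nonneg_left (by nlinarith) ht0.le
    linarith
  obtain ⟨M, hM3, _, Ns, hNs⟩ := spread_ge (P := P) (by linarith : (0 : ℝ) < c) hG
    (L := 2 * L0) (η := t) (by positivity) ht0 3
  refine ⟨2 * M, max 1 (max Nv Ns), 4 * M, by omega, fun n hn hcirc => ?_⟩
  have hn1 : 1 ≤ n := (le_max_left _ _).trans hn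
  have hnv : Nv ≤ n := ((le_max_left _ _).trans (le_max_right _ _)).trans hn
  have hns : Ns ≤ n := ((le_max_right _ _).trans (le_max_right _ _)).trans hn
  set n₁ : ℕ := 2 * n with hn₁
  set n₂ : ℕ := M * n₁ with hn₂
  have hMn : 3 * n₁ ≤ n₂ := Nat.mul_le_mul_right _ hM3
  -- the two circuits
  set A : Set (Edge → Bool) := CircZ (0, 0) n₁ (2 * n₁) ∩ CircZ (0, 0) n₂ (2 * n₂) with hA
  have hAloc : LocEv A := (locEv_circZ _ _ _).inter (locEv_circZ _ _ _)
  have hAinc : IncEv A := (incEv_circZ _ _ _).inter (incEv_circZ _ _ _)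
  have hlow : c3 ^ 2 ≤ ∫ ω, indP (fun ω => ω.2.2 ∈ A) ω ∂P := by
    refine le_trans ?_ (nu_le_z hP hAloc hAinc)
    have h1 : c3 ≤ (nu P).real (CircZ (0, 0) n₁ (2 * n₁)) := hcirc n₁ (by omega) (by
      have : 2 * n ≤ 2 * M * n := Nat.mul_le_mul_right _ (by omega)
      omega)
    have h2 : c3 ≤ (nu P).real (CircZ (0, 0) n₂ (2 * n₂)) := hcirc n₂ (by omega) (by
      rw [hn₂, hn₁]
      exact le_of_eq (by ring))
    have h3 := hF _ _ (locEv_circZ (0, 0) n₁ (2 * n₁)) (locEv_circZ (0, 0) n₂ (2 * n₂))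
      (incEv_circZ (0, 0) n₁ (2 * n₁)) (incEv_circZ (0, 0) n₂ (2 * n₂))
    have h4 : (nu P).real (CircZ (0, 0) n₁ (2 * n₁)) * (nu P).real (CircZ (0, 0) n₂ (2 * n₂)) ≤
        (nu P).real A := by
      unfold Measure.real
      rw [← ENNReal.toReal_mul]
      exact ENNReal.toReal_mono (measure_ne_top _ _) h3
    calc c3 ^ 2 = c3 * c3 := sq c3
      _ ≤ _ := mul_le_mul h1 h2 hc3.le (hc3.le.trans h1)
      _ ≤ _ := h4
  -- the error
  set e : ℝ := min 1 t with he
  have he0 : 0 < e := lt_min one_pos ht0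
  have he1 : e ≤ 1 := min_le_left _ _
  have het : e ≤ t := min_le_right _ _
  obtain ⟨S, hS⟩ := hAloc
  have hN1 : 1 ≤ n₁ := by omega
  have hN2 : 1 ≤ n₂ := by omega
  obtain ⟨m1, hm1⟩ := lim_box hP (loc_z hS) (neut_z A) he0
  obtain ⟨m2, hm2⟩ := lim_box hP (loc_comp (loc_sub (VN n₁) (VN n₂) (aN n₁) (aN n₂))
    (fun r : ℝ => if |r| ≤ 2 * (L0) then (1 : ℝ) else 0))
    (neut_comp (neut_sub (sum_aN hN1) (sum_aN hN2))
    (fun r : ℝ => if |r| ≤ 2 * (L0) then (1 : ℝ) else 0)) he0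
  obtain ⟨m3, hm3⟩ := lim_box hP (loc_comp (loc_sub (VN n₁) (WN n₁) (aN n₁) (bN n₁))
    (fun r : ℝ => r ^ 2)) (neut_comp (neut_sub (sum_aN hN1) (sum_bN hN1)) (fun r : ℝ => r ^ 2)) he0
  obtain ⟨m4, hm4⟩ := lim_box hP (loc_comp (loc_sub (VN n₂) (WN n₂) (aN n₂) (bN n₂))
    (fun r : ℝ => r ^ 2)) (neut_comp (neut_sub (sum_aN hN2) (sum_bN hN2)) (fun r : ℝ => r ^ 2)) he0
  set m : ℕ := m1 + m2 + m3 + m4 + 2 * n₂ with hm
  have g1 := hm1 m (by omega)
  have g2 := hm2 m (by omega)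
  have g3 := hm3 m (by omega)
  have g4 := hm4 m (by omega)
  set F : Finset P2 := box m with hFd
  have hball : ball (0, 0) (2 * n₂) ⊆ F := by
    rw [ball_zero]
    exact box_mono (by omega)
  -- bounds
  have b1 : c3 ^ 2 - e ≤ E c F (indP fun ω => ω.2.2 ∈ A) := by
    have := (abs_lt.1 g1).1
    linarith
  have b2 : E c F (indP fun ω => |XN n₁ ω - XN n₂ ω| ≤ 2 * L0) ≤ t + e := by
    have h1 : ∫ ω, (if |Lin (VN n₁) (aN n₁) ω - Lin (VN n₂) (aN n₂) ω| ≤ 2 * L0 then (1 : ℝ)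
        else 0) ∂P ≤ t := by
      have h2 := hNs n₁ (by omega)
      refine le_trans (le_of_eq ?_) h2
      have hms : MeasurableSet {ω | |XN n₁ ω - XN (M * n₁) ω| ≤ 2 * L0} :=
        measurableSet_le ((measurable_XN n₁).sub (measurable_XN (M * n₁))).abs measurable_const
      have h3 : (fun ω => if |Lin (VN n₁) (aN n₁) ω - Lin (VN n₂) (aN n₂) ω| ≤ 2 * L0 then (1 : ℝ)
        else 0) = {ω | |XN n₁ ω - XN (M * n₁) ω| ≤ 2 * L0}.indicator (fun _ => (1 : ℝ)) := by
        funext ω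
        rw [Set.indicator_apply]
        rfl
      rw [h3, integral_indicator hms, integral_const, smul_eq_mul, mul_one]
      simp [Measure.real]
    have h4 := (abs_lt.1 g2).2
    have h5 : E c F (indP fun ω => |XN n₁ ω - XN n₂ ω| ≤ 2 * L0) =
        E c F (fun ω => if |Lin (VN n₁) (aN n₁) ω - Lin (VN n₂) (aN n₂) ω| ≤ 2 * L0 then (1 : ℝ)
        else 0) := rfl
    rw [h5]
    linarith
  have b3 : E c F (fun ω => (XN n₁ ω - YN n₁ ω) ^ 2) ≤ K0 + 1 := by
    have h1 := hNv n₁ (by omega)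
    have h2 := (abs_lt.1 g3).2
    have h3 : E c F (fun ω => (XN n₁ ω - YN n₁ ω) ^ 2) =
      E c F (fun ω => (Lin (VN n₁) (aN n₁) ω - Lin (WN n₁) (bN n₁) ω) ^ 2) := rfl
    have h4 : ∫ ω, (XN n₁ ω - YN n₁ ω) ^ 2 ∂P =
      ∫ ω, (Lin (VN n₁) (aN n₁) ω - Lin (WN n₁) (bN n₁) ω) ^ 2 ∂P := rfl
    rw [h3]
    rw [h4] at h1
    linarith
  have b4 : E c F (fun ω => (XN n₂ ω - YN n₂ ω) ^ 2) ≤ K0 + 1 := by
    have h1 := hNv n₂ (by omega)
    have h2 := (abs_lt.1 g4).2
    have h3 : E c F (fun ω => (XN n₂ ω - YN n₂ ω) ^ 2) =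
      E c F (fun ω => (Lin (VN n₂) (aN n₂) ω - Lin (WN n₂) (bN n₂) ω) ^ 2) := rfl
    have h4 : ∫ ω, (XN n₂ ω - YN n₂ ω) ^ 2 ∂P =
      ∫ ω, (Lin (VN n₂) (aN n₂) ω - Lin (WN n₂) (bN n₂) ω) ^ 2 ∂P := rfl
    rw [h3]
    rw [h4] at h1
    linarith
  -- the hulls
  have hball1 : ball (0, 0) (2 * n₁) ⊆ F := (ball_mono _ (by omega)).trans hball
  have c1 := sm_at hc hN1 (inner_isHull c (F := F) (x := (0, 0)) (n := n₁) (m := 2 * n₁) hN1 hball1)
  have c2 := sm_at hc hN2 (outer_isHull c (F := F) (x := (0, 0)) (n := n₂) (m := 2 * n₂) hN2 hball)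
  have c3' := eq_le (c := c) (F := F) hc (H₁ := DI (0, 0) n₁ (2 * n₁))
    (H₂ := DF (ball (0, 0) (2 * n₂)) (0, 0)) (𝒟₁ := hulls (0, 0) n₁ (2 * n₁))
    (𝒟₂ := hulls (0, 0) n₂ (2 * n₂)) (X₁ := XN n₁) (X₂ := XN n₂) hLp
  have hboth : E c F (fun ω => if DI (0, 0) n₁ (2 * n₁) ω ∈ hulls (0, 0) n₁ (2 * n₁) ∧
      DF (ball (0, 0) (2 * n₂)) (0, 0) ω ∈ hulls (0, 0) n₂ (2 * n₂) then (1 : ℝ) else 0) =
      E c F (indP fun ω => ω.2.2 ∈ A) := by
    refine E_congr fun ω _ => ?_
    have h1 := DI_mem_hulls (x := ((0, 0) : P2)) (m := 2 * n₁) hN1 (ω := ω)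
    have h2 := DF_mem_hulls (x := ((0, 0) : P2)) (m := 2 * n₂) hN2 (ω := ω)
    have h3 : (DI (0, 0) n₁ (2 * n₁) ω ∈ hulls (0, 0) n₁ (2 * n₁) ∧
      DF (ball (0, 0) (2 * n₂)) (0, 0) ω ∈ hulls (0, 0) n₂ (2 * n₂)) ↔ ω.2.2 ∈ A := by
      rw [h1, h2]
      rfl
    by_cases h : ω.2.2 ∈ A
    · rw [if_pos (h3.2 h), indP_of (A := fun ω => ω.2.2 ∈ A) h]
    · rw [if_neg (fun hh => h (h3.1 hh)), indP_of_not (A := fun ω => ω.2.2 ∈ A) h]
  have hsmall : (E c F (fun ω => if DI (0, 0) n₁ (2 * n₁) ω ∈ hulls (0, 0) n₁ (2 * n₁) then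
        (XN n₁ ω - level (DI (0, 0) n₁ (2 * n₁) ω) ω) ^ 2 else 0) +
      E c F (fun ω => if DF (ball (0, 0) (2 * n₂)) (0, 0) ω ∈ hulls (0, 0) n₂ (2 * n₂) then
        (XN n₂ ω - level (DF (ball (0, 0) (2 * n₂)) (0, 0) ω) ω) ^ 2 else 0)) / L0 ^ 2 ≤ t := by
    refine le_trans ?_ hLt
    apply div_le_div_of_nonneg_right _ (by positivity)
    linarith
  have hc3t : c3 ^ 2 = 24 * t := by rw [ht]; ring
  have htot : 23 * t ≤ E c F (fun ω => if DI (0, 0) n₁ (2 * n₁) ω ∈ hulls (0, 0) n₁ (2 * n₁) ∧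
      DF (ball (0, 0) (2 * n₂)) (0, 0) ω ∈ hulls (0, 0) n₂ (2 * n₂) then (1 : ℝ) else 0) := by
    rw [hboth]
    linarith
  have hgp := good_pair (c := c) hc (F := F) (x := (0, 0)) (n₁ := n₁) (m₁ := 2 * n₁) (n₂ := n₂)
    (m₂ := 2 * n₂) hN1 (by omega) hball (θ := 1 / 3) (by linarith) (by linarith)
  obtain ⟨D₁, hD₁, D₂, hD₂, N, hgood⟩ := hgp
  exact rAt_of_pair hc hn1 le_rfl (by omega : 2 * n₁ + 1 ≤ n₂)
    (le_of_eq (by rw [hn₂, hn₁]; ring) : 2 * n₂ ≤ 4 * M * n)
    (by
      have : 4 * 3 * n ≤ 4 * M * n := Nat.mul_le_mul_right _ (by omega)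
      omega) hD₁ hD₂ hgood

end Crest.Agent.R161.Ann770
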