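import Crest.Agent.R161.Aut_373
import Crest.Agent.R161.Ifc_372
import Crest.Agent.R161.Green2_722

/-!
R161, STEP 6 (helper369), part W1: lattice linear functionals of the heights, test functions,
lattice approximations of test functions, Riemann sums with rate, discrete Laplacian.
-/

set_option autoImplicit false

noncomputable section

open Filter Topology MeasureTheory
open scoped ComplexConjugate

namespace Crest.Agent.R161.Ward369

open Crest.Agent.R161.Geo729 Crest.Agent.R161.Defs372 Crest.Agent.R161.Ifc372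
open Crest.Agent.R161.Aut373

/-! ### lattice functionals -/

/-- linear functional of the vertex heights -/
def Yl (a : P2 → ℝ) (ω : Cfg) : ℝ := ∑' v, a v * (ω.1 v : ℝ)

/-- finitely supported -/
def Fin0 (a : P2 → ℝ) : Prop := (Function.support a).Finite

/-- total mass -/
def mass (a : P2 → ℝ) : ℝ := ∑' v, a v

theorem Fin0.summable {a : P2 → ℝ} (h : Fin0 a) : Summable a := summable_of_hasFiniteSupport h

theorem Fin0.mul {a : P2 → ℝ} (h : Fin0 a) (x : P2 → ℝ) : Fin0 (fun v => a v * x v) :=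
  h.subset fun v hv => by
    simp only [Function.mem_support] at hv ⊢
    exact left_ne_zero_of_mul hv

theorem Fin0.mul_left {a : P2 → ℝ} (h : Fin0 a) (x : P2 → ℝ) : Fin0 (fun v => x v * a v) :=
  h.subset fun v hv => by
    simp only [Function.mem_support] at hv ⊢
    exact right_ne_zero_of_mul hv

theorem Fin0.add {a b : P2 → ℝ} (ha : Fin0 a) (hb : Fin0 b) : Fin0 (fun v => a v + b v) :=
  (ha.union hb).subset fun v hv => by
    simp only [Function.mem_support, Set.mem_union] at hv ⊢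
    by_contra hcon
    push Not at hcon
    exact hv (by rw [hcon.1, hcon.2, add_zero])

theorem Fin0.neg {a : P2 → ℝ} (ha : Fin0 a) : Fin0 (fun v => -a v) :=
  ha.subset fun v hv => by simpa using hv

theorem Fin0.sub {a b : P2 → ℝ} (ha : Fin0 a) (hb : Fin0 b) : Fin0 (fun v => a v - b v) := by
  simpa only [sub_eq_add_neg] using ha.add hb.neg

theorem Fin0.equiv {a : P2 → ℝ} (ha : Fin0 a) (σ : P2 ≃ P2) : Fin0 (fun v => a (σ v)) := by
  have : Function.support (fun v => a (σ v)) = σ ⁻¹' (Function.support a) := rfl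
  unfold Fin0
  rw [this]
  exact ha.preimage σ.injective.injOn

theorem fin0_of_subset {a : P2 → ℝ} {S : Finset P2} (h : ∀ v, v ∉ S → a v = 0) : Fin0 a :=
  S.finite_toSet.subset fun v hv => by
    by_contra hcon
    exact hv (h v hcon)

theorem Yl_add {a b : P2 → ℝ} (ha : Fin0 a) (hb : Fin0 b) (ω : Cfg) :
    Yl (fun v => a v + b v) ω = Yl a ω + Yl b ω := by
  unfold Yl
  rw [← (ha.mul _).summable.tsum_add (hb.mul _).summable]
  exact tsum_congr fun v => by ring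

theorem Yl_neg (a : P2 → ℝ) (ω : Cfg) : Yl (fun v => -a v) ω = -Yl a ω := by
  unfold Yl
  rw [← tsum_neg]
  exact tsum_congr fun v => by ring

theorem Yl_sub {a b : P2 → ℝ} (ha : Fin0 a) (hb : Fin0 b) (ω : Cfg) :
    Yl (fun v => a v - b v) ω = Yl a ω - Yl b ω := by
  simp only [sub_eq_add_neg]
  rw [Yl_add ha hb.neg, Yl_neg]

theorem Yl_smul (r : ℝ) (a : P2 → ℝ) (ω : Cfg) : Yl (fun v => r * a v) ω = r * Yl a ω := by
  unfold Yl
  rw [← tsum_mul_left]
  exact tsum_congr fun v => by ring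

theorem mass_add {a b : P2 → ℝ} (ha : Fin0 a) (hb : Fin0 b) :
    mass (fun v => a v + b v) = mass a + mass b := ha.summable.tsum_add hb.summable


theorem mass_sub {a b : P2 → ℝ} (ha : Fin0 a) (hb : Fin0 b) :
    mass (fun v => a v - b v) = mass a - mass b := ha.summable.tsum_sub hb.summable

theorem mass_smul (r : ℝ) (a : P2 → ℝ) : mass (fun v => r * a v) = r * mass a := tsum_mul_left

theorem mass_equiv (a : P2 → ℝ) (σ : P2 ≃ P2) : mass (fun v => a (σ v)) = mass a :=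
  σ.tsum_eq a

theorem Yl_eq_sum {a : P2 → ℝ} {S : Finset P2} (h : ∀ v, v ∉ S → a v = 0) (ω : Cfg) :
    Yl a ω = ∑ v ∈ S, a v * (ω.1 v : ℝ) :=
  tsum_eq_sum fun v hv => by rw [h v hv, zero_mul]

theorem mass_eq_sum {a : P2 → ℝ} {S : Finset P2} (h : ∀ v, v ∉ S → a v = 0) :
    mass a = ∑ v ∈ S, a v := tsum_eq_sum fun v hv => h v hv

theorem Yl_addH {a : P2 → ℝ} (ha : Fin0 a) (ω : Cfg) (t : ℤ) :
    Yl a (addH t ω) = Yl a ω + mass a * t := by
  unfold Yl mass
  rw [← tsum_mul_right, ← (ha.mul _).summable.tsum_add (ha.mul _).summable]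
  refine tsum_congr fun v => ?_
  simp only [addH]
  push_cast
  ring

theorem Yl_equiv (a : P2 → ℝ) (σ : P2 ≃ P2) (ω ω' : Cfg) (h : ∀ v, ω'.1 v = ω.1 (σ v)) :
    Yl a ω' = Yl (fun v => a (σ.symm v)) ω := by
  unfold Yl
  rw [← σ.tsum_eq (fun v => a (σ.symm v) * (ω.1 v : ℝ))]
  refine tsum_congr fun v => ?_
  rw [Equiv.symm_apply_apply, h]

theorem loc_Yl {a : P2 → ℝ} {S : Finset P2} (h : ∀ v, v ∉ S → a v = 0) :
    Loc (S : Set P2) (Yl a) := by
  intro ω ω' hag
  rw [Yl_eq_sum h, Yl_eq_sum h]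
  exact Finset.sum_congr rfl fun v hv => by rw [(hag v hv).1]

/-- exponential functional -/
def eY (a : P2 → ℝ) (ω : Cfg) : ℂ := Complex.exp (Complex.I * (Yl a ω : ℂ))

theorem norm_eY (a : P2 → ℝ) (ω : Cfg) : ‖eY a ω‖ = 1 := by
  unfold eY
  rw [mul_comm, Complex.norm_exp_ofReal_mul_I]

theorem eY_add {a b : P2 → ℝ} (ha : Fin0 a) (hb : Fin0 b) (ω : Cfg) :
    eY (fun v => a v + b v) ω = eY a ω * eY b ω := by
  unfold eY
  rw [Yl_add ha hb, ← Complex.exp_add]
  congr 1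
  push_cast
  ring

theorem eY_zero (ω : Cfg) : eY (fun _ => 0) ω = 1 := by
  unfold eY Yl
  simp


theorem chg_eY {a : P2 → ℝ} (ha : Fin0 a) : Chg (mass a) (eY a) := by
  intro ω _ t _
  unfold eY
  rw [Yl_addH ha, ← Complex.exp_add]
  congr 1
  push_cast
  ring

theorem loc_eY {a : P2 → ℝ} {S : Finset P2} (h : ∀ v, v ∉ S → a v = 0) :
    Loc (S : Set P2) (eY a) := loc_comp (loc_Yl h) (fun x : ℝ => Complex.exp (Complex.I * (x : ℂ)))

/-! ### test functions -/

theorem test_zero : Test (fun _ => 0) := ⟨contDiff_const, HasCompactSupport.zero⟩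

theorem Test.add {f g : ℂ → ℝ} (hf : Test f) (hg : Test g) : Test (fun z => f z + g z) :=
  ⟨hf.smooth.add hg.smooth, hf.supp.add hg.supp⟩

theorem Test.neg {f : ℂ → ℝ} (hf : Test f) : Test (fun z => -f z) :=
  ⟨hf.smooth.neg, hf.supp.neg⟩

theorem Test.sub {f g : ℂ → ℝ} (hf : Test f) (hg : Test g) : Test (fun z => f z - g z) := by
  simpa only [sub_eq_add_neg] using Test.add hf (Test.neg hg)

theorem Test.smooth_mul {f χ : ℂ → ℝ} (hf : Test f) (hχ : ContDiff ℝ (⊤ : ℕ∞) χ) :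
    Test (fun z => χ z * f z) := ⟨hχ.mul hf.smooth, hf.supp.mul_left⟩

theorem Test.smul {f : ℂ → ℝ} (hf : Test f) (r : ℝ) : Test (fun z => r * f z) :=
  Test.smooth_mul hf contDiff_const


/-- directional derivative -/
theorem Test.dir {f : ℂ → ℝ} (hf : Test f) (u : ℂ) : Test (fun z => fderiv ℝ f z u) where
  smooth := by
    have h1 : ContDiff ℝ (⊤ : ℕ∞) (fderiv ℝ f) := (hf.smooth.fderiv_right (m := (⊤ : ℕ∞)) (by simp))
    exact h1.clm_apply contDiff_const
  supp := by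
    have h1 := hf.supp.fderiv (𝕜 := ℝ)
    refine h1.mono ?_
    intro z hz
    simp only [Function.mem_support] at hz ⊢
    intro h
    apply hz
    rw [h]
    rfl

theorem Test.exists_lip {f : ℂ → ℝ} (hf : Test f) : ∃ L : ℝ, 0 ≤ L ∧
    ∀ z w : ℂ, |f z - f w| ≤ L * ‖z - w‖ := by
  have h1 : Continuous (fderiv ℝ f) := hf.smooth.continuous_fderiv (by simp)
  obtain ⟨L, hL⟩ := h1.bounded_above_of_compact_support (hf.supp.fderiv (𝕜 := ℝ))
  refine ⟨L, (norm_nonneg _).trans (hL 0), fun z w => ?_⟩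
  have h2 := Convex.norm_image_sub_le_of_norm_fderiv_le (𝕜 := ℝ) (s := Set.univ) (f := f)
    (fun x _ => (hf.smooth.differentiable (by simp)).differentiableAt) (fun x _ => hL x)
    convex_univ (Set.mem_univ w) (Set.mem_univ z)
  simpa [Real.norm_eq_abs] using h2

theorem Test.exists_bdd {f : ℂ → ℝ} (hf : Test f) : ∃ M : ℝ, 0 ≤ M ∧ ∀ z : ℂ, |f z| ≤ M := by
  obtain ⟨M, hM⟩ := hf.smooth.continuous.bounded_above_of_compact_support hf.supp
  exact ⟨M, (norm_nonneg _).trans (hM 0), fun z => hM z⟩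

theorem Test.exists_radius {f : ℂ → ℝ} (hf : Test f) :
    ∃ R : ℝ, 0 < R ∧ ∀ z : ℂ, R < ‖z‖ → f z = 0 := by
  obtain ⟨R, hR⟩ := hf.supp.isCompact.isBounded.subset_closedBall 0
  refine ⟨|R| + 1, by positivity, fun z hz => ?_⟩
  by_contra hcon
  have h1 := hR (subset_tsupport f hcon)
  rw [Metric.mem_closedBall, dist_zero_right] at h1
  have := le_abs_self R
  linarith

theorem Test.integrable {f : ℂ → ℝ} (hf : Test f) : Integrable f :=
  hf.smooth.continuous.integrable_of_hasCompactSupport hf.supp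

open Laplacian in
theorem Test.lap {f : ℂ → ℝ} (hf : Test f) : Test (Δ f) where
  smooth := by
    have h1 : Δ f = fun z => fderiv ℝ (fun w => fderiv ℝ f w 1) z 1 +
        fderiv ℝ (fun w => fderiv ℝ f w Complex.I) z Complex.I := by
      funext z
      rw [InnerProductSpace.laplacian_eq_iteratedFDeriv_complexPlane]
      simp only [iteratedFDeriv_two_apply, Matrix.cons_val_zero, Matrix.cons_val_one]
      have hd : DifferentiableAt ℝ (fderiv ℝ f) z :=
        ((hf.smooth.fderiv_right (m := (⊤ : ℕ∞)) (by simp)).differentiable (by simp)).differentiableAt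
      congr 1
      · rw [fderiv_clm_apply hd (differentiableAt_const _)]
        simp
      · rw [fderiv_clm_apply hd (differentiableAt_const _)]
        simp
    rw [h1]
    exact (Test.dir (Test.dir hf 1) 1).smooth.add (Test.dir (Test.dir hf Complex.I) Complex.I).smooth
  supp := Green722.hasCompactSupport_lapC hf.supp

open Laplacian in
theorem Test.lap_eq {f : ℂ → ℝ} (hf : Test f) (z : ℂ) :
    (Δ f) z = fderiv ℝ (fun w => fderiv ℝ f w 1) z 1 +
        fderiv ℝ (fun w => fderiv ℝ f w Complex.I) z Complex.I := by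
  rw [InnerProductSpace.laplacian_eq_iteratedFDeriv_complexPlane]
  simp only [iteratedFDeriv_two_apply, Matrix.cons_val_zero, Matrix.cons_val_one]
  have hd : DifferentiableAt ℝ (fderiv ℝ f) z :=
    ((hf.smooth.fderiv_right (m := (⊤ : ℕ∞)) (by simp)).differentiable (by simp)).differentiableAt
  congr 1
  · rw [fderiv_clm_apply hd (differentiableAt_const _)]
    simp
  · rw [fderiv_clm_apply hd (differentiableAt_const _)]
    simp

/-! ### lattice boxes -/

/-- lattice points in a box of macroscopic radius `R` -/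
def lbox (δ R : ℝ) : Finset P2 :=
  Finset.Icc (-⌊R / δ⌋) ⌊R / δ⌋ ×ˢ Finset.Icc (-⌊R / δ⌋) ⌊R / δ⌋

theorem norm_ptC_ge {δ : ℝ} (hδ : 0 < δ) (v : P2) :
    δ * |(v.1 : ℝ)| ≤ ‖ptC δ v‖ ∧ δ * |(v.2 : ℝ)| ≤ ‖ptC δ v‖ := by
  have h1 : (ptC δ v).re = δ * v.1 := by simp [ptC]
  have h2 : (ptC δ v).im = δ * v.2 := by simp [ptC]
  have h3 := Complex.abs_re_le_norm (ptC δ v)
  have h4 := Complex.abs_im_le_norm (ptC δ v)
  rw [h1, abs_mul, abs_of_pos hδ] at h3
  rw [h2, abs_mul, abs_of_pos hδ] at h4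
  exact ⟨h3, h4⟩

theorem ptC_re (δ : ℝ) (v : P2) : (ptC δ v).re = δ * v.1 := by simp [ptC]
theorem ptC_im (δ : ℝ) (v : P2) : (ptC δ v).im = δ * v.2 := by simp [ptC]

theorem mem_lbox {δ R : ℝ} (hδ : 0 < δ) {v : P2} (h : ‖ptC δ v‖ ≤ R) : v ∈ lbox δ R := by
  obtain ⟨h1, h2⟩ := norm_ptC_ge hδ v
  have key : ∀ x : ℤ, δ * |(x : ℝ)| ≤ R → -⌊R / δ⌋ ≤ x ∧ x ≤ ⌊R / δ⌋ := by
    intro x hx
    have h3 : |(x : ℝ)| ≤ R / δ := by
      rw [le_div_iff₀ hδ]
      linarith
    rw [abs_le] at h3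
    constructor
    · have : ((-x : ℤ) : ℝ) ≤ R / δ := by push_cast; linarith [h3.1]
      have := Int.le_floor.2 this
      linarith
    · exact Int.le_floor.2 h3.2
  simp only [lbox, Finset.mem_product, Finset.mem_Icc]
  exact ⟨key _ (h1.trans h), key _ (h2.trans h)⟩

theorem card_lbox {δ R : ℝ} (hδ : 0 < δ) (hδ1 : δ ≤ 1) (hR : 0 ≤ R) :
    ((lbox δ R).card : ℝ) * δ ^ 2 ≤ (2 * R + 1) ^ 2 := by
  have h0 : 0 ≤ ⌊R / δ⌋ := Int.floor_nonneg.2 (by positivity)
  have h1 : (((Finset.Icc (-⌊R / δ⌋) ⌊R / δ⌋).card : ℕ) : ℝ) = 2 * (⌊R / δ⌋ : ℝ) + 1 := by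
    rw [Int.card_Icc]
    have : ((⌊R / δ⌋ + 1 - -⌊R / δ⌋).toNat : ℤ) = 2 * ⌊R / δ⌋ + 1 := by
      rw [Int.toNat_of_nonneg (by linarith)]
      ring
    exact_mod_cast this
  have h2 : (⌊R / δ⌋ : ℝ) * δ ≤ R := by
    have := Int.floor_le (R / δ)
    rwa [le_div_iff₀ hδ] at this
  have h3 : 0 ≤ (⌊R / δ⌋ : ℝ) := by exact_mod_cast h0
  rw [lbox, Finset.card_product]
  push_cast
  rw [h1]
  have h4 : (2 * (⌊R / δ⌋ : ℝ) + 1) * δ ≤ 2 * R + 1 := by nlinarith
  calc (2 * (⌊R / δ⌋ : ℝ) + 1) * (2 * (⌊R / δ⌋ : ℝ) + 1) * δ ^ 2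
      = ((2 * (⌊R / δ⌋ : ℝ) + 1) * δ) ^ 2 := by ring
    _ ≤ (2 * R + 1) ^ 2 := by
      gcongr

theorem mem_lbox_abs {δ R : ℝ} (hδ : 0 < δ) {v : P2} (h : v ∈ lbox δ R) :
    δ * |(v.1 : ℝ)| ≤ R ∧ δ * |(v.2 : ℝ)| ≤ R := by
  simp only [lbox, Finset.mem_product, Finset.mem_Icc] at h
  have key : ∀ x : ℤ, -⌊R / δ⌋ ≤ x → x ≤ ⌊R / δ⌋ → δ * |(x : ℝ)| ≤ R := by
    intro x h1 h2
    have h3 : |(x : ℝ)| ≤ R / δ := by
      have h4 : |x| ≤ ⌊R / δ⌋ := abs_le.2 ⟨h1, h2⟩
      have h5 := Int.le_floor.1 h4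
      exact_mod_cast h5
    rw [le_div_iff₀ hδ] at h3
    linarith
  exact ⟨key _ h.1.1 h.1.2, key _ h.2.1 h.2.2⟩

/-- `a n` approximates the test function `f` (times `δ²`) with an error `O(δ³)` per site -/
structure Lat (δ : ℕ → ℝ) (a : ℕ → P2 → ℝ) (f : ℂ → ℝ) : Prop where
  close : ∃ C : ℝ, 0 ≤ C ∧ ∀ n v, |a n v - δ n ^ 2 * f (ptC (δ n) v)| ≤ C * δ n ^ 3
  supp : ∃ R : ℝ, 0 < R ∧ (∀ n v, R < ‖ptC (δ n) v‖ → a n v = 0) ∧ ∀ z, R < ‖z‖ → f z = 0

/-- admissible meshes -/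
structure Mesh (δ : ℕ → ℝ) : Prop where
  pos : ∀ n, 0 < δ n
  le_one : ∀ n, δ n ≤ 1
  lim : Tendsto δ atTop (𝓝 0)

section Lat

variable {δ : ℕ → ℝ} {a b : ℕ → P2 → ℝ} {f g : ℂ → ℝ}

theorem Lat.fin0 (hδ : Mesh δ) (h : Lat δ a f) (n : ℕ) : Fin0 (a n) := by
  obtain ⟨R, hR, h1, h2⟩ := h.supp
  refine fin0_of_subset (S := lbox (δ n) R) fun v hv => h1 n v ?_
  by_contra hcon
  exact hv (mem_lbox (hδ.pos n) (not_lt.1 hcon))

theorem Lat.add (h : Lat δ a f) (h' : Lat δ b g) :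
    Lat δ (fun n v => a n v + b n v) (fun z => f z + g z) where
  close := by
    obtain ⟨C, hC, h1⟩ := h.close
    obtain ⟨C', hC', h1'⟩ := h'.close
    refine ⟨C + C', by positivity, fun n v => ?_⟩
    calc |a n v + b n v - δ n ^ 2 * (f (ptC (δ n) v) + g (ptC (δ n) v))|
        = |(a n v - δ n ^ 2 * f (ptC (δ n) v)) + (b n v - δ n ^ 2 * g (ptC (δ n) v))| := by
          congr 1; ring
      _ ≤ C * δ n ^ 3 + C' * δ n ^ 3 := (abs_add_le _ _).trans (add_le_add (h1 n v) (h1' n v))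
      _ = (C + C') * δ n ^ 3 := by ring
  supp := by
    obtain ⟨R, hR, h1, h2⟩ := h.supp
    obtain ⟨R', hR', h1', h2'⟩ := h'.supp
    refine ⟨max R R', lt_max_of_lt_left hR, fun n v hv => ?_, fun z hz => ?_⟩
    · rw [h1 n v ((le_max_left _ _).trans_lt hv), h1' n v ((le_max_right _ _).trans_lt hv),
        add_zero]
    · rw [h2 z ((le_max_left _ _).trans_lt hz), h2' z ((le_max_right _ _).trans_lt hz), add_zero]

theorem Lat.smul (h : Lat δ a f) (r : ℝ) : Lat δ (fun n v => r * a n v) (fun z => r * f z) where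
  close := by
    obtain ⟨C, hC, h1⟩ := h.close
    refine ⟨|r| * C, by positivity, fun n v => ?_⟩
    calc |r * a n v - δ n ^ 2 * (r * f (ptC (δ n) v))|
        = |r| * |a n v - δ n ^ 2 * f (ptC (δ n) v)| := by rw [← abs_mul]; congr 1; ring
      _ ≤ |r| * (C * δ n ^ 3) := by gcongr; exact h1 n v
      _ = |r| * C * δ n ^ 3 := by ring
  supp := by
    obtain ⟨R, hR, h1, h2⟩ := h.supp
    refine ⟨R, hR, fun n v hv => by rw [h1 n v hv, mul_zero], fun z hz => by
      rw [h2 z hz, mul_zero]⟩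

theorem Lat.neg (h : Lat δ a f) : Lat δ (fun n v => -a n v) (fun z => -f z) := by
  simpa only [neg_one_mul] using h.smul (-1)

theorem Lat.sub (h : Lat δ a f) (h' : Lat δ b g) :
    Lat δ (fun n v => a n v - b n v) (fun z => f z - g z) := by
  simpa only [sub_eq_add_neg] using h.add h'.neg

/-- product with a bounded function of the position -/
theorem Lat.mul (h : Lat δ a f) {χ : ℂ → ℝ} {M : ℝ} (hχ : ∀ z, |χ z| ≤ M) :
    Lat δ (fun n v => χ (ptC (δ n) v) * a n v) (fun z => χ z * f z) where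
  close := by
    obtain ⟨C, hC, h1⟩ := h.close
    have hM : 0 ≤ M := (abs_nonneg _).trans (hχ 0)
    refine ⟨M * C, by positivity, fun n v => ?_⟩
    calc |χ (ptC (δ n) v) * a n v - δ n ^ 2 * (χ (ptC (δ n) v) * f (ptC (δ n) v))|
        = |χ (ptC (δ n) v)| * |a n v - δ n ^ 2 * f (ptC (δ n) v)| := by
          rw [← abs_mul]; congr 1; ring
      _ ≤ M * (C * δ n ^ 3) := by gcongr; exacts [hχ _, h1 n v]
      _ = M * C * δ n ^ 3 := by ring
  supp := by
    obtain ⟨R, hR, h1, h2⟩ := h.supp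
    refine ⟨R, hR, fun n v hv => by rw [h1 n v hv, mul_zero], fun z hz => by
      rw [h2 z hz, mul_zero]⟩

theorem Lat.of_test (hf : Test f) : Lat δ (fun n v => δ n ^ 2 * f (ptC (δ n) v)) f where
  close := by
    refine ⟨0, le_rfl, fun n v => ?_⟩
    simp
  supp := by
    obtain ⟨R, hR, h⟩ := Test.exists_radius hf
    exact ⟨R, hR, fun n v hv => by rw [h _ hv, mul_zero], h⟩

/-- replacing the limit function and the scale factor: `r n → r` at rate `δ` -/
theorem Lat.smul_seq (hδ : Mesh δ) (h : Lat δ a f) (hf : Test f) {r : ℕ → ℝ} {r0 C1 : ℝ}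
    (hr : ∀ n, |r n - r0| ≤ C1 * δ n) :
    Lat δ (fun n v => r n * a n v) (fun z => r0 * f z) where
  close := by
    obtain ⟨C, hC, h1⟩ := h.close
    obtain ⟨M, hM, hM'⟩ := Test.exists_bdd hf
    have hC1 : 0 ≤ C1 := by
      have := (abs_nonneg _).trans (hr 0)
      exact nonneg_of_mul_nonneg_left this (hδ.pos 0)
    refine ⟨(|r0| + C1) * C + C1 * M, by positivity, fun n v => ?_⟩
    have hp := hδ.pos n
    have h1' := hδ.le_one n
    have hrn : |r n| ≤ |r0| + C1 := by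
      have h2 := hr n
      have h3 : C1 * δ n ≤ C1 * 1 := by gcongr
      calc |r n| = |r0 + (r n - r0)| := by congr 1; ring
        _ ≤ |r0| + |r n - r0| := abs_add_le _ _
        _ ≤ |r0| + C1 := by linarith
    calc |r n * a n v - δ n ^ 2 * (r0 * f (ptC (δ n) v))|
        = |r n * (a n v - δ n ^ 2 * f (ptC (δ n) v)) +
            (r n - r0) * (δ n ^ 2 * f (ptC (δ n) v))| := by congr 1; ring
      _ ≤ |r n| * |a n v - δ n ^ 2 * f (ptC (δ n) v)| +
            |r n - r0| * (δ n ^ 2 * |f (ptC (δ n) v)|) := by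
          refine (abs_add_le _ _).trans (add_le_add ?_ ?_)
          · rw [abs_mul]
          · rw [abs_mul, abs_mul, abs_of_nonneg (by positivity : (0 : ℝ) ≤ δ n ^ 2)]
      _ ≤ (|r0| + C1) * (C * δ n ^ 3) + (C1 * δ n) * (δ n ^ 2 * M) := by
          gcongr
          · exact h1 n v
          · exact hr n
          · exact hM' _
      _ = ((|r0| + C1) * C + C1 * M) * δ n ^ 3 := by ring
  supp := by
    obtain ⟨R, hR, h1, h2⟩ := h.supp
    refine ⟨R, hR, fun n v hv => by rw [h1 n v hv, mul_zero], fun z hz => by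
      rw [h2 z hz, mul_zero]⟩

/-- summing the errors -/
theorem Lat.sum_error (hδ : Mesh δ) (h : Lat δ a f) : ∃ (C R : ℝ), 0 ≤ C ∧ 0 < R ∧ ∀ n,
    (∀ v, v ∉ lbox (δ n) R → a n v = 0 ∧ f (ptC (δ n) v) = 0) ∧
    ∑ v ∈ lbox (δ n) R, |a n v - δ n ^ 2 * f (ptC (δ n) v)| ≤ C * δ n := by
  obtain ⟨C, hC, h1⟩ := h.close
  obtain ⟨R, hR, h2, h3⟩ := h.supp
  refine ⟨C * (2 * R + 1) ^ 2, R, by positivity, hR, fun n => ⟨fun v hv => ?_, ?_⟩⟩
  · have h4 : R < ‖ptC (δ n) v‖ := by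
      by_contra hcon
      exact hv (mem_lbox (hδ.pos n) (not_lt.1 hcon))
    exact ⟨h2 n v h4, h3 _ h4⟩
  · have hp := hδ.pos n
    calc ∑ v ∈ lbox (δ n) R, |a n v - δ n ^ 2 * f (ptC (δ n) v)|
        ≤ ∑ v ∈ lbox (δ n) R, C * δ n ^ 3 := Finset.sum_le_sum fun v _ => h1 n v
      _ = C * δ n * (((lbox (δ n) R).card : ℝ) * δ n ^ 2) := by
          rw [Finset.sum_const, nsmul_eq_mul]; ring
      _ ≤ C * δ n * (2 * R + 1) ^ 2 := by
          gcongr
          exact card_lbox hp (hδ.le_one n) hR.le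
      _ = C * (2 * R + 1) ^ 2 * δ n := by ring

end Lat

/-! ### Riemann sums -/

/-- lattice cell -/
def cell (δ : ℝ) (v : P2) : Set ℂ :=
  {z | δ * v.1 ≤ z.re ∧ z.re < δ * v.1 + δ ∧ δ * v.2 ≤ z.im ∧ z.im < δ * v.2 + δ}

theorem cell_eq (δ : ℝ) (v : P2) : cell δ v = Complex.measurableEquivRealProd ⁻¹'
    (Set.Ico (δ * v.1) (δ * v.1 + δ) ×ˢ Set.Ico (δ * v.2) (δ * v.2 + δ)) := by
  ext z
  simp only [cell, Set.mem_ofPred_eq, Set.mem_preimage, Complex.measurableEquivRealProd_apply,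
    Set.mem_prod, Set.mem_Ico]
  tauto

theorem measurableSet_cell (δ : ℝ) (v : P2) : MeasurableSet (cell δ v) := by
  rw [cell_eq]
  exact Complex.measurableEquivRealProd.measurable (measurableSet_Ico.prod measurableSet_Ico)

theorem volume_cell {δ : ℝ} (hδ : 0 < δ) (v : P2) : (volume (cell δ v)).toReal = δ ^ 2 := by
  rw [cell_eq, Complex.volume_preserving_equiv_real_prod.measure_preimage
    (measurableSet_Ico.prod measurableSet_Ico).nullMeasurableSet, Measure.volume_eq_prod,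
    Measure.prod_prod, Real.volume_Ico, Real.volume_Ico]
  rw [add_sub_cancel_left, add_sub_cancel_left, ENNReal.toReal_mul,
    ENNReal.toReal_ofReal hδ.le]
  ring

/-- **Riemann sums with rate.** -/
theorem riemann {f : ℂ → ℝ} (hf : Test f) : ∃ C : ℝ, 0 ≤ C ∧ ∀ δ : ℝ, 0 < δ → δ ≤ 1 →
    |mass (fun v => δ ^ 2 * f (ptC δ v)) - ∫ z, f z| ≤ C * δ := by
  classical
  obtain ⟨L, hL, hLip⟩ := Test.exists_lip hf
  obtain ⟨R, hR, hR0⟩ := Test.exists_radius hf
  refine ⟨L * 2 * (volume (Metric.closedBall (0 : ℂ) (R + 2))).toReal, by positivity, ?_⟩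
  intro δ hδ hδ1
  set S := lbox δ R with hS
  have hS0 : ∀ v, v ∉ S → f (ptC δ v) = 0 := fun v hv => hR0 _ (by
    by_contra hcon
    exact hv (mem_lbox hδ (not_lt.1 hcon)))
  set F : ℂ → ℝ := fun z => ∑ v ∈ S, (cell δ v).indicator (fun _ => f (ptC δ v)) z with hF
  have hvol : ∀ v, volume (cell δ v) ≠ ⊤ := fun v h => by
    have := volume_cell hδ v
    rw [h] at this
    simp at this
    exact absurd this.symm (by positivity)
  have hFi : ∀ v ∈ S, Integrable ((cell δ v).indicator (fun _ => f (ptC δ v))) := fun v _ =>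
    (integrable_indicator_iff (measurableSet_cell δ v)).2 (integrableOn_const (hvol v))
  have hFint : Integrable F := integrable_finsetSum _ hFi
  have hF1 : ∫ z, F z = mass (fun v => δ ^ 2 * f (ptC δ v)) := by
    rw [hF, integral_finsetSum _ hFi, mass_eq_sum (S := S) fun v hv => by rw [hS0 v hv, mul_zero]]
    refine Finset.sum_congr rfl fun v _ => ?_
    rw [integral_indicator_const _ (measurableSet_cell δ v), smul_eq_mul]
    congr 1
    exact volume_cell hδ v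
  -- pointwise estimate
  have hpt : ∀ z : ℂ, F z = f (ptC δ (⌊z.re / δ⌋, ⌊z.im / δ⌋)) ∧
      ‖ptC δ (⌊z.re / δ⌋, ⌊z.im / δ⌋) - z‖ ≤ 2 * δ := by
    intro z
    set v0 : P2 := (⌊z.re / δ⌋, ⌊z.im / δ⌋) with hv0
    have hfl : ∀ x : ℝ, δ * (⌊x / δ⌋ : ℝ) ≤ x ∧ x < δ * (⌊x / δ⌋ : ℝ) + δ := by
      intro x
      have h1 := Int.floor_le (x / δ)
      have h2 := Int.lt_floor_add_one (x / δ)
      rw [le_div_iff₀ hδ] at h1
      rw [div_lt_iff₀ hδ] at h2
      constructor <;> linarith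
    have hfl' : ∀ (x : ℝ) (m : ℤ), δ * (m : ℝ) ≤ x → x < δ * (m : ℝ) + δ → m = ⌊x / δ⌋ := by
      intro x m h1 h2
      symm
      rw [Int.floor_eq_iff]
      constructor
      · rw [le_div_iff₀ hδ]; linarith
      · rw [div_lt_iff₀ hδ]; linarith
    have hmem : ∀ v, z ∈ cell δ v ↔ v = v0 := by
      intro v
      constructor
      · rintro ⟨h1, h2, h3, h4⟩
        exact Prod.ext (hfl' _ _ h1 h2) (hfl' _ _ h3 h4)
      · rintro rfl
        exact ⟨(hfl _).1, (hfl _).2, (hfl _).1, (hfl _).2⟩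
    constructor
    · rw [hF]
      simp only [Set.indicator_apply, hmem]
      rw [Finset.sum_ite_eq' S v0 (fun v => f (ptC δ v))]
      split_ifs with h
      · rfl
      · exact (hS0 v0 h).symm
    · refine (Complex.norm_le_abs_re_add_abs_im _).trans ?_
      have h1 : |(ptC δ v0 - z).re| ≤ δ := by
        rw [Complex.sub_re, ptC_re, abs_le]
        have := hfl z.re
        constructor <;> linarith [this.1, this.2]
      have h2 : |(ptC δ v0 - z).im| ≤ δ := by
        rw [Complex.sub_im, ptC_im, abs_le]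
        have := hfl z.im
        constructor <;> linarith [this.1, this.2]
      linarith
  rw [← hF1, ← integral_sub hFint (Test.integrable hf)]
  have hbd : ∀ z, ‖F z - f z‖ ≤ (Metric.closedBall (0 : ℂ) (R + 2)).indicator
      (fun _ => L * (2 * δ)) z := by
    intro z
    obtain ⟨h1, h2⟩ := hpt z
    rw [h1]
    by_cases hz : z ∈ Metric.closedBall (0 : ℂ) (R + 2)
    · rw [Set.indicator_of_mem hz]
      refine (hLip _ _).trans ?_
      gcongr
    · rw [Set.indicator_of_notMem hz]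
      rw [Metric.mem_closedBall, dist_zero_right, not_le] at hz
      rw [hR0 z (by linarith), hR0]
      · simp
      · have h3 : ‖z‖ ≤ ‖ptC δ (⌊z.re / δ⌋, ⌊z.im / δ⌋)‖ +
            ‖ptC δ (⌊z.re / δ⌋, ⌊z.im / δ⌋) - z‖ := by
          have := norm_sub_le (ptC δ (⌊z.re / δ⌋, ⌊z.im / δ⌋))
            (ptC δ (⌊z.re / δ⌋, ⌊z.im / δ⌋) - z)
          simpa using this
        linarith
  have hball : volume (Metric.closedBall (0 : ℂ) (R + 2)) ≠ ⊤ :=
    (isCompact_closedBall (0 : ℂ) _).measure_lt_top.ne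
  have hind : Integrable ((Metric.closedBall (0 : ℂ) (R + 2)).indicator
      (fun _ => L * (2 * δ))) :=
    (integrable_indicator_iff Metric.isClosed_closedBall.measurableSet).2 (integrableOn_const hball)
  calc |∫ z, F z - f z| = ‖∫ z, F z - f z‖ := (Real.norm_eq_abs _).symm
    _ ≤ ∫ z, (Metric.closedBall (0 : ℂ) (R + 2)).indicator (fun _ => L * (2 * δ)) z :=
        norm_integral_le_of_norm_le hind (Eventually.of_forall hbd)
    _ = L * 2 * (volume (Metric.closedBall (0 : ℂ) (R + 2))).toReal * δ := by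
        rw [integral_indicator_const _ Metric.isClosed_closedBall.measurableSet, smul_eq_mul]
        rw [Measure.real]
        ring

/-- masses of lattice approximations -/
theorem Lat.mass {δ : ℕ → ℝ} {a : ℕ → P2 → ℝ} {f : ℂ → ℝ} (hδ : Mesh δ) (h : Lat δ a f)
    (hf : Test f) : ∃ C : ℝ, 0 ≤ C ∧ ∀ n, |Ward369.mass (a n) - ∫ z, f z| ≤ C * δ n := by
  obtain ⟨C1, hC1, h1⟩ := riemann hf
  obtain ⟨C2, R, hC2, hR, h2⟩ := h.sum_error hδ
  refine ⟨C1 + C2, by positivity, fun n => ?_⟩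
  have h3 := h1 (δ n) (hδ.pos n) (hδ.le_one n)
  obtain ⟨h4, h5⟩ := h2 n
  have h6 : |Ward369.mass (a n) - Ward369.mass (fun v => δ n ^ 2 * f (ptC (δ n) v))| ≤
      C2 * δ n := by
    rw [mass_eq_sum (S := lbox (δ n) R) fun v hv => (h4 v hv).1,
      mass_eq_sum (S := lbox (δ n) R) fun v hv => by rw [(h4 v hv).2, mul_zero],
      ← Finset.sum_sub_distrib]
    exact (Finset.abs_sum_le_sum_abs _ _).trans h5
  calc |Ward369.mass (a n) - ∫ z, f z|
      = |(Ward369.mass (a n) - Ward369.mass (fun v => δ n ^ 2 * f (ptC (δ n) v))) +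
          (Ward369.mass (fun v => δ n ^ 2 * f (ptC (δ n) v)) - ∫ z, f z)| := by congr 1; ring
    _ ≤ C2 * δ n + C1 * δ n := (abs_add_le _ _).trans (add_le_add h6 h3)
    _ = (C1 + C2) * δ n := by ring

/-! ### discrete Laplacian -/

/-- minus the discrete Laplacian (lattice scale): `4 ψ(v) - Σ_{w ~ v} ψ(w)` -/
def dL (δ : ℝ) (ψ : ℂ → ℝ) (v : P2) : ℝ :=
  4 * ψ (ptC δ v) - ψ (ptC δ (v.1 + 1, v.2)) - ψ (ptC δ (v.1 - 1, v.2)) -
    ψ (ptC δ (v.1, v.2 + 1)) - ψ (ptC δ (v.1, v.2 - 1))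

/-- second difference in one direction -/
theorem second_diff {f : ℂ → ℝ} (hf : Test f) (u : ℂ) (hu : ‖u‖ = 1) : ∃ C : ℝ, 0 ≤ C ∧
    ∀ (z : ℂ) (t : ℝ), 0 ≤ t →
      |f (z + t * u) + f (z - t * u) - 2 * f z -
        t ^ 2 * fderiv ℝ (fun w => fderiv ℝ f w u) z u| ≤ C * t ^ 3 := by
  have hq := Test.dir hf u
  have hp := Test.dir hq u
  set q : ℂ → ℝ := fun w => fderiv ℝ f w u with hqd
  set p : ℂ → ℝ := fun w => fderiv ℝ q w u with hpd
  obtain ⟨L, hL, hLip⟩ := Test.exists_lip hp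
  refine ⟨2 * L, by positivity, fun z t ht => ?_⟩
  -- derivatives along lines
  have hline : ∀ (g : ℂ → ℝ), Test g → ∀ (σ s : ℝ),
      HasDerivAt (fun s : ℝ => g (z + (σ * s : ℝ) * u)) (σ * fderiv ℝ g (z + (σ * s : ℝ) * u) u) s := by
    intro g hg σ s
    have h1 : HasDerivAt (fun s : ℝ => z + ((σ * s : ℝ) : ℂ) * u) ((σ : ℂ) * u) s := by
      have h2 : HasDerivAt (fun s : ℝ => ((σ * s : ℝ) : ℂ)) (σ : ℂ) s := by
        have := ((hasDerivAt_id s).const_mul σ).ofReal_comp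
        simpa using this
      exact (h2.mul_const u).const_add z
    have h3 : HasFDerivAt g (fderiv ℝ g (z + ((σ * s : ℝ) : ℂ) * u)) (z + ((σ * s : ℝ) : ℂ) * u) :=
      ((hg.smooth.differentiable (by simp)).differentiableAt).hasFDerivAt
    have h4 := h3.comp_hasDerivAt s h1
    have h5 : fderiv ℝ g (z + ((σ * s : ℝ) : ℂ) * u) ((σ : ℂ) * u) =
        σ * fderiv ℝ g (z + ((σ * s : ℝ) : ℂ) * u) u := by
      have e : (σ : ℂ) * u = σ • u := Complex.real_smul.symm
      rw [e, map_smul, smul_eq_mul]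
    rw [h5] at h4
    exact h4
  have hqe : ∀ w, fderiv ℝ f w u = q w := fun w => rfl
  have hpe : ∀ w, fderiv ℝ q w u = p w := fun w => rfl
  have hp1 : ∀ s : ℝ, HasDerivAt (fun s : ℝ => f (z + (1 * s : ℝ) * u) + f (z + ((-1) * s : ℝ) * u) -
      2 * f z - s ^ 2 * p z)
      (q (z + (1 * s : ℝ) * u) - q (z + ((-1) * s : ℝ) * u) - 2 * s * p z) s := by
    intro s
    have h1 := hline f hf 1 s
    have h2 := hline f hf (-1) s
    rw [hqe] at h1 h2
    have h3 : HasDerivAt (fun s : ℝ => s ^ 2 * p z) (2 * s * p z) s := by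
      have := ((hasDerivAt_id s).pow 2).mul_const (p z)
      simpa using this
    have h4 := ((h1.add h2).sub_const (2 * f z)).sub h3
    refine h4.congr_deriv ?_
    ring
  have hp2 : ∀ s : ℝ, HasDerivAt (fun s : ℝ => q (z + (1 * s : ℝ) * u) - q (z + ((-1) * s : ℝ) * u) -
      2 * s * p z) (p (z + (1 * s : ℝ) * u) + p (z + ((-1) * s : ℝ) * u) - 2 * p z) s := by
    intro s
    have h1 := hline q hq 1 s
    have h2 := hline q hq (-1) s
    rw [hpe] at h1 h2
    have h3 : HasDerivAt (fun s : ℝ => 2 * s * p z) (2 * p z) s := by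
      have := ((hasDerivAt_id s).const_mul 2).mul_const (p z)
      simpa using this
    have h4 := (h1.sub h2).sub h3
    refine h4.congr_deriv ?_
    ring
  have hnorm : ∀ s : ℝ, ‖((s : ℝ) : ℂ) * u‖ = |s| := by
    intro s
    rw [norm_mul, hu, mul_one, Complex.norm_real, Real.norm_eq_abs]
  have hb2 : ∀ s ∈ Set.Icc (0 : ℝ) t,
      ‖p (z + (1 * s : ℝ) * u) + p (z + ((-1) * s : ℝ) * u) - 2 * p z‖ ≤ 2 * L * t := by
    intro s hs
    have h1 := hLip (z + (1 * s : ℝ) * u) z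
    have h2 := hLip (z + ((-1) * s : ℝ) * u) z
    rw [add_sub_cancel_left, hnorm] at h1 h2
    rw [one_mul, abs_of_nonneg hs.1] at h1
    rw [neg_one_mul, abs_neg, abs_of_nonneg hs.1] at h2
    rw [Real.norm_eq_abs]
    have h3 : L * s ≤ L * t := by gcongr; exact hs.2
    rw [one_mul, neg_one_mul]
    calc |p (z + (s : ℝ) * u) + p (z + ((-s : ℝ) : ℂ) * u) - 2 * p z|
        = |(p (z + (s : ℝ) * u) - p z) + (p (z + ((-s : ℝ) : ℂ) * u) - p z)| := by
          congr 1; ring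
      _ ≤ L * s + L * s := (abs_add_le _ _).trans (add_le_add h1 h2)
      _ ≤ 2 * L * t := by linarith
  have hz0 : ∀ (g : ℂ → ℝ), g (z + ((1 * (0 : ℝ) : ℝ) : ℂ) * u) = g z ∧
      g (z + (((-1) * (0 : ℝ) : ℝ) : ℂ) * u) = g z := by
    intro g
    simp
  have hb1 : ∀ s ∈ Set.Icc (0 : ℝ) t,
      ‖q (z + (1 * s : ℝ) * u) - q (z + ((-1) * s : ℝ) * u) - 2 * s * p z‖ ≤ 2 * L * t * t := by
    intro s hs
    have h1 := Convex.norm_image_sub_le_of_norm_hasDerivWithin_le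
      (f := fun s : ℝ => q (z + (1 * s : ℝ) * u) - q (z + ((-1) * s : ℝ) * u) - 2 * s * p z)
      (fun x _ => (hp2 x).hasDerivWithinAt) hb2 (convex_Icc 0 t)
      (Set.left_mem_Icc.2 ht) hs
    simp only [mul_zero, sub_self, zero_mul, sub_zero] at h1
    rw [Real.norm_of_nonneg hs.1] at h1
    refine h1.trans ?_
    gcongr
    exact hs.2
  have h1 := Convex.norm_image_sub_le_of_norm_hasDerivWithin_le
      (f := fun s : ℝ => f (z + (1 * s : ℝ) * u) + f (z + ((-1) * s : ℝ) * u) -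
      2 * f z - s ^ 2 * p z)
      (fun x _ => (hp1 x).hasDerivWithinAt) hb1 (convex_Icc 0 t)
      (Set.left_mem_Icc.2 ht) (Set.right_mem_Icc.2 ht)
  have h2 : f z + f z - 2 * f z - 0 ^ 2 * p z = 0 := by ring
  simp only [(hz0 f).1, (hz0 f).2, h2, sub_zero] at h1
  rw [Real.norm_of_nonneg ht, Real.norm_eq_abs] at h1
  have h3 : z - (t : ℂ) * u = z + (((-1) * t : ℝ) : ℂ) * u := by
    push_cast
    ring
  rw [h3]
  calc _ = |f (z + ((1 * t : ℝ) : ℂ) * u) + f (z + (((-1) * t : ℝ) : ℂ) * u) - 2 * f z -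
        t ^ 2 * p z| := by rw [one_mul]
    _ ≤ 2 * L * t * t * t := h1
    _ = 2 * L * t ^ 3 := by ring

open Laplacian in
/-- the discrete Laplacian approximates the Laplacian -/
theorem lat_dL {δ : ℕ → ℝ} (hδ : Mesh δ) {ψ : ℂ → ℝ} (hψ : Test ψ) :
    Lat δ (fun n => dL (δ n) ψ) (fun z => -(Δ ψ) z) where
  close := by
    obtain ⟨C1, hC1, h1⟩ := second_diff hψ 1 (by simp)
    obtain ⟨C2, hC2, h2⟩ := second_diff hψ Complex.I (by simp)
    refine ⟨C1 + C2, by positivity, fun n v => ?_⟩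
    have h3 := h1 (ptC (δ n) v) (δ n) (hδ.pos n).le
    have h4 := h2 (ptC (δ n) v) (δ n) (hδ.pos n).le
    have e1 : ptC (δ n) (v.1 + 1, v.2) = ptC (δ n) v + (δ n : ℂ) * 1 := by
      simp only [ptC]; push_cast; ring
    have e2 : ptC (δ n) (v.1 - 1, v.2) = ptC (δ n) v - (δ n : ℂ) * 1 := by
      simp only [ptC]; push_cast; ring
    have e3 : ptC (δ n) (v.1, v.2 + 1) = ptC (δ n) v + (δ n : ℂ) * Complex.I := by
      simp only [ptC]; push_cast; ring
    have e4 : ptC (δ n) (v.1, v.2 - 1) = ptC (δ n) v - (δ n : ℂ) * Complex.I := by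
      simp only [ptC]; push_cast; ring
    rw [Test.lap_eq hψ]
    unfold dL
    rw [e1, e2, e3, e4]
    rw [abs_le] at h3 h4 ⊢
    constructor <;> nlinarith [h3.1, h3.2, h4.1, h4.2]
  supp := by
    obtain ⟨R, hR, h⟩ := Test.exists_radius hψ
    obtain ⟨R', hR', h'⟩ := Test.exists_radius (Test.neg (Test.lap hψ))
    refine ⟨max (R + 1) R', lt_max_of_lt_left (by linarith), fun n v hv => ?_, fun z hz =>
      h' z ((le_max_right _ _).trans_lt hz)⟩
    have hv' : R + 1 < ‖ptC (δ n) v‖ := (le_max_left _ _).trans_lt hv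
    have h1 := hδ.le_one n
    have h0 := hδ.pos n
    have key : ∀ w : ℂ, ‖w‖ ≤ 1 → ψ (ptC (δ n) v + w) = 0 := by
      intro w hw
      refine h _ ?_
      have := norm_sub_le (ptC (δ n) v + w) w
      rw [add_sub_cancel_right] at this
      linarith
    have hn1 : ‖(δ n : ℂ) * 1‖ ≤ 1 := by
      rw [mul_one, Complex.norm_real, Real.norm_eq_abs, abs_of_pos h0]
      exact h1
    have hn2 : ‖(δ n : ℂ) * Complex.I‖ ≤ 1 := by
      rw [norm_mul, Complex.norm_I, mul_one, Complex.norm_real, Real.norm_eq_abs, abs_of_pos h0]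
      exact h1
    have e1 : ptC (δ n) (v.1 + 1, v.2) = ptC (δ n) v + (δ n : ℂ) * 1 := by
      simp only [ptC]; push_cast; ring
    have e2 : ptC (δ n) (v.1 - 1, v.2) = ptC (δ n) v + -((δ n : ℂ) * 1) := by
      simp only [ptC]; push_cast; ring
    have e3 : ptC (δ n) (v.1, v.2 + 1) = ptC (δ n) v + (δ n : ℂ) * Complex.I := by
      simp only [ptC]; push_cast; ring
    have e4 : ptC (δ n) (v.1, v.2 - 1) = ptC (δ n) v + -((δ n : ℂ) * Complex.I) := by
      simp only [ptC]; push_cast; ring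
    unfold dL
    rw [e1, e2, e3, e4, key _ hn1, key _ (by rwa [norm_neg]), key _ hn2,
      key _ (by rwa [norm_neg]), h _ (by linarith)]
    ring

theorem fin0_test {δ : ℝ} (hδ : 0 < δ) {ψ : ℂ → ℝ} (hψ : Test ψ) :
    Fin0 (fun v => ψ (ptC δ v)) := by
  obtain ⟨R, hR, h⟩ := Test.exists_radius hψ
  refine fin0_of_subset (S := lbox δ R) fun v hv => h _ ?_
  by_contra hcon
  exact hv (mem_lbox hδ (not_lt.1 hcon))

theorem mass_dL {δ : ℝ} (hδ : 0 < δ) {ψ : ℂ → ℝ} (hψ : Test ψ) : mass (dL δ ψ) = 0 := by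
  have h0 := fin0_test hδ hψ
  have e : ∀ a : P2, mass (fun v => ψ (ptC δ (v + a))) = mass (fun v => ψ (ptC δ v)) := fun a =>
    mass_equiv (fun v => ψ (ptC δ v)) (Equiv.addRight a)
  have hf : ∀ a : P2, Fin0 (fun v => ψ (ptC δ (v + a))) := fun a => h0.equiv (Equiv.addRight a)
  have h1 : dL δ ψ = fun v => (((4 * ψ (ptC δ v) - ψ (ptC δ (v + (1, 0)))) -
      ψ (ptC δ (v + (-1, 0)))) - ψ (ptC δ (v + (0, 1)))) - ψ (ptC δ (v + (0, -1))) := by
    funext v
    unfold dL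
    have e1 : v + (1, 0) = (v.1 + 1, v.2) := by ext <;> simp
    have e2 : v + (-1, 0) = (v.1 - 1, v.2) := by ext <;> simp [sub_eq_add_neg]
    have e3 : v + (0, 1) = (v.1, v.2 + 1) := by ext <;> simp
    have e4 : v + (0, -1) = (v.1, v.2 - 1) := by ext <;> simp [sub_eq_add_neg]
    rw [e1, e2, e3, e4]
  have h4 : Fin0 (fun v => 4 * ψ (ptC δ v)) := h0.mul_left _
  rw [h1, mass_sub (((h4.sub (hf _)).sub (hf _)).sub (hf _)) (hf _),
    mass_sub ((h4.sub (hf _)).sub (hf _)) (hf _), mass_sub (h4.sub (hf _)) (hf _),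
    mass_sub h4 (hf _), mass_smul, e, e, e, e]
  ring

end Crest.Agent.R161.Ward369
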